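import Crest.Agent.R080.BdryD

/-!
Row 80 (S0107), T4: `μ₁ = μ₂` on the boundary, from `StmtZ` only.
-/

set_option autoImplicit false

open MeasureTheory Filter
open scoped ContDiff Topology RealInnerProductSpace
open Crest.AnalysisR.VecCalc3 Crest.AnalysisR.PDE.Elasticity

noncomputable section
namespace Crest.Agent.R080.Bdry

/-! ### values of the cutoff -/

theorem bm_one {y : R3} (hy : ‖y‖ ≤ 1 / 2) : bm y = 1 :=
  bmp.one_of_mem_closedBall (by simpa [bmp] using hy)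

theorem bm_zero {y : R3} (hy : 1 ≤ ‖y‖) : bm y = 0 :=
  bmp.zero_of_le_dist (by simpa [bmp] using hy)

theorem dv_eventually_zero {f : R3 → ℝ} {y : R3} (h : ∀ᶠ z in 𝓝 y, f z = 0) (e : R3) :
    ∀ᶠ z in 𝓝 y, dv e f z = 0 := by
  filter_upwards [eventually_eventually_nhds.mpr h] with z hz
  have h1 : f =ᶠ[𝓝 z] fun _ => (0 : ℝ) := hz
  unfold dv
  rw [h1.fderiv_eq]
  simp

theorem bm_eventually_zero {y : R3} (hy : 1 < ‖y‖) : ∀ᶠ z in 𝓝 y, bm z = 0 := by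
  have : ∀ᶠ z in 𝓝 y, 1 < ‖z‖ := continuous_norm.continuousAt.eventually_const_lt hy
  filter_upwards [this] with z hz
  exact bm_zero hz.le

theorem norm_scaled (x₀ x : R3) {ε : ℝ} (hε : 0 < ε) : ‖ε⁻¹ • (x - x₀)‖ = ‖x - x₀‖ / ε := by
  rw [norm_smul, norm_inv, Real.norm_eq_abs, abs_of_pos hε]
  ring

theorem out_ball {x₀ x : R3} {ε : ℝ} (hε : 0 < ε) (hx : ε < ‖x - x₀‖) :
    chi x₀ ε x = 0 ∧ (∀ e, dv e (chi x₀ ε) x = 0) ∧ ∀ e e', dv e' (dv e (chi x₀ ε)) x = 0 := by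
  have h1 : 1 < ‖ε⁻¹ • (x - x₀)‖ := by
    rw [norm_scaled x₀ x hε, one_lt_div hε]; exact hx
  have h2 := bm_eventually_zero h1
  refine ⟨h2.self_of_nhds, fun e => ?_, fun e e' => ?_⟩
  · rw [dv_chi, (dv_eventually_zero h2 e).self_of_nhds, mul_zero]
  · rw [dv_dv_chi, (dv_eventually_zero (dv_eventually_zero h2 e) e').self_of_nhds, mul_zero]

theorem chi_one {x₀ x : R3} {ε : ℝ} (hε : 0 < ε) (hx : ‖x - x₀‖ ≤ ε / 2) : chi x₀ ε x = 1 := by
  apply bm_one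
  rw [norm_scaled x₀ x hε, div_le_iff₀ hε]
  linarith

/-! ### local bounds for the moduli -/

theorem local_bounds (P₁ P₂ : Moduli) (x₀ : R3) (h : P₂.mu x₀ < P₁.mu x₀) :
    ∃ Λ r : ℝ, 0 < r ∧ P₁.mu x₀ ≤ Λ ∧ ∀ x, ‖x - x₀‖ ≤ r →
      P₂.mu x ≤ Λ ∧ (P₁.mu x)⁻¹ ≤ Λ ∧ |P₂.lam x| ≤ Λ ∧
      (3 * (3 * P₁.lam x + 2 * P₁.mu x))⁻¹ ≤ Λ ∧
      2 * P₂.mu x - 4 * P₁.mu x₀ + 2 * P₁.mu x₀ ^ 2 * (P₁.mu x)⁻¹ ≤ -(P₁.mu x₀ - P₂.mu x₀) := by
  have c1 : Continuous P₁.mu := P₁.smooth_mu.continuous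
  have c2 : Continuous P₂.mu := P₂.smooth_mu.continuous
  have c3 : Continuous P₁.lam := P₁.smooth_lam.continuous
  have c4 : Continuous P₂.lam := P₂.smooth_lam.continuous
  have c5 : Continuous fun x => (P₁.mu x)⁻¹ := c1.inv₀ fun x => (P₁.mu_pos x).ne'
  have c6 : Continuous fun x => (3 * (3 * P₁.lam x + 2 * P₁.mu x))⁻¹ :=
    Continuous.inv₀ (by fun_prop) fun x => by have := P₁.bulk_pos x; positivity
  set Λ : ℝ := P₁.mu x₀ + (P₂.mu x₀ + 1) + ((P₁.mu x₀)⁻¹ + 1) + (|P₂.lam x₀| + 1)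
    + ((3 * (3 * P₁.lam x₀ + 2 * P₁.mu x₀))⁻¹ + 1) with hΛ
  have p1 := P₁.mu_pos x₀
  have p2 := P₂.mu_pos x₀
  have p3 : 0 < (P₁.mu x₀)⁻¹ := by positivity
  have p4 := abs_nonneg (P₂.lam x₀)
  have p5 : 0 < (3 * (3 * P₁.lam x₀ + 2 * P₁.mu x₀))⁻¹ := by
    have := P₁.bulk_pos x₀; positivity
  have e1 : ∀ᶠ x in 𝓝 x₀, P₂.mu x < P₂.mu x₀ + 1 := c2.continuousAt.eventually_lt_const (by linarith)
  have e2 : ∀ᶠ x in 𝓝 x₀, (P₁.mu x)⁻¹ < (P₁.mu x₀)⁻¹ + 1 :=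
    c5.continuousAt.eventually_lt_const (by linarith)
  have e3 : ∀ᶠ x in 𝓝 x₀, |P₂.lam x| < |P₂.lam x₀| + 1 :=
    c4.abs.continuousAt.eventually_lt_const (by linarith)
  have e4 : ∀ᶠ x in 𝓝 x₀, (3 * (3 * P₁.lam x + 2 * P₁.mu x))⁻¹
      < (3 * (3 * P₁.lam x₀ + 2 * P₁.mu x₀))⁻¹ + 1 :=
    c6.continuousAt.eventually_lt_const (by linarith)
  have c7 : Continuous fun x => 2 * P₂.mu x - 4 * P₁.mu x₀ + 2 * P₁.mu x₀ ^ 2 * (P₁.mu x)⁻¹ := by
    fun_prop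
  have e5 : ∀ᶠ x in 𝓝 x₀, 2 * P₂.mu x - 4 * P₁.mu x₀ + 2 * P₁.mu x₀ ^ 2 * (P₁.mu x)⁻¹
      < -(P₁.mu x₀ - P₂.mu x₀) := by
    refine c7.continuousAt.eventually_lt_const ?_
    have : 2 * P₁.mu x₀ ^ 2 * (P₁.mu x₀)⁻¹ = 2 * P₁.mu x₀ := by
      field_simp
    show 2 * P₂.mu x₀ - 4 * P₁.mu x₀ + 2 * P₁.mu x₀ ^ 2 * (P₁.mu x₀)⁻¹ < -(P₁.mu x₀ - P₂.mu x₀)
    rw [this]
    linarith
  obtain ⟨r, hr, hball⟩ := Metric.eventually_nhds_iff_ball.mp
    (e1.and (e2.and (e3.and (e4.and e5))))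
  refine ⟨Λ, r / 2, by positivity, by linarith, fun x hx => ?_⟩
  have hxb : x ∈ Metric.ball x₀ r := by
    rw [Metric.mem_ball, dist_eq_norm]; linarith
  obtain ⟨f1, f2, f3, f4, f5⟩ := hball x hxb
  exact ⟨by linarith, by linarith, by linarith, by linarith, f5.le⟩


/-! ### the pointwise inequality for the whole integrand -/

theorem integrand_le {lam1 lam2 mu1 mu2 m Λ δ B : ℝ} (hδ : 0 < δ) (hm : 0 ≤ m) (hmΛ : m ≤ Λ)
    (h2 : 0 ≤ mu2) (h2Λ : mu2 ≤ Λ) (h1 : 0 < mu1) (h1Λ : mu1⁻¹ ≤ Λ)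
    (hl2 : |lam2| ≤ Λ) (hb : 0 < 3 * lam1 + 2 * mu1) (hbΛ : (3 * (3 * lam1 + 2 * mu1))⁻¹ ≤ Λ)
    (hlead : 2 * mu2 - 4 * m + 2 * m ^ 2 * mu1⁻¹ ≤ -δ) (T e s : Fin 3 → Fin 3 → ℝ)
    (hT : ∑ i, T i i = 0) (he : ∀ i j, |e i j| ≤ B) (hs : ∀ i j, |s i j| ≤ B) :
    (lam2 * (∑ i, (T i i + e i i)) ^ 2 + 2 * mu2 * ∑ i, ∑ j, (T i j + e i j) ^ 2)
      + ((∑ i, ∑ j, (2 * m * T i j + s i j) ^ 2) / (2 * mu1)
        + (∑ i, (2 * m * T i i + s i i)) ^ 2 / (3 * (3 * lam1 + 2 * mu1)))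
      - 2 * ∑ i, ∑ j, (2 * m * T i j + s i j) * (T i j + e i j)
      ≤ -(δ / 2) * ∑ i, ∑ j, T i j ^ 2
        + (9 * ((8 * Λ + 2 + 2 * Λ ^ 2) ^ 2 / (2 * δ) + 3 * Λ + 2) + 18 * Λ) * B ^ 2 := by
  have hΛ : 0 ≤ Λ := hm.trans hmΛ
  set C₂ := (8 * Λ + 2 + 2 * Λ ^ 2) ^ 2 / (2 * δ) + 3 * Λ + 2 with hC₂
  have hB : 0 ≤ B := (abs_nonneg _).trans (he 0 0)
  have hent : ∀ i j, 2 * mu2 * (T i j + e i j) ^ 2 - 2 * ((2 * m * T i j + s i j) * (T i j + e i j))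
      + (2 * m * T i j + s i j) ^ 2 / (2 * mu1) ≤ -(δ / 2) * T i j ^ 2 + C₂ * B ^ 2 := fun i j =>
    entry_ineq hδ hm hmΛ h2 h2Λ h1 h1Λ hlead (he i j) (hs i j)
  have hsum : ∑ i, ∑ j, (2 * mu2 * (T i j + e i j) ^ 2
      - 2 * ((2 * m * T i j + s i j) * (T i j + e i j)) + (2 * m * T i j + s i j) ^ 2 / (2 * mu1))
      ≤ ∑ i : Fin 3, ∑ j : Fin 3, (-(δ / 2) * T i j ^ 2 + C₂ * B ^ 2) :=
    Finset.sum_le_sum fun i _ => Finset.sum_le_sum fun j _ => hent i j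
  have hR : ∑ i : Fin 3, ∑ j : Fin 3, (-(δ / 2) * T i j ^ 2 + C₂ * B ^ 2)
      = -(δ / 2) * ∑ i, ∑ j, T i j ^ 2 + 9 * C₂ * B ^ 2 := by
    simp only [Fin.sum_univ_three]
    ring
  have hL : ∑ i, ∑ j, (2 * mu2 * (T i j + e i j) ^ 2
      - 2 * ((2 * m * T i j + s i j) * (T i j + e i j)) + (2 * m * T i j + s i j) ^ 2 / (2 * mu1))
      = 2 * mu2 * ∑ i, ∑ j, (T i j + e i j) ^ 2
        - 2 * ∑ i, ∑ j, (2 * m * T i j + s i j) * (T i j + e i j)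
        + (∑ i, ∑ j, (2 * m * T i j + s i j) ^ 2) / (2 * mu1) := by
    simp only [Fin.sum_univ_three]
    ring
  have tr : ∀ a : Fin 3 → Fin 3 → ℝ, (∀ i j, |a i j| ≤ B) → (∑ i, a i i) ^ 2 ≤ 9 * B ^ 2 := by
    intro a ha
    have h3 : |∑ i, a i i| ≤ 3 * B := by
      calc _ ≤ ∑ i, |a i i| := Finset.abs_sum_le_sum_abs _ _
        _ ≤ ∑ _i : Fin 3, B := Finset.sum_le_sum fun i _ => ha i i
        _ = 3 * B := by simp
    calc _ = |∑ i, a i i| ^ 2 := (sq_abs _).symm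
      _ ≤ (3 * B) ^ 2 := pow_le_pow_left₀ (abs_nonneg _) h3 2
      _ = _ := by ring
  have t1 : ∑ i, (T i i + e i i) = ∑ i, e i i := by
    rw [Finset.sum_add_distrib, hT, zero_add]
  have t2 : ∑ i, (2 * m * T i i + s i i) = ∑ i, s i i := by
    rw [Finset.sum_add_distrib, ← Finset.mul_sum, hT, mul_zero, zero_add]
  have q1 : lam2 * (∑ i, e i i) ^ 2 ≤ 9 * Λ * B ^ 2 := by
    calc _ ≤ |lam2| * (∑ i, e i i) ^ 2 := by gcongr; exact le_abs_self _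
      _ ≤ Λ * (9 * B ^ 2) := mul_le_mul hl2 (tr e he) (sq_nonneg _) hΛ
      _ = _ := by ring
  have q2 : (∑ i, s i i) ^ 2 / (3 * (3 * lam1 + 2 * mu1)) ≤ 9 * Λ * B ^ 2 := by
    rw [div_eq_mul_inv]
    calc _ ≤ (9 * B ^ 2) * Λ := mul_le_mul (tr s hs) hbΛ (by positivity) (by positivity)
      _ = _ := by ring
  rw [t1, t2]
  rw [hL, hR] at hsum
  linarith

/-! ### the main estimate -/

set_option maxHeartbeats 2000000 in
theorem main_est (hZ : StmtZ) (G : Dom) (P₁ P₂ : Moduli) (h : SameData G P₁ P₂) {x₀ : R3}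
    (hx : x₀ ∈ frontier G.Ω) (hlt : P₂.mu x₀ < P₁.mu x₀) :
    ∃ r K C : ℝ, 0 < r ∧ 0 < K ∧ ∀ N ε : ℝ, 0 < N → 0 < ε → ε ≤ r → 6 ≤ N * ε →
      N * K * ε ^ 2 ≤ 1 → N * ε ≤ C := by
  obtain ⟨n, K, r₁, hn, hK, hr₁, hin, hout⟩ := exists_normal G hx
  obtain ⟨b, hb0⟩ := exists_frame hn
  obtain ⟨Λ, r₂, hr₂, hmΛ, hloc⟩ := local_bounds P₁ P₂ x₀ hlt
  obtain ⟨C₁, hC₁⟩ := exists_bound_bm1
  set t := b 1 with ht_def
  obtain ⟨c1, hc1⟩ := exists_bound_bm2 n n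
  obtain ⟨c2, hc2⟩ := exists_bound_bm2 n t
  obtain ⟨c3, hc3⟩ := exists_bound_bm2 t t
  set C₂ := max c1 (max c2 c3) with hC₂
  have ht : ‖t‖ = 1 := b.orthonormal.1 1
  have hnn : ⟪n, n⟫ = 1 := by rw [real_inner_self_eq_norm_sq, hn]; norm_num
  have htt : ⟪t, t⟫ = 1 := by rw [real_inner_self_eq_norm_sq, ht]; norm_num
  have hnt : ⟪n, t⟫ = 0 := by
    rw [← hb0]; exact b.orthonormal.2 (by decide)
  have hC₁0 : 0 ≤ C₁ := (abs_nonneg _).trans (hC₁ 0 0 (by simp))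
  have hC₂0 : 0 ≤ C₂ := ((abs_nonneg _).trans (hc1 0)).trans (le_max_left _ _)
  set m := P₁.mu x₀ with hm_def
  have hm : 0 < m := P₁.mu_pos x₀
  set δ := m - P₂.mu x₀ with hδ_def
  have hδ : 0 < δ := by rw [hδ_def]; linarith
  set E := Real.exp 1 with hE_def
  have hE : 0 < E := Real.exp_pos 1
  set M₁ := 2 * E * C₁ + 8 * m * E * (C₂ + 2 * C₁) with hM₁
  have hM₁0 : 0 ≤ M₁ := by positivity
  have hΛ : 0 ≤ Λ := hm.le.trans hmΛ
  set C₃ := 9 * ((8 * Λ + 2 + 2 * Λ ^ 2) ^ 2 / (2 * δ) + 3 * Λ + 2) + 18 * Λ with hC₃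
  have hC₃0 : 0 ≤ C₃ := by positivity
  set V := (volume (Metric.ball (0 : R3) 1)).toReal with hV
  refine ⟨min (r₁ / 2) r₂, K, 4 * Real.exp 4 * (C₃ * M₁ ^ 2 * V) / δ, by positivity, hK, ?_⟩
  intro N ε hN hε hεr hNε hNK
  have hε1 : ε < r₁ := by
    have := (hεr.trans (min_le_left _ _)); linarith
  have hε2 : ε ≤ r₂ := hεr.trans (min_le_right _ _)
  -- the fields
  have hu : ContDiff ℝ 1 (uF x₀ n t N ε) := (smooth_uF x₀ n t N ε).of_le (by norm_cast)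
  have hS : ∀ i j, ContDiff ℝ 1 (SF x₀ n t N ε m i j) := fun i j =>
    (smooth_SF x₀ n t N ε m i j).of_le (by norm_cast)
  have hmain := energy_ineq hZ G P₁ P₂ h (uF x₀ n t N ε) hu (SF x₀ n t N ε m) hS
    (SF_symm x₀ n t N ε m) (SF_div x₀ n t N ε m)
  -- pointwise bound
  have hpt : ∀ x ∈ G.Ω, (energyDensity P₂.lam P₂.mu (uF x₀ n t N ε) x
        + ((∑ i, ∑ j, SF x₀ n t N ε m i j x ^ 2) / (2 * P₁.mu x)
          + (∑ i, SF x₀ n t N ε m i i x) ^ 2 / (3 * (3 * P₁.lam x + 2 * P₁.mu x)))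
        - 2 * ∑ i, ∑ j, SF x₀ n t N ε m i j x * symGrad (uF x₀ n t N ε) i j x)
      ≤ -(δ / 2) * (2 * N ^ 2 * chi x₀ ε x ^ 2 * Real.exp (N * ⟪n, x - x₀⟫) ^ 2)
        + (Metric.closedBall x₀ ε).indicator (fun _ => C₃ * (M₁ / ε) ^ 2) x := by
    intro x hxΩ
    rw [← TF_sq x₀ n t N ε hnn htt hnt x]
    have hed : energyDensity P₂.lam P₂.mu (uF x₀ n t N ε) x
        = P₂.lam x * (∑ i, (TF x₀ n t N ε i i x + eF x₀ n t N ε i i x)) ^ 2
          + 2 * P₂.mu x * ∑ i, ∑ j, (TF x₀ n t N ε i j x + eF x₀ n t N ε i j x) ^ 2 := by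
      unfold energyDensity
      rw [div3_eq]
      simp only [symGrad_uF]
    rw [hed]
    simp only [symGrad_uF, SF_eq x₀ n t N ε m hnn htt hnt hN.ne']
    by_cases hxb : x ∈ Metric.closedBall x₀ ε
    · rw [Set.indicator_of_mem hxb]
      have hxn : ‖x - x₀‖ ≤ ε := by
        rw [← dist_eq_norm]; exact Metric.mem_closedBall.mp hxb
      obtain ⟨l1, l2, l3, l4, l5⟩ := hloc x (hxn.trans hε2)
      have hnx : N * ⟪n, x - x₀⟫ ≤ 1 := by
        have h1 := hin x (lt_of_le_of_lt hxn hε1) hxΩ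
        calc N * ⟪n, x - x₀⟫ ≤ N * (K * ‖x - x₀‖ ^ 2) := by gcongr
          _ ≤ N * (K * ε ^ 2) := by gcongr
          _ ≤ 1 := by linarith
      have hhE : |hh x₀ n t N x| ≤ E :=
        (abs_hh_le x₀ n t N x).trans (Real.exp_le_exp.mpr hnx)
      have hkE : |kk x₀ n t N x| ≤ E :=
        (abs_kk_le x₀ n t N x).trans (Real.exp_le_exp.mpr hnx)
      have hD : ∀ e : R3, ‖e‖ ≤ 1 → |dv e (chi x₀ ε) x| ≤ C₁ / ε := by
        intro e he
        rw [dv_chi, abs_mul, abs_of_pos (by positivity : 0 < ε⁻¹), div_eq_inv_mul]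
        exact mul_le_mul_of_nonneg_left (hC₁ e _ he) (by positivity)
      have hD2 : ∀ e e' : R3, (∀ y, |dv e' (dv e bm) y| ≤ C₂) →
          |dv e' (dv e (chi x₀ ε)) x| ≤ C₂ / ε ^ 2 := by
        intro e e' hee
        rw [dv_dv_chi, abs_mul, abs_of_pos (by positivity : 0 < ε⁻¹ ^ 2)]
        calc _ ≤ ε⁻¹ ^ 2 * C₂ := mul_le_mul_of_nonneg_left (hee _) (by positivity)
          _ = _ := by rw [inv_pow]; ring
      have b1 : ∀ i j, |eF x₀ n t N ε i j x| ≤ M₁ / ε := by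
        intro i j
        refine (eF_bound x₀ n t N ε hn.le ht.le x hD hhE hkE i j).trans ?_
        rw [hM₁, mul_div_assoc', div_le_div_iff_of_pos_right hε]
        have : 0 ≤ 8 * m * E * (C₂ + 2 * C₁) := by positivity
        linarith
      have b2 : ∀ i j, |sF x₀ n t N ε m i j x| ≤ M₁ / ε := by
        intro i j
        refine (sF_bound x₀ n t N ε m hN hm.le hn.le ht.le x hD
          (hD2 n n fun y => (hc1 y).trans (le_max_left _ _))
          (hD2 n t fun y => (hc2 y).trans ((le_max_left _ _).trans (le_max_right _ _)))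
          (hD2 t t fun y => (hc3 y).trans ((le_max_right _ _).trans (le_max_right _ _)))
          hhE hkE i j).trans ?_
        have k1 : C₂ / ε ^ 2 / N ≤ C₂ / ε := by
          rw [div_div, div_le_div_iff₀ (by positivity) hε]
          have : C₂ * ε * 1 ≤ C₂ * ε * (N * ε) := by
            refine mul_le_mul_of_nonneg_left (by linarith) (by positivity)
          linarith
        calc _ ≤ 8 * m * E * (C₂ / ε + 2 * (C₁ / ε)) := by gcongr
          _ = (8 * m * E * (C₂ + 2 * C₁)) / ε := by ring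
          _ ≤ _ := by
            rw [hM₁]
            have : 0 ≤ 2 * E * C₁ := by positivity
            gcongr
            linarith
      exact integrand_le hδ hm.le hmΛ (P₂.mu_pos x).le l1 (P₁.mu_pos x) l2 l3 (P₁.bulk_pos x) l4 l5
        (fun i j => TF x₀ n t N ε i j x) (fun i j => eF x₀ n t N ε i j x)
        (fun i j => sF x₀ n t N ε m i j x) (TF_trace x₀ n t N ε hnn htt hnt x) b1 b2
    · rw [Set.indicator_of_notMem hxb]
      have hxn : ε < ‖x - x₀‖ := by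
        rw [← dist_eq_norm]
        by_contra hcon
        exact hxb (Metric.mem_closedBall.mpr (not_lt.mp hcon))
      obtain ⟨z1, z2, z3⟩ := out_ball (x₀ := x₀) hε hxn
      have zT : ∀ i j, TF x₀ n t N ε i j x = 0 := by intro i j; simp [TF, z1]
      have zE : ∀ i j, eF x₀ n t N ε i j x = 0 := by intro i j; simp [eF, z2]
      have zS : ∀ i j, sF x₀ n t N ε m i j x = 0 := by intro i j; simp [sF, z2, z3]
      simp [zT, zE, zS]
  -- integrate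
  have hcont1 : Continuous (fun x => energyDensity P₂.lam P₂.mu (uF x₀ n t N ε) x
        + ((∑ i, ∑ j, SF x₀ n t N ε m i j x ^ 2) / (2 * P₁.mu x)
          + (∑ i, SF x₀ n t N ε m i i x) ^ 2 / (3 * (3 * P₁.lam x + 2 * P₁.mu x)))
        - 2 * ∑ i, ∑ j, SF x₀ n t N ε m i j x * symGrad (uF x₀ n t N ε) i j x) := by
    have k1 := continuous_energyDensity hu P₂
    have k2 := continuous_symGrad hu
    have k3 : ∀ i j, Continuous (SF x₀ n t N ε m i j) := fun i j => (hS i j).continuous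
    have k4 : Continuous P₁.mu := P₁.smooth_mu.continuous
    have k5 : Continuous P₁.lam := P₁.smooth_lam.continuous
    refine ((k1.add (Continuous.add (Continuous.div (by fun_prop) (by fun_prop) ?_)
      (Continuous.div (by fun_prop) (by fun_prop) ?_))).sub (by fun_prop))
    · intro x; have := P₁.mu_pos x; positivity
    · intro x; have := P₁.bulk_pos x; positivity
  have hcont2 : Continuous (fun x => 2 * N ^ 2 * chi x₀ ε x ^ 2
      * Real.exp (N * ⟪n, x - x₀⟫) ^ 2) := by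
    have k1 : Continuous (chi x₀ ε) := (smooth_chi x₀ ε).continuous
    fun_prop
  have hΩm : MeasurableSet G.Ω := (isOpen_dom G).measurableSet
  have hvolfin : volume (Metric.closedBall x₀ ε) < ⊤ := measure_closedBall_lt_top
  have hind : Integrable ((Metric.closedBall x₀ ε).indicator (fun _ : R3 => C₃ * (M₁ / ε) ^ 2)) := by
    rw [integrable_indicator_iff Metric.isClosed_closedBall.measurableSet]
    exact integrableOn_const hvolfin.ne
  have hI1 : 0 ≤ ∫ x in G.Ω, (-(δ / 2) * (2 * N ^ 2 * chi x₀ ε x ^ 2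
        * Real.exp (N * ⟪n, x - x₀⟫) ^ 2)
        + (Metric.closedBall x₀ ε).indicator (fun _ => C₃ * (M₁ / ε) ^ 2) x) := by
    refine hmain.trans (setIntegral_mono_on (intOn G hcont1) ?_ hΩm hpt)
    exact (intOn G (hcont2.const_mul _)).add hind.integrableOn
  have hI2 : ∫ x in G.Ω, (-(δ / 2) * (2 * N ^ 2 * chi x₀ ε x ^ 2
        * Real.exp (N * ⟪n, x - x₀⟫) ^ 2)
        + (Metric.closedBall x₀ ε).indicator (fun _ => C₃ * (M₁ / ε) ^ 2) x)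
      = -(δ / 2) * (∫ x in G.Ω, 2 * N ^ 2 * chi x₀ ε x ^ 2 * Real.exp (N * ⟪n, x - x₀⟫) ^ 2)
        + ∫ x in G.Ω, (Metric.closedBall x₀ ε).indicator (fun _ => C₃ * (M₁ / ε) ^ 2) x := by
    rw [integral_add (intOn G (hcont2.const_mul _)) hind.integrableOn, integral_const_mul]
  have hI3 : ∫ x in G.Ω, (Metric.closedBall x₀ ε).indicator (fun _ => C₃ * (M₁ / ε) ^ 2) x
      ≤ C₃ * M₁ ^ 2 * V * ε := by
    calc _ ≤ ∫ x, (Metric.closedBall x₀ ε).indicator (fun _ => C₃ * (M₁ / ε) ^ 2) x := by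
          refine setIntegral_le_integral hind (Filter.Eventually.of_forall fun x => ?_)
          exact Set.indicator_nonneg (fun _ _ => by positivity) _
      _ = (volume (Metric.closedBall x₀ ε)).toReal * (C₃ * (M₁ / ε) ^ 2) := by
          rw [integral_indicator Metric.isClosed_closedBall.measurableSet, setIntegral_const]
          rfl
      _ = (ε ^ 3 * V) * (C₃ * (M₁ / ε) ^ 2) := by
          rw [Measure.addHaar_closedBall _ _ hε.le, ENNReal.toReal_mul,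
            ENNReal.toReal_ofReal (by positivity)]
          simp [hV]
      _ = _ := by field_simp
  -- lower bound on the main term
  set A : Set R3 := {x : R3 | ∀ i, (![-(2 / N), -(ε / 4), -(ε / 4)] : Fin 3 → ℝ) i ≤ ⟪b i, x - x₀⟫ ∧
    ⟪b i, x - x₀⟫ ≤ (![-(1 / N), ε / 4, ε / 4] : Fin 3 → ℝ) i} with hA
  have hAvol : (volume A).toReal = (1 / N) * (ε / 2) * (ε / 2) := by
    rw [hA, box_volume b x₀, ENNReal.toReal_prod]
    simp only [Fin.prod_univ_three, Matrix.cons_val_zero, Matrix.cons_val_one, Matrix.cons_val]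
    rw [ENNReal.toReal_ofReal, ENNReal.toReal_ofReal]
    · ring
    · linarith
    · have : 1 / N ≤ 2 / N := by gcongr; norm_num
      linarith
  have hAprop : ∀ x ∈ A, -(2 / N) ≤ ⟪n, x - x₀⟫ ∧ ⟪n, x - x₀⟫ ≤ -(1 / N) ∧
      ‖x - x₀‖ ≤ ε / 2 := by
    intro x hxA
    rw [hA, Set.mem_ofPred_eq] at hxA
    have a0 := hxA 0
    have a1 := hxA 1
    have a2 := hxA 2
    simp only [Matrix.cons_val_zero, Matrix.cons_val_one, Matrix.cons_val] at a0 a1 a2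
    have hsq : ‖x - x₀‖ ^ 2 = ⟪b 0, x - x₀⟫ ^ 2 + ⟪b 1, x - x₀⟫ ^ 2 + ⟪b 2, x - x₀⟫ ^ 2 := by
      rw [← b.sum_sq_inner_right (x - x₀)]
      simp [Fin.sum_univ_three]
    have hN2 : 2 / N ≤ ε / 3 := by
      rw [div_le_div_iff₀ hN (by norm_num)]; linarith
    refine ⟨hb0 ▸ a0.1, hb0 ▸ a0.2, ?_⟩
    have s0 : ⟪b 0, x - x₀⟫ ^ 2 ≤ (ε / 3) ^ 2 := by
      apply sq_le_sq'
      · linarith [a0.1]
      · have : 0 < 1 / N := by positivity
        linarith [a0.2]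
    have s1 : ⟪b 1, x - x₀⟫ ^ 2 ≤ (ε / 4) ^ 2 := sq_le_sq' a1.1 a1.2
    have s2 : ⟪b 2, x - x₀⟫ ^ 2 ≤ (ε / 4) ^ 2 := sq_le_sq' a2.1 a2.2
    have : ‖x - x₀‖ ^ 2 ≤ (ε / 2) ^ 2 := by
      rw [hsq]; nlinarith
    exact (pow_le_pow_iff_left₀ (norm_nonneg _) (by positivity) (by norm_num)).mp this
  have hAΩ : A ⊆ G.Ω := by
    intro x hxA
    obtain ⟨_, h2, h3⟩ := hAprop x hxA
    refine hout x (by linarith) (lt_of_le_of_lt h2 ?_)
    rw [neg_lt_neg_iff]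
    have h4 : K * ‖x - x₀‖ ^ 2 ≤ K * (ε / 2) ^ 2 := by gcongr
    have h5 : K * (ε / 2) ^ 2 < 1 / N := by
      rw [lt_div_iff₀ hN]
      have : 0 < N * K * ε ^ 2 := by positivity
      nlinarith
    linarith
  have hAm : MeasurableSet A := by
    have : A = ⋂ i, ((fun x => ⟪b i, x - x₀⟫) ⁻¹' Set.Icc
        ((![-(2 / N), -(ε / 4), -(ε / 4)] : Fin 3 → ℝ) i)
        ((![-(1 / N), ε / 4, ε / 4] : Fin 3 → ℝ) i)) := by
      ext x
      simp [hA, Set.mem_iInter, Set.mem_preimage, Set.mem_Icc]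
    rw [this]
    refine MeasurableSet.iInter fun i => ?_
    exact (IsClosed.preimage (by fun_prop) isClosed_Icc).measurableSet
  have hAfin : volume A ≠ ⊤ := by
    have : A ⊆ Metric.closedBall x₀ (ε / 2) := fun x hxA => by
      rw [Metric.mem_closedBall, dist_eq_norm]; exact (hAprop x hxA).2.2
    exact ((measure_mono this).trans_lt measure_closedBall_lt_top).ne
  have hlow : N * ε ^ 2 * Real.exp (-4) / 2
      ≤ ∫ x in G.Ω, 2 * N ^ 2 * chi x₀ ε x ^ 2 * Real.exp (N * ⟪n, x - x₀⟫) ^ 2 := by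
    calc _ = ∫ _x in A, (2 * N ^ 2 * Real.exp (-4) : ℝ) := by
          rw [setIntegral_const, smul_eq_mul, measureReal_def, hAvol]
          field_simp
      _ ≤ ∫ x in A, 2 * N ^ 2 * chi x₀ ε x ^ 2 * Real.exp (N * ⟪n, x - x₀⟫) ^ 2 := by
          refine setIntegral_mono_on (integrableOn_const hAfin)
            ((intOn G hcont2).mono_set hAΩ) hAm fun x hxA => ?_
          obtain ⟨h1, _, h3⟩ := hAprop x hxA
          rw [chi_one hε h3, one_pow, mul_one]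
          refine mul_le_mul_of_nonneg_left ?_ (by positivity)
          rw [← Real.exp_nat_mul]
          apply Real.exp_le_exp.mpr
          have : -2 ≤ N * ⟪n, x - x₀⟫ := by
            calc (-2 : ℝ) = N * (-(2 / N)) := by field_simp
              _ ≤ _ := by gcongr
          push_cast
          linarith
      _ ≤ _ := by
          refine setIntegral_mono_set (intOn G hcont2)
            (Filter.Eventually.of_forall fun x => by positivity) (hAΩ.eventuallyLE)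
  have hfin : δ / 2 * (N * ε ^ 2 * Real.exp (-4) / 2) ≤ C₃ * M₁ ^ 2 * V * ε := by
    have h1 : δ / 2 * (N * ε ^ 2 * Real.exp (-4) / 2) ≤ δ / 2 *
        (∫ x in G.Ω, 2 * N ^ 2 * chi x₀ ε x ^ 2 * Real.exp (N * ⟪n, x - x₀⟫) ^ 2) := by
      gcongr
    rw [hI2] at hI1
    linarith
  rw [le_div_iff₀ hδ]
  have hexp : Real.exp 4 * Real.exp (-4) = 1 := by rw [← Real.exp_add]; simp
  have h1 : δ / 2 * (N * ε ^ 2 * Real.exp (-4) / 2) * (4 * Real.exp 4)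
      ≤ C₃ * M₁ ^ 2 * V * ε * (4 * Real.exp 4) := by gcongr
  have h2 : δ / 2 * (N * ε ^ 2 * Real.exp (-4) / 2) * (4 * Real.exp 4) = (N * ε * δ) * ε := by
    calc _ = δ * N * ε ^ 2 * (Real.exp 4 * Real.exp (-4)) := by ring
      _ = _ := by rw [hexp]; ring
  rw [h2] at h1
  have h3 : (N * ε * δ) * ε ≤ (4 * Real.exp 4 * (C₃ * M₁ ^ 2 * V)) * ε := by linarith
  exact le_of_mul_le_mul_right h3 hε

theorem not_lt (hZ : StmtZ) (G : Dom) (P₁ P₂ : Moduli) (h : SameData G P₁ P₂) {x₀ : R3}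
    (hx : x₀ ∈ frontier G.Ω) : ¬ P₂.mu x₀ < P₁.mu x₀ := by
  intro hlt
  obtain ⟨r, K, C, hr, hK, hest⟩ := main_est hZ G P₁ P₂ h hx hlt
  -- choose `s` small, `ε = s³`, `N = s⁻⁴`
  obtain ⟨s, hs0, hs1, hs2, hs3, hs4⟩ : ∃ s : ℝ, 0 < s ∧ s ≤ 1 / 6 ∧ s ≤ r ∧ K * s ≤ 1 ∧
      C < s⁻¹ := by
    have hC1 : 0 < |C| + 1 := by positivity
    refine ⟨min (1 / 6) (min r (min K⁻¹ (|C| + 1)⁻¹)), by positivity, min_le_left _ _,
      (min_le_right _ _).trans (min_le_left _ _), ?_, ?_⟩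
    · calc _ ≤ K * K⁻¹ := by
            gcongr
            exact (min_le_right _ _).trans ((min_le_right _ _).trans (min_le_left _ _))
        _ = 1 := mul_inv_cancel₀ hK.ne'
    · have h1 : min (1 / 6) (min r (min K⁻¹ (|C| + 1)⁻¹)) ≤ (|C| + 1)⁻¹ :=
        (min_le_right _ _).trans ((min_le_right _ _).trans (min_le_right _ _))
      have h2 : 0 < min (1 / 6) (min r (min K⁻¹ (|C| + 1)⁻¹)) := by positivity
      have h3 : |C| + 1 ≤ (min (1 / 6) (min r (min K⁻¹ (|C| + 1)⁻¹)))⁻¹ := by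
        rw [le_inv_comm₀ hC1 h2]; exact h1
      linarith [le_abs_self C]
  have hs1' : s ≤ 1 := by linarith
  have key := hest (s⁻¹ ^ 4) (s ^ 3) (by positivity) (by positivity) ?_ ?_ ?_
  · have : s⁻¹ ^ 4 * s ^ 3 = s⁻¹ := by field_simp
    rw [this] at key
    linarith
  · calc s ^ 3 ≤ s ^ 1 := pow_le_pow_of_le_one hs0.le hs1' (by norm_num)
      _ = s := pow_one s
      _ ≤ r := hs2
  · have : s⁻¹ ^ 4 * s ^ 3 = s⁻¹ := by field_simp
    rw [this, le_inv_comm₀ (by norm_num) hs0]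
    linarith
  · have : s⁻¹ ^ 4 * K * (s ^ 3) ^ 2 = K * s * s := by field_simp
    rw [this]
    calc K * s * s ≤ 1 * 1 := by gcongr
      _ = 1 := one_mul 1

end Crest.Agent.R080.Bdry

namespace Crest.Agent.R080

/-- T4: the shear moduli agree on the boundary -/
theorem t_Bdry (hZ : StmtZ) : StmtBdry := by
  intro G P₁ P₂ h x hx
  have h' : SameData G P₂ P₁ := fun φ hφ => ⟨(h φ hφ).2, (h φ hφ).1⟩
  exact le_antisymm (not_lt.mp (Bdry.not_lt hZ G P₁ P₂ h hx))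
    (not_lt.mp (Bdry.not_lt hZ G P₂ P₁ h' hx))

end Crest.Agent.R080
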