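import Crest.Agent.R080.Stmts2

/-!
Row 80 (S0107), T4 part A: real calculus helpers, the dual (complementary energy) inequality.
-/

set_option autoImplicit false

open MeasureTheory Filter
open scoped ContDiff Topology RealInnerProductSpace
open Crest.AnalysisR.VecCalc3 Crest.AnalysisR.PDE.Elasticity

noncomputable section
namespace Crest.Agent.R080.Bdry

/-- directional derivative of a real function -/
def dv (e : R3) (f : R3 → ℝ) (x : R3) : ℝ := fderiv ℝ f x e

theorem pderiv_eq (f : R3 → ℝ) (i : Fin 3) (x : R3) : pderiv f i x = dv (ee i) f x := rfl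

theorem dv_contDiff {n : ℕ} {f : R3 → ℝ} (hf : ContDiff ℝ (n + 1) f) (e : R3) :
    ContDiff ℝ n (dv e f) := by
  have h1 : ContDiff ℝ n (fderiv ℝ f) := hf.fderiv_right (by norm_cast)
  exact h1.clm_apply contDiff_const

theorem dv_smooth {f : R3 → ℝ} (hf : ContDiff ℝ ∞ f) (e : R3) :
    ContDiff ℝ ∞ (dv e f) := by
  have h1 : ContDiff ℝ ∞ (fderiv ℝ f) := hf.fderiv_right (by simp)
  exact h1.clm_apply contDiff_const

theorem dv_mul {f g : R3 → ℝ} (hf : Differentiable ℝ f) (hg : Differentiable ℝ g) (e : R3) (x : R3) :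
    dv e (fun y => f y * g y) x = dv e f x * g x + f x * dv e g x := by
  unfold dv
  rw [fderiv_fun_mul (hf x) (hg x)]
  simp only [add_apply, smul_apply, smul_eq_mul]
  ring

theorem dv_add {f g : R3 → ℝ} (hf : Differentiable ℝ f) (hg : Differentiable ℝ g) (e : R3) (x : R3) :
    dv e (fun y => f y + g y) x = dv e f x + dv e g x := by
  unfold dv
  rw [fderiv_fun_add (hf x) (hg x)]
  simp

theorem dv_const_mul {f : R3 → ℝ} (hf : Differentiable ℝ f) (c : ℝ) (e : R3) (x : R3) :
    dv e (fun y => c * f y) x = c * dv e f x := by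
  unfold dv
  rw [fderiv_const_mul (hf x)]
  simp

theorem dv_mul_const {f : R3 → ℝ} (hf : Differentiable ℝ f) (c : ℝ) (e : R3) (x : R3) :
    dv e (fun y => f y * c) x = dv e f x * c := by
  unfold dv
  rw [fderiv_mul_const (hf x)]
  simp [mul_comm]

theorem dv_comm {f : R3 → ℝ} (hf : ContDiff ℝ 2 f) (a b : R3) (x : R3) :
    dv a (dv b f) x = dv b (dv a f) x := by
  have hd : Differentiable ℝ (fderiv ℝ f) :=
    (hf.fderiv_right (m := 1) (by norm_num)).differentiable (by norm_num)
  have key : ∀ a b : R3, dv a (dv b f) x = fderiv ℝ (fderiv ℝ f) x a b := by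
    intro a b
    unfold dv
    rw [fderiv_clm_apply (hd x) (by fun_prop)]
    simp
  rw [key, key]
  have := (hf.contDiffAt (x := x)).isSymmSndFDerivAt (by simp)
  exact this a b

/-- expansion of a directional derivative in coordinates -/
theorem dv_eq_sum (f : R3 → ℝ) (e x : R3) : dv e f x = ∑ j, e j * dv (ee j) f x := by
  unfold dv
  have he : e = ∑ j, e j • ee j := by
    ext i
    simp [Finset.sum_apply, Pi.single_apply]
  conv_lhs => rw [he]
  rw [map_sum]
  simp [map_smul]


/-! ### the domain -/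

theorem isOpen_dom (G : Dom) : IsOpen G.Ω := by
  rw [G.eq]
  exact isOpen_lt G.smooth.continuous continuous_const

theorem rho_eq_zero_of_frontier (G : Dom) {x : R3} (hx : x ∈ frontier G.Ω) : G.rho x = 0 := by
  have h1 : x ∈ closure G.Ω := frontier_subset_closure hx
  have h2 : x ∉ G.Ω := by
    have := (isOpen_dom G).frontier_eq ▸ hx
    exact this.2
  have h3 : G.rho x ≤ 0 := by
    have hc : IsClosed {x | G.rho x ≤ 0} := isClosed_le G.smooth.continuous continuous_const
    have : G.Ω ⊆ {x | G.rho x ≤ 0} := by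
      rw [G.eq]; intro y hy; simp only [Set.mem_ofPred_eq] at hy ⊢; exact hy.le
    exact (closure_minimal this hc) h1
  have h4 : ¬ G.rho x < 0 := by
    intro h; apply h2; rw [G.eq]; exact h
  linarith [not_lt.mp h4]

theorem isCompact_closure_dom (G : Dom) : IsCompact (closure G.Ω) :=
  Metric.isCompact_of_isClosed_isBounded isClosed_closure G.bdd.closure

theorem intOn (G : Dom) {E : Type} [NormedAddCommGroup E] {f : R3 → E} (hf : Continuous f) :
    IntegrableOn f G.Ω :=
  (hf.continuousOn.integrableOn_compact (isCompact_closure_dom G)).mono_set subset_closure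

/-- real directional version of `StmtZ` -/
theorem intZ (hZ : StmtZ) (G : Dom) {F : R3 → ℝ} (hF : ContDiff ℝ 1 F)
    (h0 : ∀ x ∈ frontier G.Ω, F x = 0) (e : R3) : ∫ x in G.Ω, dv e F x = 0 := by
  have hd : Differentiable ℝ F := hF.differentiable (by norm_num)
  have hj : ∀ j, ∫ x in G.Ω, dv (ee j) F x = 0 := by
    intro j
    have hC : ContDiff ℝ 1 (cf F) := Complex.ofRealCLM.contDiff.comp hF
    have h1 := hZ G (cf F) hC (fun x hx => by simp [cf, h0 x hx]) j
    have h2 : ∀ x, pd j (cf F) x = ((dv (ee j) F x : ℝ) : ℂ) := by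
      intro x
      unfold pd dv cf
      have h3 : HasFDerivAt (fun y => (F y : ℂ)) (Complex.ofRealCLM.comp (fderiv ℝ F x)) x :=
        Complex.ofRealCLM.hasFDerivAt.comp x (hd x).hasFDerivAt
      rw [h3.fderiv]
      simp
    simp_rw [h2] at h1
    rw [integral_complex_ofReal] at h1
    exact_mod_cast h1
  have hc : ∀ j, Continuous (dv (ee j) F) := fun j =>
    (dv_contDiff (n := 0) (by simpa using hF) (ee j)).continuous
  simp_rw [dv_eq_sum F e]
  rw [integral_finsetSum _ (fun j _ => (intOn G (f := fun x => e j * dv (ee j) F x)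
    (continuous_const.mul (hc j))))]
  refine Finset.sum_eq_zero fun j _ => ?_
  rw [integral_const_mul, hj j, mul_zero]

/-! ### the pointwise dual inequality -/

theorem dual_ineq (lam mu : ℝ) (hmu : 0 < mu) (hb : 0 < 3 * lam + 2 * mu)
    (e S : Fin 3 → Fin 3 → ℝ) :
    2 * ∑ i, ∑ j, S i j * e i j ≤ (lam * (∑ i, e i i) ^ 2 + 2 * mu * ∑ i, ∑ j, e i j ^ 2)
      + ((∑ i, ∑ j, S i j ^ 2) / (2 * mu) + (∑ i, S i i) ^ 2 / (3 * (3 * lam + 2 * mu))) := by
  set d : Fin 3 → Fin 3 → ℝ := fun i j => if i = j then 1 else 0 with hd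
  set te : ℝ := ∑ i, e i i with hte
  set tS : ℝ := ∑ i, S i i with htS
  obtain ⟨K, hK⟩ : ∃ K, K = 3 * lam + 2 * mu := ⟨_, rfl⟩
  have hlam : lam = (K - 2 * mu) / 3 := by rw [hK]; ring
  have hK0 : K ≠ 0 := by rw [hK]; exact hb.ne'
  have hmu' : mu ≠ 0 := hmu.ne'
  have key : (lam * te ^ 2 + 2 * mu * ∑ i, ∑ j, e i j ^ 2)
      + ((∑ i, ∑ j, S i j ^ 2) / (2 * mu) + tS ^ 2 / (3 * (3 * lam + 2 * mu)))
      - 2 * ∑ i, ∑ j, S i j * e i j
      = (1 / (2 * mu)) * ∑ i, ∑ j, ((S i j - tS / 3 * d i j) - 2 * mu * (e i j - te / 3 * d i j)) ^ 2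
        + (1 / (3 * (3 * lam + 2 * mu))) * (tS - (3 * lam + 2 * mu) * te) ^ 2
        + tS ^ 2 / (6 * mu) := by
    rw [← hK, hlam]
    simp only [hte, htS, hd, Fin.sum_univ_three]
    simp
    field_simp
    ring
  have h1 : 0 ≤ ∑ i, ∑ j, ((S i j - tS / 3 * d i j) - 2 * mu * (e i j - te / 3 * d i j)) ^ 2 :=
    Finset.sum_nonneg fun i _ => Finset.sum_nonneg fun j _ => sq_nonneg _
  have h2 : 0 ≤ (1 / (2 * mu)) *
      ∑ i, ∑ j, ((S i j - tS / 3 * d i j) - 2 * mu * (e i j - te / 3 * d i j)) ^ 2 := by positivity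
  have h3 : 0 ≤ (1 / (3 * (3 * lam + 2 * mu))) * (tS - (3 * lam + 2 * mu) * te) ^ 2 := by
    positivity
  have h4 : 0 ≤ tS ^ 2 / (6 * mu) := by positivity
  linarith


/-! ### the energy inequality -/

theorem comp_contDiff {n : WithTop ℕ∞} {u : R3 → R3} (hu : ContDiff ℝ n u) (j : Fin 3) :
    ContDiff ℝ n (fun y => u y j) := by
  exact contDiff_euclidean.mp hu j

theorem dv_sub {f g : R3 → ℝ} (hf : Differentiable ℝ f) (hg : Differentiable ℝ g) (e : R3) (x : R3) :
    dv e (fun y => f y - g y) x = dv e f x - dv e g x := by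
  unfold dv
  rw [fderiv_fun_sub (hf x) (hg x)]
  simp

theorem continuous_dv {f : R3 → ℝ} (hf : ContDiff ℝ 1 f) (e : R3) : Continuous (dv e f) :=
  (dv_contDiff (n := 0) (by simpa using hf) e).continuous

theorem continuous_symGrad {u : R3 → R3} (hu : ContDiff ℝ 1 u) (i j : Fin 3) :
    Continuous (symGrad u i j) := by
  have h1 : Continuous (fun x => (dv (ee i) (fun y => u y j) x + dv (ee j) (fun y => u y i) x) / 2) :=
    ((continuous_dv (comp_contDiff hu j) _).add (continuous_dv (comp_contDiff hu i) _)).div_const _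
  exact h1

theorem div3_eq (u : R3 → R3) (x : R3) : div3 u x = ∑ i, symGrad u i i x := by
  unfold div3 symGrad
  refine Finset.sum_congr rfl fun i _ => ?_
  ring

theorem continuous_energyDensity {u : R3 → R3} (hu : ContDiff ℝ 1 u) (P : Moduli) :
    Continuous (energyDensity P.lam P.mu u) := by
  have h1 : Continuous (fun x => P.lam x * (∑ i, symGrad u i i x) ^ 2
      + 2 * P.mu x * ∑ i : Fin 3, ∑ j : Fin 3, symGrad u i j x ^ 2) := by
    have hl := P.smooth_lam.continuous
    have hm := P.smooth_mu.continuous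
    have hs := continuous_symGrad hu
    fun_prop
  have h2 : energyDensity P.lam P.mu u = fun x => P.lam x * (∑ i, symGrad u i i x) ^ 2
      + 2 * P.mu x * ∑ i : Fin 3, ∑ j : Fin 3, symGrad u i j x ^ 2 := by
    funext x
    unfold energyDensity
    rw [div3_eq]
  rw [h2]
  exact h1

theorem int_S_symGrad (hZ : StmtZ) (G : Dom) (u w : R3 → R3) (hu : ContDiff ℝ 1 u)
    (hw : ContDiff ℝ 1 w) (huw : ∀ x ∈ frontier G.Ω, w x = u x)
    (S : Fin 3 → Fin 3 → R3 → ℝ) (hS : ∀ i j, ContDiff ℝ 1 (S i j))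
    (hsym : ∀ i j x, S i j x = S j i x)
    (hdiv : ∀ j x, ∑ i, dv (ee i) (S i j) x = 0) :
    ∫ x in G.Ω, ∑ i, ∑ j, S i j x * symGrad w i j x
      = ∫ x in G.Ω, ∑ i, ∑ j, S i j x * symGrad u i j x := by
  have hV : ∀ j, ContDiff ℝ 1 (fun y => w y j - u y j) := fun j =>
    (comp_contDiff hw j).sub (comp_contDiff hu j)
  have hSV : ∀ i j, ContDiff ℝ 1 (fun y => S i j y * (w y j - u y j)) := fun i j =>
    (hS i j).mul (hV j)
  have hone : (1 : WithTop ℕ∞) ≠ 0 := by norm_num
  have hpt : ∀ x, (∑ i, ∑ j, S i j x * symGrad w i j x) - ∑ i, ∑ j, S i j x * symGrad u i j x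
      = ∑ i, ∑ j, dv (ee i) (fun y => S i j y * (w y j - u y j)) x := by
    intro x
    have h1 : ∀ i j, dv (ee i) (fun y => S i j y * (w y j - u y j)) x
        = dv (ee i) (S i j) x * (w x j - u x j)
          + S i j x * (dv (ee i) (fun y => w y j) x - dv (ee i) (fun y => u y j) x) := by
      intro i j
      rw [dv_mul ((hS i j).differentiable hone) ((hV j).differentiable hone),
        dv_sub ((comp_contDiff hw j).differentiable hone)
          ((comp_contDiff hu j).differentiable hone)]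
    simp_rw [h1, Finset.sum_add_distrib]
    have h2 : ∑ i, ∑ j, dv (ee i) (S i j) x * (w x j - u x j) = 0 := by
      rw [Finset.sum_comm]
      refine Finset.sum_eq_zero fun j _ => ?_
      rw [← Finset.sum_mul, hdiv, zero_mul]
    rw [h2, zero_add]
    have h3 : ∀ v : R3 → R3, ∑ i, ∑ j, S i j x * symGrad v i j x
        = ∑ i, ∑ j, S i j x * dv (ee i) (fun y => v y j) x := by
      intro v
      have h4 : ∀ i j, S i j x * symGrad v i j x
          = S i j x * dv (ee i) (fun y => v y j) x / 2 + S i j x * dv (ee j) (fun y => v y i) x / 2 := by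
        intro i j
        simp only [symGrad, pderiv_eq]
        ring
      simp_rw [h4, Finset.sum_add_distrib]
      have h5 : ∑ i, ∑ j, S i j x * dv (ee j) (fun y => v y i) x / 2
          = ∑ i, ∑ j, S i j x * dv (ee i) (fun y => v y j) x / 2 := by
        rw [Finset.sum_comm]
        refine Finset.sum_congr rfl fun i _ => Finset.sum_congr rfl fun j _ => ?_
        rw [hsym j i]
      rw [h5, ← Finset.sum_add_distrib]
      refine Finset.sum_congr rfl fun i _ => ?_
      rw [← Finset.sum_add_distrib]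
      refine Finset.sum_congr rfl fun j _ => ?_
      ring
    rw [h3, h3, ← Finset.sum_sub_distrib]
    refine Finset.sum_congr rfl fun i _ => ?_
    rw [← Finset.sum_sub_distrib]
    refine Finset.sum_congr rfl fun j _ => ?_
    ring
  have hcw : Continuous (fun x => ∑ i, ∑ j, S i j x * symGrad w i j x) := by
    have h1 := continuous_symGrad hw
    have h2 : ∀ i j, Continuous (S i j) := fun i j => (hS i j).continuous
    fun_prop
  have hcu : Continuous (fun x => ∑ i, ∑ j, S i j x * symGrad u i j x) := by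
    have h1 := continuous_symGrad hu
    have h2 : ∀ i j, Continuous (S i j) := fun i j => (hS i j).continuous
    fun_prop
  rw [← sub_eq_zero, ← integral_sub (intOn G hcw) (intOn G hcu)]
  simp_rw [hpt]
  rw [integral_finsetSum _ (fun i _ => intOn G (f := fun x => ∑ j, dv (ee i)
    (fun y => S i j y * (w y j - u y j)) x) (continuous_finsetSum _ fun j _ =>
      continuous_dv (hSV i j) _))]
  refine Finset.sum_eq_zero fun i _ => ?_
  rw [integral_finsetSum _ (fun j _ => intOn G (continuous_dv (hSV i j) _))]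
  refine Finset.sum_eq_zero fun j _ => ?_
  exact intZ hZ G (hSV i j) (fun x hx => by rw [huw x hx]; simp) _

theorem energy_ineq (hZ : StmtZ) (G : Dom) (P₁ P₂ : Moduli) (h : SameData G P₁ P₂)
    (u : R3 → R3) (hu : ContDiff ℝ 1 u)
    (S : Fin 3 → Fin 3 → R3 → ℝ) (hS : ∀ i j, ContDiff ℝ 1 (S i j))
    (hsym : ∀ i j x, S i j x = S j i x)
    (hdiv : ∀ j x, ∑ i, dv (ee i) (S i j) x = 0) :
    0 ≤ ∫ x in G.Ω, (energyDensity P₂.lam P₂.mu u x
        + ((∑ i, ∑ j, S i j x ^ 2) / (2 * P₁.mu x)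
          + (∑ i, S i i x) ^ 2 / (3 * (3 * P₁.lam x + 2 * P₁.mu x)))
        - 2 * ∑ i, ∑ j, S i j x * symGrad u i j x) := by
  have hcS : ∀ i j, Continuous (S i j) := fun i j => (hS i j).continuous
  have hm1 : Continuous P₁.mu := P₁.smooth_mu.continuous
  have hl1 : Continuous P₁.lam := P₁.smooth_lam.continuous
  have hcD : Continuous (fun x => (∑ i, ∑ j, S i j x ^ 2) / (2 * P₁.mu x)
          + (∑ i, S i i x) ^ 2 / (3 * (3 * P₁.lam x + 2 * P₁.mu x))) := by
    refine Continuous.add (Continuous.div (by fun_prop) (by fun_prop) ?_)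
      (Continuous.div (by fun_prop) (by fun_prop) ?_)
    · intro x; have := P₁.mu_pos x; positivity
    · intro x; have := P₁.bulk_pos x; positivity
  have hcw : ∀ w : R3 → R3, ContDiff ℝ 1 w →
      Continuous (fun x => 2 * ∑ i, ∑ j, S i j x * symGrad w i j x) := by
    intro w hw
    have h1 := continuous_symGrad hw
    fun_prop
  have hcu := hcw u hu
  have hE2 := continuous_energyDensity hu P₂
  have hE2D : Continuous (fun x => energyDensity P₂.lam P₂.mu u x
        + ((∑ i, ∑ j, S i j x ^ 2) / (2 * P₁.mu x)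
          + (∑ i, S i i x) ^ 2 / (3 * (3 * P₁.lam x + 2 * P₁.mu x)))) := hE2.add hcD
  rw [integral_sub (intOn G hE2D) (intOn G hcu), integral_add (intOn G hE2) (intOn G hcD)]
  by_contra hneg
  push_neg at hneg
  set I2 := ∫ x in G.Ω, energyDensity P₂.lam P₂.mu u x with hI2
  set ID := ∫ x in G.Ω, ((∑ i, ∑ j, S i j x ^ 2) / (2 * P₁.mu x)
          + (∑ i, S i i x) ^ 2 / (3 * (3 * P₁.lam x + 2 * P₁.mu x))) with hID
  set IS := ∫ x in G.Ω, 2 * ∑ i, ∑ j, S i j x * symGrad u i j x with hIS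
  obtain ⟨w, ⟨hw, hwu⟩, hlt⟩ := (h u hu).2 u ⟨hu, fun _ _ => rfl⟩ (-(I2 + ID - IS)) (by linarith)
  have hlt' : ∫ x in G.Ω, energyDensity P₁.lam P₁.mu w x < I2 + -(I2 + ID - IS) := hlt
  have hE1 := continuous_energyDensity hw P₁
  have h1 : ∫ x in G.Ω, 2 * ∑ i, ∑ j, S i j x * symGrad w i j x
      ≤ ∫ x in G.Ω, (energyDensity P₁.lam P₁.mu w x + ((∑ i, ∑ j, S i j x ^ 2) / (2 * P₁.mu x)
          + (∑ i, S i i x) ^ 2 / (3 * (3 * P₁.lam x + 2 * P₁.mu x)))) := by
    refine integral_mono (intOn G (hcw w hw)) (intOn G (hE1.add hcD)) fun x => ?_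
    have := dual_ineq (P₁.lam x) (P₁.mu x) (P₁.mu_pos x) (P₁.bulk_pos x)
      (fun i j => symGrad w i j x) (fun i j => S i j x)
    simp only [energyDensity, div3_eq]
    exact this
  have h2 : ∫ x in G.Ω, 2 * ∑ i, ∑ j, S i j x * symGrad w i j x = IS := by
    rw [hIS, integral_const_mul, integral_const_mul,
      int_S_symGrad hZ G u w hu hw hwu S hS hsym hdiv]
  rw [h2, integral_add (intOn G hE1) (intOn G hcD)] at h1
  linarith

end Crest.Agent.R080.Bdry
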