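import Crest.Agent.R080.BdryA

/-!
Row 80 (S0107), T4 part B: the oscillating test fields and their pointwise estimates.
-/

set_option autoImplicit false

open MeasureTheory Filter
open scoped ContDiff Topology RealInnerProductSpace
open Crest.AnalysisR.VecCalc3 Crest.AnalysisR.PDE.Elasticity

noncomputable section
namespace Crest.Agent.R080.Bdry

/-- `e^{N n·y} cos (N t·y)`, `y = x - x₀` -/
def hh (x₀ n t : R3) (N : ℝ) (x : R3) : ℝ :=
  Real.exp (N * ⟪n, x - x₀⟫) * Real.cos (N * ⟪t, x - x₀⟫)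

/-- `- e^{N n·y} sin (N t·y)`, `y = x - x₀` -/
def kk (x₀ n t : R3) (N : ℝ) (x : R3) : ℝ :=
  -(Real.exp (N * ⟪n, x - x₀⟫) * Real.sin (N * ⟪t, x - x₀⟫))

theorem smooth_inner (x₀ n : R3) (N : ℝ) : ContDiff ℝ ∞ (fun x : R3 => N * ⟪n, x - x₀⟫) := by
  exact contDiff_const.mul ((innerSL ℝ n).contDiff.comp (contDiff_id.sub contDiff_const))

theorem smooth_hh (x₀ n t : R3) (N : ℝ) : ContDiff ℝ ∞ (hh x₀ n t N) := by
  unfold hh
  exact (smooth_inner x₀ n N).exp.mul (smooth_inner x₀ t N).cos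

theorem smooth_kk (x₀ n t : R3) (N : ℝ) : ContDiff ℝ ∞ (kk x₀ n t N) := by
  unfold kk
  exact ((smooth_inner x₀ n N).exp.mul (smooth_inner x₀ t N).sin).neg

theorem hasFDerivAt_inner (x₀ n : R3) (N : ℝ) (x : R3) :
    HasFDerivAt (fun x : R3 => N * ⟪n, x - x₀⟫) (N • innerSL ℝ n) x := by
  have h1 : HasFDerivAt (fun x : R3 => innerSL ℝ n (x - x₀)) (innerSL ℝ n) x := by
    have h3 := (innerSL ℝ n).hasFDerivAt (x := x - x₀)
    have h2 : HasFDerivAt (fun x : R3 => x - x₀) (ContinuousLinearMap.id ℝ R3) x :=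
      (hasFDerivAt_id x).sub_const x₀
    exact h3.comp x h2
  exact h1.const_mul N

theorem dv_hh (x₀ n t : R3) (N : ℝ) (e x : R3) :
    dv e (hh x₀ n t N) x = N * (⟪n, e⟫ * hh x₀ n t N x + ⟪t, e⟫ * kk x₀ n t N x) := by
  have h1 := (hasFDerivAt_inner x₀ n N x).exp
  have h2 := (hasFDerivAt_inner x₀ t N x).cos
  have h3 : HasFDerivAt (hh x₀ n t N) _ x := h1.mul h2
  unfold dv
  rw [h3.fderiv]
  simp [hh, kk]
  ring

theorem dv_kk (x₀ n t : R3) (N : ℝ) (e x : R3) :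
    dv e (kk x₀ n t N) x = N * (⟪n, e⟫ * kk x₀ n t N x - ⟪t, e⟫ * hh x₀ n t N x) := by
  have h1 := (hasFDerivAt_inner x₀ n N x).exp
  have h2 := (hasFDerivAt_inner x₀ t N x).sin
  have h3 : HasFDerivAt (kk x₀ n t N) _ x := (h1.mul h2).neg
  unfold dv
  rw [h3.fderiv]
  simp [hh, kk]
  ring

theorem hh_sq_add_kk_sq (x₀ n t : R3) (N : ℝ) (x : R3) :
    hh x₀ n t N x ^ 2 + kk x₀ n t N x ^ 2 = Real.exp (N * ⟪n, x - x₀⟫) ^ 2 := by
  unfold hh kk
  have := Real.sin_sq_add_cos_sq (N * ⟪t, x - x₀⟫)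
  calc _ = Real.exp (N * ⟪n, x - x₀⟫) ^ 2
      * (Real.sin (N * ⟪t, x - x₀⟫) ^ 2 + Real.cos (N * ⟪t, x - x₀⟫) ^ 2) := by ring
    _ = _ := by rw [this, mul_one]

theorem abs_hh_le (x₀ n t : R3) (N : ℝ) (x : R3) :
    |hh x₀ n t N x| ≤ Real.exp (N * ⟪n, x - x₀⟫) := by
  unfold hh
  rw [abs_mul, abs_of_pos (Real.exp_pos _)]
  exact mul_le_of_le_one_right (Real.exp_pos _).le (Real.abs_cos_le_one _)

theorem abs_kk_le (x₀ n t : R3) (N : ℝ) (x : R3) :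
    |kk x₀ n t N x| ≤ Real.exp (N * ⟪n, x - x₀⟫) := by
  unfold kk
  rw [abs_neg, abs_mul, abs_of_pos (Real.exp_pos _)]
  exact mul_le_of_le_one_right (Real.exp_pos _).le (Real.abs_sin_le_one _)

/-! ### the cutoff -/

/-- a fixed smooth cutoff: `1` on the ball of radius `1/2`, supported in the unit ball -/
def bmp : ContDiffBump (0 : R3) := ⟨1 / 2, 1, by norm_num, by norm_num⟩

/-- the cutoff as a function -/
def bm (y : R3) : ℝ := bmp y

/-- scaled cutoff -/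
def chi (x₀ : R3) (ε : ℝ) (x : R3) : ℝ := bm (ε⁻¹ • (x - x₀))

theorem smooth_bmp : ContDiff ℝ ∞ bm := bmp.contDiff

theorem hasCompactSupport_bm : HasCompactSupport bm := bmp.hasCompactSupport

theorem smooth_chi (x₀ : R3) (ε : ℝ) : ContDiff ℝ ∞ (chi x₀ ε) := by
  unfold chi
  exact smooth_bmp.comp (by fun_prop)

theorem dv_scale {g : R3 → ℝ} (hg : Differentiable ℝ g) (x₀ : R3) (c : ℝ) (e x : R3) :
    dv e (fun x => g (c • (x - x₀))) x = c * dv e g (c • (x - x₀)) := by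
  unfold dv
  have h2 : HasFDerivAt (fun x : R3 => c • (x - x₀)) (c • ContinuousLinearMap.id ℝ R3) x :=
    ((hasFDerivAt_id x).sub_const x₀).const_smul c
  have h3 := (hg (c • (x - x₀))).hasFDerivAt.comp x h2
  have h4 : fderiv ℝ (fun x => g (c • (x - x₀))) x
      = (fderiv ℝ g (c • (x - x₀))).comp (c • ContinuousLinearMap.id ℝ R3) := h3.fderiv
  rw [h4]
  simp

theorem dv_chi (x₀ : R3) (ε : ℝ) (e x : R3) :
    dv e (chi x₀ ε) x = ε⁻¹ * dv e bm (ε⁻¹ • (x - x₀)) :=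
  dv_scale (smooth_bmp.differentiable (by simp)) x₀ ε⁻¹ e x

theorem dv_dv_chi (x₀ : R3) (ε : ℝ) (e e' x : R3) :
    dv e' (dv e (chi x₀ ε)) x
      = ε⁻¹ ^ 2 * dv e' (dv e bm) (ε⁻¹ • (x - x₀)) := by
  have h1 : dv e (chi x₀ ε) = fun x => ε⁻¹ * dv e bm (ε⁻¹ • (x - x₀)) :=
    funext fun x => dv_chi x₀ ε e x
  have h2 : ContDiff ℝ ∞ (dv e bm) := dv_smooth smooth_bmp e
  have h3 : Differentiable ℝ (fun x => dv e bm (ε⁻¹ • (x - x₀))) :=
    (h2.comp (by fun_prop : ContDiff ℝ ∞ (fun x : R3 => ε⁻¹ • (x - x₀)))).differentiable (by simp)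
  rw [h1, dv_const_mul h3, dv_scale (h2.differentiable (by simp))]
  ring

theorem exists_bound_bm1 : ∃ C : ℝ, ∀ e y : R3, ‖e‖ ≤ 1 → |dv e bm y| ≤ C := by
  have h1 : Continuous (fderiv ℝ bm) := smooth_bmp.continuous_fderiv (by simp)
  have hs1 : HasCompactSupport (fderiv ℝ bm) := hasCompactSupport_bm.fderiv ℝ
  obtain ⟨C1, hC1⟩ := h1.bounded_above_of_compact_support hs1
  refine ⟨C1, fun e y he => ?_⟩
  have h3 : |dv e bm y| ≤ ‖fderiv ℝ bm y‖ * ‖e‖ := (fderiv ℝ bm y).le_opNorm e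
  calc _ ≤ _ := h3
    _ ≤ C1 * 1 := mul_le_mul (hC1 y) he (norm_nonneg _) ((norm_nonneg _).trans (hC1 y))
    _ ≤ _ := by rw [mul_one]

theorem dv_dv_eq {f : R3 → ℝ} (hf : ContDiff ℝ 2 f) (e e' y : R3) :
    dv e' (dv e f) y = fderiv ℝ (fderiv ℝ f) y e' e := by
  have hd : Differentiable ℝ (fderiv ℝ f) :=
    (hf.fderiv_right (m := 1) (by norm_num)).differentiable (by norm_num)
  unfold dv
  rw [fderiv_clm_apply (hd y) (by fun_prop)]
  simp

theorem dv_compact {f : R3 → ℝ} (hf : HasCompactSupport f) (e : R3) :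
    HasCompactSupport (dv e f) := hf.fderiv_apply ℝ e

theorem exists_bound_bm2 (e e' : R3) : ∃ C : ℝ, ∀ y : R3, |dv e' (dv e bm) y| ≤ C := by
  have h1 : Continuous (dv e' (dv e bm)) := (dv_smooth (dv_smooth smooth_bmp e) e').continuous
  obtain ⟨C, hC⟩ := h1.bounded_above_of_compact_support
    (dv_compact (dv_compact hasCompactSupport_bm e) e')
  exact ⟨C, hC⟩

end Crest.Agent.R080.Bdry
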