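import Crest.Agent.R080.BdryB

/-!
Row 80 (S0107), T4 part C: the test displacement and the divergence free stress.
-/

set_option autoImplicit false

open MeasureTheory Filter
open scoped ContDiff Topology RealInnerProductSpace
open Crest.AnalysisR.VecCalc3 Crest.AnalysisR.PDE.Elasticity

noncomputable section
namespace Crest.Agent.R080.Bdry

section
variable (x₀ n t : R3) (N ε m : ℝ)

/-- the scalar potential -/
def Psi (x : R3) : ℝ := chi x₀ ε x * hh x₀ n t N x

/-- second component function -/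
def Psk (x : R3) : ℝ := chi x₀ ε x * kk x₀ n t N x

/-- test displacement -/
def uF (x : R3) : R3 := Psi x₀ n t N ε x • n + Psk x₀ n t N ε x • t

/-- divergence free stress -/
def SF (i j : Fin 3) (x : R3) : ℝ :=
  -(2 * m / N) * (t i * t j * dv n (dv n (Psi x₀ n t N ε)) x
    - (t i * n j + n i * t j) * dv t (dv n (Psi x₀ n t N ε)) x
    + n i * n j * dv t (dv t (Psi x₀ n t N ε)) x)

/-- leading part of the strain -/
def TF (i j : Fin 3) (x : R3) : ℝ :=
  N * chi x₀ ε x * (hh x₀ n t N x * (n i * n j - t i * t j)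
    + kk x₀ n t N x * (n i * t j + t i * n j))

/-- error part of the strain -/
def eF (i j : Fin 3) (x : R3) : ℝ :=
  (hh x₀ n t N x * (dv (ee i) (chi x₀ ε) x * n j + dv (ee j) (chi x₀ ε) x * n i)
    + kk x₀ n t N x * (dv (ee i) (chi x₀ ε) x * t j + dv (ee j) (chi x₀ ε) x * t i)) / 2

/-- error part of the stress -/
def sF (i j : Fin 3) (x : R3) : ℝ :=
  -(2 * m / N) * (t i * t j * (dv n (dv n (chi x₀ ε)) x * hh x₀ n t N x
      + 2 * N * dv n (chi x₀ ε) x * hh x₀ n t N x)
    - (t i * n j + n i * t j) * (dv t (dv n (chi x₀ ε)) x * hh x₀ n t N x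
      + dv n (chi x₀ ε) x * N * kk x₀ n t N x + dv t (chi x₀ ε) x * N * hh x₀ n t N x)
    + n i * n j * (dv t (dv t (chi x₀ ε)) x * hh x₀ n t N x
      + 2 * N * dv t (chi x₀ ε) x * kk x₀ n t N x))

theorem smooth_Psi : ContDiff ℝ ∞ (Psi x₀ n t N ε) :=
  (smooth_chi x₀ ε).mul (smooth_hh x₀ n t N)

theorem smooth_Psk : ContDiff ℝ ∞ (Psk x₀ n t N ε) :=
  (smooth_chi x₀ ε).mul (smooth_kk x₀ n t N)

theorem smooth_uF : ContDiff ℝ ∞ (uF x₀ n t N ε) :=
  ((smooth_Psi x₀ n t N ε).smul contDiff_const).add ((smooth_Psk x₀ n t N ε).smul contDiff_const)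

theorem smooth_SF (i j : Fin 3) : ContDiff ℝ ∞ (SF x₀ n t N ε m i j) := by
  have h1 := smooth_Psi x₀ n t N ε
  have h2 := dv_smooth (dv_smooth h1 n) n
  have h3 := dv_smooth (dv_smooth h1 n) t
  have h4 := dv_smooth (dv_smooth h1 t) t
  unfold SF
  fun_prop

theorem SF_symm (i j : Fin 3) (x : R3) : SF x₀ n t N ε m i j x = SF x₀ n t N ε m j i x := by
  unfold SF
  ring

theorem sum_mul_dv (f : R3 → ℝ) (e x : R3) : ∑ i, e i * dv (ee i) f x = dv e f x :=
  (dv_eq_sum f e x).symm

theorem SF_div (j : Fin 3) (x : R3) : ∑ i, dv (ee i) (SF x₀ n t N ε m i j) x = 0 := by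
  have h1 := smooth_Psi x₀ n t N ε
  set P := Psi x₀ n t N ε with hP
  have hnn := dv_smooth (dv_smooth h1 n) n
  have htn := dv_smooth (dv_smooth h1 n) t
  have htt := dv_smooth (dv_smooth h1 t) t
  have dnn := hnn.differentiable (by simp)
  have dtn := htn.differentiable (by simp)
  have dtt := htt.differentiable (by simp)
  have key : ∀ i, dv (ee i) (SF x₀ n t N ε m i j) x
      = -(2 * m / N) * (t j * (t i * dv (ee i) (dv n (dv n P)) x)
        - n j * (t i * dv (ee i) (dv t (dv n P)) x) - t j * (n i * dv (ee i) (dv t (dv n P)) x)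
        + n j * (n i * dv (ee i) (dv t (dv t P)) x)) := by
    intro i
    have e1 : SF x₀ n t N ε m i j = fun y => -(2 * m / N) * ((t i * t j * dv n (dv n P) y
        - (t i * n j + n i * t j) * dv t (dv n P) y) + n i * n j * dv t (dv t P) y) := by
      funext y; rfl
    rw [e1, dv_const_mul (by fun_prop), dv_add (by fun_prop) (by fun_prop),
      dv_sub (by fun_prop) (by fun_prop), dv_const_mul dnn, dv_const_mul dtn, dv_const_mul dtt]
    ring
  simp_rw [key]
  rw [← Finset.mul_sum, Finset.sum_add_distrib, Finset.sum_sub_distrib, Finset.sum_sub_distrib,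
    ← Finset.mul_sum, ← Finset.mul_sum, ← Finset.mul_sum, ← Finset.mul_sum,
    sum_mul_dv, sum_mul_dv, sum_mul_dv, sum_mul_dv]
  have c1 : dv t (dv n (dv n P)) x = dv n (dv t (dv n P)) x :=
    dv_comm ((dv_smooth h1 n).of_le (by norm_cast)) _ _ _
  have c2 : dv n (dv t (dv t P)) x = dv t (dv t (dv n P)) x := by
    rw [dv_comm ((dv_smooth h1 t).of_le (by norm_cast)) n t x]
    have : dv n (dv t P) = dv t (dv n P) := funext fun y =>
      dv_comm (h1.of_le (by norm_cast)) _ _ _
    rw [this]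
  rw [c1, c2]
  ring

variable (hnn : ⟪n, n⟫ = 1) (htt : ⟪t, t⟫ = 1) (hnt : ⟪n, t⟫ = 0)

include hnn htt hnt

theorem dv_n_hh (x : R3) : dv n (hh x₀ n t N) x = N * hh x₀ n t N x := by
  rw [dv_hh, hnn, real_inner_comm, hnt]; ring

theorem dv_t_hh (x : R3) : dv t (hh x₀ n t N) x = N * kk x₀ n t N x := by
  rw [dv_hh, htt, hnt]; ring

theorem dv_n_kk (x : R3) : dv n (kk x₀ n t N) x = N * kk x₀ n t N x := by
  rw [dv_kk, hnn, real_inner_comm, hnt]; ring

theorem dv_t_kk (x : R3) : dv t (kk x₀ n t N) x = -(N * hh x₀ n t N x) := by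
  rw [dv_kk, htt, hnt]; ring

theorem SF_eq (hN : N ≠ 0) (i j : Fin 3) (x : R3) :
    SF x₀ n t N ε m i j x = 2 * m * TF x₀ n t N ε i j x + sF x₀ n t N ε m i j x := by
  have sc := smooth_chi x₀ ε
  have sh := smooth_hh x₀ n t N
  have sk := smooth_kk x₀ n t N
  have dc := sc.differentiable (by simp)
  have dh := sh.differentiable (by simp)
  have dk := sk.differentiable (by simp)
  have dcn := (dv_smooth sc n).differentiable (by simp)
  have dct := (dv_smooth sc t).differentiable (by simp)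
  have hn : dv n (Psi x₀ n t N ε) = fun x => dv n (chi x₀ ε) x * hh x₀ n t N x
      + N * (chi x₀ ε x * hh x₀ n t N x) := by
    funext y
    have := dv_mul dc dh n y
    rw [dv_n_hh x₀ n t N hnn htt hnt] at this
    rw [show Psi x₀ n t N ε = fun y => chi x₀ ε y * hh x₀ n t N y from rfl, this]
    ring
  have ht : dv t (Psi x₀ n t N ε) = fun x => dv t (chi x₀ ε) x * hh x₀ n t N x
      + N * (chi x₀ ε x * kk x₀ n t N x) := by
    funext y
    have := dv_mul dc dh t y
    rw [dv_t_hh x₀ n t N hnn htt hnt] at this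
    rw [show Psi x₀ n t N ε = fun y => chi x₀ ε y * hh x₀ n t N y from rfl, this]
    ring
  have e1 : dv n (dv n (Psi x₀ n t N ε)) x = dv n (dv n (chi x₀ ε)) x * hh x₀ n t N x
      + 2 * N * dv n (chi x₀ ε) x * hh x₀ n t N x + N ^ 2 * (chi x₀ ε x * hh x₀ n t N x) := by
    rw [hn, dv_add (by fun_prop) (by fun_prop), dv_mul dcn dh, dv_const_mul (by fun_prop),
      dv_mul dc dh, dv_n_hh x₀ n t N hnn htt hnt]
    ring
  have e2 : dv t (dv n (Psi x₀ n t N ε)) x = dv t (dv n (chi x₀ ε)) x * hh x₀ n t N x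
      + dv n (chi x₀ ε) x * N * kk x₀ n t N x + dv t (chi x₀ ε) x * N * hh x₀ n t N x
      + N ^ 2 * (chi x₀ ε x * kk x₀ n t N x) := by
    rw [hn, dv_add (by fun_prop) (by fun_prop), dv_mul dcn dh, dv_const_mul (by fun_prop),
      dv_mul dc dh, dv_t_hh x₀ n t N hnn htt hnt]
    ring
  have e3 : dv t (dv t (Psi x₀ n t N ε)) x = dv t (dv t (chi x₀ ε)) x * hh x₀ n t N x
      + 2 * N * dv t (chi x₀ ε) x * kk x₀ n t N x - N ^ 2 * (chi x₀ ε x * hh x₀ n t N x) := by
    rw [ht, dv_add (by fun_prop) (by fun_prop), dv_mul dct dh, dv_const_mul (by fun_prop),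
      dv_mul dc dk, dv_t_hh x₀ n t N hnn htt hnt, dv_t_kk x₀ n t N hnn htt hnt]
    ring
  unfold SF TF sF
  rw [e1, e2, e3]
  field_simp
  ring

omit hnn htt hnt

theorem symGrad_uF (i j : Fin 3) (x : R3) :
    symGrad (uF x₀ n t N ε) i j x = TF x₀ n t N ε i j x + eF x₀ n t N ε i j x := by
  have sc := smooth_chi x₀ ε
  have sh := smooth_hh x₀ n t N
  have sk := smooth_kk x₀ n t N
  have dc := sc.differentiable (by simp)
  have dh := sh.differentiable (by simp)
  have dk := sk.differentiable (by simp)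
  have key : ∀ i j, pderiv (fun y => uF x₀ n t N ε y j) i x
      = (dv (ee i) (chi x₀ ε) x * hh x₀ n t N x
          + chi x₀ ε x * (N * (n i * hh x₀ n t N x + t i * kk x₀ n t N x))) * n j
        + (dv (ee i) (chi x₀ ε) x * kk x₀ n t N x
          + chi x₀ ε x * (N * (n i * kk x₀ n t N x - t i * hh x₀ n t N x))) * t j := by
    intro i j
    rw [pderiv_eq]
    have e1 : (fun y => uF x₀ n t N ε y j) = fun y => (chi x₀ ε y * hh x₀ n t N y) * n j
        + (chi x₀ ε y * kk x₀ n t N y) * t j := by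
      funext y
      simp [uF, Psi, Psk]
    rw [e1, dv_add (by fun_prop) (by fun_prop), dv_mul_const (by fun_prop),
      dv_mul_const (by fun_prop), dv_mul dc dh, dv_mul dc dk, dv_hh, dv_kk]
    simp [EuclideanSpace.inner_single_right]
  unfold symGrad
  rw [key, key]
  unfold TF eF
  ring

end

end Crest.Agent.R080.Bdry
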