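import Crest.Agent.R080.BdryC

/-!
Row 80 (S0107), T4 part D: geometry near a boundary point, pointwise estimates.
-/

set_option autoImplicit false

open MeasureTheory Filter
open scoped ContDiff Topology RealInnerProductSpace
open Crest.AnalysisR.VecCalc3 Crest.AnalysisR.PDE.Elasticity

noncomputable section
namespace Crest.Agent.R080.Bdry

/-! ### geometry -/

theorem taylor2 {f : R3 → ℝ} (hf : ContDiff ℝ ∞ f) (x₀ : R3) :
    ∃ K r : ℝ, 0 < K ∧ 0 < r ∧ ∀ x, ‖x - x₀‖ < r →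
      |f x - f x₀ - fderiv ℝ f x₀ (x - x₀)| ≤ K * ‖x - x₀‖ ^ 2 := by
  have h1 : ContDiff ℝ ∞ (fderiv ℝ f) := hf.fderiv_right (by simp)
  have h2 : ContDiffAt ℝ 1 (fderiv ℝ f) x₀ := (h1.of_le (by norm_cast)).contDiffAt
  obtain ⟨K, s, hs, hL⟩ := h2.exists_lipschitzOnWith
  obtain ⟨r, hr, hrs⟩ := Metric.mem_nhds_iff.mp hs
  refine ⟨(K : ℝ) + 1, r, by positivity, hr, fun x hx => ?_⟩
  have hconv : Convex ℝ (Metric.closedBall x₀ ‖x - x₀‖) := convex_closedBall _ _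
  have hsub : Metric.closedBall x₀ ‖x - x₀‖ ⊆ s := fun z hz => hrs (by
    rw [Metric.mem_ball]; exact lt_of_le_of_lt (Metric.mem_closedBall.mp hz) hx)
  have hx0s : x₀ ∈ s := mem_of_mem_nhds hs
  have hb : ∀ z ∈ Metric.closedBall x₀ ‖x - x₀‖,
      ‖fderiv ℝ f z - fderiv ℝ f x₀‖ ≤ K * ‖x - x₀‖ := by
    intro z hz
    have := hL.dist_le_mul z (hsub hz) x₀ hx0s
    rw [dist_eq_norm] at this
    refine this.trans ?_
    exact mul_le_mul_of_nonneg_left (Metric.mem_closedBall.mp hz) K.2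
  have h3 := hconv.norm_image_sub_le_of_norm_fderiv_le' (f := f) (φ := fderiv ℝ f x₀)
    (fun z _ => hf.differentiable (by simp) z) hb
    (Metric.mem_closedBall_self (norm_nonneg _)) (y := x)
    (by rw [Metric.mem_closedBall, dist_eq_norm])
  rw [← Real.norm_eq_abs]
  refine h3.trans ?_
  have : 0 ≤ ‖x - x₀‖ ^ 2 := by positivity
  nlinarith

/-- local picture of the domain near a boundary point -/
theorem exists_normal (G : Dom) {x₀ : R3} (hx : x₀ ∈ frontier G.Ω) :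
    ∃ (n : R3) (K r : ℝ), ‖n‖ = 1 ∧ 0 < K ∧ 0 < r ∧
      (∀ x, ‖x - x₀‖ < r → x ∈ G.Ω → ⟪n, x - x₀⟫ ≤ K * ‖x - x₀‖ ^ 2) ∧
      (∀ x, ‖x - x₀‖ < r → ⟪n, x - x₀⟫ < -(K * ‖x - x₀‖ ^ 2) → x ∈ G.Ω) := by
  have h0 := rho_eq_zero_of_frontier G hx
  have hreg := G.reg x₀ h0
  obtain ⟨K, r, hK, hr, hT⟩ := taylor2 G.smooth x₀
  set p : R3 := (InnerProductSpace.toDual ℝ R3).symm (fderiv ℝ G.rho x₀) with hp
  have hpi : ∀ y, fderiv ℝ G.rho x₀ y = ⟪p, y⟫ := fun y =>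
    (InnerProductSpace.toDual_symm_apply).symm
  have hpn : p ≠ 0 := by
    intro h; apply hreg
    ext y; rw [hpi, h]; simp
  have hpp : 0 < ‖p‖ := norm_pos_iff.mpr hpn
  refine ⟨‖p‖⁻¹ • p, K / ‖p‖, r, ?_, by positivity, hr, fun x hxr hxΩ => ?_, fun x hxr hxn => ?_⟩
  · rw [norm_smul, norm_inv, norm_norm, inv_mul_cancel₀ hpp.ne']
  · have h1 := hT x hxr
    rw [h0, hpi, sub_zero] at h1
    have h2 : G.rho x < 0 := by
      rw [G.eq] at hxΩ; exact hxΩ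
    rw [inner_smul_left]
    simp only [conj_trivial]
    have h3 := (abs_le.mp h1).1
    have h4 : ⟪p, x - x₀⟫ ≤ K * ‖x - x₀‖ ^ 2 := by linarith
    rw [inv_mul_eq_div, div_mul_eq_mul_div]
    exact div_le_div_of_nonneg_right h4 hpp.le
  · have h1 := hT x hxr
    rw [h0, hpi, sub_zero] at h1
    rw [inner_smul_left] at hxn
    simp only [conj_trivial] at hxn
    have h3 := (abs_le.mp h1).2
    have h4 : ⟪p, x - x₀⟫ < -(K * ‖x - x₀‖ ^ 2) := by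
      rw [inv_mul_eq_div, div_mul_eq_mul_div, ← neg_div] at hxn
      exact (div_lt_div_iff_of_pos_right hpp).mp hxn
    rw [G.eq]
    show G.rho x < 0
    linarith

theorem exists_frame {n : R3} (hn : ‖n‖ = 1) : ∃ b : OrthonormalBasis (Fin 3) ℝ R3, b 0 = n := by
  have hcard : Module.finrank ℝ R3 = Fintype.card (Fin 3) := by simp
  have hv : Orthonormal ℝ (({0} : Set (Fin 3)).domRestrict (fun _ => n)) := by
    constructor
    · intro i; simpa using hn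
    · intro i j hij
      exfalso; apply hij
      ext
      have h1 := i.2; have h2 := j.2
      simp only [Set.mem_singleton_iff] at h1 h2
      rw [h1, h2]
  obtain ⟨b, hb⟩ := hv.exists_orthonormalBasis_extension_of_card_eq hcard
  exact ⟨b, hb 0 rfl⟩

theorem box_volume (b : OrthonormalBasis (Fin 3) ℝ R3) (x₀ : R3) (lo hi : Fin 3 → ℝ) :
    volume {x : R3 | ∀ i, lo i ≤ ⟪b i, x - x₀⟫ ∧ ⟪b i, x - x₀⟫ ≤ hi i}
      = ∏ i, ENNReal.ofReal (hi i - lo i) := by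
  have h1 : MeasurePreserving (fun x : R3 => x - x₀) volume volume :=
    measurePreserving_sub_right volume x₀
  have h2 := b.measurePreserving_repr
  have h3 : MeasurePreserving (WithLp.ofLp : R3 → (Fin 3 → ℝ)) volume volume :=
    PiLp.volume_preserving_ofLp (Fin 3)
  have h4 := (h3.comp h2).comp h1
  have h5 : {x : R3 | ∀ i, lo i ≤ ⟪b i, x - x₀⟫ ∧ ⟪b i, x - x₀⟫ ≤ hi i}
      = ((WithLp.ofLp ∘ b.repr) ∘ fun x => x - x₀) ⁻¹' (Set.Icc lo hi) := by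
    ext x
    simp only [Set.mem_ofPred_eq, Set.mem_preimage, Function.comp, Set.mem_Icc, Pi.le_def,
      b.repr_apply_apply]
    exact forall_and
  rw [h5, h4.measure_preimage measurableSet_Icc.nullMeasurableSet, Real.volume_Icc_pi]


/-! ### pointwise inequalities -/

theorem entry_ineq {mu1 mu2 m Λ δ T e s B : ℝ} (hδ : 0 < δ) (hm : 0 ≤ m) (hmΛ : m ≤ Λ)
    (h2 : 0 ≤ mu2) (h2Λ : mu2 ≤ Λ) (h1 : 0 < mu1) (h1Λ : mu1⁻¹ ≤ Λ)
    (hlead : 2 * mu2 - 4 * m + 2 * m ^ 2 * mu1⁻¹ ≤ -δ) (he : |e| ≤ B) (hs : |s| ≤ B) :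
    2 * mu2 * (T + e) ^ 2 - 2 * ((2 * m * T + s) * (T + e)) + (2 * m * T + s) ^ 2 / (2 * mu1)
      ≤ -(δ / 2) * T ^ 2 + ((8 * Λ + 2 + 2 * Λ ^ 2) ^ 2 / (2 * δ) + 3 * Λ + 2) * B ^ 2 := by
  set ν := mu1⁻¹ with hν
  have hν0 : 0 ≤ ν := by positivity
  have hΛ : 0 ≤ Λ := hm.trans hmΛ
  set c := 4 * mu2 * e - 4 * m * e - 2 * s + 2 * m * ν * s with hc
  set C₁ := 8 * Λ + 2 + 2 * Λ ^ 2 with hC₁
  have hcB : |c| ≤ C₁ * B := by
    have a1 : |4 * mu2 * e| ≤ 4 * Λ * B := by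
      rw [abs_mul, abs_of_nonneg (by positivity)]
      exact mul_le_mul (by linarith) he (abs_nonneg _) (by positivity)
    have a2 : |4 * m * e| ≤ 4 * Λ * B := by
      rw [abs_mul, abs_of_nonneg (by positivity)]
      exact mul_le_mul (by linarith) he (abs_nonneg _) (by positivity)
    have a3 : |2 * s| ≤ 2 * B := by
      rw [abs_mul, abs_of_nonneg (by positivity)]
      linarith
    have a4 : |2 * m * ν * s| ≤ 2 * Λ * Λ * B := by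
      rw [abs_mul, abs_of_nonneg (by positivity)]
      refine mul_le_mul (mul_le_mul (by linarith) h1Λ hν0 (by positivity)) hs (abs_nonneg _)
        (by positivity)
    have a5 : |c| ≤ |4 * mu2 * e| + |4 * m * e| + |2 * s| + |2 * m * ν * s| := by
      rw [hc]
      calc _ ≤ |4 * mu2 * e - 4 * m * e - 2 * s| + |2 * m * ν * s| := abs_add_le _ _
        _ ≤ |4 * mu2 * e - 4 * m * e| + |2 * s| + |2 * m * ν * s| := by
            gcongr; exact abs_sub _ _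
        _ ≤ _ := by gcongr; exact abs_sub _ _
    calc _ ≤ _ := a5
      _ ≤ 4 * Λ * B + 4 * Λ * B + 2 * B + 2 * Λ * Λ * B := by gcongr
      _ = _ := by rw [hC₁]; ring
  have hc2 : c ^ 2 ≤ (C₁ * B) ^ 2 := by
    rw [← sq_abs c]; exact pow_le_pow_left₀ (abs_nonneg _) hcB 2
  have hTc : T * c ≤ δ / 2 * T ^ 2 + C₁ ^ 2 / (2 * δ) * B ^ 2 := by
    have h5 : 0 ≤ (δ * T - c) ^ 2 / (2 * δ) := by positivity
    have h6 : (δ * T - c) ^ 2 / (2 * δ) = δ / 2 * T ^ 2 - T * c + c ^ 2 / (2 * δ) := by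
      field_simp; ring
    have h7 : c ^ 2 / (2 * δ) ≤ (C₁ * B) ^ 2 / (2 * δ) := by gcongr
    have h8 : (C₁ * B) ^ 2 / (2 * δ) = C₁ ^ 2 / (2 * δ) * B ^ 2 := by ring
    linarith
  have he2 : e ^ 2 ≤ B ^ 2 := by rw [← sq_abs e]; exact pow_le_pow_left₀ (abs_nonneg _) he 2
  have hs2 : s ^ 2 ≤ B ^ 2 := by rw [← sq_abs s]; exact pow_le_pow_left₀ (abs_nonneg _) hs 2
  have hse : -(2 * (s * e)) ≤ 2 * B ^ 2 := by nlinarith [sq_nonneg (s + e)]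
  have h9 : 2 * mu2 * e ^ 2 ≤ 2 * Λ * B ^ 2 := by gcongr
  have h10 : s ^ 2 * ν / 2 ≤ Λ * B ^ 2 := by
    have : s ^ 2 * ν ≤ B ^ 2 * Λ := by gcongr
    have : 0 ≤ B ^ 2 * Λ := by positivity
    linarith
  have h11 : (2 * mu2 - 4 * m + 2 * m ^ 2 * ν) * T ^ 2 ≤ -δ * T ^ 2 := by gcongr
  have h12 : 2 * mu2 * (T + e) ^ 2 - 2 * ((2 * m * T + s) * (T + e))
      + (2 * m * T + s) ^ 2 / (2 * mu1)
      = (2 * mu2 - 4 * m + 2 * m ^ 2 * ν) * T ^ 2 + T * c + 2 * mu2 * e ^ 2 - 2 * (s * e)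
        + s ^ 2 * ν / 2 := by
    rw [hc, hν]
    field_simp
    ring
  rw [h12]
  nlinarith

theorem inner3 (a b : R3) : ⟪a, b⟫ = a 0 * b 0 + a 1 * b 1 + a 2 * b 2 := by
  simp [PiLp.inner_apply, Fin.sum_univ_three, mul_comm]

theorem TF_trace (x₀ n t : R3) (N ε : ℝ) (hnn : ⟪n, n⟫ = 1) (htt : ⟪t, t⟫ = 1) (hnt : ⟪n, t⟫ = 0)
    (x : R3) : ∑ i, TF x₀ n t N ε i i x = 0 := by
  have a : n 0 ^ 2 + n 1 ^ 2 + n 2 ^ 2 = 1 := by
    rw [inner3] at hnn; rw [← hnn]; ring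
  have b : t 0 ^ 2 + t 1 ^ 2 + t 2 ^ 2 = 1 := by
    rw [inner3] at htt; rw [← htt]; ring
  have c : n 0 * t 0 + n 1 * t 1 + n 2 * t 2 = 0 := by
    rw [inner3] at hnt; exact hnt
  simp only [TF, Fin.sum_univ_three]
  have key : ∀ A h k : ℝ, A * (h * (n 0 * n 0 - t 0 * t 0) + k * (n 0 * t 0 + t 0 * n 0))
      + A * (h * (n 1 * n 1 - t 1 * t 1) + k * (n 1 * t 1 + t 1 * n 1))
      + A * (h * (n 2 * n 2 - t 2 * t 2) + k * (n 2 * t 2 + t 2 * n 2))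
      = A * (h * ((n 0 ^ 2 + n 1 ^ 2 + n 2 ^ 2) - (t 0 ^ 2 + t 1 ^ 2 + t 2 ^ 2))
        + 2 * k * (n 0 * t 0 + n 1 * t 1 + n 2 * t 2)) := by intros; ring
  rw [key, a, b, c]
  ring

theorem TF_sq (x₀ n t : R3) (N ε : ℝ) (hnn : ⟪n, n⟫ = 1) (htt : ⟪t, t⟫ = 1) (hnt : ⟪n, t⟫ = 0)
    (x : R3) : ∑ i, ∑ j, TF x₀ n t N ε i j x ^ 2
      = 2 * N ^ 2 * chi x₀ ε x ^ 2 * Real.exp (N * ⟪n, x - x₀⟫) ^ 2 := by
  have a : n 0 ^ 2 + n 1 ^ 2 + n 2 ^ 2 = 1 := by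
    rw [inner3] at hnn; rw [← hnn]; ring
  have b : t 0 ^ 2 + t 1 ^ 2 + t 2 ^ 2 = 1 := by
    rw [inner3] at htt; rw [← htt]; ring
  have c : n 0 * t 0 + n 1 * t 1 + n 2 * t 2 = 0 := by
    rw [inner3] at hnt; exact hnt
  rw [← hh_sq_add_kk_sq x₀ n t N x]
  simp only [TF, Fin.sum_univ_three]
  generalize hh x₀ n t N x = h
  generalize kk x₀ n t N x = k
  generalize chi x₀ ε x = χ
  have key : (N * χ * (h * (n 0 * n 0 - t 0 * t 0) + k * (n 0 * t 0 + t 0 * n 0))) ^ 2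
      + (N * χ * (h * (n 0 * n 1 - t 0 * t 1) + k * (n 0 * t 1 + t 0 * n 1))) ^ 2
      + (N * χ * (h * (n 0 * n 2 - t 0 * t 2) + k * (n 0 * t 2 + t 0 * n 2))) ^ 2
      + ((N * χ * (h * (n 1 * n 0 - t 1 * t 0) + k * (n 1 * t 0 + t 1 * n 0))) ^ 2
      + (N * χ * (h * (n 1 * n 1 - t 1 * t 1) + k * (n 1 * t 1 + t 1 * n 1))) ^ 2
      + (N * χ * (h * (n 1 * n 2 - t 1 * t 2) + k * (n 1 * t 2 + t 1 * n 2))) ^ 2)
      + ((N * χ * (h * (n 2 * n 0 - t 2 * t 0) + k * (n 2 * t 0 + t 2 * n 0))) ^ 2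
      + (N * χ * (h * (n 2 * n 1 - t 2 * t 1) + k * (n 2 * t 1 + t 2 * n 1))) ^ 2
      + (N * χ * (h * (n 2 * n 2 - t 2 * t 2) + k * (n 2 * t 2 + t 2 * n 2))) ^ 2)
      = N ^ 2 * χ ^ 2 * (h ^ 2 * ((n 0 ^ 2 + n 1 ^ 2 + n 2 ^ 2) ^ 2 + (t 0 ^ 2 + t 1 ^ 2 + t 2 ^ 2) ^ 2
            - 2 * (n 0 * t 0 + n 1 * t 1 + n 2 * t 2) ^ 2)
          + 4 * h * k * ((n 0 ^ 2 + n 1 ^ 2 + n 2 ^ 2) - (t 0 ^ 2 + t 1 ^ 2 + t 2 ^ 2))
            * (n 0 * t 0 + n 1 * t 1 + n 2 * t 2)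
          + k ^ 2 * (2 * (n 0 ^ 2 + n 1 ^ 2 + n 2 ^ 2) * (t 0 ^ 2 + t 1 ^ 2 + t 2 ^ 2)
            + 2 * (n 0 * t 0 + n 1 * t 1 + n 2 * t 2) ^ 2)) := by ring
  rw [key, a, b, c]
  ring

theorem abs_coord_le {n : R3} (hn : ‖n‖ ≤ 1) (i : Fin 3) : |n i| ≤ 1 := by
  have := PiLp.norm_apply_le n i
  rw [Real.norm_eq_abs] at this
  exact this.trans hn

theorem eF_bound (x₀ n t : R3) (N ε : ℝ) (hn : ‖n‖ ≤ 1) (ht : ‖t‖ ≤ 1) {D E : ℝ} (x : R3)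
    (hD : ∀ e : R3, ‖e‖ ≤ 1 → |dv e (chi x₀ ε) x| ≤ D)
    (hh' : |hh x₀ n t N x| ≤ E) (hk' : |kk x₀ n t N x| ≤ E) (i j : Fin 3) :
    |eF x₀ n t N ε i j x| ≤ 2 * E * D := by
  have hE : 0 ≤ E := (abs_nonneg _).trans hh'
  have hee : ∀ i : Fin 3, ‖ee i‖ ≤ 1 := fun i => by simp [ee]
  have hD0 : 0 ≤ D := (abs_nonneg _).trans (hD (ee 0) (hee 0))
  have p1 : ∀ (i j : Fin 3) (v : R3), ‖v‖ ≤ 1 → |dv (ee i) (chi x₀ ε) x * v j| ≤ D := by
    intro i j v hv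
    rw [abs_mul]
    calc _ ≤ D * 1 := mul_le_mul (hD _ (hee i)) (abs_coord_le hv j) (abs_nonneg _) hD0
      _ = D := mul_one D
  have p2 : ∀ (i j : Fin 3) (v : R3), ‖v‖ ≤ 1 →
      |dv (ee i) (chi x₀ ε) x * v j + dv (ee j) (chi x₀ ε) x * v i| ≤ 2 * D := by
    intro i j v hv
    calc _ ≤ _ := abs_add_le _ _
      _ ≤ D + D := add_le_add (p1 i j v hv) (p1 j i v hv)
      _ = 2 * D := by ring
  unfold eF
  rw [abs_div, abs_of_pos (by norm_num : (0 : ℝ) < 2), div_le_iff₀ (by norm_num)]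
  calc _ ≤ _ := abs_add_le _ _
    _ ≤ E * (2 * D) + E * (2 * D) := by
        rw [abs_mul, abs_mul]
        exact add_le_add (mul_le_mul hh' (p2 i j n hn) (abs_nonneg _) hE)
          (mul_le_mul hk' (p2 i j t ht) (abs_nonneg _) hE)
    _ = _ := by ring

theorem sF_bound (x₀ n t : R3) (N ε m : ℝ) (hN : 0 < N) (hm : 0 ≤ m) (hn : ‖n‖ ≤ 1) (ht : ‖t‖ ≤ 1)
    {D D2 E : ℝ} (x : R3)
    (hD : ∀ e : R3, ‖e‖ ≤ 1 → |dv e (chi x₀ ε) x| ≤ D)
    (h1 : |dv n (dv n (chi x₀ ε)) x| ≤ D2) (h2 : |dv t (dv n (chi x₀ ε)) x| ≤ D2)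
    (h3 : |dv t (dv t (chi x₀ ε)) x| ≤ D2)
    (hh' : |hh x₀ n t N x| ≤ E) (hk' : |kk x₀ n t N x| ≤ E) (i j : Fin 3) :
    |sF x₀ n t N ε m i j x| ≤ 8 * m * E * (D2 / N + 2 * D) := by
  have hE : 0 ≤ E := (abs_nonneg _).trans hh'
  have hDn := hD n hn
  have hDt := hD t ht
  have hD0 : 0 ≤ D := (abs_nonneg _).trans hDn
  have hD20 : 0 ≤ D2 := (abs_nonneg _).trans h1
  have hv : ∀ (v w : R3), ‖v‖ ≤ 1 → ‖w‖ ≤ 1 → ∀ i j : Fin 3, |v i * w j| ≤ 1 := by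
    intro v w hv hw i j
    rw [abs_mul]
    exact mul_le_one₀ (abs_coord_le hv i) (abs_nonneg _) (abs_coord_le hw j)
  set W := D2 * E + 2 * N * D * E with hW
  have hW0 : 0 ≤ W := by positivity
  have q0 : ∀ a d z : ℝ, |a| ≤ D2 → |d| ≤ D → |z| ≤ E → ∀ h : ℝ, |h| ≤ E →
      |a * h + 2 * N * d * z| ≤ W := by
    intro a d z ha hd hz h hh
    calc _ ≤ _ := abs_add_le _ _
      _ ≤ D2 * E + 2 * N * D * E := by
        rw [abs_mul a h, abs_mul (2 * N * d) z, abs_mul (2 * N) d, abs_of_pos (by positivity : 0 < 2 * N)]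
        gcongr
  have q1 := q0 _ _ _ h1 hDn hh' _ hh'
  have q3 := q0 _ _ _ h3 hDt hk' _ hh'
  have q2 : |dv t (dv n (chi x₀ ε)) x * hh x₀ n t N x
      + dv n (chi x₀ ε) x * N * kk x₀ n t N x + dv t (chi x₀ ε) x * N * hh x₀ n t N x| ≤ W := by
    calc _ ≤ |dv t (dv n (chi x₀ ε)) x * hh x₀ n t N x| + |dv n (chi x₀ ε) x * N * kk x₀ n t N x|
          + |dv t (chi x₀ ε) x * N * hh x₀ n t N x| := by
            refine (abs_add_le _ _).trans ?_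
            gcongr
            exact abs_add_le _ _
      _ ≤ D2 * E + D * N * E + D * N * E := by
        simp only [abs_mul, abs_of_pos hN]
        gcongr
      _ = W := by rw [hW]; ring
  have r1 : |t i * t j * (dv n (dv n (chi x₀ ε)) x * hh x₀ n t N x
      + 2 * N * dv n (chi x₀ ε) x * hh x₀ n t N x)| ≤ W := by
    rw [abs_mul]
    calc _ ≤ 1 * W := mul_le_mul (hv t t ht ht i j) q1 (abs_nonneg _) zero_le_one
      _ = W := one_mul W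
  have r3 : |n i * n j * (dv t (dv t (chi x₀ ε)) x * hh x₀ n t N x
      + 2 * N * dv t (chi x₀ ε) x * kk x₀ n t N x)| ≤ W := by
    rw [abs_mul]
    calc _ ≤ 1 * W := mul_le_mul (hv n n hn hn i j) q3 (abs_nonneg _) zero_le_one
      _ = W := one_mul W
  have r2 : |(t i * n j + n i * t j) * (dv t (dv n (chi x₀ ε)) x * hh x₀ n t N x
      + dv n (chi x₀ ε) x * N * kk x₀ n t N x + dv t (chi x₀ ε) x * N * hh x₀ n t N x)|
      ≤ 2 * W := by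
    rw [abs_mul]
    have : |t i * n j + n i * t j| ≤ 2 := by
      calc _ ≤ _ := abs_add_le _ _
        _ ≤ 1 + 1 := add_le_add (hv t n ht hn i j) (hv n t hn ht i j)
        _ = 2 := by norm_num
    exact mul_le_mul this q2 (abs_nonneg _) (by norm_num)
  unfold sF
  rw [abs_mul, abs_neg, abs_of_nonneg (by positivity : 0 ≤ 2 * m / N)]
  calc _ ≤ 2 * m / N * (W + 2 * W + W) := by
        refine mul_le_mul_of_nonneg_left ?_ (by positivity)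
        refine (abs_add_le _ _).trans (add_le_add ?_ r3)
        exact (abs_sub _ _).trans (add_le_add r1 r2)
    _ = _ := by rw [hW]; field_simp; ring

end Crest.Agent.R080.Bdry
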