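import Crest.Agent.R080.Stmts2

/-!
Row 80 (S0107), T16a: boundary localization.
-/

set_option autoImplicit false

open MeasureTheory Filter
open scoped ContDiff Topology
open Crest.AnalysisR.VecCalc3 Crest.AnalysisR.PDE.Elasticity

noncomputable section
namespace Crest.Agent.R080

namespace BdryLoc

theorem isOpen_Omega (G : Dom) : IsOpen G.Ω := by
  rw [G.eq]; exact isOpen_lt G.smooth.continuous continuous_const

theorem rho_eq_zero_of_frontier (G : Dom) {x : R3} (hx : x ∈ frontier G.Ω) : G.rho x = 0 := by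
  rw [G.eq] at hx
  exact frontier_lt_subset_eq G.smooth.continuous continuous_const hx

/-- quotient of a smooth function by `F` on the set where it is supported -/
theorem contDiff_div_of_support {F φ : R3 → ℂ} (hF : ContDiff ℝ ∞ F) (hφ : ContDiff ℝ ∞ φ)
    (h : ∀ y ∈ tsupport φ, F y ≠ 0) : ContDiff ℝ ∞ fun y => φ y / F y := by
  rw [contDiff_iff_contDiffAt]
  intro y
  by_cases hy : y ∈ tsupport φ
  · simp only [div_eq_mul_inv]
    exact hφ.contDiffAt.mul (hF.contDiffAt.inv (h y hy))
  · have h0 : (fun y => φ y / F y) =ᶠ[𝓝 y] fun _ => 0 := by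
      have : (tsupport φ)ᶜ ∈ 𝓝 y := (isClosed_tsupport φ).isOpen_compl.mem_nhds hy
      filter_upwards [this] with z hz
      have : φ z = 0 := image_eq_zero_of_notMem_tsupport hz
      simp [this]
    exact (contDiffAt_const (c := (0 : ℂ))).congr_of_eventuallyEq h0

/-- the core: constancy of translated bump integrals -/
theorem core (G : Dom) (F : R3 → ℂ) (hF : ContDiff ℝ ∞ F) (x : R3) (hx : x ∈ frontier G.Ω)
    (e : R3) (he : 0 < fderiv ℝ G.rho x e)
    (h : ∀ χ : R3 → ℂ, ContDiff ℝ ∞ χ → HasCompactSupport χ →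
      ∫ y in G.Ω, fderiv ℝ (fun z => F z * χ z) y e = 0) : F x = 0 := by
  by_contra hFx
  have hρx : G.rho x = 0 := rho_eq_zero_of_frontier G hx
  -- the function t ↦ ρ (x + t e)
  have hder : HasDerivAt (fun t : ℝ => G.rho (x + t • e)) (fderiv ℝ G.rho x e) 0 := by
    have h1 : HasFDerivAt G.rho (fderiv ℝ G.rho x) (x + (0 : ℝ) • e) := by
      simpa using (G.smooth.differentiable (by simp)).differentiableAt.hasFDerivAt (x := x)
    have h2 : HasDerivAt (fun t : ℝ => x + t • e) e 0 := by
      simpa using ((hasDerivAt_id (0 : ℝ)).smul_const e).const_add x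
    exact h1.comp_hasDerivAt (0 : ℝ) h2
  -- small δ
  have hpos : ∀ᶠ t in 𝓝[>] (0 : ℝ), 0 < G.rho (x + t • e) := by
    have := (hasDerivAt_iff_tendsto_slope.1 hder).eventually (lt_mem_nhds he)
    have h3 : 𝓝[>] (0 : ℝ) ≤ 𝓝[≠] 0 := nhdsWithin_mono _ (fun t ht => ne_of_gt ht)
    filter_upwards [h3 this, self_mem_nhdsWithin] with t ht ht0
    have ht0' : (0 : ℝ) < t := ht0
    simp only [slope, vsub_eq_sub, sub_zero, smul_eq_mul, zero_smul, add_zero, hρx] at ht
    have := mul_pos ht0' ht
    rwa [← mul_assoc, mul_inv_cancel₀ ht0'.ne', one_mul] at this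
  have hneg : ∀ᶠ t in 𝓝[>] (0 : ℝ), G.rho (x - t • e) < 0 := by
    have := (hasDerivAt_iff_tendsto_slope.1 hder).eventually (lt_mem_nhds he)
    have h3 : 𝓝[<] (0 : ℝ) ≤ 𝓝[≠] 0 := nhdsWithin_mono _ (fun t ht => ne_of_lt ht)
    have h4 : ∀ᶠ t in 𝓝[<] (0 : ℝ), G.rho (x + t • e) < 0 := by
      filter_upwards [h3 this, self_mem_nhdsWithin] with t ht ht0
      have ht0' : t < 0 := ht0
      simp only [slope, vsub_eq_sub, sub_zero, smul_eq_mul, zero_smul, add_zero, hρx] at ht
      have := mul_neg_of_neg_of_pos ht0' ht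
      rwa [← mul_assoc, mul_inv_cancel₀ ht0'.ne, one_mul] at this
    have h5 : Tendsto (fun t : ℝ => -t) (𝓝[>] 0) (𝓝[<] 0) := by
      refine tendsto_nhdsWithin_of_tendsto_nhds_of_eventually_within _ ?_ ?_
      · have : Tendsto (fun t : ℝ => -t) (𝓝 0) (𝓝 (-0)) := tendsto_id.neg
        rw [neg_zero] at this
        exact this.mono_left nhdsWithin_le_nhds
      · filter_upwards [self_mem_nhdsWithin] with t ht
        have : (0:ℝ) < t := ht
        simpa using this
    filter_upwards [h5.eventually h4] with t ht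
    simpa [sub_eq_add_neg] using ht
  -- neighbourhood on which F ≠ 0
  obtain ⟨R, hR, hFR⟩ : ∃ R > 0, ∀ y ∈ Metric.ball x R, F y ≠ 0 :=
    Metric.eventually_nhds_iff_ball.1 (hF.continuous.continuousAt.eventually_ne hFx)
  have hsmall : ∀ᶠ t in 𝓝[>] (0 : ℝ), t * ‖e‖ < R / 2 := by
    have : Tendsto (fun t : ℝ => t * ‖e‖) (𝓝 0) (𝓝 (0 * ‖e‖)) := tendsto_id.mul_const _
    rw [zero_mul] at this
    exact (this.mono_left nhdsWithin_le_nhds).eventually (gt_mem_nhds (by positivity))
  obtain ⟨δ, ⟨⟨hδ1, hδ2⟩, hδ3⟩, hδ0⟩ :=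
    (((hpos.and hneg).and hsmall).and self_mem_nhdsWithin).exists
  have hδ0' : (0 : ℝ) < δ := hδ0
  -- small radius
  have hc1 : ∀ᶠ y in 𝓝 (x - δ • e), G.rho y < 0 :=
    G.smooth.continuous.continuousAt.eventually (gt_mem_nhds hδ2)
  have hc2 : ∀ᶠ y in 𝓝 (x + δ • e), 0 < G.rho y :=
    G.smooth.continuous.continuousAt.eventually (lt_mem_nhds hδ1)
  obtain ⟨r1, hr1, hb1⟩ := Metric.eventually_nhds_iff_ball.1 hc1
  obtain ⟨r2, hr2, hb2⟩ := Metric.eventually_nhds_iff_ball.1 hc2
  set r := min (min r1 r2) (R / 2) / 2 with hr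
  have hr0 : 0 < r := by positivity
  have hr1' : r < r1 := by
    have : min (min r1 r2) (R / 2) ≤ r1 := (min_le_left _ _).trans (min_le_left _ _)
    rw [hr]; linarith
  have hr2' : r < r2 := by
    have : min (min r1 r2) (R / 2) ≤ r2 := (min_le_left _ _).trans (min_le_right _ _)
    rw [hr]; linarith
  have hrR : r < R / 2 := by
    have : min (min r1 r2) (R / 2) ≤ R / 2 := min_le_right _ _
    rw [hr]; linarith
  set c := x - δ • e with hc
  let β : ContDiffBump c := ⟨r / 2, r, by positivity, by linarith⟩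
  have hβs : ContDiff ℝ ∞ (β : R3 → ℝ) := β.contDiff
  have hβsupp : tsupport (β : R3 → ℝ) = Metric.closedBall c r := β.tsupport_eq
  -- translated bumps
  set φ : ℝ → R3 → ℂ := fun t y => ((β (y - t • e) : ℝ) : ℂ) with hφ
  have hφs : ∀ t, ContDiff ℝ ∞ (φ t) := fun t =>
    Complex.ofRealCLM.contDiff.comp (hβs.comp (contDiff_id.sub contDiff_const))
  have hφzero : ∀ t y, r ≤ dist (y - t • e) c → φ t y = 0 := by
    intro t y hy
    simp only [hφ]
    rw [β.zero_of_le_dist hy]; simp
  have hφts : ∀ t, tsupport (φ t) ⊆ Metric.closedBall (c + t • e) r := by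
    intro t
    refine closure_minimal ?_ Metric.isClosed_closedBall
    intro y hy
    rw [Function.mem_support] at hy
    by_contra hyc
    rw [Metric.mem_closedBall, not_le] at hyc
    refine hy (hφzero t y ?_)
    have : dist (y - t • e) c = dist y (c + t • e) := by
      rw [dist_eq_norm, dist_eq_norm]; congr 1; abel
    rw [this]; exact hyc.le
  have hφc : ∀ t, HasCompactSupport (φ t) := fun t =>
    (isCompact_closedBall _ _).of_isClosed_subset (isClosed_tsupport _) (hφts t)
  have hballR : ∀ t ∈ Set.Icc (0 : ℝ) (2 * δ), Metric.closedBall (c + t • e) r ⊆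
      Metric.ball x R := by
    intro t ht y hy
    rw [Metric.mem_closedBall, dist_eq_norm] at hy
    rw [Metric.mem_ball, dist_eq_norm]
    have h1 : y - x = (y - (c + t • e)) + (t - δ) • e := by
      rw [hc, sub_smul]; abel
    rw [h1]
    have h2 : ‖(t - δ) • e‖ ≤ δ * ‖e‖ := by
      rw [norm_smul]
      refine mul_le_mul_of_nonneg_right ?_ (norm_nonneg _)
      rw [Real.norm_eq_abs, abs_le]
      constructor <;> linarith [ht.1, ht.2]
    calc ‖(y - (c + t • e)) + (t - δ) • e‖ ≤ ‖y - (c + t • e)‖ + ‖(t - δ) • e‖ := norm_add_le _ _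
      _ ≤ r + δ * ‖e‖ := add_le_add hy h2
      _ < R := by linarith
  -- the integral of the derivative vanishes
  have hzero : ∀ t ∈ Set.Icc (0 : ℝ) (2 * δ), ∫ y in G.Ω, fderiv ℝ (φ t) y e = 0 := by
    intro t ht
    have hne : ∀ y ∈ tsupport (φ t), F y ≠ 0 := fun y hy =>
      hFR y (hballR t ht (hφts t hy))
    have h1 := h (fun y => φ t y / F y) (contDiff_div_of_support hF (hφs t) hne) ?_
    · have h2 : (fun z => F z * (φ t z / F z)) = φ t := by
        funext z
        by_cases hz : F z = 0
        · have : φ t z = 0 := by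
            by_contra hne'
            exact hne z (subset_tsupport _ (Function.mem_support.2 hne')) hz
          rw [this]; simp
        · field_simp
      rw [h2] at h1
      exact h1
    · refine (hφc t).mono ?_
      intro z hz
      rw [Function.mem_support] at hz ⊢
      intro h0
      exact hz (by rw [h0, zero_div])
  -- H(t) = ∫_Ω φ_t
  set H : ℝ → ℂ := fun t => ∫ y in G.Ω, φ t y with hH
  have hmeas : MeasurableSet G.Ω := (isOpen_Omega G).measurableSet
  have hfin : volume G.Ω < ⊤ := G.bdd.measure_lt_top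
  have : IsFiniteMeasure (volume.restrict G.Ω) := ⟨by simpa using hfin⟩
  -- derivative bound
  obtain ⟨C, hC⟩ : ∃ C : ℝ, ∀ y, ‖fderiv ℝ (β : R3 → ℝ) y‖ ≤ C := by
    have h1 : Continuous (fderiv ℝ (β : R3 → ℝ)) := hβs.continuous_fderiv (by simp)
    have h2 : HasCompactSupport (fderiv ℝ (β : R3 → ℝ)) := β.hasCompactSupport.fderiv ℝ
    exact h2.exists_bound_of_continuous h1
  have hder1 : ∀ t y, HasDerivAt (fun t => φ t y) (-(fderiv ℝ (φ t) y e)) t := by
    intro t y
    have h1 : HasFDerivAt (fun z : R3 => ((β z : ℝ) : ℂ))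
        (Complex.ofRealCLM.comp (fderiv ℝ (β : R3 → ℝ) (y - t • e))) (y - t • e) := by
      exact Complex.ofRealCLM.hasFDerivAt.comp _
        ((hβs.differentiable (by simp)).differentiableAt.hasFDerivAt)
    have h2 : HasDerivAt (fun t : ℝ => y - t • e) (-e) t := by
      simpa using ((hasDerivAt_id t).smul_const e).const_sub y
    have h3 := h1.comp_hasDerivAt t h2
    have h4 : fderiv ℝ (φ t) y = Complex.ofRealCLM.comp (fderiv ℝ (β : R3 → ℝ) (y - t • e)) := by
      have h5 : HasFDerivAt (fun y : R3 => y - t • e) (ContinuousLinearMap.id ℝ R3) y :=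
        (hasFDerivAt_id y).sub_const _
      have h6 := (h1.comp y h5).fderiv
      simpa [hφ, Function.comp_def] using h6
    rw [h4]
    simpa [Function.comp_def] using h3
  have hHd : ∀ t, HasDerivAt H (∫ y in G.Ω, -(fderiv ℝ (φ t) y e)) t := by
    intro t
    refine (hasDerivAt_integral_of_dominated_loc_of_deriv_le (s := Set.univ)
      (F := fun t y => φ t y) (F' := fun t y => -(fderiv ℝ (φ t) y e))
      (bound := fun _ => C * ‖e‖) univ_mem ?_ ?_ ?_ ?_ ?_ ?_).2
    · exact Eventually.of_forall fun t => (hφs t).continuous.aestronglyMeasurable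
    · exact ((hφs t).continuous.integrable_of_hasCompactSupport (hφc t)).integrableOn
    · exact (((hφs t).continuous_fderiv (by simp)).clm_apply continuous_const).neg.aestronglyMeasurable
    · refine Eventually.of_forall fun y t _ => ?_
      have h4 : fderiv ℝ (φ t) y = Complex.ofRealCLM.comp (fderiv ℝ (β : R3 → ℝ) (y - t • e)) := by
        have h1 : HasFDerivAt (fun z : R3 => ((β z : ℝ) : ℂ))
          (Complex.ofRealCLM.comp (fderiv ℝ (β : R3 → ℝ) (y - t • e))) (y - t • e) := by
          exact Complex.ofRealCLM.hasFDerivAt.comp _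
            ((hβs.differentiable (by simp)).differentiableAt.hasFDerivAt)
        have h5 : HasFDerivAt (fun y : R3 => y - t • e) (ContinuousLinearMap.id ℝ R3) y :=
          (hasFDerivAt_id y).sub_const _
        have h6 := (h1.comp y h5).fderiv
        simpa [hφ, Function.comp_def] using h6
      rw [norm_neg, h4]
      simp only [ContinuousLinearMap.comp_apply, Complex.ofRealCLM_apply, Complex.norm_real]
      calc ‖fderiv ℝ (β : R3 → ℝ) (y - t • e) e‖ ≤ ‖fderiv ℝ (β : R3 → ℝ) (y - t • e)‖ * ‖e‖ :=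
            ContinuousLinearMap.le_opNorm _ _
        _ ≤ C * ‖e‖ := mul_le_mul_of_nonneg_right (hC _) (norm_nonneg _)
    · exact integrable_const _
    · exact Eventually.of_forall fun y t _ => hder1 t y
  -- H is constant on [0, 2δ]
  have hconst : H (2 * δ) = H 0 := by
    have hcont : ContinuousOn H (Set.Icc 0 (2 * δ)) := fun t _ =>
      (hHd t).continuousAt.continuousWithinAt
    refine constant_of_has_deriv_right_zero hcont ?_ (2 * δ) ⟨by positivity, le_rfl⟩
    intro t ht
    have := (hHd t).hasDerivWithinAt (s := Set.Ici t)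
    rwa [integral_neg, hzero t ⟨ht.1, ht.2.le⟩, neg_zero] at this
  -- H (2δ) = 0
  have hH2 : H (2 * δ) = 0 := by
    simp only [hH]
    refine setIntegral_eq_zero_of_forall_eq_zero fun y hy => ?_
    by_contra hne
    have hy' : y ∈ Metric.closedBall (c + (2 * δ) • e) r :=
      hφts _ (subset_tsupport _ (Function.mem_support.2 hne))
    have hce : c + (2 * δ) • e = x + δ • e := by
      rw [hc, two_mul, add_smul]; abel
    rw [hce] at hy'
    have h1 : 0 < G.rho y := hb2 y (Metric.closedBall_subset_ball hr2' hy')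
    have h2 : G.rho y < 0 := by
      have := hy; rw [G.eq] at this; exact this
    linarith
  -- H 0 ≠ 0
  have hH0 : H 0 ≠ 0 := by
    have h1 : H 0 = ((∫ y, β y : ℝ) : ℂ) := by
      simp only [hH, hφ, zero_smul, sub_zero]
      rw [integral_complex_ofReal]
      congr 1
      refine setIntegral_eq_integral_of_forall_compl_eq_zero fun y hy => ?_
      by_contra hne
      have hy' : y ∈ Metric.closedBall c r := by
        rw [← hβsupp]; exact subset_tsupport _ (Function.mem_support.2 hne)
      have : G.rho y < 0 := hb1 y (Metric.closedBall_subset_ball hr1' hy')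
      exact hy (by rw [G.eq]; exact this)
    rw [h1]
    have h2 : 0 < ∫ y, β y := β.integral_pos
    exact_mod_cast h2.ne'
  exact hH0 (by rw [← hconst, hH2])

end BdryLoc

theorem t_BdryLoc : StmtBdryLoc := by
  intro G F hF x hx e he h
  rcases lt_or_gt_of_ne he with hlt | hgt
  · refine BdryLoc.core G F hF x hx (-e) (by rw [map_neg]; linarith) ?_
    intro χ hχ hc
    have := h χ hχ hc
    simp only [map_neg]
    rw [integral_neg, this, neg_zero]
  · exact BdryLoc.core G F hF x hx e hgt h

end Crest.Agent.R080
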