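import Crest.Agent.R080.LameAlg
import Crest.Agent.R080.DomBasic

/-!
Row 80 (S0107), T11b: strain and divergence of the complex displacement fields `uU`, exact
expansion of the difference of the bilinear energies in `τ`.
-/

set_option autoImplicit false

open MeasureTheory Filter
open scoped ContDiff Topology
open Crest.AnalysisR.VecCalc3 Crest.AnalysisR.PDE.Elasticity

noncomputable section
namespace Crest.Agent.R080

namespace La

theorem diffAt_of {f : R3 → ℂ} (hf : ContDiff ℝ ∞ f) (x : R3) : DifferentiableAt ℝ f x :=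
  (hf.differentiable (by simp)) x

theorem contDiff_dispU (P : Moduli) (θ : Fin 3 → ℂ) (τ : ℂ) (U : Option (Fin 3) → R3 → ℂ)
    (hU : ∀ i, ContDiff ℝ ∞ (U i)) (i : Fin 3) : ContDiff ℝ ∞ (dispU P θ τ U i) := by
  unfold dispU
  exact ((hU _).add ((contDiff_cf (smooth_m P)).mul
    ((contDiff_pd_infty (hU none) i).add ((contDiff_const).mul (hU none))))).sub
    ((hU none).mul (contDiff_pd_infty (contDiff_cf (smooth_m P)) i))

theorem contDiff_uU (P : Moduli) (θ : Fin 3 → ℂ) (τ : ℂ) (U : Option (Fin 3) → R3 → ℂ)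
    (hU : ∀ i, ContDiff ℝ ∞ (U i)) (i : Fin 3) : ContDiff ℝ ∞ (uU P θ τ U i) :=
  (smooth_expo θ τ).mul (contDiff_dispU P θ τ U hU i)

/-- derivatives of `dispU` -/
theorem pd_dispU (P : Moduli) (θ : Fin 3 → ℂ) (τ : ℂ) (U : Option (Fin 3) → R3 → ℂ)
    (hU : ∀ i, ContDiff ℝ ∞ (U i)) (i j : Fin 3) (x : R3) :
    pd j (dispU P θ τ U i) x = pd j (U (some i)) x
      + (pd j (cf P.m) x * (pd i (U none) x + τ * θ i * U none x)
        + (P.m x : ℂ) * (pd j (pd i (U none)) x + τ * θ i * pd j (U none) x))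
      - (pd j (U none) x * pd i (cf P.m) x + U none x * pd j (pd i (cf P.m)) x) := by
  have h0 := hU none
  have h1 := contDiff_pd_infty h0 i
  have hm : ContDiff ℝ ∞ (cf P.m) := contDiff_cf (smooth_m P)
  have hm1 := contDiff_pd_infty hm i
  have h2 : ContDiff ℝ ∞ (fun y => τ * θ i * U none y) := contDiff_const.mul h0
  have h3 : ContDiff ℝ ∞ (fun y => pd i (U none) y + τ * θ i * U none y) := h1.add h2
  have h4 : ContDiff ℝ ∞ (fun y => cf P.m y * (pd i (U none) y + τ * θ i * U none y)) := hm.mul h3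
  have h5 : ContDiff ℝ ∞ (fun y => U (some i) y
      + cf P.m y * (pd i (U none) y + τ * θ i * U none y)) := (hU _).add h4
  have h6 : ContDiff ℝ ∞ (fun y => U none y * pd i (cf P.m) y) := h0.mul hm1
  have e : dispU P θ τ U i = fun y => (U (some i) y
      + cf P.m y * (pd i (U none) y + τ * θ i * U none y)) - U none y * pd i (cf P.m) y := rfl
  rw [e, pd_sub (diffAt_of h5 x) (diffAt_of h6 x), pd_add (diffAt_of (hU _) x) (diffAt_of h4 x),
    pd_mul (diffAt_of hm x) (diffAt_of h3 x), pd_add (diffAt_of h1 x) (diffAt_of h2 x),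
    pd_const_mul _ (diffAt_of h0 x), pd_mul (diffAt_of h0 x) (diffAt_of hm1 x)]

theorem pd_uU (P : Moduli) (θ : Fin 3 → ℂ) (τ : ℂ) (U : Option (Fin 3) → R3 → ℂ)
    (hU : ∀ i, ContDiff ℝ ∞ (U i)) (i j : Fin 3) (x : R3) :
    pd j (uU P θ τ U i) x = expo θ τ x * (pd j (dispU P θ τ U i) x
      + τ * θ j * dispU P θ τ U i x) :=
  pd_expo_mul θ τ _ j x (diffAt_of (contDiff_dispU P θ τ U hU i) x)

theorem strain_uU (P : Moduli) (θ : Fin 3 → ℂ) (τ : ℂ) (U : Option (Fin 3) → R3 → ℂ)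
    (hU : ∀ i, ContDiff ℝ ∞ (U i)) (i j : Fin 3) (x : R3) :
    strain (uU P θ τ U) i j x
      = expo θ τ x * (τ ^ 2 * E0 P θ U i j x + τ * E1 P θ U i j x + E2 P U i j x) := by
  unfold strain
  rw [pd_uU P θ τ U hU, pd_uU P θ τ U hU, pd_dispU P θ τ U hU, pd_dispU P θ τ U hU,
    pd_comm ((hU none).of_le (by norm_cast)) j i,
    pd_comm ((contDiff_cf (smooth_m P)).of_le (by norm_cast)) j i]
  unfold dispU E0 E1 E2
  ring

theorem divg_uU (P : Moduli) (θ : Fin 3 → ℂ) (hθ : ∑ j, θ j ^ 2 = 0) (τ : ℂ)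
    (U : Option (Fin 3) → R3 → ℂ) (hU : ∀ i, ContDiff ℝ ∞ (U i)) (x : R3) :
    divg (uU P θ τ U) x = expo θ τ x * (τ * S1 P θ U x + S2 P U x) := by
  unfold divg
  simp only [pd_uU P θ τ U hU, pd_dispU P θ τ U hU, Fin.sum_univ_three] at hθ ⊢
  unfold dispU S1 S2 DD Lap
  simp only [Fin.sum_univ_three]
  linear_combination expo θ τ x * τ ^ 2 * (P.m x : ℂ) * U none x * hθ

theorem expo_mul_expo_neg (θ : Fin 3 → ℂ) (τ : ℂ) (x : R3) :
    expo θ τ x * expo θ (-τ) x = 1 := by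
  unfold expo
  rw [← Complex.exp_add, neg_mul, add_neg_cancel, Complex.exp_zero]

/-- the τ-expansion of the pairing of the strains -/
theorem strain_pair (P₁ P₂ : Moduli) (θ : Fin 3 → ℂ) (hθ : ∑ j, θ j ^ 2 = 0) (τ : ℂ)
    (U V : Option (Fin 3) → R3 → ℂ) (x : R3) :
    ∑ i, ∑ j, (τ ^ 2 * E0 P₁ θ U i j x + τ * E1 P₁ θ U i j x + E2 P₁ U i j x)
        * ((-τ) ^ 2 * E0 P₂ θ V i j x + -τ * E1 P₂ θ V i j x + E2 P₂ V i j x)
      = τ ^ 2 * ∑ i, ∑ j, (E0 P₁ θ U i j x * E2 P₂ V i j x + E2 P₁ U i j x * E0 P₂ θ V i j x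
          - E1 P₁ θ U i j x * E1 P₂ θ V i j x)
        + τ * ∑ i, ∑ j, (E1 P₁ θ U i j x * E2 P₂ V i j x - E2 P₁ U i j x * E1 P₂ θ V i j x)
        + ∑ i, ∑ j, E2 P₁ U i j x * E2 P₂ V i j x := by
  have h00 : ∑ i, ∑ j, E0 P₁ θ U i j x * E0 P₂ θ V i j x = 0 := by
    unfold E0
    simp only [Fin.sum_univ_three] at hθ ⊢
    linear_combination (P₁.m x : ℂ) * U none x * (P₂.m x : ℂ) * V none x
      * (θ 0 ^ 2 + θ 1 ^ 2 + θ 2 ^ 2) * hθ
  have h01 : ∀ (c : ℂ) (a : Fin 3 → ℂ), ∑ i, ∑ j, (c * θ i * θ j) * ((θ i * a j + θ j * a i) / 2)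
      = 0 := by
    intro c a
    simp only [Fin.sum_univ_three] at hθ ⊢
    linear_combination c * (θ 0 * a 0 + θ 1 * a 1 + θ 2 * a 2) * hθ
  have hA : ∑ i, ∑ j, E0 P₁ θ U i j x * E1 P₂ θ V i j x = 0 :=
    h01 ((P₁.m x : ℂ) * U none x) fun j => V (some j) x + 2 * (P₂.m x : ℂ) * pd j (V none) x
  have hB : ∑ i, ∑ j, E1 P₁ θ U i j x * E0 P₂ θ V i j x = 0 := by
    rw [← h01 ((P₂.m x : ℂ) * V none x) fun j => U (some j) x + 2 * (P₁.m x : ℂ) * pd j (U none) x]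
    refine Finset.sum_congr rfl fun i _ => Finset.sum_congr rfl fun j _ => ?_
    unfold E0 E1; ring
  have key : ∀ i j, (τ ^ 2 * E0 P₁ θ U i j x + τ * E1 P₁ θ U i j x + E2 P₁ U i j x)
        * ((-τ) ^ 2 * E0 P₂ θ V i j x + -τ * E1 P₂ θ V i j x + E2 P₂ V i j x)
      = τ ^ 4 * (E0 P₁ θ U i j x * E0 P₂ θ V i j x) - τ ^ 3 * (E0 P₁ θ U i j x * E1 P₂ θ V i j x)
        + τ ^ 3 * (E1 P₁ θ U i j x * E0 P₂ θ V i j x)
        + τ ^ 2 * (E0 P₁ θ U i j x * E2 P₂ V i j x + E2 P₁ U i j x * E0 P₂ θ V i j x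
          - E1 P₁ θ U i j x * E1 P₂ θ V i j x)
        + τ * (E1 P₁ θ U i j x * E2 P₂ V i j x - E2 P₁ U i j x * E1 P₂ θ V i j x)
        + E2 P₁ U i j x * E2 P₂ V i j x := by
    intro i j; ring
  simp only [key, Finset.sum_add_distrib, Finset.sum_sub_distrib, ← Finset.mul_sum] at *
  rw [h00, hA, hB]
  ring

theorem continuous_strain {u : Fin 3 → R3 → ℂ} (hu : ∀ i, ContDiff ℝ 1 (u i)) (i j : Fin 3) :
    Continuous (strain u i j) := by
  unfold strain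
  exact ((continuous_pd (hu j) i).add (continuous_pd (hu i) j)).div_const 2

theorem continuous_divg {u : Fin 3 → R3 → ℂ} (hu : ∀ i, ContDiff ℝ 1 (u i)) :
    Continuous (divg u) := by
  unfold divg
  exact continuous_finsetSum _ fun i _ => continuous_pd (hu i) i

theorem continuous_BE_integrand (P : Moduli) {u v : Fin 3 → R3 → ℂ}
    (hu : ∀ i, ContDiff ℝ 1 (u i)) (hv : ∀ i, ContDiff ℝ 1 (v i)) :
    Continuous fun x => ((P.lam x : ℂ) * divg u x * divg v x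
      + 2 * (P.mu x : ℂ) * ∑ i, ∑ j, strain u i j x * strain v i j x) := by
  have h1 : Continuous fun x => (P.lam x : ℂ) :=
    Complex.continuous_ofReal.comp P.smooth_lam.continuous
  have h2 : Continuous fun x => (P.mu x : ℂ) :=
    Complex.continuous_ofReal.comp P.smooth_mu.continuous
  refine ((h1.mul (continuous_divg hu)).mul (continuous_divg hv)).add
    ((continuous_const.mul h2).mul ?_)
  exact continuous_finsetSum _ fun i _ => continuous_finsetSum _ fun j _ =>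
    (continuous_strain hu i j).mul (continuous_strain hv i j)

end La

/-- T11b -/
theorem t_Bilin : StmtBilin := by
  intro G P₁ P₂ θ hθ τ U V hU hV
  have hu : ∀ i, ContDiff ℝ 1 (uU P₁ θ τ U i) := fun i =>
    (La.contDiff_uU P₁ θ τ U hU i).of_le (by norm_cast)
  have hv : ∀ i, ContDiff ℝ 1 (uU P₂ θ (-τ) V i) := fun i =>
    (La.contDiff_uU P₂ θ (-τ) V hV i).of_le (by norm_cast)
  unfold BE
  rw [← integral_sub (DB.integrableOn' G (La.continuous_BE_integrand P₁ hu hv))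
    (DB.integrableOn' G (La.continuous_BE_integrand P₂ hu hv))]
  congr 1
  funext x
  have he := La.expo_mul_expo_neg θ τ x
  rw [La.divg_uU P₁ θ hθ.2 τ U hU, La.divg_uU P₂ θ hθ.2 (-τ) V hV]
  simp only [La.strain_uU P₁ θ τ U hU, La.strain_uU P₂ θ (-τ) V hV]
  have hs : ∑ i, ∑ j, expo θ τ x * (τ ^ 2 * E0 P₁ θ U i j x + τ * E1 P₁ θ U i j x
        + E2 P₁ U i j x) * (expo θ (-τ) x * ((-τ) ^ 2 * E0 P₂ θ V i j x + -τ * E1 P₂ θ V i j x
        + E2 P₂ V i j x))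
      = ∑ i, ∑ j, (τ ^ 2 * E0 P₁ θ U i j x + τ * E1 P₁ θ U i j x + E2 P₁ U i j x)
        * ((-τ) ^ 2 * E0 P₂ θ V i j x + -τ * E1 P₂ θ V i j x + E2 P₂ V i j x) := by
    refine Finset.sum_congr rfl fun i _ => Finset.sum_congr rfl fun j _ => ?_
    linear_combination ((τ ^ 2 * E0 P₁ θ U i j x + τ * E1 P₁ θ U i j x + E2 P₁ U i j x)
        * ((-τ) ^ 2 * E0 P₂ θ V i j x + -τ * E1 P₂ θ V i j x + E2 P₂ V i j x)) * he
  rw [hs, La.strain_pair P₁ P₂ θ hθ.2 τ U V x]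
  unfold q2 q1 q0 dlam dmu
  linear_combination (((P₁.lam x : ℂ) - (P₂.lam x : ℂ)) * (τ * S1 P₁ θ U x + S2 P₁ U x)
    * (-τ * S1 P₂ θ V x + S2 P₂ V x)) * he

end Crest.Agent.R080
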