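import Crest.Agent.R080.Stmts2

/-!
Row 80 (S0107): elementary calculus of the partial derivatives `pd` of complex functions on `R3`:
algebra rules, symmetry of second derivatives, integration by parts, energy identities.
-/

set_option autoImplicit false

open MeasureTheory Filter
open scoped ContDiff Topology ComplexConjugate
open Crest.AnalysisR.VecCalc3 Crest.AnalysisR.PDE.Elasticity

noncomputable section
namespace Crest.Agent.R080.Calc

variable {f g : R3 → ℂ} {x : R3}

lemma contDiff_pd {n m : ℕ∞ω} (hf : ContDiff ℝ n f) (h : m + 1 ≤ n) (j : Fin 3) :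
    ContDiff ℝ m (pd j f) :=
  (hf.fderiv_right h).clm_apply contDiff_const

lemma smooth_pd (hf : ContDiff ℝ ∞ f) (j : Fin 3) : ContDiff ℝ ∞ (pd j f) :=
  contDiff_pd hf (by simp) j

lemma smooth_Lap (hf : ContDiff ℝ ∞ f) : ContDiff ℝ ∞ (Lap f) := by
  unfold Lap
  exact ContDiff.sum (fun j _ => smooth_pd (smooth_pd hf j) j)

lemma continuous_pd (hf : ContDiff ℝ 1 f) (j : Fin 3) : Continuous (pd j f) :=
  (contDiff_pd (m := 0) hf (by simp) j).continuous

lemma pd_add (hf : DifferentiableAt ℝ f x) (hg : DifferentiableAt ℝ g x) (j : Fin 3) :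
    pd j (fun y => f y + g y) x = pd j f x + pd j g x := by
  unfold pd
  rw [fderiv_fun_add hf hg]
  rfl

lemma pd_sub (hf : DifferentiableAt ℝ f x) (hg : DifferentiableAt ℝ g x) (j : Fin 3) :
    pd j (fun y => f y - g y) x = pd j f x - pd j g x := by
  unfold pd
  rw [fderiv_fun_sub hf hg]
  rfl

lemma pd_neg (j : Fin 3) : pd j (fun y => - f y) x = - pd j f x := by
  unfold pd
  rw [fderiv_fun_neg]
  rfl

lemma pd_mul (hf : DifferentiableAt ℝ f x) (hg : DifferentiableAt ℝ g x) (j : Fin 3) :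
    pd j (fun y => f y * g y) x = pd j f x * g x + f x * pd j g x := by
  unfold pd
  rw [fderiv_fun_mul hf hg]
  simp only [add_apply, smul_apply, smul_eq_mul]
  ring

lemma pd_const (c : ℂ) (j : Fin 3) : pd j (fun _ => c) x = 0 := by
  unfold pd
  rw [fderiv_fun_const]
  rfl

lemma pd_const_mul (c : ℂ) (hf : DifferentiableAt ℝ f x) (j : Fin 3) :
    pd j (fun y => c * f y) x = c * pd j f x := by
  rw [pd_mul (differentiableAt_const c) hf, pd_const]
  ring

lemma pd_sum {ι : Type*} (s : Finset ι) (F : ι → R3 → ℂ)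
    (h : ∀ i ∈ s, DifferentiableAt ℝ (F i) x) (j : Fin 3) :
    pd j (fun y => ∑ i ∈ s, F i y) x = ∑ i ∈ s, pd j (F i) x := by
  unfold pd
  rw [fderiv_fun_sum h]
  simp

lemma pd_conj (j : Fin 3) : pd j (fun y => conj (f y)) x = conj (pd j f x) := by
  unfold pd
  have : (fun y => conj (f y)) = (Complex.conjCLE ∘ f) := by
    funext y
    simp
  rw [this, ContinuousLinearEquiv.comp_fderiv]
  simp

lemma pd_congr (h : f =ᶠ[𝓝 x] g) (j : Fin 3) : pd j f x = pd j g x := by
  unfold pd
  rw [h.fderiv_eq]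

lemma smooth_conj {n : ℕ∞ω} (hf : ContDiff ℝ n f) : ContDiff ℝ n (fun y => conj (f y)) :=
  Complex.conjCLE.contDiff.comp hf

/-- symmetry of the second derivatives -/
lemma pd_comm (hf : ContDiff ℝ 2 f) (j k : Fin 3) (x : R3) :
    pd j (pd k f) x = pd k (pd j f) x := by
  have hs : IsSymmSndFDerivAt ℝ f x :=
    hf.contDiffAt.isSymmSndFDerivAt (by simp)
  have hd : DifferentiableAt ℝ (fderiv ℝ f) x :=
    (hf.fderiv_right (m := 1) (by norm_num)).differentiable (by norm_num) x
  have key : ∀ a b : Fin 3, pd a (pd b f) x = fderiv ℝ (fderiv ℝ f) x (ee a) (ee b) := by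
    intro a b
    unfold pd
    rw [fderiv_clm_apply hd (differentiableAt_const _)]
    simp
  rw [key, key]
  exact hs.eq _ _

lemma hasCompactSupport_pd (hf : HasCompactSupport f) (j : Fin 3) :
    HasCompactSupport (pd j f) :=
  hf.fderiv_apply (𝕜 := ℝ) (ee j)

lemma pd_eq_zero_of_notMem_tsupport (h : x ∉ tsupport f) (j : Fin 3) : pd j f x = 0 := by
  have h1 : f =ᶠ[𝓝 x] (fun _ => 0) := notMem_tsupport_iff_eventuallyEq.mp h
  rw [pd_congr h1, pd_const]

/-- integration by parts; one of the two functions has compact support -/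
lemma ibp_right (hf : ContDiff ℝ 1 f) (hg : ContDiff ℝ 1 g) (hc : HasCompactSupport g)
    (j : Fin 3) : ∫ x, pd j f x * g x = -∫ x, f x * pd j g x := by
  have h := integral_mul_fderiv_eq_neg_fderiv_mul_of_integrable (μ := (volume : Measure R3))
    (f := f) (g := g) (v := ee j) ?_ ?_ ?_ ?_ ?_
  · have h2 : ∫ x, pd j f x * g x = ∫ x, fderiv ℝ f x (ee j) * g x := rfl
    rw [h2]
    have h3 : ∫ x, f x * pd j g x = ∫ x, f x * fderiv ℝ g x (ee j) := rfl
    rw [h3, h]
    ring
  · exact ((continuous_pd hf j).mul hg.continuous).integrable_of_hasCompactSupport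
      (hc.mul_left)
  · exact (hf.continuous.mul (continuous_pd hg j)).integrable_of_hasCompactSupport
      ((hasCompactSupport_pd hc j).mul_left)
  · exact (hf.continuous.mul hg.continuous).integrable_of_hasCompactSupport hc.mul_left
  · intro x _
    exact hf.differentiable (by norm_num) x
  · intro x _
    exact hg.differentiable (by norm_num) x

lemma ibp_left (hf : ContDiff ℝ 1 f) (hg : ContDiff ℝ 1 g) (hc : HasCompactSupport f)
    (j : Fin 3) : ∫ x, pd j f x * g x = -∫ x, f x * pd j g x := by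
  have h := ibp_right hg hf hc j
  have h1 : ∫ x, pd j f x * g x = ∫ x, g x * pd j f x := by
    congr 1; funext x; ring
  have h2 : ∫ x, f x * pd j g x = ∫ x, pd j g x * f x := by
    congr 1; funext x; ring
  rw [h1, h2, h]
  ring

/-- `∫ |∇u|² = - ∫ Δu ū` -/
lemma energy_one {u : R3 → ℂ} (hu : ContDiff ℝ ∞ u) (hc : HasCompactSupport u) :
    ∫ x, ∑ j, ((‖pd j u x‖ ^ 2 : ℝ) : ℂ) = -∫ x, Lap u x * conj (u x) := by
  have hcc : HasCompactSupport (fun x => conj (u x)) :=
    hc.comp_left (g := fun z : ℂ => conj z) (by simp)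
  have h1 : ∀ j, ∫ x, ((‖pd j u x‖ ^ 2 : ℝ) : ℂ) = -∫ x, pd j (pd j u) x * conj (u x) := by
    intro j
    have e1 : ∫ x, pd j (pd j u) x * conj (u x) =
        -∫ x, pd j u x * pd j (fun y => conj (u y)) x :=
      ibp_right ((smooth_pd hu j).of_le (by exact_mod_cast le_top))
        ((smooth_conj hu).of_le (by exact_mod_cast le_top)) hcc j
    rw [e1, neg_neg]
    congr 1
    funext x
    rw [pd_conj, Complex.mul_conj, Complex.normSq_eq_norm_sq]
  have hint : ∀ j, Integrable (fun x => ((‖pd j u x‖ ^ 2 : ℝ) : ℂ)) := by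
    intro j
    apply Continuous.integrable_of_hasCompactSupport
    · exact Complex.continuous_ofReal.comp
        (((smooth_pd hu j).continuous.norm).pow 2)
    · exact (hasCompactSupport_pd hc j).comp_left (g := fun z : ℂ => ((‖z‖ ^ 2 : ℝ) : ℂ))
        (by simp)
  have hint2 : ∀ j, Integrable (fun x => pd j (pd j u) x * conj (u x)) := by
    intro j
    apply Continuous.integrable_of_hasCompactSupport
    · exact (smooth_pd (smooth_pd hu j) j).continuous.mul (smooth_conj hu).continuous
    · exact hcc.mul_left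
  rw [integral_finsetSum _ (fun j _ => hint j)]
  simp_rw [h1]
  rw [Finset.sum_neg_distrib, ← integral_finsetSum _ (fun j _ => hint2 j)]
  congr 1
  apply integral_congr_ae
  filter_upwards with x
  unfold Lap
  rw [Finset.sum_mul]

/-- `∫ ∂_j∂_k u conj(∂_j∂_k v) = ∫ ∂_k∂_k u conj(∂_j∂_j v)` -/
lemma hess_swap {u : R3 → ℂ} (hu : ContDiff ℝ ∞ u) (hc : HasCompactSupport u) (j k : Fin 3) :
    ∫ x, pd j (pd k u) x * conj (pd j (pd k u) x)
      = ∫ x, pd k (pd k u) x * conj (pd j (pd j u) x) := by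
  have le1 : (1 : ℕ∞ω) ≤ ∞ := by exact_mod_cast le_top
  have le2 : (2 : ℕ∞ω) ≤ ∞ := ENat.LEInfty.out
  have sk := smooth_pd hu k
  have sj := smooth_pd hu j
  have sjk := smooth_pd sk j
  have sjj := smooth_pd sj j
  have e1 : ∫ x, pd j (pd k u) x * conj (pd j (pd k u) x)
      = -∫ x, pd k u x * pd j (fun y => conj (pd j (pd k u) y)) x :=
    ibp_left (sk.of_le le1) ((smooth_conj sjk).of_le le1) (hasCompactSupport_pd hc k) j
  have e2 : ∫ x, pd k (pd k u) x * conj (pd j (pd j u) x)
      = -∫ x, pd k u x * pd k (fun y => conj (pd j (pd j u) y)) x :=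
    ibp_left (sk.of_le le1) ((smooth_conj sjj).of_le le1) (hasCompactSupport_pd hc k) k
  rw [e1, e2]
  congr 1
  congr 1
  funext x
  rw [pd_conj, pd_conj]
  have h1 : pd j (pd k u) = pd k (pd j u) := by
    funext y
    exact pd_comm (hu.of_le le2) j k y
  rw [h1, pd_comm (sj.of_le le2) j k x]

/-- `∫ |∇²u|² = ∫ |Δu|²` -/
lemma energy_two {u : R3 → ℂ} (hu : ContDiff ℝ ∞ u) (hc : HasCompactSupport u) :
    ∫ x, ∑ j, ∑ k, ‖pd j (pd k u) x‖ ^ 2 = ∫ x, ‖Lap u x‖ ^ 2 := by
  have hcs : ∀ j k, HasCompactSupport (pd j (pd k u)) :=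
    fun j k => hasCompactSupport_pd (hasCompactSupport_pd hc k) j
  have hcont : ∀ j k, Continuous (pd j (pd k u)) :=
    fun j k => (smooth_pd (smooth_pd hu k) j).continuous
  have hint : ∀ j k j' k', Integrable (fun x => pd j (pd k u) x * conj (pd j' (pd k' u) x)) := by
    intro j k j' k'
    apply Continuous.integrable_of_hasCompactSupport
    · exact (hcont j k).mul (Complex.continuous_conj.comp (hcont j' k'))
    · exact (hcs j k).mul_right
  have h1 : ∀ x, ((∑ j, ∑ k, ‖pd j (pd k u) x‖ ^ 2 : ℝ) : ℂ)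
      = ∑ j, ∑ k, pd j (pd k u) x * conj (pd j (pd k u) x) := by
    intro x
    push_cast
    apply Finset.sum_congr rfl
    intro j _
    apply Finset.sum_congr rfl
    intro k _
    rw [Complex.mul_conj, Complex.normSq_eq_norm_sq]
    push_cast
    rfl
  have h2 : ∀ x, ((‖Lap u x‖ ^ 2 : ℝ) : ℂ)
      = ∑ j, ∑ k, pd k (pd k u) x * conj (pd j (pd j u) x) := by
    intro x
    have : ((‖Lap u x‖ ^ 2 : ℝ) : ℂ) = Lap u x * conj (Lap u x) := by
      rw [Complex.mul_conj, Complex.normSq_eq_norm_sq]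
    rw [this]
    unfold Lap
    rw [map_sum, Finset.sum_mul_sum, Finset.sum_comm]
  have key : ((∫ x, ∑ j, ∑ k, ‖pd j (pd k u) x‖ ^ 2 : ℝ) : ℂ)
      = ((∫ x, ‖Lap u x‖ ^ 2 : ℝ) : ℂ) := by
    rw [← integral_complex_ofReal, ← integral_complex_ofReal]
    simp_rw [h1, h2]
    rw [integral_finsetSum _ (fun j _ => integrable_finsetSum _ (fun k _ => hint j k j k)),
      integral_finsetSum _ (fun j _ => integrable_finsetSum _ (fun k _ => hint k k j j))]
    apply Finset.sum_congr rfl
    intro j _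
    rw [integral_finsetSum _ (fun k _ => hint j k j k),
      integral_finsetSum _ (fun k _ => hint k k j j)]
    apply Finset.sum_congr rfl
    intro k _
    exact hess_swap hu hc j k
  exact_mod_cast key

/-- Laplacian of a product -/
lemma Lap_mul (hf : ContDiff ℝ ∞ f) (hg : ContDiff ℝ ∞ g) (x : R3) :
    Lap (fun y => f y * g y) x
      = Lap f x * g x + 2 * ∑ j, pd j f x * pd j g x + f x * Lap g x := by
  have le1 : (∞ : ℕ∞ω) ≠ 0 := by simp
  have hfd : Differentiable ℝ f := hf.differentiable le1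
  have hgd : Differentiable ℝ g := hg.differentiable le1
  unfold Lap
  have h1 : ∀ j, pd j (fun y => f y * g y) = fun y => pd j f y * g y + f y * pd j g y := by
    intro j
    funext y
    exact pd_mul (hfd y) (hgd y) j
  have h2 : ∀ j, pd j (pd j (fun y => f y * g y)) x =
      pd j (pd j f) x * g x + 2 * (pd j f x * pd j g x) + f x * pd j (pd j g) x := by
    intro j
    have dfj : DifferentiableAt ℝ (pd j f) x := (smooth_pd hf j).differentiable le1 x
    have dgj : DifferentiableAt ℝ (pd j g) x := (smooth_pd hg j).differentiable le1 x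
    rw [h1, pd_add (f := fun y => pd j f y * g y) (g := fun y => f y * pd j g y)
      (dfj.mul (hgd x)) ((hfd x).mul dgj), pd_mul dfj (hgd x), pd_mul (hfd x) dgj]
    ring
  simp_rw [h2]
  rw [Finset.sum_add_distrib, Finset.sum_add_distrib, Finset.sum_mul, Finset.mul_sum,
    Finset.mul_sum]

end Crest.Agent.R080.Calc
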