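import Crest.Agent.R080.Stmts2

/-!
Row 80 (S0107): calculus of `pd` and `DD`, smoothness of the moduli functions, algebra of the
spinor parametrization.
-/

set_option autoImplicit false

open MeasureTheory Filter
open scoped ContDiff Topology
open Crest.AnalysisR.VecCalc3 Crest.AnalysisR.PDE.Elasticity

noncomputable section
namespace Crest.Agent.R080
namespace CalcA

/-! ### smoothness -/

theorem contDiff_pd_of {n : WithTop ℕ∞} {f : R3 → ℂ} (hf : ContDiff ℝ (n + 1) f) (j : Fin 3) :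
    ContDiff ℝ n (pd j f) :=
  (hf.fderiv_right (m := n) le_rfl).clm_apply contDiff_const

theorem contDiff_pd {f : R3 → ℂ} (hf : ContDiff ℝ ∞ f) (j : Fin 3) : ContDiff ℝ ∞ (pd j f) :=
  (hf.fderiv_right (m := ∞) (by simp)).clm_apply contDiff_const

theorem contDiff_DD {f : R3 → ℂ} (hf : ContDiff ℝ ∞ f) (θ : Fin 3 → ℂ) :
    ContDiff ℝ ∞ (DD θ f) := by
  unfold DD
  exact ContDiff.sum fun j _ => contDiff_const.mul (contDiff_pd hf j)

theorem contDiff_Lap {f : R3 → ℂ} (hf : ContDiff ℝ ∞ f) : ContDiff ℝ ∞ (Lap f) := by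
  unfold Lap
  exact ContDiff.sum fun j _ => contDiff_pd (contDiff_pd hf j) j

theorem diffAt {f : R3 → ℂ} (hf : ContDiff ℝ ∞ f) (x : R3) :
    DifferentiableAt ℝ f x := (hf.differentiable (by simp)) x

theorem contDiff_cf {f : R3 → ℝ} {n : WithTop ℕ∞} (hf : ContDiff ℝ n f) : ContDiff ℝ n (cf f) :=
  Complex.ofRealCLM.contDiff.comp hf

/-! ### derivative rules (pointwise) -/

theorem pd_add_at {f g : R3 → ℂ} {x : R3} (hf : DifferentiableAt ℝ f x)
    (hg : DifferentiableAt ℝ g x) (j : Fin 3) :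
    pd j (fun y => f y + g y) x = pd j f x + pd j g x := by
  simp only [pd]
  rw [show (fun y => f y + g y) = f + g from rfl, fderiv_add hf hg]
  rfl

theorem pd_sub_at {f g : R3 → ℂ} {x : R3} (hf : DifferentiableAt ℝ f x)
    (hg : DifferentiableAt ℝ g x) (j : Fin 3) :
    pd j (fun y => f y - g y) x = pd j f x - pd j g x := by
  simp only [pd]
  rw [show (fun y => f y - g y) = f - g from rfl, fderiv_sub hf hg]
  rfl

theorem pd_neg (f : R3 → ℂ) (x : R3) (j : Fin 3) :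
    pd j (fun y => -f y) x = -pd j f x := by
  simp only [pd]
  rw [show (fun y => -f y) = -f from rfl, fderiv_neg]
  rfl

theorem pd_const (c : ℂ) (x : R3) (j : Fin 3) : pd j (fun _ => c) x = 0 := by
  simp [pd]

theorem pd_mul_at {f g : R3 → ℂ} {x : R3} (hf : DifferentiableAt ℝ f x)
    (hg : DifferentiableAt ℝ g x) (j : Fin 3) :
    pd j (fun y => f y * g y) x = pd j f x * g x + f x * pd j g x := by
  simp only [pd]
  rw [show (fun y => f y * g y) = f * g from rfl, fderiv_mul hf hg]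
  simp only [_root_.add_apply, _root_.smul_apply, smul_eq_mul]
  ring

theorem pd_const_mul_at {f : R3 → ℂ} {x : R3} (c : ℂ) (hf : DifferentiableAt ℝ f x) (j : Fin 3) :
    pd j (fun y => c * f y) x = c * pd j f x := by
  rw [pd_mul_at (differentiableAt_const c) hf, pd_const]
  ring

theorem pd_sum_at {ι : Type*} (s : Finset ι) {f : ι → R3 → ℂ} {x : R3}
    (hf : ∀ i ∈ s, DifferentiableAt ℝ (f i) x) (j : Fin 3) :
    pd j (fun y => ∑ i ∈ s, f i y) x = ∑ i ∈ s, pd j (f i) x := by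
  simp only [pd]
  rw [show (fun y => ∑ i ∈ s, f i y) = (fun y => ∑ i ∈ s, f i y) from rfl]
  rw [fderiv_fun_sum hf]
  simp

theorem pd_congr {f g : R3 → ℂ} {x : R3} (h : f =ᶠ[𝓝 x] g) (j : Fin 3) :
    pd j f x = pd j g x := by
  simp only [pd, h.fderiv_eq]

theorem pd_eventuallyEq {f g : R3 → ℂ} {x : R3} (h : f =ᶠ[𝓝 x] g) (j : Fin 3) :
    pd j f =ᶠ[𝓝 x] pd j g := by
  filter_upwards [h.eventuallyEq_nhds] with y hy
  exact pd_congr hy j

theorem pd_comm {f : R3 → ℂ} (hf : ContDiff ℝ 2 f) (i j : Fin 3) (x : R3) :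
    pd i (pd j f) x = pd j (pd i f) x := by
  have hd : Differentiable ℝ (fderiv ℝ f) :=
    (hf.fderiv_right (m := 1) (by norm_num)).differentiable (by simp)
  have h1 : ∀ a b : Fin 3, pd a (pd b f) x = (fderiv ℝ (fderiv ℝ f) x) (ee a) (ee b) := by
    intro a b
    simp only [pd]
    have : (fun y => (fderiv ℝ f y) (ee b)) = fun y => (fderiv ℝ f y) (ee b) := rfl
    rw [show (pd b f) = fun y => (fderiv ℝ f y) (ee b) from rfl] at *
    rw [fderiv_clm_apply (hd x) (differentiableAt_const _)]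
    simp
  rw [h1, h1]
  have hs : IsSymmSndFDerivAt ℝ f x := by
    apply ContDiffAt.isSymmSndFDerivAt (n := 2) hf.contDiffAt
    simp
  exact hs.eq _ _

theorem DD_add_at {f g : R3 → ℂ} {x : R3} (θ : Fin 3 → ℂ) (hf : DifferentiableAt ℝ f x)
    (hg : DifferentiableAt ℝ g x) :
    DD θ (fun y => f y + g y) x = DD θ f x + DD θ g x := by
  simp only [DD, pd_add_at hf hg, mul_add, Finset.sum_add_distrib]

theorem DD_sub_at {f g : R3 → ℂ} {x : R3} (θ : Fin 3 → ℂ) (hf : DifferentiableAt ℝ f x)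
    (hg : DifferentiableAt ℝ g x) :
    DD θ (fun y => f y - g y) x = DD θ f x - DD θ g x := by
  simp only [DD, pd_sub_at hf hg, mul_sub, Finset.sum_sub_distrib]

theorem DD_neg (θ : Fin 3 → ℂ) (f : R3 → ℂ) (x : R3) :
    DD θ (fun y => -f y) x = -DD θ f x := by
  simp only [DD, pd_neg, mul_neg, Finset.sum_neg_distrib]

theorem DD_const (θ : Fin 3 → ℂ) (c : ℂ) (x : R3) : DD θ (fun _ => c) x = 0 := by
  simp [DD, pd_const]

theorem DD_mul_at {f g : R3 → ℂ} {x : R3} (θ : Fin 3 → ℂ) (hf : DifferentiableAt ℝ f x)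
    (hg : DifferentiableAt ℝ g x) :
    DD θ (fun y => f y * g y) x = DD θ f x * g x + f x * DD θ g x := by
  simp only [DD, pd_mul_at hf hg, Finset.sum_mul, Finset.mul_sum, ← Finset.sum_add_distrib]
  exact Finset.sum_congr rfl fun j _ => by ring

theorem DD_const_mul_at {f : R3 → ℂ} {x : R3} (θ : Fin 3 → ℂ) (c : ℂ)
    (hf : DifferentiableAt ℝ f x) :
    DD θ (fun y => c * f y) x = c * DD θ f x := by
  rw [DD_mul_at θ (differentiableAt_const c) hf, DD_const]
  ring

theorem DD_sum_at {ι : Type*} (s : Finset ι) {f : ι → R3 → ℂ} {x : R3} (θ : Fin 3 → ℂ)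
    (hf : ∀ i ∈ s, DifferentiableAt ℝ (f i) x) :
    DD θ (fun y => ∑ i ∈ s, f i y) x = ∑ i ∈ s, DD θ (f i) x := by
  simp only [DD, pd_sum_at s hf, Finset.mul_sum]
  exact Finset.sum_comm

theorem DD_congr {f g : R3 → ℂ} {x : R3} (h : f =ᶠ[𝓝 x] g) (θ : Fin 3 → ℂ) :
    DD θ f x = DD θ g x := by
  simp only [DD, pd_congr h]

theorem DD_eventuallyEq {f g : R3 → ℂ} {x : R3} (h : f =ᶠ[𝓝 x] g) (θ : Fin 3 → ℂ) :
    DD θ f =ᶠ[𝓝 x] DD θ g := by
  filter_upwards [h.eventuallyEq_nhds] with y hy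
  exact DD_congr hy θ

theorem DD_comm {f : R3 → ℂ} (hf : ContDiff ℝ ∞ f) (θ η : Fin 3 → ℂ) (x : R3) :
    DD θ (DD η f) x = DD η (DD θ f) x := by
  have hd : ∀ j, DifferentiableAt ℝ (pd j f) x := fun j =>
    diffAt (contDiff_pd hf j) x
  have key : ∀ θ η : Fin 3 → ℂ, DD θ (DD η f) x = ∑ i, ∑ j, θ i * η j * pd i (pd j f) x := by
    intro θ η
    have h1 : DD η f = fun y => ∑ j, η j * pd j f y := rfl
    rw [h1, DD_sum_at (f := fun j y => η j * pd j f y) _ _
      fun j _ => (differentiableAt_const _).mul (hd j)]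
    simp only [DD_const_mul_at _ _ (hd _)]
    simp only [DD, Finset.mul_sum]
    rw [Finset.sum_comm]
    exact Finset.sum_congr rfl fun i _ => Finset.sum_congr rfl fun j _ => by ring
  rw [key, key, Finset.sum_comm]
  refine Finset.sum_congr rfl fun i _ => Finset.sum_congr rfl fun j _ => ?_
  rw [pd_comm (hf.of_le ENat.LEInfty.out) j i]
  ring

theorem DD_DD {f : R3 → ℂ} (hf : ContDiff ℝ ∞ f) (θ η : Fin 3 → ℂ) (x : R3) :
    DD θ (DD η f) x = ∑ i, ∑ j, θ i * η j * pd i (pd j f) x := by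
  have hd : ∀ j, DifferentiableAt ℝ (pd j f) x := fun j =>
    diffAt (contDiff_pd hf j) x
  have h1 : DD η f = fun y => ∑ j, η j * pd j f y := rfl
  rw [h1, DD_sum_at (f := fun j y => η j * pd j f y) _ _
    fun j _ => (differentiableAt_const _).mul (hd j)]
  simp only [DD_const_mul_at _ _ (hd _)]
  simp only [DD, Finset.mul_sum]
  rw [Finset.sum_comm]
  exact Finset.sum_congr rfl fun i _ => Finset.sum_congr rfl fun j _ => by ring

theorem pd_DD {f : R3 → ℂ} (hf : ContDiff ℝ ∞ f) (η : Fin 3 → ℂ) (i : Fin 3) (x : R3) :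
    pd i (DD η f) x = ∑ j, η j * pd i (pd j f) x := by
  have hd : ∀ j, DifferentiableAt ℝ (pd j f) x := fun j =>
    diffAt (contDiff_pd hf j) x
  have h1 : DD η f = fun y => ∑ j, η j * pd j f y := rfl
  rw [h1, pd_sum_at (f := fun j y => η j * pd j f y) _
    fun j _ => (differentiableAt_const _).mul (hd j)]
  simp only [pd_const_mul_at _ (hd _)]

theorem pd_cf {f : R3 → ℝ} {x : R3} (hf : DifferentiableAt ℝ f x) (j : Fin 3) :
    pd j (cf f) x = (pderiv f j x : ℂ) := by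
  have h := (Complex.ofRealCLM.hasFDerivAt (x := f x)).comp x hf.hasFDerivAt
  simp only [pd, pderiv]
  have h2 : fderiv ℝ (cf f) x = Complex.ofRealCLM.comp (fderiv ℝ f x) := h.fderiv
  rw [h2]
  rfl

/-! ### moduli -/

section Mod
variable (P : Moduli)

theorem m_pos (x : R3) : 0 < P.m x := inv_pos.2 (P.mu_pos x)
theorem sm_pos (x : R3) : 0 < P.sm x := Real.sqrt_pos.2 (m_pos P x)
theorem sm_mul_sm (x : R3) : P.sm x * P.sm x = P.m x := Real.mul_self_sqrt (m_pos P x).le
theorem sm_sq (x : R3) : P.sm x ^ 2 = P.m x := Real.sq_sqrt (m_pos P x).le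
theorem m_mul_mu (x : R3) : P.m x * P.mu x = 1 := inv_mul_cancel₀ (P.mu_pos x).ne'
theorem mu_mul_m (x : R3) : P.mu x * P.m x = 1 := mul_inv_cancel₀ (P.mu_pos x).ne'
theorem lam_add_mu_pos (x : R3) : 0 < P.lam x + P.mu x := by
  have h1 := P.mu_pos x; have h2 := P.bulk_pos x; linarith
theorem lam_add_two_mu_pos (x : R3) : 0 < P.lam x + 2 * P.mu x := by
  have h1 := P.mu_pos x; have h2 := P.bulk_pos x; linarith
theorem kap_pos (x : R3) : 0 < P.kap x :=
  div_pos (mul_pos (lam_add_mu_pos P x) (P.mu_pos x)) (mul_pos two_pos (lam_add_two_mu_pos P x))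
theorem cc_pos (x : R3) : 0 < P.cc x := div_pos (P.mu_pos x) (lam_add_two_mu_pos P x)
theorem kap_eq (x : R3) : P.kap x = P.cc x * (P.lam x + P.mu x) / 2 := by
  have := (lam_add_two_mu_pos P x).ne'
  unfold Moduli.kap Moduli.cc; field_simp
theorem cc_inv (x : R3) : (P.cc x)⁻¹ = P.lam x * P.m x + 2 := by
  have h1 := (lam_add_two_mu_pos P x).ne'
  have h2 := (P.mu_pos x).ne'
  unfold Moduli.cc Moduli.m; field_simp
theorem two_kap_m_lt_one (x : R3) : 2 * P.kap x * P.m x < 1 := by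
  have h1 := lam_add_two_mu_pos P x
  have h2 := P.mu_pos x
  have h3 : 2 * P.kap x * P.m x = (P.lam x + P.mu x) / (P.lam x + 2 * P.mu x) := by
    unfold Moduli.kap Moduli.m; field_simp
  rw [h3, div_lt_one h1]; linarith

theorem contDiff_m : ContDiff ℝ ∞ P.m := P.smooth_mu.inv fun x => (P.mu_pos x).ne'
theorem contDiff_sm : ContDiff ℝ ∞ P.sm := (contDiff_m P).sqrt fun x => (m_pos P x).ne'
theorem contDiff_kap : ContDiff ℝ ∞ P.kap :=
  ((P.smooth_lam.add P.smooth_mu).mul P.smooth_mu).div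
    (contDiff_const.mul (P.smooth_lam.add (contDiff_const.mul P.smooth_mu)))
    fun x => (mul_pos two_pos (lam_add_two_mu_pos P x)).ne'
theorem contDiff_cc : ContDiff ℝ ∞ P.cc :=
  P.smooth_mu.div (P.smooth_lam.add (contDiff_const.mul P.smooth_mu))
    fun x => (lam_add_two_mu_pos P x).ne'

end Mod

/-! ### spinors -/

theorem th_null (s : Fin 2 → ℂ) : ∑ j, th s j ^ 2 = 0 := by
  simp only [th, Fin.sum_univ_three, Matrix.cons_val_zero, Matrix.cons_val_one,
    Matrix.cons_val]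
  ring_nf
  simp only [Complex.I_sq]
  ring

theorem isNull_th {s : Fin 2 → ℂ} (hs : s ≠ 0) : IsNull (th s) := by
  refine ⟨fun h => hs ?_, th_null s⟩
  have h0 : s 0 ^ 2 - s 1 ^ 2 = 0 := by simpa [th] using congrFun h 0
  have h1 : s 0 ^ 2 + s 1 ^ 2 = 0 := by simpa [th] using congrFun h 1
  have e0 : s 0 ^ 2 = 0 := by linear_combination (h0 + h1) / 2
  have e1 : s 1 ^ 2 = 0 := by linear_combination (h1 - h0) / 2
  funext i
  fin_cases i
  · exact pow_eq_zero_iff (two_ne_zero) |>.1 e0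
  · exact pow_eq_zero_iff (two_ne_zero) |>.1 e1

theorem th_dot_nu (s : Fin 2 → ℂ) (i : Fin 2) : ∑ j, th s j * nu s i j = 0 := by
  fin_cases i <;>
  · simp only [th, nu, Fin.sum_univ_three, Matrix.cons_val_zero, Matrix.cons_val_one,
      Matrix.cons_val, Fin.zero_eta, Fin.isValue, Fin.mk_one, if_true, one_ne_zero, if_false]
    ring_nf
    simp only [Complex.I_sq]
    ring

theorem th_eq (s : Fin 2 → ℂ) (j : Fin 3) : th s j = s 0 * nu s 0 j + s 1 * nu s 1 j := by
  fin_cases j <;> simp [th, nu] <;> ring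

end CalcA
end Crest.Agent.R080
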