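import Crest.Agent.R080.SmAlg

/-!
Row 80 (S0107), T8: the algebra of the scalar Carleman estimate (helper417).
-/

set_option autoImplicit false

open MeasureTheory Filter
open scoped ContDiff Topology ComplexConjugate
open Crest.AnalysisR.VecCalc3

noncomputable section
namespace Crest.Agent.R080.Carl
open Sm

/-- constants as smooth functions -/
abbrev c : ℂ →+* Sm := algebraMap ℂ Sm

/-- real directional derivative -/
def Dv (v : Fin 3 → ℝ) : Derivation ℂ Sm Sm := ∑ j, (v j : ℂ) • dd j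

theorem Dv_apply (v : Fin 3 → ℝ) (f : Sm) : Dv v f = ∑ j, c (v j : ℂ) * dd j f := by
  unfold Dv
  simp only [Fin.sum_univ_three, Derivation.add_apply, Derivation.smul_apply, Algebra.smul_def]

/-- Laplacian -/
def Lp (f : Sm) : Sm := ∑ j, dd j (dd j f)

theorem Dv_c (v : Fin 3 → ℝ) (z : ℂ) : Dv v (c z) = 0 := Derivation.map_algebraMap _ _
theorem dd_c (j : Fin 3) (z : ℂ) : dd j (c z) = 0 := Derivation.map_algebraMap _ _

theorem dd_Dv (j : Fin 3) (v : Fin 3 → ℝ) (f : Sm) : dd j (Dv v f) = Dv v (dd j f) := by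
  rw [Dv_apply, Dv_apply, map_sum]
  refine Finset.sum_congr rfl fun i _ => ?_
  rw [Derivation.leibniz, dd_c, smul_zero, add_zero, smul_eq_mul, dd_comm]

theorem Dv_comm (v w : Fin 3 → ℝ) (f : Sm) : Dv v (Dv w f) = Dv w (Dv v f) := by
  rw [Dv_apply v, Dv_apply v f, map_sum]
  refine Finset.sum_congr rfl fun i _ => ?_
  rw [Derivation.leibniz, Dv_c, smul_zero, add_zero, smul_eq_mul, dd_Dv]

theorem Lp_Dv (v : Fin 3 → ℝ) (f : Sm) : Lp (Dv v f) = Dv v (Lp f) := by
  unfold Lp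
  rw [map_sum]
  refine Finset.sum_congr rfl fun i _ => ?_
  rw [dd_Dv, dd_Dv]

theorem Lp_add (f g : Sm) : Lp (f + g) = Lp f + Lp g := by
  unfold Lp
  rw [← Finset.sum_add_distrib]
  refine Finset.sum_congr rfl fun i _ => ?_
  rw [map_add, map_add]

theorem Lp_sub (f g : Sm) : Lp (f - g) = Lp f - Lp g := by
  unfold Lp
  rw [← Finset.sum_sub_distrib]
  refine Finset.sum_congr rfl fun i _ => ?_
  rw [map_sub, map_sub]

theorem Lp_c_mul (z : ℂ) (f : Sm) : Lp (c z * f) = c z * Lp f := by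
  unfold Lp
  rw [Finset.mul_sum]
  refine Finset.sum_congr rfl fun i _ => ?_
  rw [Derivation.leibniz, dd_c, smul_zero, add_zero, smul_eq_mul, Derivation.leibniz, dd_c,
    smul_zero, add_zero, smul_eq_mul]

theorem Lp_mul (f g : Sm) : Lp (f * g) = f * Lp g + 2 * (∑ j, dd j f * dd j g) + g * Lp f := by
  unfold Lp
  rw [Finset.mul_sum, Finset.mul_sum, Finset.mul_sum, ← Finset.sum_add_distrib,
    ← Finset.sum_add_distrib]
  refine Finset.sum_congr rfl fun i _ => ?_
  simp only [Derivation.leibniz, map_add, smul_eq_mul]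
  ring

/-- linear function -/
def yL (a : Fin 3 → ℝ) : R3 →L[ℝ] ℂ := ∑ j, (a j : ℂ) • (Complex.ofRealCLM.comp
  (EuclideanSpace.proj j : R3 →L[ℝ] ℝ))

theorem yL_apply (a : Fin 3 → ℝ) (x : R3) : yL a x = ∑ j, (a j : ℂ) * (x j : ℂ) := by
  simp [yL]

def yy (a : Fin 3 → ℝ) : Sm := ⟨yL a, show ContDiff ℝ ∞ (yL a) from (yL a).contDiff⟩

theorem yy_apply (a : Fin 3 → ℝ) (x : R3) : yy a x = ((∑ j, a j * x j : ℝ) : ℂ) := by
  show yL a x = _
  rw [yL_apply]; push_cast; rfl

theorem dd_yy (j : Fin 3) (a : Fin 3 → ℝ) : dd j (yy a) = c (a j : ℂ) := by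
  ext x
  show fderiv ℝ (yL a) x (ee j) = (a j : ℂ)
  rw [ContinuousLinearMap.fderiv, yL_apply, Finset.sum_eq_single j]
  · simp
  · intro i _ hij; simp [hij]
  · intro h; exact absurd (Finset.mem_univ j) h

theorem cj_yy (a : Fin 3 → ℝ) : cj (yy a) = yy a := by
  ext x
  rw [cj_apply, yy_apply, Complex.conj_ofReal]

variable (a b : Fin 3 → ℝ) (N K t : ℝ)

/-- `s = τ - K a·x` -/
def ss : Sm := c (t : ℂ) - c (K : ℂ) * yy a

theorem ss_apply (x : R3) : ss a K t x = ((t - K * ∑ j, a j * x j : ℝ) : ℂ) := by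
  unfold ss
  rw [sub_apply, mul_apply, yy_apply, algebraMap_apply, algebraMap_apply]
  push_cast; ring

theorem cj_ss : cj (ss a K t) = ss a K t := by
  ext x; rw [cj_apply, ss_apply, Complex.conj_ofReal]

theorem dd_ss (j : Fin 3) : dd j (ss a K t) = -(c (K : ℂ) * c (a j : ℂ)) := by
  unfold ss
  rw [map_sub, dd_c, Derivation.leibniz, dd_c, dd_yy]
  simp

theorem Dv_ss (v : Fin 3 → ℝ) : Dv v (ss a K t) = -(c (K : ℂ) * c ((∑ j, v j * a j : ℝ) : ℂ)) := by
  rw [Dv_apply]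
  have h : c ((∑ j, v j * a j : ℝ) : ℂ) = ∑ j, c (v j : ℂ) * c (a j : ℂ) := by
    rw [Complex.ofReal_sum, map_sum]
    refine Finset.sum_congr rfl fun j _ => ?_
    rw [Complex.ofReal_mul, map_mul]
  rw [h, Finset.mul_sum, ← Finset.sum_neg_distrib]
  refine Finset.sum_congr rfl fun j _ => ?_
  rw [dd_ss]; ring

/-- potential -/
def VV : Sm := c (N : ℂ) * (ss a K t * ss a K t - c (t : ℂ) * c (t : ℂ))

/-- symmetric part -/
def SS (f : Sm) : Sm := Lp f + c (2 * Complex.I * t) * Dv b f + VV a N K t * f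

/-- conjugate symmetric part -/
def SSb (f : Sm) : Sm := Lp f - c (2 * Complex.I * t) * Dv b f + VV a N K t * f

/-- antisymmetric part -/
def AA (f : Sm) : Sm := 2 * ss a K t * Dv a f - c (K : ℂ) * c (N : ℂ) * f

variable {a b N K t}

theorem Lp_ss_mul (f : Sm) : Lp (ss a K t * f) = ss a K t * Lp f - 2 * c (K : ℂ) * Dv a f := by
  rw [Lp_mul]
  have h1 : Lp (ss a K t) = 0 := by
    unfold Lp
    refine Finset.sum_eq_zero fun j _ => ?_
    rw [dd_ss, map_neg, Derivation.leibniz, dd_c, dd_c]; simp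
  have h2 : ∑ j, dd j (ss a K t) * dd j f = -(c (K : ℂ) * Dv a f) := by
    rw [Dv_apply, Finset.mul_sum, ← Finset.sum_neg_distrib]
    refine Finset.sum_congr rfl fun j _ => ?_
    rw [dd_ss]; ring
  rw [h1, h2]; ring

theorem E1 (hN : ∑ j, a j * a j = N) (u w : Sm) :
    u * AA a N K t w + AA a N K t u * w = Dv a (2 * ss a K t * u * w) := by
  have h2 : Dv a (2 : Sm) = 0 := by
    have : (2 : Sm) = c 2 := (map_ofNat (algebraMap ℂ Sm) 2).symm
    rw [this, Dv_c]
  unfold AA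
  simp only [Derivation.leibniz, smul_eq_mul, Dv_ss, hN, h2]
  ring

theorem E2 (u w : Sm) :
    u * SSb a b N K t w - SS a b N K t u * w =
      ∑ j, dd j (u * dd j w - w * dd j u) - c (2 * Complex.I * t) * Dv b (u * w) := by
  have h : ∑ j, dd j (u * dd j w - w * dd j u) = u * Lp w - w * Lp u := by
    unfold Lp
    rw [Finset.mul_sum, Finset.mul_sum, ← Finset.sum_sub_distrib]
    refine Finset.sum_congr rfl fun j _ => ?_
    simp only [map_sub, Derivation.leibniz, smul_eq_mul]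
    ring
  rw [h]
  unfold SS SSb
  simp only [Derivation.leibniz, smul_eq_mul]
  ring

theorem E3 (hN : ∑ j, a j * a j = N) (hab : ∑ j, b j * a j = 0) (z : Sm) :
    SS a b N K t (AA a N K t z) - AA a N K t (SS a b N K t z) =
      -(4 * c (K : ℂ) * Dv a (Dv a z))
        + 4 * c (K : ℂ) * c (N : ℂ) * c (N : ℂ) * (ss a K t * ss a K t) * z := by
  have hs : Dv a (ss a K t) = -(c (K : ℂ) * c (N : ℂ)) := by rw [Dv_ss, hN]
  have hsb : Dv b (ss a K t) = 0 := by
    rw [Dv_ss, hab, Complex.ofReal_zero, map_zero, mul_zero, neg_zero]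
  have h2 : ∀ v, Dv v (2 : Sm) = 0 := by
    intro v
    have : (2 : Sm) = c 2 := (map_ofNat (algebraMap ℂ Sm) 2).symm
    rw [this, Dv_c]
  have e1 : AA a N K t z = c 2 * (ss a K t * Dv a z) - c ((K : ℂ) * N) * z := by
    unfold AA
    rw [map_mul, map_ofNat]; ring
  have e2 : Lp (AA a N K t z) = 2 * (ss a K t * Dv a (Lp z) - 2 * c (K : ℂ) * Dv a (Dv a z))
      - c (K : ℂ) * c (N : ℂ) * Lp z := by
    rw [e1, Lp_sub, Lp_c_mul, Lp_c_mul, Lp_ss_mul, Lp_Dv, map_mul, map_ofNat]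
  have e3 : Dv b (AA a N K t z) = 2 * (ss a K t * Dv a (Dv b z)) - c (K : ℂ) * c (N : ℂ) * Dv b z := by
    rw [e1, map_sub, Derivation.leibniz, Derivation.leibniz, Derivation.leibniz, hsb, Dv_c, Dv_c,
      Dv_comm b a, map_mul, map_ofNat]
    simp only [smul_eq_mul]
    ring
  have e4 : Dv a (SS a b N K t z) = Dv a (Lp z) + c (2 * Complex.I * t) * Dv a (Dv b z)
      + VV a N K t * Dv a z - 2 * c (K : ℂ) * c (N : ℂ) * c (N : ℂ) * ss a K t * z := by
    unfold SS VV
    simp only [map_add, map_sub, Derivation.leibniz, smul_eq_mul, Dv_c, hs]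
    ring
  have e5 : SS a b N K t (AA a N K t z) = Lp (AA a N K t z)
      + c (2 * Complex.I * t) * Dv b (AA a N K t z) + VV a N K t * AA a N K t z := rfl
  have e6 : AA a N K t (SS a b N K t z) = 2 * ss a K t * Dv a (SS a b N K t z)
      - c (K : ℂ) * c (N : ℂ) * SS a b N K t z := rfl
  rw [e5, e6, e2, e3, e4]
  unfold AA SS
  ring

theorem key (hN : ∑ j, a j * a j = N) (hab : ∑ j, b j * a j = 0) (z w : Sm) :
    SS a b N K t z * AA a N K t w + AA a N K t z * SSb a b N K t w =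
      4 * c (K : ℂ) * (Dv a z * Dv a w)
        + 4 * c (K : ℂ) * c (N : ℂ) * c (N : ℂ) * ((ss a K t * z) * (ss a K t * w))
        + Dv a (2 * ss a K t * SS a b N K t z * w - c (4 * K) * (Dv a z * w))
        + (∑ j, dd j (AA a N K t z * dd j w - w * dd j (AA a N K t z))
          - c (2 * Complex.I * t) * Dv b (AA a N K t z * w)) := by
  have h1 := E1 (K := K) (t := t) hN (SS a b N K t z) w
  have h2 := E2 (a := a) (b := b) (N := N) (K := K) (t := t) (AA a N K t z) w
  have h3 := E3 (K := K) (t := t) hN hab z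
  rw [← h2, map_sub, ← h1]
  have h4 : Dv a (c (4 * K) * (Dv a z * w)) = 4 * c (K : ℂ) * (Dv a (Dv a z) * w + Dv a z * Dv a w) := by
    rw [Derivation.leibniz, Dv_c, Derivation.leibniz, map_mul, map_ofNat]
    simp only [smul_eq_mul]
    ring
  rw [h4]
  linear_combination (w : Sm) * h3

/-! ### conjugation -/

theorem cj_Dv (v : Fin 3 → ℝ) (f : Sm) : cj (Dv v f) = Dv v (cj f) := by
  rw [Dv_apply, Dv_apply, cj_sum]
  refine Finset.sum_congr rfl fun j _ => ?_
  rw [cj_mul, cj_algebraMap, cj_dd, Complex.conj_ofReal]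

theorem cj_Lp (f : Sm) : cj (Lp f) = Lp (cj f) := by
  unfold Lp
  rw [cj_sum]
  refine Finset.sum_congr rfl fun j _ => ?_
  rw [cj_dd, cj_dd]

theorem cj_VV : cj (VV a N K t) = VV a N K t := by
  unfold VV
  rw [cj_mul, cj_sub, cj_mul, cj_mul, cj_ss, cj_algebraMap, cj_algebraMap, Complex.conj_ofReal,
    Complex.conj_ofReal]

theorem cj_SS (f : Sm) : SSb a b N K t (cj f) = cj (SS a b N K t f) := by
  unfold SSb SS
  rw [cj_add, cj_add, cj_mul, cj_mul, cj_VV, cj_Lp, cj_Dv, cj_algebraMap]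
  have : (starRingEnd ℂ) (2 * Complex.I * t) = -(2 * Complex.I * t) := by
    rw [map_mul, map_mul, Complex.conj_I, Complex.conj_ofReal, Complex.conj_ofNat]; ring
  rw [this, map_neg]; ring

theorem cj_AA (f : Sm) : AA a N K t (cj f) = cj (AA a N K t f) := by
  unfold AA
  have h2 : cj (2 : Sm) = 2 := by
    have : (2 : Sm) = c 2 := (map_ofNat (algebraMap ℂ Sm) 2).symm
    rw [this, cj_algebraMap, Complex.conj_ofNat]
  rw [cj_sub, cj_mul, cj_mul, cj_mul, cj_mul, cj_ss, cj_Dv, cj_algebraMap, cj_algebraMap,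
    Complex.conj_ofReal, Complex.conj_ofReal, h2]

end Crest.Agent.R080.Carl
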