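import Crest.Agent.R080.CarlAlg

/-!
Row 80 (S0107), T8: the scalar Carleman estimate (helper417).
-/

set_option autoImplicit false

open MeasureTheory Filter
open scoped ContDiff Topology ComplexConjugate
open Crest.AnalysisR.VecCalc3

noncomputable section
namespace Crest.Agent.R080.Carl
open Sm

variable {a b : Fin 3 → ℝ} {N K t R : ℝ}

theorem J_c_mul (z : ℂ) (f : Sm) : J (c z * f) = z * J f := by
  have : c z * f = z • f := by rw [Algebra.smul_def]
  rw [this, J_smul]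

theorem Sm.Cp.Dv {f : Sm} (hf : Cp R f) (v : Fin 3 → ℝ) : Cp R (Dv v f) := by
  rw [Dv_apply]
  exact Cp.sum _ _ fun j _ => (hf.dd j).mul_left _

theorem Sm.Cp.Lp {f : Sm} (hf : Cp R f) : Cp R (Lp f) :=
  Cp.sum _ _ fun j _ => (hf.dd j).dd j

theorem Sm.Cp.SS {f : Sm} (hf : Cp R f) : Cp R (SS a b N K t f) :=
  ((hf.Lp).add ((hf.Dv b).mul_left _)).add (hf.mul_left _)

theorem Sm.Cp.AA {f : Sm} (hf : Cp R f) : Cp R (AA a N K t f) :=
  ((hf.Dv a).mul_left _).sub (hf.mul_left _)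

theorem J_Dv {f : Sm} (hf : Cp R f) (v : Fin 3 → ℝ) : J (Dv v f) = 0 := by
  rw [Dv_apply, J_sum (R := R) _ _ fun j _ => (hf.dd j).mul_left _]
  exact Finset.sum_eq_zero fun j _ => by rw [J_c_mul, J_dd j hf.hcs, mul_zero]

theorem energy (hN : ∑ j, a j * a j = N) (hab : ∑ j, b j * a j = 0) {z : Sm} (hz : Cp R z) :
    n2 (SS a b N K t z + AA a N K t z) = n2 (SS a b N K t z) + n2 (AA a N K t z)
      + 4 * K * n2 (Dv a z) + 4 * K * N * N * n2 (ss a K t * z) := by
  have hw : Cp R (cj z) := hz.cj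
  have hS : Cp R (SS a b N K t z) := hz.SS
  have hA : Cp R (AA a N K t z) := hz.AA
  have hD : Cp R (Dv a z) := hz.Dv a
  have h1 : (SS a b N K t z + AA a N K t z) * cj (SS a b N K t z + AA a N K t z)
      = SS a b N K t z * cj (SS a b N K t z) + AA a N K t z * cj (AA a N K t z)
        + c ((4 * K : ℝ) : ℂ) * (Dv a z * cj (Dv a z))
        + c ((4 * K * N * N : ℝ) : ℂ) * ((ss a K t * z) * cj (ss a K t * z))
        + Dv a (2 * ss a K t * SS a b N K t z * cj z - c (4 * K) * (Dv a z * cj z))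
        + (∑ j, dd j (AA a N K t z * dd j (cj z) - cj z * dd j (AA a N K t z)))
        - c (2 * Complex.I * t) * Dv b (AA a N K t z * cj z) := by
    have hk := key (K := K) (t := t) hN hab z (cj z)
    rw [cj_AA, cj_SS] at hk
    rw [cj_add, cj_Dv, cj_mul, cj_ss]
    have e1 : c ((4 * K : ℝ) : ℂ) = 4 * c (K : ℂ) := by
      rw [Complex.ofReal_mul, map_mul, Complex.ofReal_ofNat, map_ofNat]
    have e2 : c ((4 * K * N * N : ℝ) : ℂ) = 4 * c (K : ℂ) * c (N : ℂ) * c (N : ℂ) := by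
      rw [Complex.ofReal_mul, Complex.ofReal_mul, Complex.ofReal_mul, map_mul, map_mul, map_mul,
        Complex.ofReal_ofNat, map_ofNat]
    rw [e1, e2]
    linear_combination hk
  have g1 : Cp R (SS a b N K t z * cj (SS a b N K t z)) := hS.mul_right _
  have g2 : Cp R (AA a N K t z * cj (AA a N K t z)) := hA.mul_right _
  have g3 : Cp R (c ((4 * K : ℝ) : ℂ) * (Dv a z * cj (Dv a z))) := (hD.mul_right _).mul_left _
  have g4 : Cp R (c ((4 * K * N * N : ℝ) : ℂ) * ((ss a K t * z) * cj (ss a K t * z))) :=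
    ((hz.mul_left _).mul_right _).mul_left _
  have g5' : Cp R (2 * ss a K t * SS a b N K t z * cj z - c (4 * K) * (Dv a z * cj z)) :=
    (hw.mul_left _).sub ((hw.mul_left _).mul_left _)
  have g5 := g5'.Dv a
  have g6' : ∀ j, Cp R (AA a N K t z * dd j (cj z) - cj z * dd j (AA a N K t z)) :=
    fun j => (hA.mul_right _).sub (hw.mul_right _)
  have g6 : Cp R (∑ j, dd j (AA a N K t z * dd j (cj z) - cj z * dd j (AA a N K t z))) :=
    Cp.sum _ _ fun j _ => (g6' j).dd j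
  have g7' : Cp R (AA a N K t z * cj z) := hA.mul_right _
  have g7 : Cp R (c (2 * Complex.I * t) * Dv b (AA a N K t z * cj z)) := (g7'.Dv b).mul_left _
  have h2 := congrArg J h1
  rw [J_sub (R := R) (((((g1.add g2).add g3).add g4).add g5).add g6) g7,
    J_add (R := R) ((((g1.add g2).add g3).add g4).add g5) g6,
    J_add (R := R) (((g1.add g2).add g3).add g4) g5,
    J_add (R := R) ((g1.add g2).add g3) g4,
    J_add (R := R) (g1.add g2) g3,
    J_add (R := R) g1 g2, J_mul_cj, J_mul_cj, J_mul_cj, J_c_mul, J_c_mul, J_mul_cj, J_mul_cj,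
    J_Dv g5', J_c_mul, J_Dv g7', J_sum (R := R) _ _ (fun j _ => (g6' j).dd j)] at h2
  have h3 : ∑ j, J (dd j (AA a N K t z * dd j (cj z) - cj z * dd j (AA a N K t z))) = 0 :=
    Finset.sum_eq_zero fun j _ => J_dd j (g6' j).hcs
  rw [h3] at h2
  simp only [mul_zero, add_zero, sub_zero] at h2
  exact_mod_cast h2

theorem norm_J_le {f : Sm} {g : R3 → ℝ} (hg : Integrable g) (h : ∀ x, ‖f x‖ ≤ g x) :
    ‖J f‖ ≤ ∫ x, g x := by
  unfold J
  exact norm_integral_le_of_norm_le hg (Eventually.of_forall h)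

theorem norm_Dv_sq (v : Fin 3 → ℝ) (hN : ∑ j, v j * v j = N) (f : Sm) (x : R3) :
    ‖Dv v f x‖ ^ 2 ≤ N * ∑ j, ‖dd j f x‖ ^ 2 := by
  have h1 : ‖Dv v f x‖ ≤ ∑ j, |v j| * ‖dd j f x‖ := by
    rw [Dv_apply, sum_apply]
    refine (norm_sum_le _ _).trans (Finset.sum_le_sum fun j _ => ?_)
    rw [mul_apply, algebraMap_apply, norm_mul, Complex.norm_real, Real.norm_eq_abs]
  have h2 := Finset.sum_mul_sq_le_sq_mul_sq Finset.univ (fun j => |v j|) (fun j => ‖dd j f x‖)
  have h3 : ∑ j, |v j| ^ 2 = N := by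
    rw [← hN]
    exact Finset.sum_congr rfl fun j _ => by rw [sq_abs, sq]
  rw [h3] at h2
  have h4 : ‖Dv v f x‖ ^ 2 ≤ (∑ j, |v j| * ‖dd j f x‖) ^ 2 := by gcongr
  exact h4.trans h2

theorem gradient (hN : ∑ j, a j * a j = N) (hN2 : ∑ j, b j * b j = N)
    (hN0 : 0 < N) (hK : 0 < K) (ht : 0 < t)
    (hy : ∀ x : R3, ‖x‖ ≤ R → |K * ∑ j, a j * x j| ≤ t / 2) {z : Sm} (hz : Cp R z) :
    ∑ j, n2 (dd j z) ≤ (1 / K) * n2 (SS a b N K t z) + (K + 13 / 2 * N * t ^ 2) * n2 z := by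
  have hw : Cp R (cj z) := hz.cj
  have hS : Cp R (SS a b N K t z) := hz.SS
  set F : Sm := c (2 * Complex.I * t) * (Dv b z * cj z) + VV a N K t * z * cj z
    - SS a b N K t z * cj z with hF
  have hFc : Cp R F := ((((hz.Dv b).mul_right _).mul_left _).add (hw.mul_left _)).sub (hS.mul_right _)
  have h1 : ∑ j, dd j z * cj (dd j z) = F + ∑ j, dd j (dd j z * cj z) := by
    have e : ∑ j, dd j (dd j z * cj z) = ∑ j, dd j z * cj (dd j z) + Lp z * cj z := by
      unfold Lp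
      rw [Finset.sum_mul, ← Finset.sum_add_distrib]
      refine Finset.sum_congr rfl fun j _ => ?_
      rw [Derivation.leibniz, cj_dd]
      simp only [smul_eq_mul]
      ring
    rw [e, hF]
    unfold SS
    ring
  have h2 := congrArg J h1
  have g1 : ∀ j, Cp R (dd j z * cj (dd j z)) := fun j => (hz.dd j).mul_right _
  have g2 : ∀ j, Cp R (dd j z * cj z) := fun j => (hz.dd j).mul_right _
  rw [J_add (R := R) hFc (Cp.sum _ _ fun j _ => (g2 j).dd j),
    J_sum (R := R) _ _ (fun j _ => g1 j), J_sum (R := R) _ _ (fun j _ => (g2 j).dd j)] at h2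
  have h3 : ∑ j, J (dd j (dd j z * cj z)) = 0 := Finset.sum_eq_zero fun j _ => J_dd j (g2 j).hcs
  rw [h3, add_zero] at h2
  have h4 : ∑ j, J (dd j z * cj (dd j z)) = ((∑ j, n2 (dd j z) : ℝ) : ℂ) := by
    rw [Complex.ofReal_sum]
    exact Finset.sum_congr rfl fun j _ => J_mul_cj _
  rw [h4] at h2
  have hG0 : 0 ≤ ∑ j, n2 (dd j z) := Finset.sum_nonneg fun j _ => n2_nonneg _
  have h5 : ∑ j, n2 (dd j z) = ‖J F‖ := by
    rw [← h2, Complex.norm_real, Real.norm_eq_abs, abs_of_nonneg hG0]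
  -- pointwise bound
  have hpt : ∀ x, ‖F x‖ ≤ (1 / (2 * K)) * ‖SS a b N K t z x‖ ^ 2
      + (K / 2 + 13 / 4 * N * t ^ 2) * ‖z x‖ ^ 2 + (1 / 2) * ∑ j, ‖dd j z x‖ ^ 2 := by
    intro x
    by_cases hx : ‖x‖ ≤ R
    · have n1 : ‖F x‖ ≤ 2 * t * ‖Dv b z x‖ * ‖z x‖ + (5 / 4 * N * t ^ 2) * ‖z x‖ ^ 2
          + ‖SS a b N K t z x‖ * ‖z x‖ := by
        have e1 : F x = (2 * Complex.I * t) * (Dv b z x * conj (z x))
            + VV a N K t x * z x * conj (z x) - SS a b N K t z x * conj (z x) := rfl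
        have hV : ‖VV a N K t x‖ ≤ 5 / 4 * N * t ^ 2 := by
          have e2 : VV a N K t x = ((N * ((t - K * ∑ j, a j * x j) * (t - K * ∑ j, a j * x j)
              - t * t) : ℝ) : ℂ) := by
            unfold VV
            simp only [mul_apply, sub_apply, algebraMap_apply, ss_apply]
            push_cast; ring
          rw [e2, Complex.norm_real, Real.norm_eq_abs, abs_mul, abs_of_pos hN0]
          have h7 := hy x hx
          set q := K * ∑ j, a j * x j with hq
          have h8 := abs_le.mp h7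
          have h9 : |(t - q) * (t - q) - t * t| ≤ 5 / 4 * t ^ 2 := by
            rw [abs_le]; constructor <;> nlinarith
          nlinarith
        rw [e1]
        refine (norm_sub_le _ _).trans ?_
        refine add_le_add ((norm_add_le _ _).trans ?_) ?_
        · refine add_le_add ?_ ?_
          · rw [norm_mul, norm_mul, norm_mul, norm_mul, Complex.norm_I, Complex.norm_real,
              Real.norm_eq_abs, abs_of_pos ht, RCLike.norm_conj]
            simp only [Complex.norm_ofNat, mul_one]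
            linarith
          · rw [norm_mul, norm_mul, RCLike.norm_conj, mul_assoc, ← sq]
            gcongr
        · rw [norm_mul, RCLike.norm_conj]
      have n2' := norm_Dv_sq b hN2 z x
      set X := ‖Dv b z x‖
      set Y := ‖z x‖
      set Z := ‖SS a b N K t z x‖
      set G := ∑ j, ‖dd j z x‖ ^ 2
      have m1 : 2 * t * X * Y ≤ (1 / (2 * N)) * X ^ 2 + 2 * N * t ^ 2 * Y ^ 2 := by
        have : 0 ≤ (X - 2 * N * t * Y) ^ 2 := sq_nonneg _
        have h10 : (1 / (2 * N)) * X ^ 2 + 2 * N * t ^ 2 * Y ^ 2 - 2 * t * X * Y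
            = (1 / (2 * N)) * (X - 2 * N * t * Y) ^ 2 := by
          field_simp; ring
        have h11 : 0 ≤ (1 / (2 * N)) * (X - 2 * N * t * Y) ^ 2 := by positivity
        linarith
      have m2 : (1 / (2 * N)) * X ^ 2 ≤ (1 / 2) * G := by
        rw [div_mul_eq_mul_div, one_mul, div_le_iff₀ (by positivity)]
        nlinarith
      have m3 : Z * Y ≤ (1 / (2 * K)) * Z ^ 2 + K / 2 * Y ^ 2 := by
        have h10 : (1 / (2 * K)) * Z ^ 2 + K / 2 * Y ^ 2 - Z * Y
            = (1 / (2 * K)) * (Z - K * Y) ^ 2 := by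
          field_simp; ring
        have h11 : 0 ≤ (1 / (2 * K)) * (Z - K * Y) ^ 2 := by positivity
        linarith
      nlinarith
    · have hx' : R < ‖x‖ := not_le.mp hx
      rw [hFc.apply_eq_zero hx', norm_zero]
      positivity
  have i1 : Integrable fun x => ‖SS a b N K t z x‖ ^ 2 := hS.integrable_sq
  have i2 : Integrable fun x => ‖z x‖ ^ 2 := hz.integrable_sq
  have i3 : Integrable fun x => ∑ j, ‖dd j z x‖ ^ 2 :=
    integrable_finsetSum _ fun j _ => (hz.dd j).integrable_sq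
  have h6 := norm_J_le (((i1.const_mul _).add (i2.const_mul _)).add (i3.const_mul _)) hpt
  have h7 : ∫ x, ((1 / (2 * K)) * ‖SS a b N K t z x‖ ^ 2
      + (K / 2 + 13 / 4 * N * t ^ 2) * ‖z x‖ ^ 2 + (1 / 2) * ∑ j, ‖dd j z x‖ ^ 2)
      = (1 / (2 * K)) * n2 (SS a b N K t z) + (K / 2 + 13 / 4 * N * t ^ 2) * n2 z
        + (1 / 2) * ∑ j, n2 (dd j z) := by
    have i1' : Integrable fun x => (1 / (2 * K)) * ‖SS a b N K t z x‖ ^ 2 := i1.const_mul _
    have i2' : Integrable fun x => (K / 2 + 13 / 4 * N * t ^ 2) * ‖z x‖ ^ 2 := i2.const_mul _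
    have i12 : Integrable fun x => (1 / (2 * K)) * ‖SS a b N K t z x‖ ^ 2
      + (K / 2 + 13 / 4 * N * t ^ 2) * ‖z x‖ ^ 2 := i1'.add i2'
    have i3' : Integrable fun x => (1 / 2 : ℝ) * ∑ j, ‖dd j z x‖ ^ 2 := i3.const_mul _
    rw [integral_add i12 i3', integral_add i1' i2', integral_const_mul, integral_const_mul,
      integral_const_mul, integral_finsetSum _ fun j _ => (hz.dd j).integrable_sq]
    rfl
  have h8 : ‖J F‖ ≤ (1 / (2 * K)) * n2 (SS a b N K t z) + (K / 2 + 13 / 4 * N * t ^ 2) * n2 z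
        + (1 / 2) * ∑ j, n2 (dd j z) := by
    rw [← h7]; exact h6
  rw [← h5] at h8
  have h9 : (1 / (2 * K)) * n2 (SS a b N K t z) = (1 / 2) * ((1 / K) * n2 (SS a b N K t z)) := by
    field_simp
  nlinarith

theorem scalar_est (hN : ∑ j, a j * a j = N) (hN2 : ∑ j, b j * b j = N)
    (hab : ∑ j, b j * a j = 0) (hN0 : 0 < N) (hK : 0 < K) (ht : 0 < t)
    (hy : ∀ x : R3, ‖x‖ ≤ R → |K * ∑ j, a j * x j| ≤ t / 2) (hKt : K ≤ N ^ 2 * t ^ 2)
    {z : Sm} (hz : Cp R z) :
    K * (t ^ 2 * n2 z + ∑ j, n2 (dd j z)) ≤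
      (1 / N ^ 2 + 2 + 7 / N) * n2 (SS a b N K t z + AA a N K t z) := by
  have h1 := energy (K := K) (t := t) hN hab hz
  have h2 := gradient hN hN2 hN0 hK ht hy hz
  have h3 : t ^ 2 / 4 * n2 z ≤ n2 (ss a K t * z) := by
    unfold n2
    rw [← integral_const_mul]
    refine integral_mono ((hz.integrable_sq).const_mul _) ((hz.mul_left _).integrable_sq) fun x => ?_
    show t ^ 2 / 4 * ‖z x‖ ^ 2 ≤ ‖(ss a K t * z) x‖ ^ 2
    by_cases hx : ‖x‖ ≤ R
    · rw [mul_apply, norm_mul, mul_pow]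
      refine mul_le_mul_of_nonneg_right ?_ (by positivity)
      rw [ss_apply, Complex.norm_real, Real.norm_eq_abs, sq_abs]
      have h8 := abs_le.mp (hy x hx)
      nlinarith
    · rw [hz.apply_eq_zero (not_le.mp hx), norm_zero]
      have h0 : t ^ 2 / 4 * (0 : ℝ) ^ 2 = 0 := by ring
      rw [h0]
      positivity
  set P := n2 (SS a b N K t z + AA a N K t z)
  set G := ∑ j, n2 (dd j z)
  set Z := n2 z
  have hZ : 0 ≤ Z := n2_nonneg z
  have hS : 0 ≤ n2 (SS a b N K t z) := n2_nonneg _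
  have hA : 0 ≤ n2 (AA a N K t z) := n2_nonneg _
  have hD : 0 ≤ n2 (Dv a z) := n2_nonneg _
  have hs : 0 ≤ n2 (ss a K t * z) := n2_nonneg _
  have h4 : K * N ^ 2 * t ^ 2 * Z ≤ P := by
    have : 4 * K * N * N * n2 (ss a K t * z) ≥ 4 * K * N * N * (t ^ 2 / 4 * Z) := by gcongr
    have h40 : 0 ≤ 4 * K * n2 (Dv a z) := by positivity
    nlinarith
  have h5 : n2 (SS a b N K t z) ≤ P := by
    have h40 : 0 ≤ 4 * K * n2 (Dv a z) := by positivity
    have h41 : 0 ≤ 4 * K * N * N * n2 (ss a K t * z) := by positivity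
    linarith
  have hP : 0 ≤ P := n2_nonneg _
  have h6 : K * G ≤ P + P + 13 / 2 * (P / N) := by
    have h60 : K * G ≤ n2 (SS a b N K t z) + (K * K + 13 / 2 * N * t ^ 2 * K) * Z := by
      have := mul_le_mul_of_nonneg_left h2 hK.le
      have e : K * ((1 / K) * n2 (SS a b N K t z) + (K + 13 / 2 * N * t ^ 2) * Z)
          = n2 (SS a b N K t z) + (K * K + 13 / 2 * N * t ^ 2 * K) * Z := by
        field_simp
      rwa [e] at this
    have h61 : K * K * Z ≤ P := by
      have : K * K * Z ≤ K * (N ^ 2 * t ^ 2) * Z := by gcongr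
      linarith [h4]
    have h62 : N * t ^ 2 * K * Z ≤ P / N := by
      rw [le_div_iff₀ hN0]
      calc N * t ^ 2 * K * Z * N = K * N ^ 2 * t ^ 2 * Z := by ring
        _ ≤ P := h4
    nlinarith
  have h7 : K * (t ^ 2 * Z) ≤ P / N ^ 2 := by
    rw [le_div_iff₀ (by positivity)]
    calc K * (t ^ 2 * Z) * N ^ 2 = K * N ^ 2 * t ^ 2 * Z := by ring
      _ ≤ P := h4
  have h8 : 0 ≤ P / N := by positivity
  calc K * (t ^ 2 * Z + G) = K * (t ^ 2 * Z) + K * G := by ring
    _ ≤ P / N ^ 2 + (P + P + 13 / 2 * (P / N)) := add_le_add h7 h6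
    _ ≤ P / N ^ 2 + 2 * P + 7 * (P / N) := by linarith
    _ = (1 / N ^ 2 + 2 + 7 / N) * P := by ring

end Crest.Agent.R080.Carl
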