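import Crest.Agent.R080.CarlEst

/-!
Row 80 (S0107), T8: weights and lower order terms for the Carleman estimate (helper417).
-/

set_option autoImplicit false

open MeasureTheory Filter
open scoped ContDiff Topology ComplexConjugate
open Crest.AnalysisR.VecCalc3

noncomputable section
namespace Crest.Agent.R080.Carl
open Sm

variable {a b : Fin 3 → ℝ} {N K t R : ℝ}

/-- the Gaussian weights -/
def EE (a : Fin 3 → ℝ) (k : ℝ) : Sm :=
  ⟨fun x => Complex.exp ((k : ℂ) / 2 * (yy a x * yy a x)),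
    show ContDiff ℝ ∞ _ from Complex.contDiff_exp.comp
      (contDiff_const.mul ((smooth (yy a)).mul (smooth (yy a))))⟩

theorem EE_apply (k : ℝ) (x : R3) :
    EE a k x = ((Real.exp (k / 2 * (∑ j, a j * x j) ^ 2) : ℝ) : ℂ) := by
  show Complex.exp ((k : ℂ) / 2 * (yy a x * yy a x)) = _
  rw [yy_apply, Complex.ofReal_exp]
  congr 1
  push_cast; ring

theorem EE_mul_neg (k : ℝ) : EE a k * EE a (-k) = 1 := by
  ext x
  rw [mul_apply, EE_apply, EE_apply, ← Complex.ofReal_mul, ← Real.exp_add, one_apply]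
  have : k / 2 * (∑ j, a j * x j) ^ 2 + -k / 2 * (∑ j, a j * x j) ^ 2 = 0 := by ring
  rw [this, Real.exp_zero, Complex.ofReal_one]

theorem dd_EE (j : Fin 3) (k : ℝ) : dd j (EE a k) = c (k : ℂ) * c (a j : ℂ) * yy a * EE a k := by
  ext x
  have h1 : dd j (c ((k : ℂ) / 2) * (yy a * yy a)) x = (k : ℂ) * a j * yy a x := by
    rw [Derivation.leibniz, dd_c, Derivation.leibniz, dd_yy]
    simp only [smul_eq_mul, mul_zero, add_zero, mul_apply, add_apply, algebraMap_apply]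
    ring
  show fderiv ℝ (fun x => Complex.exp ((k : ℂ) / 2 * (yy a x * yy a x))) x (ee j) = _
  have hd : DifferentiableAt ℝ (fun x : R3 => (k : ℂ) / 2 * (yy a x * yy a x)) x :=
    diffb (c ((k : ℂ) / 2) * (yy a * yy a)) x
  have h2 : HasFDerivAt (fun x : R3 => Complex.exp ((k : ℂ) / 2 * (yy a x * yy a x)))
      (Complex.exp ((k : ℂ) / 2 * (yy a x * yy a x)) •
        fderiv ℝ (fun x : R3 => (k : ℂ) / 2 * (yy a x * yy a x)) x) x :=
    HasFDerivAt.cexp hd.hasFDerivAt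
  rw [h2.fderiv]
  have h3 : fderiv ℝ (fun x : R3 => (k : ℂ) / 2 * (yy a x * yy a x)) x (ee j)
      = (k : ℂ) * a j * yy a x := h1
  show Complex.exp ((k : ℂ) / 2 * (yy a x * yy a x)) *
    fderiv ℝ (fun x : R3 => (k : ℂ) / 2 * (yy a x * yy a x)) x (ee j) = _
  rw [h3]
  show _ = (k : ℂ) * a j * yy a x * Complex.exp ((k : ℂ) / 2 * (yy a x * yy a x))
  ring

theorem c_sum_mul (f g : Fin 3 → ℝ) :
    c ((∑ j, f j * g j : ℝ) : ℂ) = ∑ j, c (f j : ℂ) * c (g j : ℂ) := by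
  rw [Complex.ofReal_sum, map_sum]
  refine Finset.sum_congr rfl fun j _ => ?_
  rw [Complex.ofReal_mul, map_mul]

/-- conjugation by the weight `E = exp (-(K/2) y²)` -/
theorem conj_formula (hN : ∑ j, a j * a j = N) (hab : ∑ j, b j * a j = 0) (z : Sm) :
    Lp (EE a (-K) * z) + 2 * c (t : ℂ) * (Dv a (EE a (-K) * z) + c Complex.I * Dv b (EE a (-K) * z))
      = EE a (-K) * (SS a b N K t z + AA a N K t z) := by
  set E := EE a (-K) with hE
  have hdE : ∀ j, dd j E = -(c (K : ℂ) * c (a j : ℂ) * yy a * E) := by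
    intro j
    rw [hE, dd_EE, Complex.ofReal_neg, map_neg]; ring
  have hDE : ∀ v : Fin 3 → ℝ, Dv v E = -(c (K : ℂ) * c ((∑ j, v j * a j : ℝ) : ℂ) * yy a * E) := by
    intro v
    rw [Dv_apply, c_sum_mul]
    rw [Finset.mul_sum, Finset.sum_mul, Finset.sum_mul, ← Finset.sum_neg_distrib]
    refine Finset.sum_congr rfl fun j _ => ?_
    rw [hdE]; ring
  have hLE : Lp E = (c (K : ℂ) * c (K : ℂ) * c (N : ℂ) * yy a * yy a - c (K : ℂ) * c (N : ℂ)) * E := by
    unfold Lp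
    have h1 : ∀ j, dd j (dd j E) = c (a j : ℂ) * c (a j : ℂ) *
        (c (K : ℂ) * c (K : ℂ) * yy a * yy a * E - c (K : ℂ) * E) := by
      intro j
      rw [hdE, map_neg, Derivation.leibniz, Derivation.leibniz, Derivation.leibniz, dd_c, dd_c,
        dd_yy, hdE]
      simp only [smul_eq_mul]
      ring
    rw [Finset.sum_congr rfl fun j _ => h1 j, ← Finset.sum_mul, ← hN, c_sum_mul]
    ring
  have hsum : ∑ j, dd j E * dd j z = -(c (K : ℂ) * yy a * E * Dv a z) := by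
    rw [Dv_apply, Finset.mul_sum, ← Finset.sum_neg_distrib]
    refine Finset.sum_congr rfl fun j _ => ?_
    rw [hdE]; ring
  have hDa : Dv a E = -(c (K : ℂ) * c (N : ℂ) * yy a * E) := by rw [hDE, hN]
  have hDb : Dv b E = 0 := by
    rw [hDE, hab, Complex.ofReal_zero, map_zero]; ring
  rw [Lp_mul, hsum, hLE, Derivation.leibniz, Derivation.leibniz, hDa, hDb]
  unfold SS AA VV ss
  simp only [smul_eq_mul, map_mul, map_ofNat]
  ring

section
variable {ι : Type} [Fintype ι]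

/-- the full operator in the algebra -/
def FF (θ : Fin 3 → ℂ) (A : Fin 3 → ι → ι → Sm) (B : ι → ι → Sm) (t : ℝ) (v : ι → Sm) (i : ι) : Sm :=
  Lp (v i) + 2 * c (t : ℂ) * ∑ j, c (θ j) * dd j (v i)
    + ∑ j, ∑ l, A j i l * (dd j (v l) + c (t : ℂ) * c (θ j) * v l) + ∑ l, B i l * v l

/-- the lower order part after conjugation -/
def LL (θ : Fin 3 → ℂ) (a : Fin 3 → ℝ) (K : ℝ) (A : Fin 3 → ι → ι → Sm) (B : ι → ι → Sm) (t : ℝ)
    (z : ι → Sm) (i : ι) : Sm :=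
  ∑ j, ∑ l, A j i l * (dd j (z l) + (c (t : ℂ) * c (θ j) - c (K : ℂ) * c (a j : ℂ) * yy a) * z l)
    + ∑ l, B i l * z l

theorem FF_conj (hN : ∑ j, a j * a j = N) (hab : ∑ j, b j * a j = 0) (θ : Fin 3 → ℂ)
    (hθ : ∀ j, θ j = (a j : ℂ) + Complex.I * (b j : ℂ))
    (A : Fin 3 → ι → ι → Sm) (B : ι → ι → Sm) (z : ι → Sm) (i : ι) :
    FF θ A B t (fun l => EE a (-K) * z l) i
      = EE a (-K) * (SS a b N K t (z i) + AA a N K t (z i) + LL θ a K A B t z i) := by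
  have h1 := conj_formula (K := K) (t := t) hN hab (z i)
  have h2 : ∑ j, c (θ j) * dd j (EE a (-K) * z i)
      = Dv a (EE a (-K) * z i) + c Complex.I * Dv b (EE a (-K) * z i) := by
    rw [Dv_apply, Dv_apply, Finset.mul_sum, ← Finset.sum_add_distrib]
    refine Finset.sum_congr rfl fun j _ => ?_
    rw [hθ, map_add, map_mul]; ring
  have h3 : ∀ j l, dd j (EE a (-K) * z l)
      = EE a (-K) * (dd j (z l) - c (K : ℂ) * c (a j : ℂ) * yy a * z l) := by
    intro j l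
    rw [Derivation.leibniz, dd_EE, Complex.ofReal_neg, map_neg]
    simp only [smul_eq_mul]
    ring
  unfold FF
  rw [h2, h1]
  unfold LL
  have h4 : ∑ j, ∑ l, A j i l * (dd j (EE a (-K) * z l) + c (t : ℂ) * c (θ j) * (EE a (-K) * z l))
      = EE a (-K) * ∑ j, ∑ l, A j i l * (dd j (z l)
        + (c (t : ℂ) * c (θ j) - c (K : ℂ) * c (a j : ℂ) * yy a) * z l) := by
    rw [Finset.mul_sum]
    refine Finset.sum_congr rfl fun j _ => ?_
    rw [Finset.mul_sum]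
    refine Finset.sum_congr rfl fun l _ => ?_
    rw [h3]; ring
  have h5 : ∑ l, B i l * (EE a (-K) * z l) = EE a (-K) * ∑ l, B i l * z l := by
    rw [Finset.mul_sum]
    refine Finset.sum_congr rfl fun l _ => ?_
    ring
  rw [h4, h5]; ring

/-- pointwise size of a vector field and its gradient -/
def qz (t : ℝ) (z : ι → Sm) (x : R3) : ℝ := ∑ l, (t ^ 2 * ‖z l x‖ ^ 2 + ∑ j, ‖dd j (z l) x‖ ^ 2)

theorem LL_bound (θ : Fin 3 → ℂ) (A : Fin 3 → ι → ι → Sm) (B : ι → ι → Sm) (M : ℝ) (hM : 0 ≤ M)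
    (x : R3) (hA : ∀ j i l, ‖A j i l x‖ ≤ M) (hB : ∀ i l, ‖B i l x‖ ≤ M) (ht : 1 ≤ t)
    (hy : ∀ j, |K * a j * ∑ k, a k * x k| ≤ t) (z : ι → Sm) (i : ι) :
    ‖LL θ a K A B t z i x‖ ^ 2 ≤
      (M * (3 * (∑ j, ‖θ j‖) + 4)) ^ 2 * (4 * Fintype.card ι) * qz t z x := by
  set T := ∑ j, ‖θ j‖ with hT
  have hT0 : 0 ≤ T := Finset.sum_nonneg fun _ _ => norm_nonneg _
  have hθ : ∀ j, ‖θ j‖ ≤ T := fun j =>
    Finset.single_le_sum (f := fun j => ‖θ j‖) (fun _ _ => norm_nonneg _) (Finset.mem_univ j)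
  have h1 : ‖LL θ a K A B t z i x‖ ≤ M * (3 * T + 4) * ∑ l, (t * ‖z l x‖ + ∑ j, ‖dd j (z l) x‖) := by
    unfold LL
    rw [add_apply, sum_apply, sum_apply]
    have e1 : ∀ j, ‖(∑ l, A j i l * (dd j (z l)
        + (c (t : ℂ) * c (θ j) - c (K : ℂ) * c (a j : ℂ) * yy a) * z l)) x‖
        ≤ ∑ l, M * (‖dd j (z l) x‖ + (T + 1) * (t * ‖z l x‖)) := by
      intro j
      rw [sum_apply]
      refine (norm_sum_le _ _).trans (Finset.sum_le_sum fun l _ => ?_)
      rw [mul_apply, norm_mul]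
      refine mul_le_mul (hA j i l) ?_ (norm_nonneg _) hM
      rw [add_apply]
      refine (norm_add_le _ _).trans (add_le_add le_rfl ?_)
      rw [mul_apply, norm_mul, sub_apply, mul_apply, mul_apply, mul_apply, algebraMap_apply,
        algebraMap_apply, algebraMap_apply, algebraMap_apply, yy_apply]
      have e2 : ‖(t : ℂ) * θ j - (K : ℂ) * (a j : ℂ) * ((∑ k, a k * x k : ℝ) : ℂ)‖ ≤ (T + 1) * t := by
        refine (norm_sub_le _ _).trans ?_
        rw [norm_mul, ← Complex.ofReal_mul, ← Complex.ofReal_mul, Complex.norm_real,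
          Complex.norm_real, Real.norm_eq_abs, Real.norm_eq_abs, abs_of_nonneg (by linarith)]
        have := hy j
        have h3 : t * ‖θ j‖ ≤ t * T := by gcongr; exact hθ j
        linarith
      calc ‖(t : ℂ) * θ j - (K : ℂ) * (a j : ℂ) * ((∑ k, a k * x k : ℝ) : ℂ)‖ * ‖z l x‖
          ≤ ((T + 1) * t) * ‖z l x‖ := by gcongr
        _ = (T + 1) * (t * ‖z l x‖) := by ring
    have e3 : ‖∑ l, (B i l * z l) x‖ ≤ ∑ l, M * (t * ‖z l x‖) := by
      refine (norm_sum_le _ _).trans (Finset.sum_le_sum fun l _ => ?_)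
      rw [mul_apply, norm_mul]
      refine mul_le_mul (hB i l) ?_ (norm_nonneg _) hM
      nlinarith [norm_nonneg (z l x)]
    calc ‖∑ j, (∑ l, A j i l * (dd j (z l)
        + (c (t : ℂ) * c (θ j) - c (K : ℂ) * c (a j : ℂ) * yy a) * z l)) x + ∑ l, (B i l * z l) x‖
        ≤ ‖∑ j, (∑ l, A j i l * (dd j (z l)
        + (c (t : ℂ) * c (θ j) - c (K : ℂ) * c (a j : ℂ) * yy a) * z l)) x‖
          + ‖∑ l, (B i l * z l) x‖ := norm_add_le _ _
      _ ≤ (∑ j : Fin 3, ∑ l, M * (‖dd j (z l) x‖ + (T + 1) * (t * ‖z l x‖)))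
          + ∑ l, M * (t * ‖z l x‖) := by
          refine add_le_add ((norm_sum_le _ _).trans (Finset.sum_le_sum fun j _ => e1 j)) e3
      _ = M * ∑ l, (∑ j, ‖dd j (z l) x‖ + (3 * (T + 1) + 1) * (t * ‖z l x‖)) := by
          rw [Finset.sum_comm, ← Finset.sum_add_distrib, Finset.mul_sum]
          refine Finset.sum_congr rfl fun l _ => ?_
          simp only [Fin.sum_univ_three]
          ring
      _ ≤ M * ∑ l, (3 * T + 4) * (t * ‖z l x‖ + ∑ j, ‖dd j (z l) x‖) := by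
          gcongr with l _
          have h3 : 0 ≤ ∑ j, ‖dd j (z l) x‖ := Finset.sum_nonneg fun _ _ => norm_nonneg _
          nlinarith
      _ = M * (3 * T + 4) * ∑ l, (t * ‖z l x‖ + ∑ j, ‖dd j (z l) x‖) := by
          rw [← Finset.mul_sum]; ring
  have h2 : (∑ l, (t * ‖z l x‖ + ∑ j, ‖dd j (z l) x‖)) ^ 2 ≤ (4 * Fintype.card ι) * qz t z x := by
    have e1 := sq_sum_le_card_mul_sum_sq (s := (Finset.univ : Finset ι))
      (f := fun l => t * ‖z l x‖ + ∑ j, ‖dd j (z l) x‖)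
    refine e1.trans ?_
    rw [Finset.card_univ]
    have e2 : ∀ l, (t * ‖z l x‖ + ∑ j, ‖dd j (z l) x‖) ^ 2
        ≤ 4 * (t ^ 2 * ‖z l x‖ ^ 2 + ∑ j, ‖dd j (z l) x‖ ^ 2) := by
      intro l
      simp only [Fin.sum_univ_three]
      set p := t * ‖z l x‖ with hp
      set q := ‖dd 0 (z l) x‖
      set r := ‖dd 1 (z l) x‖
      set s := ‖dd 2 (z l) x‖
      have : t ^ 2 * ‖z l x‖ ^ 2 = p ^ 2 := by rw [hp]; ring
      rw [this]
      nlinarith [sq_nonneg (p - q), sq_nonneg (p - r), sq_nonneg (p - s), sq_nonneg (q - r),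
        sq_nonneg (q - s), sq_nonneg (r - s)]
    calc (Fintype.card ι : ℝ) * ∑ l, (t * ‖z l x‖ + ∑ j, ‖dd j (z l) x‖) ^ 2
        ≤ (Fintype.card ι : ℝ) * ∑ l, 4 * (t ^ 2 * ‖z l x‖ ^ 2 + ∑ j, ‖dd j (z l) x‖ ^ 2) := by
          gcongr with l _
          exact e2 l
      _ = (4 * Fintype.card ι) * qz t z x := by
          unfold qz
          rw [← Finset.mul_sum]; ring
  calc ‖LL θ a K A B t z i x‖ ^ 2
      ≤ (M * (3 * T + 4) * ∑ l, (t * ‖z l x‖ + ∑ j, ‖dd j (z l) x‖)) ^ 2 := by gcongr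
    _ = (M * (3 * T + 4)) ^ 2 * (∑ l, (t * ‖z l x‖ + ∑ j, ‖dd j (z l) x‖)) ^ 2 := by ring
    _ ≤ (M * (3 * T + 4)) ^ 2 * ((4 * Fintype.card ι) * qz t z x) := by gcongr
    _ = _ := by ring

/-- integrated size -/
def QQ (t : ℝ) (z : ι → Sm) : ℝ := ∑ l, (t ^ 2 * n2 (z l) + ∑ j, n2 (dd j (z l)))

theorem integrable_qq {z : ι → Sm} (hz : ∀ l, Cp R (z l)) : Integrable (qz t z) := by
  unfold qz
  exact integrable_finsetSum _ fun l _ => (((hz l).integrable_sq).const_mul _).add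
    (integrable_finsetSum _ fun j _ => ((hz l).dd j).integrable_sq)

theorem integral_qq {z : ι → Sm} (hz : ∀ l, Cp R (z l)) : ∫ x, qz t z x = QQ t z := by
  unfold qz QQ
  have i1 : ∀ l, Integrable fun x => t ^ 2 * ‖z l x‖ ^ 2 := fun l =>
    ((hz l).integrable_sq).const_mul _
  have i2 : ∀ l, Integrable fun x => ∑ j, ‖dd j (z l) x‖ ^ 2 := fun l =>
    integrable_finsetSum _ fun j _ => ((hz l).dd j).integrable_sq
  have i3 : ∀ l, Integrable fun x => t ^ 2 * ‖z l x‖ ^ 2 + ∑ j, ‖dd j (z l) x‖ ^ 2 := fun l =>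
    (i1 l).add (i2 l)
  rw [integral_finsetSum _ fun l _ => i3 l]
  refine Finset.sum_congr rfl fun l _ => ?_
  rw [integral_add (i1 l) (i2 l), integral_const_mul,
    integral_finsetSum _ fun j _ => ((hz l).dd j).integrable_sq]
  rfl

theorem exists_bound (R : ℝ) (A : Fin 3 → ι → ι → Sm) (B : ι → ι → Sm) :
    ∃ M : ℝ, 0 ≤ M ∧ ∀ x : R3, ‖x‖ ≤ R → (∀ j i l, ‖A j i l x‖ ≤ M) ∧ (∀ i l, ‖B i l x‖ ≤ M) := by
  have h : ∀ f : Sm, ∃ C : ℝ, ∀ x : R3, ‖x‖ ≤ R → ‖f x‖ ≤ C := by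
    intro f
    obtain ⟨C, hC⟩ := (isCompact_closedBall (0 : R3) R).exists_bound_of_continuousOn
      (f := (f : R3 → ℂ)) (cont f).continuousOn
    exact ⟨C, fun x hx => hC x (by rwa [mem_closedBall_zero_iff])⟩
  choose C hC using h
  have hs1 : ∀ j i l, |C (A j i l)| ≤ ∑ j, ∑ i, ∑ l, |C (A j i l)| := by
    intro j i l
    calc |C (A j i l)| ≤ ∑ l, |C (A j i l)| :=
          Finset.single_le_sum (f := fun l => |C (A j i l)|) (fun _ _ => abs_nonneg _)
            (Finset.mem_univ l)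
      _ ≤ ∑ i, ∑ l, |C (A j i l)| :=
          Finset.single_le_sum (f := fun i => ∑ l, |C (A j i l)|)
            (fun _ _ => Finset.sum_nonneg fun _ _ => abs_nonneg _) (Finset.mem_univ i)
      _ ≤ ∑ j, ∑ i, ∑ l, |C (A j i l)| :=
          Finset.single_le_sum (f := fun j => ∑ i, ∑ l, |C (A j i l)|)
            (fun _ _ => Finset.sum_nonneg fun _ _ => Finset.sum_nonneg fun _ _ => abs_nonneg _)
            (Finset.mem_univ j)
  have hs2 : ∀ i l, |C (B i l)| ≤ ∑ i, ∑ l, |C (B i l)| := by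
    intro i l
    calc |C (B i l)| ≤ ∑ l, |C (B i l)| :=
          Finset.single_le_sum (f := fun l => |C (B i l)|) (fun _ _ => abs_nonneg _)
            (Finset.mem_univ l)
      _ ≤ ∑ i, ∑ l, |C (B i l)| :=
          Finset.single_le_sum (f := fun i => ∑ l, |C (B i l)|)
            (fun _ _ => Finset.sum_nonneg fun _ _ => abs_nonneg _) (Finset.mem_univ i)
  have h1 : 0 ≤ ∑ j, ∑ i, ∑ l, |C (A j i l)| :=
    Finset.sum_nonneg fun _ _ => Finset.sum_nonneg fun _ _ => Finset.sum_nonneg fun _ _ =>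
      abs_nonneg _
  have h2 : 0 ≤ ∑ i, ∑ l, |C (B i l)| :=
    Finset.sum_nonneg fun _ _ => Finset.sum_nonneg fun _ _ => abs_nonneg _
  refine ⟨(∑ j, ∑ i, ∑ l, |C (A j i l)|) + ∑ i, ∑ l, |C (B i l)|, add_nonneg h1 h2,
    fun x hx => ⟨fun j i l => ?_, fun i l => ?_⟩⟩
  · have := hC (A j i l) x hx
    have := hs1 j i l
    have := le_abs_self (C (A j i l))
    linarith
  · have := hC (B i l) x hx
    have := hs2 i l
    have := le_abs_self (C (B i l))
    linarith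

theorem Cp_FF {θ : Fin 3 → ℂ} {A : Fin 3 → ι → ι → Sm} {B : ι → ι → Sm} {v : ι → Sm}
    (hv : ∀ l, Cp R (v l)) (i : ι) : Cp R (FF θ A B t v i) := by
  unfold FF
  refine (((hv i).Lp.add ?_).add ?_).add ?_
  · exact (Cp.sum _ _ fun j _ => ((hv i).dd j).mul_left _).mul_left _
  · exact Cp.sum _ _ fun j _ => Cp.sum _ _ fun l _ =>
      (((hv l).dd j).add ((hv l).mul_left _)).mul_left _
  · exact Cp.sum _ _ fun l _ => (hv l).mul_left _

theorem abs_dot_le (a : Fin 3 → ℝ) (x : R3) (hx : ‖x‖ ≤ R) :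
    |∑ j, a j * x j| ≤ (∑ j, |a j|) * R := by
  rw [Finset.sum_mul]
  refine (Finset.abs_sum_le_sum_abs _ _).trans (Finset.sum_le_sum fun j _ => ?_)
  rw [abs_mul]
  gcongr
  have h1 : ‖x j‖ ≤ ‖x‖ := PiLp.norm_apply_le x j
  rw [Real.norm_eq_abs] at h1
  exact h1.trans hx

end

end Crest.Agent.R080.Carl

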