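import Crest.Agent.R080.CarlLow

/-!
Row 80 (S0107), T8: the Carleman estimate (helper417).
-/

set_option autoImplicit false

open MeasureTheory Filter
open scoped ContDiff Topology ComplexConjugate
open Crest.AnalysisR.VecCalc3

noncomputable section
namespace Crest.Agent.R080
open Carl Carl.Sm

theorem t_Carleman : StmtCarleman := by
  intro ι _ _ θ hθ A B hA hB R0
  obtain ⟨R, hR1, hR0⟩ : ∃ R : ℝ, 1 ≤ R ∧ R0 ≤ R := ⟨max R0 1, le_max_right _ _, le_max_left _ _⟩
  set a : Fin 3 → ℝ := fun j => (θ j).re with ha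
  set b : Fin 3 → ℝ := fun j => (θ j).im with hb
  have hθab : ∀ j, θ j = (a j : ℂ) + Complex.I * (b j : ℂ) := fun j => by
    rw [mul_comm]; exact (Complex.re_add_im (θ j)).symm
  set N : ℝ := ∑ j, a j * a j with hN
  have hnull := hθ.2
  have hre : ∑ j, b j * b j = N := by
    have h := congrArg Complex.re hnull
    simp only [Fin.sum_univ_three, Complex.add_re, sq, Complex.mul_re, Complex.zero_re] at h
    rw [hN]
    simp only [Fin.sum_univ_three, ha, hb]
    linarith
  have him : ∑ j, b j * a j = 0 := by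
    have h := congrArg Complex.im hnull
    simp only [Fin.sum_univ_three, Complex.add_im, sq, Complex.mul_im, Complex.zero_im] at h
    simp only [Fin.sum_univ_three, ha, hb]
    linarith
  have hN0 : 0 < N := by
    have h0 : 0 ≤ N := Finset.sum_nonneg fun j _ => mul_self_nonneg _
    rcases h0.lt_or_eq with h | h
    · exact h
    · exfalso
      apply hθ.1
      have h1 : ∀ j, a j = 0 := by
        intro j
        have := (Finset.sum_eq_zero_iff_of_nonneg (fun j _ => mul_self_nonneg (a j))).mp h.symm j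
          (Finset.mem_univ j)
        exact mul_self_eq_zero.mp this
      have h2 : ∀ j, b j = 0 := by
        intro j
        have h3 : ∑ j, b j * b j = 0 := by rw [hre, ← h]
        have := (Finset.sum_eq_zero_iff_of_nonneg (fun j _ => mul_self_nonneg (b j))).mp h3 j
          (Finset.mem_univ j)
        exact mul_self_eq_zero.mp this
      funext j
      rw [hθab, h1, h2]; simp
  let As : Fin 3 → ι → ι → Sm := fun j i l => ⟨A j i l, hA j i l⟩
  let Bs : ι → ι → Sm := fun i l => ⟨B i l, hB i l⟩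
  obtain ⟨M, hM0, hM⟩ := exists_bound R As Bs
  set n : ℝ := (Fintype.card ι : ℝ) with hn
  have hn0 : 0 ≤ n := Nat.cast_nonneg _
  set T : ℝ := ∑ j, ‖θ j‖ with hT
  set C1 : ℝ := (M * (3 * T + 4)) ^ 2 * (4 * n) with hC1
  have hC10 : 0 ≤ C1 := by positivity
  set C0 : ℝ := 1 / N ^ 2 + 2 + 7 / N with hC0
  have hC00 : 0 < C0 := by positivity
  set K : ℝ := 1 + 4 * n * C0 * C1 with hK
  have hK1 : 1 ≤ K := by
    have : 0 ≤ 4 * n * C0 * C1 := by positivity
    linarith
  have hK0 : 0 < K := by linarith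
  set Sa : ℝ := ∑ j, |a j| with hSa
  have hSa0 : 0 ≤ Sa := Finset.sum_nonneg fun _ _ => abs_nonneg _
  have hR0' : 0 ≤ R := by linarith
  set W : ℝ := Real.exp (K / 2 * (Sa * R) ^ 2) with hW
  have hW0 : 0 < W := Real.exp_pos _
  refine ⟨14 * C0 * W ^ 2, 1 + 2 * K * Sa * R + K / N ^ 2 + K * Sa * Sa * R, by positivity,
    by positivity, ?_⟩
  intro t ht v hv hsupp
  have ht1 : 1 ≤ t := by
    have h1 : 0 ≤ 2 * K * Sa * R := by positivity
    have h2 : 0 ≤ K / N ^ 2 := by positivity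
    have h3 : 0 ≤ K * Sa * Sa * R := by positivity
    linarith
  have ht2 : 2 * K * Sa * R ≤ t := by
    have h2 : 0 ≤ K / N ^ 2 := by positivity
    have h3 : 0 ≤ K * Sa * Sa * R := by positivity
    linarith
  have ht3 : K / N ^ 2 ≤ t := by
    have h1 : 0 ≤ 2 * K * Sa * R := by positivity
    have h3 : 0 ≤ K * Sa * Sa * R := by positivity
    linarith
  have ht4 : K * Sa * Sa * R ≤ t := by
    have h1 : 0 ≤ 2 * K * Sa * R := by positivity
    have h2 : 0 ≤ K / N ^ 2 := by positivity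
    linarith
  have ht0 : 0 < t := by linarith
  have hKt : K ≤ N ^ 2 * t ^ 2 := by
    have h1 : K ≤ t * N ^ 2 := (div_le_iff₀ (by positivity)).mp ht3
    nlinarith [sq_nonneg N]
  have hy : ∀ x : R3, ‖x‖ ≤ R → |K * ∑ j, a j * x j| ≤ t / 2 := by
    intro x hx
    rw [abs_mul, abs_of_pos hK0]
    have := abs_dot_le a x hx
    have h2 : K * |∑ j, a j * x j| ≤ K * (Sa * R) := by gcongr
    linarith
  have haj : ∀ j, |a j| ≤ Sa := fun j =>
    Finset.single_le_sum (f := fun j => |a j|) (fun _ _ => abs_nonneg _) (Finset.mem_univ j)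
  have hy2 : ∀ x : R3, ‖x‖ ≤ R → ∀ j, |K * a j * ∑ k, a k * x k| ≤ t := by
    intro x hx j
    rw [abs_mul, abs_mul, abs_of_pos hK0]
    have h1 := abs_dot_le a x hx
    have h2 : K * |a j| * |∑ j, a j * x j| ≤ K * Sa * (Sa * R) := by
      gcongr
      exact haj j
    linarith
  let vs : ι → Sm := fun i => ⟨v i, hv i⟩
  have hvs : ∀ i, Cp R (vs i) := fun i => cp_of_zero fun x hx => hsupp i x (hR0.trans hx.le)
  let z : ι → Sm := fun i => EE a K * vs i
  have hz : ∀ i, Cp R (z i) := fun i => (hvs i).mul_left _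
  have hEE : EE a (-K) * EE a K = 1 := by
    rw [mul_comm]; exact EE_mul_neg K
  have hvz : ∀ i, vs i = EE a (-K) * z i := by
    intro i
    show vs i = EE a (-K) * (EE a K * vs i)
    rw [← mul_assoc, hEE, one_mul]
  have hvz' : vs = fun l => EE a (-K) * z l := funext hvz
  have hE1 : ∀ x, ‖EE a (-K) x‖ ≤ 1 := by
    intro x
    rw [EE_apply, Complex.norm_real, Real.norm_eq_abs, abs_of_pos (Real.exp_pos _),
      Real.exp_le_one_iff]
    have : 0 ≤ K / 2 * (∑ j, a j * x j) ^ 2 := by positivity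
    linarith
  have hE2 : ∀ x : R3, ‖x‖ ≤ R → ‖EE a K x‖ ≤ W := by
    intro x hx
    rw [EE_apply, Complex.norm_real, Real.norm_eq_abs, abs_of_pos (Real.exp_pos _), hW,
      Real.exp_le_exp]
    have h1 := abs_dot_le a x hx
    have h2 : (∑ j, a j * x j) ^ 2 ≤ (Sa * R) ^ 2 := by
      rw [← sq_abs (∑ j, a j * x j)]
      gcongr
    gcongr
  -- the main algebraic identity
  have hmain : ∀ i, SS a b N K t (z i) + AA a N K t (z i)
      = EE a K * FF θ As Bs t vs i - LL θ a K As Bs t z i := by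
    intro i
    have h1 := FF_conj (K := K) (t := t) (N := N) rfl him θ hθab As Bs z i
    rw [← hvz'] at h1
    rw [h1, ← mul_assoc, mul_comm (EE a K), hEE, one_mul]
    ring
  have hFFc : ∀ i, Cp R (FF θ As Bs t vs i) := fun i => Cp_FF hvs i
  have hPc : ∀ i, Cp R (SS a b N K t (z i) + AA a N K t (z i)) := fun i =>
    (hz i).SS.add (hz i).AA
  -- lower order absorption
  have hlow : ∀ i, n2 (SS a b N K t (z i) + AA a N K t (z i))
      ≤ 2 * W ^ 2 * n2 (FF θ As Bs t vs i) + 2 * C1 * QQ t z := by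
    intro i
    rw [← integral_qq hz]
    unfold n2
    rw [← integral_const_mul, ← integral_const_mul,
      ← integral_add (((hFFc i).integrable_sq).const_mul _) ((integrable_qq hz).const_mul _)]
    refine integral_mono (hPc i).integrable_sq ((((hFFc i).integrable_sq).const_mul _).add
      ((integrable_qq hz).const_mul _)) fun x => ?_
    show ‖(SS a b N K t (z i) + AA a N K t (z i)) x‖ ^ 2
      ≤ 2 * W ^ 2 * ‖FF θ As Bs t vs i x‖ ^ 2 + 2 * C1 * qz t z x
    have hq0 : 0 ≤ qz t z x := Finset.sum_nonneg fun l _ => by positivity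
    by_cases hx : ‖x‖ ≤ R
    · have h1 := LL_bound (K := K) (a := a) θ As Bs M hM0 x (hM x hx).1 (hM x hx).2 ht1
        (hy2 x hx) z i
      rw [hmain, Sm.sub_apply, Sm.mul_apply]
      have h2 : ‖EE a K x * FF θ As Bs t vs i x - LL θ a K As Bs t z i x‖
          ≤ W * ‖FF θ As Bs t vs i x‖ + ‖LL θ a K As Bs t z i x‖ := by
        refine (norm_sub_le _ _).trans (add_le_add ?_ le_rfl)
        rw [norm_mul]
        gcongr
        exact hE2 x hx
      have h3 : ‖EE a K x * FF θ As Bs t vs i x - LL θ a K As Bs t z i x‖ ^ 2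
          ≤ (W * ‖FF θ As Bs t vs i x‖ + ‖LL θ a K As Bs t z i x‖) ^ 2 := by gcongr
      have h4 : (W * ‖FF θ As Bs t vs i x‖ + ‖LL θ a K As Bs t z i x‖) ^ 2
          ≤ 2 * (W * ‖FF θ As Bs t vs i x‖) ^ 2 + 2 * ‖LL θ a K As Bs t z i x‖ ^ 2 := by
        nlinarith [sq_nonneg (W * ‖FF θ As Bs t vs i x‖ - ‖LL θ a K As Bs t z i x‖)]
      have h5 : 2 * ‖LL θ a K As Bs t z i x‖ ^ 2 ≤ 2 * C1 * qz t z x := by linarith
      calc _ ≤ _ := h3
        _ ≤ _ := h4
        _ ≤ 2 * W ^ 2 * ‖FF θ As Bs t vs i x‖ ^ 2 + 2 * C1 * qz t z x := by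
          have : 2 * (W * ‖FF θ As Bs t vs i x‖) ^ 2
            = 2 * W ^ 2 * ‖FF θ As Bs t vs i x‖ ^ 2 := by ring
          linarith
    · rw [(hPc i).apply_eq_zero (not_le.mp hx), norm_zero]
      have : (0 : ℝ) ^ 2 = 0 := by norm_num
      rw [this]
      positivity
  -- summation
  set F : ℝ := ∑ i, n2 (FF θ As Bs t vs i) with hF
  have hQ0 : 0 ≤ QQ t z := Finset.sum_nonneg fun l _ => add_nonneg
    (mul_nonneg (sq_nonneg _) (n2_nonneg _)) (Finset.sum_nonneg fun j _ => n2_nonneg _)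
  have hKQ : K * QQ t z ≤ C0 * (2 * W ^ 2 * F + n * (2 * C1 * QQ t z)) := by
    have h1 : K * QQ t z = ∑ i, K * (t ^ 2 * n2 (z i) + ∑ j, n2 (dd j (z i))) := by
      unfold QQ; rw [Finset.mul_sum]
    rw [h1]
    calc ∑ i, K * (t ^ 2 * n2 (z i) + ∑ j, n2 (dd j (z i)))
        ≤ ∑ i, C0 * (2 * W ^ 2 * n2 (FF θ As Bs t vs i) + 2 * C1 * QQ t z) := by
          refine Finset.sum_le_sum fun i _ => ?_
          refine (scalar_est (K := K) (t := t) (N := N) rfl hre him hN0 hK0 ht0 hy hKt (hz i)).trans ?_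
          gcongr
          exact hlow i
      _ = C0 * (2 * W ^ 2 * F + n * (2 * C1 * QQ t z)) := by
          rw [← Finset.mul_sum, Finset.sum_add_distrib, ← Finset.mul_sum, Finset.sum_const,
            Finset.card_univ, nsmul_eq_mul]
  have hQ : QQ t z ≤ 2 * C0 * W ^ 2 * F := by
    have h1 : (K - 2 * n * C0 * C1) * QQ t z ≤ 2 * C0 * W ^ 2 * F := by
      nlinarith
    have h2 : 1 ≤ K - 2 * n * C0 * C1 := by
      have : 0 ≤ n * C0 * C1 := by positivity
      rw [hK]; linarith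
    nlinarith
  -- going back to v
  have hback : QQ t vs ≤ 7 * QQ t z := by
    rw [← integral_qq hvs, ← integral_qq hz, ← integral_const_mul]
    refine integral_mono (integrable_qq hvs) ((integrable_qq hz).const_mul _) fun x => ?_
    show qz t vs x ≤ 7 * qz t z x
    unfold qz
    rw [Finset.mul_sum]
    refine Finset.sum_le_sum fun i _ => ?_
    by_cases hx : ‖x‖ ≤ R
    · have h1 : ‖vs i x‖ ≤ ‖z i x‖ := by
        rw [hvz i, Sm.mul_apply, norm_mul]
        have := hE1 x
        nlinarith [norm_nonneg (z i x)]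
      have h2 : ∀ j, ‖dd j (vs i) x‖ ≤ ‖dd j (z i) x‖ + t * ‖z i x‖ := by
        intro j
        have e1 : dd j (vs i) = EE a (-K) * (dd j (z i) - c (K : ℂ) * c (a j : ℂ) * yy a * z i) := by
          rw [hvz i, Derivation.leibniz, dd_EE, Complex.ofReal_neg, map_neg]
          simp only [smul_eq_mul]
          ring
        rw [e1, Sm.mul_apply, norm_mul]
        have e2 : ‖(dd j (z i) - c (K : ℂ) * c (a j : ℂ) * yy a * z i) x‖
            ≤ ‖dd j (z i) x‖ + t * ‖z i x‖ := by
          rw [Sm.sub_apply]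
          refine (norm_sub_le _ _).trans (add_le_add le_rfl ?_)
          rw [Sm.mul_apply, norm_mul, Sm.mul_apply, Sm.mul_apply, Sm.algebraMap_apply, Sm.algebraMap_apply,
            yy_apply, ← Complex.ofReal_mul, ← Complex.ofReal_mul, Complex.norm_real,
            Real.norm_eq_abs]
          gcongr
          exact hy2 x hx j
        have := hE1 x
        calc ‖EE a (-K) x‖ * ‖(dd j (z i) - c (K : ℂ) * c (a j : ℂ) * yy a * z i) x‖
            ≤ 1 * (‖dd j (z i) x‖ + t * ‖z i x‖) := by gcongr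
          _ = _ := one_mul _
      have h3 : ∀ j, ‖dd j (vs i) x‖ ^ 2 ≤ 2 * ‖dd j (z i) x‖ ^ 2 + 2 * (t ^ 2 * ‖z i x‖ ^ 2) := by
        intro j
        have : ‖dd j (vs i) x‖ ^ 2 ≤ (‖dd j (z i) x‖ + t * ‖z i x‖) ^ 2 := by
          gcongr
          exact h2 j
        nlinarith [sq_nonneg (‖dd j (z i) x‖ - t * ‖z i x‖)]
      have h4 : ‖vs i x‖ ^ 2 ≤ ‖z i x‖ ^ 2 := by gcongr
      have h5 : t ^ 2 * ‖vs i x‖ ^ 2 ≤ t ^ 2 * ‖z i x‖ ^ 2 := by gcongr
      have h6 := h3 0
      have h7 := h3 1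
      have h8 := h3 2
      simp only [Fin.sum_univ_three]
      have h9 : 0 ≤ ‖dd 0 (z i) x‖ ^ 2 := by positivity
      have h10 : 0 ≤ ‖dd 1 (z i) x‖ ^ 2 := by positivity
      have h11 : 0 ≤ ‖dd 2 (z i) x‖ ^ 2 := by positivity
      linarith
    · have hx' := not_le.mp hx
      have h1 : ∀ j, dd j (vs i) x = 0 := fun j => ((hvs i).dd j).apply_eq_zero hx'
      rw [(hvs i).apply_eq_zero hx', norm_zero]
      simp only [h1, norm_zero]
      have : t ^ 2 * (0 : ℝ) ^ 2 + ∑ j : Fin 3, (0 : ℝ) ^ 2 = 0 := by simp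
      rw [this]
      positivity
  -- identify the two sides
  have hL : t ^ 2 * (∫ x, ∑ i, ‖v i x‖ ^ 2) + (∫ x, ∑ i, ∑ j, ‖pd j (v i) x‖ ^ 2) = QQ t vs := by
    have e1 : ∫ x, ∑ i, ‖v i x‖ ^ 2 = ∑ i, n2 (vs i) :=
      integral_finsetSum _ fun i _ => (hvs i).integrable_sq
    have e2 : ∫ x, ∑ i, ∑ j, ‖pd j (v i) x‖ ^ 2 = ∑ i, ∑ j, n2 (dd j (vs i)) := by
      show ∫ x, ∑ i, ∑ j, ‖dd j (vs i) x‖ ^ 2 = _
      rw [integral_finsetSum _ fun i _ => integrable_finsetSum _ fun j _ =>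
        ((hvs i).dd j).integrable_sq]
      refine Finset.sum_congr rfl fun i _ => ?_
      exact integral_finsetSum _ fun j _ => ((hvs i).dd j).integrable_sq
    rw [e1, e2]
    unfold QQ
    rw [Finset.sum_add_distrib, Finset.mul_sum]
  have hRr : ∫ x, ∑ i, ‖P0 A B v i x + t * M0 θ A v i x‖ ^ 2 = F := by
    have e0 : ∀ i x, P0 A B v i x + t * M0 θ A v i x = FF θ As Bs t vs i x := by
      intro i x
      have e1 : Carl.Lp (vs i) x = Lap (v i) x := by
        unfold Carl.Lp Lap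
        rw [Sm.sum_apply]
        rfl
      have e2 : (2 * c (t : ℂ) * ∑ j, c (θ j) * dd j (vs i)) x = 2 * (t : ℂ) * DD θ (v i) x := by
        have h2 : (2 : Sm) = c 2 := (map_ofNat (algebraMap ℂ Sm) 2).symm
        rw [Sm.mul_apply, Sm.mul_apply, Sm.sum_apply, h2, Sm.algebraMap_apply, Sm.algebraMap_apply]
        rfl
      have e3 : (∑ j, ∑ l, As j i l * (dd j (vs l) + c (t : ℂ) * c (θ j) * vs l)) x
          = ∑ j, ∑ l, A j i l x * (pd j (v l) x + (t : ℂ) * θ j * v l x) := by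
        rw [Sm.sum_apply]
        refine Finset.sum_congr rfl fun j _ => ?_
        rw [Sm.sum_apply]
        rfl
      have e4 : (∑ l, Bs i l * vs l) x = ∑ l, B i l x * v l x := by
        rw [Sm.sum_apply]; rfl
      unfold FF
      rw [Sm.add_apply, Sm.add_apply, Sm.add_apply, e1, e2, e3, e4]
      unfold P0 M0
      have e5 : ∑ j, ∑ l, A j i l x * (pd j (v l) x + (t : ℂ) * θ j * v l x)
          = ∑ j, ∑ l, A j i l x * pd j (v l) x + (t : ℂ) * ∑ j, ∑ l, A j i l x * θ j * v l x := by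
        rw [Finset.mul_sum, ← Finset.sum_add_distrib]
        refine Finset.sum_congr rfl fun j _ => ?_
        rw [Finset.mul_sum, ← Finset.sum_add_distrib]
        refine Finset.sum_congr rfl fun l _ => ?_
        ring
      rw [e5]
      ring
    simp only [e0]
    exact integral_finsetSum _ fun i _ => (hFFc i).integrable_sq
  rw [hL, hRr]
  calc QQ t vs ≤ 7 * QQ t z := hback
    _ ≤ 7 * (2 * C0 * W ^ 2 * F) := by gcongr
    _ = 14 * C0 * W ^ 2 * F := by ring

end Crest.Agent.R080
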