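import Crest.Agent.R080.CauchyA

/-!
Row 80, T5a: the Cauchy transform along planes.
-/

set_option autoImplicit false

open MeasureTheory Filter Set
open scoped ContDiff Topology Real

noncomputable section
namespace Crest.Agent.R080
namespace CauchyP

variable {V : Type} [NormedAddCommGroup V] [NormedSpace ℝ V]

/-- the Cauchy transform of `φ` along the plane `ι` -/
def cauchyP (ι : ℂ →L[ℝ] V) (φ : V → ℂ) (x : V) : ℂ := ∫ z, kc z * φ (x - ι z)

lemma lt_norm_add {c R : ℝ} (hc : 0 < c) {ι : ℂ →L[ℝ] V} (hι : ∀ z, c * ‖z‖ ≤ ‖ι z‖)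
    {ρ : ℝ} {x : V} (hx : ‖x‖ ≤ ρ) {z : ℂ}
    (hz : (R + ρ) / c < ‖z‖) : R < ‖x + ι z‖ := by
  have h1 := hι z
  have h2 : R + ρ < ‖z‖ * c := by rwa [div_lt_iff₀ hc] at hz
  have h3 : ‖ι z‖ ≤ ‖x + ι z‖ + ‖x‖ := by
    have := norm_sub_le (x + ι z) x
    simpa using this
  linarith

lemma lt_norm_sub {c R : ℝ} (hc : 0 < c) {ι : ℂ →L[ℝ] V} (hι : ∀ z, c * ‖z‖ ≤ ‖ι z‖)
    {ρ : ℝ} {x : V} (hx : ‖x‖ ≤ ρ) {z : ℂ}
    (hz : (R + ρ) / c < ‖z‖) : R < ‖x - ι z‖ := by
  have := lt_norm_add (R := R) hc hι hx (z := -z) (by rwa [norm_neg])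
  rwa [map_neg, ← sub_eq_add_neg] at this

lemma hasCompactSupport_of {F : Type*} [NormedAddCommGroup F] [FiniteDimensional ℝ V] {R : ℝ}
    {φ : V → F} (hR : ∀ x, R ≤ ‖x‖ → φ x = 0) : HasCompactSupport φ := by
  have : ProperSpace V := FiniteDimensional.proper_real V
  apply HasCompactSupport.of_support_subset_isCompact (isCompact_closedBall (0 : V) R)
  intro x hx
  rw [mem_closedBall_zero_iff]
  by_contra h
  exact hx (hR x (not_le.1 h).le)

lemma hasCompactSupport_slice {F : Type*} [NormedAddCommGroup F] {c R : ℝ} (hc : 0 < c)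
    {ι : ℂ →L[ℝ] V} (hι : ∀ z, c * ‖z‖ ≤ ‖ι z‖)
    {φ : V → F} (hR : ∀ x, R < ‖x‖ → φ x = 0) (x : V) :
    HasCompactSupport (fun z => φ (x - ι z)) := by
  apply HasCompactSupport.of_support_subset_isCompact
    (isCompact_closedBall (0 : ℂ) ((R + ‖x‖) / c))
  intro z hz
  rw [mem_closedBall_zero_iff]
  by_contra h
  exact hz (hR _ (lt_norm_sub hc hι le_rfl (not_le.1 h)))

lemma fderiv_zero_of {R : ℝ} {φ : V → ℂ} (hR : ∀ x, R ≤ ‖x‖ → φ x = 0) (x : V) (hx : R < ‖x‖) :
    fderiv ℝ φ x = 0 := by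
  have h : φ =ᶠ[𝓝 x] fun _ => 0 := by
    have : {y : V | R < ‖y‖} ∈ 𝓝 x := (isOpen_lt continuous_const continuous_norm).mem_nhds hx
    filter_upwards [this] with y hy
    exact hR y (le_of_lt hy)
  rw [h.fderiv_eq]
  simp

theorem cauchyP_contDiff [FiniteDimensional ℝ V] {c R : ℝ} (hc : 0 < c) {ι : ℂ →L[ℝ] V}
    (hι : ∀ z, c * ‖z‖ ≤ ‖ι z‖) {φ : V → ℂ} (hφ : ContDiff ℝ ∞ φ)
    (hR : ∀ x, R ≤ ‖x‖ → φ x = 0) : ContDiff ℝ ∞ (cauchyP ι φ) := by
  rw [contDiff_iff_contDiffAt]
  intro x₀
  set ρ : ℝ := ‖x₀‖ + 1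
  have hs : IsOpen (Metric.ball (0 : V) ρ) := Metric.isOpen_ball
  have hcv : ContDiffOn ℝ ((⊤ : ℕ∞) : WithTop ℕ∞) (fun q : V × ℂ =>
      (convolution kc ((fun (p : V) (w : ℂ) => φ (p + ι w)) q.1)
        (ContinuousLinearMap.mul ℝ ℂ) volume) q.2) (Metric.ball (0 : V) ρ ×ˢ univ) := by
    refine contDiffOn_convolution_right_with_param (n := (⊤ : ℕ∞))
      (g := fun (p : V) (w : ℂ) => φ (p + ι w)) (k := Metric.closedBall (0 : ℂ) ((R + ρ) / c))
      (ContinuousLinearMap.mul ℝ ℂ) hs (isCompact_closedBall _ _) ?_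
      locallyIntegrable_kc ?_
    · intro p w hp hw
      rw [mem_ball_zero_iff] at hp
      rw [mem_closedBall_zero_iff, not_le] at hw
      exact hR _ (lt_norm_add hc hι hp.le hw).le
    · apply ContDiff.contDiffOn
      exact hφ.comp (contDiff_fst.add (ι.contDiff.comp contDiff_snd))
  have h1 : ContDiffOn ℝ ∞ (cauchyP ι φ) (Metric.ball (0 : V) ρ) := by
    have h2 := hcv.comp (f := fun x : V => (x, (0 : ℂ))) (s := Metric.ball (0 : V) ρ)
      (by fun_prop) (fun x hx => ⟨hx, mem_univ _⟩)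
    refine h2.congr fun x hx => ?_
    simp only [Function.comp, cauchyP, convolution, ContinuousLinearMap.mul_apply', zero_add,
      map_neg, sub_eq_add_neg]
  exact h1.contDiffAt (hs.mem_nhds (by simp [ρ]))

theorem hasFDerivAt_cauchyP [FiniteDimensional ℝ V] {c R : ℝ} (hc : 0 < c) {ι : ℂ →L[ℝ] V}
    (hι : ∀ z, c * ‖z‖ ≤ ‖ι z‖) {φ : V → ℂ} (hφ : ContDiff ℝ 1 φ)
    (hR : ∀ x, R ≤ ‖x‖ → φ x = 0) (x : V) :
    Integrable (fun z => kc z • fderiv ℝ φ (x - ι z)) ∧
    HasFDerivAt (cauchyP ι φ) (∫ z, kc z • fderiv ℝ φ (x - ι z)) x := by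
  have : ProperSpace V := FiniteDimensional.proper_real V
  have hcs := hasCompactSupport_of (V := V) hR
  have hdc : Continuous (fderiv ℝ φ) := hφ.continuous_fderiv one_ne_zero
  obtain ⟨B, hB⟩ := hdc.bounded_above_of_compact_support (hcs.fderiv ℝ)
  have hB0 : 0 ≤ B := (norm_nonneg _).trans (hB 0)
  set L : ℝ := (R + (‖x‖ + 1)) / c with hL
  set bound : ℂ → ℝ := fun z => B * (Metric.closedBall (0 : ℂ) L).indicator (fun z => ‖kc z‖) z
    with hbound
  have hbi : Integrable bound := by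
    apply Integrable.const_mul
    rw [integrable_indicator_iff measurableSet_closedBall]
    exact (integrableOn_kc L).norm
  have hmeas : ∀ y : V, AEStronglyMeasurable (fun z => kc z * φ (y - ι z)) volume := fun y =>
    measurable_kc.aestronglyMeasurable.mul
      (hφ.continuous.comp (by fun_prop : Continuous fun z => y - ι z)).aestronglyMeasurable
  have hmeas' : ∀ y : V, AEStronglyMeasurable (fun z => kc z • fderiv ℝ φ (y - ι z)) volume :=
    fun y => measurable_kc.aestronglyMeasurable.smul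
      (hdc.comp (by fun_prop : Continuous fun z => y - ι z)).aestronglyMeasurable
  have hle : ∀ y ∈ Metric.ball x 1, ∀ z : ℂ, ‖kc z • fderiv ℝ φ (y - ι z)‖ ≤ bound z := by
    intro y hy z
    have hy' : ‖y‖ ≤ ‖x‖ + 1 := by
      rw [mem_ball_iff_norm] at hy
      have := norm_add_le (y - x) x
      simp only [sub_add_cancel] at this
      linarith
    simp only [hbound]
    by_cases hz : z ∈ Metric.closedBall (0 : ℂ) L
    · rw [indicator_of_mem hz, norm_smul, mul_comm]
      exact mul_le_mul_of_nonneg_right (hB _) (norm_nonneg _)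
    · rw [indicator_of_notMem hz]
      rw [mem_closedBall_zero_iff, not_le] at hz
      rw [norm_smul, fderiv_zero_of hR _ (lt_norm_sub hc hι hy' hz), norm_zero]
      simp
  have hint : Integrable (fun z => kc z * φ (x - ι z)) := by
    have h1 := locallyIntegrable_kc.integrable_smul_right_of_hasCompactSupport
      (g := fun z => φ (x - ι z)) (hφ.continuous.comp (by fun_prop))
      (hasCompactSupport_slice hc hι (fun y hy => hR y hy.le) x)
    simpa [mul_comm] using h1
  refine ⟨hbi.mono' (hmeas' x) (Eventually.of_forall (hle x (by simp))), ?_⟩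
  refine hasFDerivAt_integral_of_dominated_of_fderiv_le (Metric.ball_mem_nhds x one_pos)
    (Eventually.of_forall hmeas) hint (hmeas' x)
    (Eventually.of_forall fun z y hy => hle y hy z) hbi (Eventually.of_forall fun z y hy => ?_)
  have h1 : HasFDerivAt φ (fderiv ℝ φ (y - ι z)) (y - ι z) :=
    (hφ.differentiable one_ne_zero _).hasFDerivAt
  have h2 : HasFDerivAt (fun y : V => φ (y - ι z)) (fderiv ℝ φ (y - ι z)) y :=
    h1.comp y ((hasFDerivAt_id y).sub_const (ι z))
  exact h2.const_mul (kc z)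

theorem Dp_cauchyP [FiniteDimensional ℝ V] {c R : ℝ} (hc : 0 < c) {ι : ℂ →L[ℝ] V}
    (hι : ∀ z, c * ‖z‖ ≤ ‖ι z‖) {φ : V → ℂ} (hφ : ContDiff ℝ 1 φ)
    (hR : ∀ x, R ≤ ‖x‖ → φ x = 0) (x : V) : Dp ι (cauchyP ι φ) x = φ x := by
  obtain ⟨hi, hd⟩ := hasFDerivAt_cauchyP hc hι hφ hR x
  unfold Dp
  rw [hd.fderiv, ContinuousLinearMap.integral_apply hi, ContinuousLinearMap.integral_apply hi,
    ← integral_const_mul]
  have hi1 : ∀ v, Integrable (fun z => (kc z • fderiv ℝ φ (x - ι z)) v) := fun v =>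
    hi.apply_continuousLinearMap v
  rw [← integral_add (hi1 _) ((hi1 _).const_mul _)]
  set f : ℂ → ℂ := fun z => φ (x - ι z) with hf
  have hfd : ∀ z w, fderiv ℝ f z w = - fderiv ℝ φ (x - ι z) (ι w) := by
    intro z w
    have h1 : HasFDerivAt φ (fderiv ℝ φ (x - ι z)) (x - ι z) :=
      (hφ.differentiable one_ne_zero _).hasFDerivAt
    have h2 : HasFDerivAt f ((fderiv ℝ φ (x - ι z)).comp (-ι)) z :=
      h1.comp z (ι.hasFDerivAt.const_sub x)
    rw [h2.fderiv]
    simp
  have hp := pompeiu f (hφ.comp (contDiff_const.sub ι.contDiff))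
    (hasCompactSupport_slice hc hι (fun y hy => hR y hy.le) x)
  have h0 : f 0 = φ x := by simp [hf]
  rw [h0] at hp
  rw [← neg_inj, ← hp, ← integral_neg]
  refine integral_congr_ae (Eventually.of_forall fun z => ?_)
  simp only [hfd, smul_apply, smul_eq_mul]
  ring

lemma norm_kc_le {z : ℂ} (hz : 1 ≤ ‖z‖) : ‖kc z‖ ≤ 1 := by
  unfold kc
  rw [norm_inv, norm_mul, norm_mul, Complex.norm_real, Complex.norm_ofNat,
    Real.norm_of_nonneg Real.pi_pos.le]
  apply inv_le_one_of_one_le₀
  have := Real.pi_gt_three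
  nlinarith

theorem cauchyP_bound {c R : ℝ} (hc : 0 < c) {ι : ℂ →L[ℝ] V}
    (hι : ∀ z, c * ‖z‖ ≤ ‖ι z‖) {φ : V → ℂ}
    (hR : ∀ x, R ≤ ‖x‖ → φ x = 0) {b : ℝ} (hb : ∀ x, ‖φ x‖ ≤ b) (x : V) :
    ‖cauchyP ι φ x‖ ≤ ((∫ z in Metric.closedBall (0 : ℂ) 1, ‖kc z‖)
      + volume.real (Metric.closedBall (0 : ℂ) (2 * R / c)) + 1) * b := by
  have hb0 : 0 ≤ b := (norm_nonneg _).trans (hb 0)
  have hn : 0 ≤ ∫ z in Metric.closedBall (0 : ℂ) 1, ‖kc z‖ :=
    integral_nonneg fun _ => norm_nonneg _
  by_cases hS : ∃ z₀ : ℂ, φ (x - ι z₀) ≠ 0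
  · obtain ⟨z₀, hz₀⟩ := hS
    have hz₀' : ‖x - ι z₀‖ < R := by
      by_contra h
      exact hz₀ (hR _ (not_lt.1 h))
    set g : ℂ → ℝ := fun z => ((Metric.closedBall (0 : ℂ) 1).indicator (fun z => ‖kc z‖) z
      + (Metric.closedBall z₀ (2 * R / c)).indicator (fun _ => (1 : ℝ)) z) * b with hg
    have hi1 : Integrable ((Metric.closedBall (0 : ℂ) 1).indicator (fun z => ‖kc z‖)) := by
      rw [integrable_indicator_iff measurableSet_closedBall]
      exact (integrableOn_kc 1).norm
    have hi2 : Integrable ((Metric.closedBall z₀ (2 * R / c)).indicator (fun _ => (1 : ℝ))) := by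
      rw [integrable_indicator_iff measurableSet_closedBall]
      exact integrableOn_const (measure_closedBall_lt_top.ne)
    have hgi : Integrable g := (hi1.add hi2).mul_const b
    have hgint : ∫ z, g z = ((∫ z in Metric.closedBall (0 : ℂ) 1, ‖kc z‖)
      + volume.real (Metric.closedBall (0 : ℂ) (2 * R / c))) * b := by
      simp only [hg]
      rw [integral_mul_const, integral_add hi1 hi2, integral_indicator measurableSet_closedBall,
        integral_indicator measurableSet_closedBall]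
      simp only [integral_const, smul_eq_mul, mul_one, measureReal_restrict_apply_univ]
      congr 2
      rw [Measure.real, Measure.real, Measure.addHaar_closedBall_center]
    calc ‖cauchyP ι φ x‖ ≤ ∫ z, g z := by
          refine norm_integral_le_of_norm_le hgi (Eventually.of_forall fun z => ?_)
          simp only [hg]
          by_cases hz : φ (x - ι z) = 0
          · rw [hz, mul_zero, norm_zero]
            apply mul_nonneg _ hb0
            apply add_nonneg <;> apply indicator_nonneg <;> intros <;> positivity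
          · have hz' : ‖x - ι z‖ < R := by
              by_contra h
              exact hz (hR _ (not_lt.1 h))
            have hmem : z ∈ Metric.closedBall z₀ (2 * R / c) := by
              rw [mem_closedBall_iff_norm, le_div_iff₀ hc, mul_comm]
              refine (hι _).trans ?_
              rw [map_sub]
              have : ι z - ι z₀ = (x - ι z₀) - (x - ι z) := by abel
              rw [this]
              refine (norm_sub_le _ _).trans ?_
              linarith
            rw [norm_mul, indicator_of_mem hmem]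
            apply mul_le_mul _ (hb _) (norm_nonneg _) _
            · by_cases h1 : z ∈ Metric.closedBall (0 : ℂ) 1
              · rw [indicator_of_mem h1]
                linarith
              · rw [indicator_of_notMem h1, zero_add]
                rw [mem_closedBall_zero_iff, not_le] at h1
                exact norm_kc_le h1.le
            · apply add_nonneg _ zero_le_one
              apply indicator_nonneg; intros; positivity
      _ = _ := hgint
      _ ≤ _ := by
        apply mul_le_mul_of_nonneg_right _ hb0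
        linarith
  · push Not at hS
    have : cauchyP ι φ x = 0 := by
      unfold cauchyP
      simp [hS]
    rw [this, norm_zero]
    have : 0 ≤ volume.real (Metric.closedBall (0 : ℂ) (2 * R / c)) := measureReal_nonneg
    positivity

end CauchyP

open CauchyP in
theorem t_Cauchy : StmtCauchy := by
  intro V _ _ _ c R hc hR
  refine ⟨_, ?_, fun ι hι φ hφ hφR b hb => ⟨cauchyP ι φ, cauchyP_contDiff hc hι hφ hφR,
    Dp_cauchyP hc hι (hφ.of_le (by exact_mod_cast le_top)) hφR, cauchyP_bound hc hι hφR hb⟩⟩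
  have h1 : 0 ≤ ∫ z in Metric.closedBall (0 : ℂ) 1, ‖kc z‖ :=
    integral_nonneg fun _ => norm_nonneg _
  have h2 : 0 ≤ volume.real (Metric.closedBall (0 : ℂ) (2 * R / c)) := measureReal_nonneg
  positivity

end Crest.Agent.R080
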