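import Crest.Agent.R080.Stmts2

/-!
Row 80, T5a: the kernel `1/(2πz)` on `ℂ`, the Cauchy-Pompeiu formula at the origin, and
convolution along planes.
-/

set_option autoImplicit false

open MeasureTheory Filter Set
open scoped ContDiff Topology Real

noncomputable section
namespace Crest.Agent.R080.CauchyP

/-- the Cauchy kernel `1/(2πz)` -/
def kc (z : ℂ) : ℂ := (2 * π * z)⁻¹

lemma measurable_kc : Measurable kc := by
  unfold kc
  fun_prop

lemma integrableOn_kc (r : ℝ) : IntegrableOn kc (Metric.closedBall (0 : ℂ) r) volume := by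
  refine ⟨measurable_kc.aestronglyMeasurable, ?_⟩
  unfold HasFiniteIntegral
  rw [← lintegral_indicator Metric.isClosed_closedBall.measurableSet,
    ← Complex.lintegral_comp_polarCoord_symm]
  have hle : ∀ p ∈ polarCoord.target,
      ENNReal.ofReal p.1 • (Metric.closedBall (0 : ℂ) r).indicator (fun z => ‖kc z‖ₑ)
        (Complex.polarCoord.symm p) ≤
      (Ioc 0 r ×ˢ Ioo (-π) π).indicator (fun _ => (1 : ENNReal)) p := by
    intro p hp
    rw [polarCoord_target] at hp
    obtain ⟨hp1, hp2⟩ := hp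
    simp only [mem_Ioi] at hp1
    have hn : ‖Complex.polarCoord.symm p‖ = p.1 := by
      rw [Complex.norm_polarCoord_symm, abs_of_pos hp1]
    by_cases hr : p.1 ≤ r
    · rw [indicator_of_mem (show p ∈ Ioc 0 r ×ˢ Ioo (-π) π from ⟨⟨hp1, hr⟩, hp2⟩)]
      rw [indicator_of_mem (by rw [mem_closedBall_zero_iff, hn]; exact hr)]
      have : ‖kc (Complex.polarCoord.symm p)‖ₑ = ENNReal.ofReal ((2 * π * p.1)⁻¹) := by
        rw [← ofReal_norm]
        congr 1
        unfold kc
        rw [norm_inv, norm_mul, norm_mul, hn]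
        simp [abs_of_pos Real.pi_pos]
      rw [this, smul_eq_mul, ← ENNReal.ofReal_mul hp1.le]
      rw [ENNReal.ofReal_le_one]
      have : p.1 * (2 * π * p.1)⁻¹ = (2 * π)⁻¹ := by
        field_simp
      rw [this]
      apply inv_le_one_of_one_le₀
      nlinarith [Real.pi_gt_three]
    · rw [indicator_of_notMem (by rw [mem_closedBall_zero_iff, hn]; exact hr)]
      simp
  calc _ ≤ ∫⁻ p in polarCoord.target,
        (Ioc 0 r ×ˢ Ioo (-π) π).indicator (fun _ => (1 : ENNReal)) p :=
        setLIntegral_mono' (by exact polarCoord.open_target.measurableSet) hle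
    _ ≤ ∫⁻ p, (Ioc 0 r ×ˢ Ioo (-π) π).indicator (fun _ => (1 : ENNReal)) p :=
        setLIntegral_le_lintegral _ _
    _ = volume (Ioc 0 r ×ˢ Ioo (-π) π) := by
        rw [lintegral_indicator (measurableSet_Ioc.prod measurableSet_Ioo)]
        simp
    _ < ⊤ := by
        rw [Measure.volume_eq_prod, Measure.prod_prod]
        exact ENNReal.mul_lt_top (by simp) (by simp [ENNReal.ofReal_lt_top])

lemma locallyIntegrable_kc : LocallyIntegrable kc volume := by
  rw [locallyIntegrable_iff]
  intro k hk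
  obtain ⟨r, hr⟩ := hk.isBounded.subset_closedBall (0 : ℂ)
  exact (integrableOn_kc r).mono_set hr

/-- unit circle point -/
def eu (α : ℝ) : ℂ := Complex.exp (α * Complex.I)

lemma norm_eu (α : ℝ) : ‖eu α‖ = 1 := Complex.norm_exp_ofReal_mul_I α

lemma eu_ne (α : ℝ) : eu α ≠ 0 := Complex.exp_ne_zero _

lemma continuous_eu : Continuous eu := by unfold eu; fun_prop

lemma contDiff_eu {n : WithTop ℕ∞} : ContDiff ℝ n eu := by
  unfold eu
  exact (Complex.contDiff_exp).comp ((Complex.ofRealCLM.contDiff).mul contDiff_const)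

lemma hasDerivAt_eu (α : ℝ) : HasDerivAt eu (Complex.I * eu α) α := by
  unfold eu
  have h1 : HasDerivAt (fun x : ℝ => (x : ℂ) * Complex.I) (1 * Complex.I) α :=
    (Complex.ofRealCLM.hasDerivAt (x := α)).mul_const Complex.I
  have h2 := h1.cexp
  convert h2 using 1
  ring

lemma polar_symm_eq (p : ℝ × ℝ) : Complex.polarCoord.symm p = p.1 * eu p.2 := by
  rw [Complex.polarCoord_symm_apply, eu, Complex.exp_mul_I]
  simp

/-- the algebraic identity `∂_x + i ∂_y = e (∂_e + i ∂_{ie})` -/
lemma dbar_rot (L : ℂ →L[ℝ] ℂ) (α : ℝ) :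
    L 1 + Complex.I * L Complex.I = eu α * (L (eu α) + Complex.I * L (Complex.I * eu α)) := by
  have h1 : eu α = (Real.cos α) • (1 : ℂ) + (Real.sin α) • Complex.I := by
    rw [eu, Complex.exp_mul_I]; simp
  have h2 : Complex.I * eu α = (-Real.sin α) • (1 : ℂ) + (Real.cos α) • Complex.I := by
    rw [h1]; simp [mul_add]; ring_nf; simp; ring
  rw [h2]
  nth_rewrite 2 [h1]
  rw [map_add, map_add, map_smul, map_smul, map_smul, map_smul, h1]
  simp only [Complex.real_smul]
  have hcs : (Real.cos α : ℂ) ^ 2 + (Real.sin α : ℂ) ^ 2 = 1 := by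
    have := Real.cos_sq_add_sin_sq α
    exact_mod_cast this
  have hI : Complex.I ^ 2 = -1 := Complex.I_sq
  rw [Complex.ofReal_neg]
  generalize L 1 = a
  generalize L Complex.I = b
  generalize (Real.cos α : ℂ) = c at *
  generalize (Real.sin α : ℂ) = s at *
  linear_combination (-(a + Complex.I * b)) * hcs + (a * s ^ 2 - b * c * s) * hI

/-- Cauchy-Pompeiu formula at the origin for compactly supported functions -/
theorem pompeiu (f : ℂ → ℂ) (hf : ContDiff ℝ 1 f) (hc : HasCompactSupport f) :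
    ∫ z, kc z * (fderiv ℝ f z 1 + Complex.I * fderiv ℝ f z Complex.I) = -f 0 := by
  -- the two pieces in polar coordinates
  set A : ℝ × ℝ → ℂ := fun p => fderiv ℝ f (p.1 * eu p.2) (eu p.2) with hA
  set B : ℝ × ℝ → ℂ := fun p => fderiv ℝ f (p.1 * eu p.2) (Complex.I * eu p.2) with hB
  have hfd : Continuous (fderiv ℝ f) := hf.continuous_fderiv (by simp)
  have hpt : Continuous (fun p : ℝ × ℝ => ((p.1 : ℂ) * eu p.2)) := by
    have := continuous_eu
    fun_prop
  have hAc : Continuous A := by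
    have h2 : Continuous fun p : ℝ × ℝ => eu p.2 := continuous_eu.comp continuous_snd
    exact (hfd.comp hpt).clm_apply h2
  have hBc : Continuous B := by
    have h2 : Continuous fun p : ℝ × ℝ => Complex.I * eu p.2 :=
      continuous_const.mul (continuous_eu.comp continuous_snd)
    exact (hfd.comp hpt).clm_apply h2
  obtain ⟨ρ, hρ0, hρ⟩ : ∃ ρ : ℝ, 0 < ρ ∧ ∀ z : ℂ, ρ ≤ ‖z‖ → fderiv ℝ f z = 0 := by
    obtain ⟨r, hr⟩ := (hc.fderiv (𝕜 := ℝ)).isCompact.isBounded.subset_closedBall (0 : ℂ)
    refine ⟨|r| + 1, by positivity, fun z hz => ?_⟩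
    by_contra h
    have : z ∈ Metric.closedBall (0 : ℂ) r := hr (subset_tsupport _ h)
    rw [mem_closedBall_zero_iff] at this
    have := le_abs_self r
    linarith
  obtain ⟨ρ', hρ'⟩ : ∃ ρ' : ℝ, ∀ z : ℂ, ρ' ≤ ‖z‖ → f z = 0 := by
    obtain ⟨r, hr⟩ := hc.isCompact.isBounded.subset_closedBall (0 : ℂ)
    refine ⟨|r| + 1, fun z hz => ?_⟩
    by_contra h
    have : z ∈ Metric.closedBall (0 : ℂ) r := hr (subset_tsupport _ h)
    rw [mem_closedBall_zero_iff] at this
    have := le_abs_self r
    linarith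
  have hA0 : ∀ p : ℝ × ℝ, ρ ≤ |p.1| → A p = 0 := by
    intro p hp
    have : fderiv ℝ f (p.1 * eu p.2) = 0 := by
      apply hρ
      rw [norm_mul, norm_eu]; simpa using hp
    simp [hA, this]
  have hB0 : ∀ p : ℝ × ℝ, ρ ≤ |p.1| → B p = 0 := by
    intro p hp
    have : fderiv ℝ f (p.1 * eu p.2) = 0 := by
      apply hρ
      rw [norm_mul, norm_eu]; simpa using hp
    simp [hB, this]
  have key : ∀ G : ℝ × ℝ → ℂ, Continuous G → (∀ p : ℝ × ℝ, ρ ≤ |p.1| → G p = 0) →
      IntegrableOn G (Ioi 0 ×ˢ Ioo (-π) π) volume := by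
    intro G hG hG0
    have h1 : IntegrableOn G (Icc 0 ρ ×ˢ Icc (-π) π) volume :=
      hG.continuousOn.integrableOn_compact (isCompact_Icc.prod isCompact_Icc)
    have h2 : IntegrableOn G (Ioi ρ ×ˢ Ioo (-π) π) volume := by
      refine IntegrableOn.congr_fun (f := fun _ => (0 : ℂ)) integrableOn_zero (fun p hp => ?_)
        (measurableSet_Ioi.prod measurableSet_Ioo)
      have : ρ ≤ |p.1| := by
        have h := hp.1
        simp only [mem_Ioi] at h
        rw [abs_of_pos (hρ0.trans h)]; exact h.le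
      exact (hG0 p this).symm
    refine (h1.union h2).mono_set ?_
    intro p hp
    by_cases h : p.1 ≤ ρ
    · left; exact ⟨⟨le_of_lt hp.1, h⟩, ⟨hp.2.1.le, hp.2.2.le⟩⟩
    · right; exact ⟨not_le.mp h, hp.2⟩
  have hAi := key A hAc hA0
  have hBi := key B hBc hB0
  rw [← Complex.integral_comp_polarCoord_symm]
  have e1 : ∫ p in polarCoord.target, p.1 • (kc (Complex.polarCoord.symm p) *
      (fderiv ℝ f (Complex.polarCoord.symm p) 1
        + Complex.I * fderiv ℝ f (Complex.polarCoord.symm p) Complex.I))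
      = ∫ p in (Ioi 0 ×ˢ Ioo (-π) π : Set (ℝ × ℝ)), ((2 * π : ℂ)⁻¹ * A p
        + (2 * π : ℂ)⁻¹ * Complex.I * B p) := by
    rw [polarCoord_target]
    refine setIntegral_congr_fun (measurableSet_Ioi.prod measurableSet_Ioo) fun p hp => ?_
    have hp1 : (0 : ℝ) < p.1 := hp.1
    rw [polar_symm_eq, dbar_rot _ p.2, kc, Complex.real_smul]
    have h1 : (p.1 : ℂ) ≠ 0 := by exact_mod_cast hp1.ne'
    have h2 : (π : ℂ) ≠ 0 := by exact_mod_cast Real.pi_ne_zero
    have h3 := eu_ne p.2
    simp only [hA, hB]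
    field_simp
  rw [e1, integral_add (hAi.const_mul _) (hBi.const_mul _)]
  rw [MeasureTheory.integral_const_mul, MeasureTheory.integral_const_mul]
  have eA : ∫ p in (Ioi 0 ×ˢ Ioo (-π) π : Set (ℝ × ℝ)), A p = -(2 * π) * f 0 := by
    change ∫ p in (Ioi 0 ×ˢ Ioo (-π) π : Set (ℝ × ℝ)), A p ∂(volume.prod volume) = _
    rw [← setIntegral_prod_swap, setIntegral_prod (fun z : ℝ × ℝ => A z.swap) hAi.swap]
    have h1 : ∀ α : ℝ, ∫ r in Ioi (0 : ℝ), A (r, α) = -f 0 := by
      intro α
      have hg : ContDiff ℝ 1 (fun r : ℝ => f (r * eu α)) :=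
        hf.comp ((Complex.ofRealCLM.contDiff).mul contDiff_const)
      have hgc : HasCompactSupport (fun r : ℝ => f (r * eu α)) := by
        refine HasCompactSupport.intro (isCompact_Icc (a := -ρ') (b := ρ')) fun r hr => ?_
        apply hρ'
        rw [norm_mul, norm_eu, mul_one, Complex.norm_real, Real.norm_eq_abs]
        by_contra h
        exact hr (abs_le.mp (not_le.mp h).le)
      have := hgc.integral_Ioi_deriv_eq hg 0
      simp only [Complex.ofReal_zero, zero_mul] at this
      rw [← this]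
      congr 1
      ext r
      have hd : HasDerivAt (fun r : ℝ => (r : ℂ) * eu α) (eu α) r := by
        have := (Complex.ofRealCLM.hasDerivAt (x := r)).mul_const (eu α)
        simpa using this
      have := ((hf.differentiable (by simp)) _).hasFDerivAt.comp_hasDerivAt r hd
      exact this.deriv.symm
    simp only [Prod.swap_prod_mk, h1]
    have hv : (volume (Ioo (-π) π)).toReal = 2 * π := by
      rw [Real.volume_Ioo, ENNReal.toReal_ofReal (by linarith [Real.pi_pos])]; ring
    rw [setIntegral_const, measureReal_def, hv, Complex.real_smul]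
    push_cast
    ring
  have eB : ∫ p in (Ioi 0 ×ˢ Ioo (-π) π : Set (ℝ × ℝ)), B p = 0 := by
    change ∫ p in (Ioi 0 ×ˢ Ioo (-π) π : Set (ℝ × ℝ)), B p ∂(volume.prod volume) = _
    rw [setIntegral_prod _ hBi]
    have h1 : ∀ r ∈ Ioi (0 : ℝ), ∫ α in Ioo (-π) π, B (r, α) = 0 := by
      intro r hr
      have hr0 : (r : ℂ) ≠ 0 := by exact_mod_cast (ne_of_gt hr)
      have hd : ∀ α : ℝ, HasDerivAt (fun α : ℝ => (r : ℂ)⁻¹ * f (r * eu α)) (B (r, α)) α := by
        intro α
        have h2 := ((hf.differentiable (by simp)) _).hasFDerivAt.comp_hasDerivAt α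
          ((hasDerivAt_eu α).const_mul (r : ℂ))
        have h3 := h2.const_mul (r : ℂ)⁻¹
        refine h3.congr_deriv ?_
        have : (r : ℂ) * (Complex.I * eu α) = r • (Complex.I * eu α) := by simp
        rw [this, map_smul, Complex.real_smul]
        simp only [hB]
        field_simp
      rw [← integral_Ioc_eq_integral_Ioo,
        ← intervalIntegral.integral_of_le (by linarith [Real.pi_pos])]
      rw [intervalIntegral.integral_eq_sub_of_hasDerivAt (fun α _ => hd α)]
      · have h1 : eu π = -1 := by simp [eu, Complex.exp_pi_mul_I]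
        have h2 : eu (-π) = -1 := by
          unfold eu
          rw [Complex.ofReal_neg, neg_mul, Complex.exp_neg, Complex.exp_pi_mul_I]
          norm_num
        simp only [h1, h2, sub_self]
      · apply Continuous.intervalIntegrable
        exact hBc.comp (by fun_prop)
    rw [setIntegral_congr_fun measurableSet_Ioi h1]
    simp
  rw [eA, eB]
  have h2 : (π : ℂ) ≠ 0 := by exact_mod_cast Real.pi_ne_zero
  field_simp
  ring

end Crest.Agent.R080.CauchyP
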