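import Crest.Agent.R080.Stmts2

set_option autoImplicit false
set_option linter.unusedSectionVars false
set_option linter.unusedVariables false
open MeasureTheory Filter Metric Set
open scoped ContDiff Topology

noncomputable section
namespace Crest.Agent.R080.CT

theorem integrable_ball_inv (ρ : ℝ) :
    IntegrableOn (fun w : ℂ => ‖w‖⁻¹) (ball (0 : ℂ) ρ) := by
  rw [integrableOn_fun_norm_addHaar (μ := (volume : Measure ℂ)) (f := fun r : ℝ => r⁻¹)]
  rw [Complex.finrank_real_complex]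
  refine (integrableOn_const (C := (1 : ℝ)) (by simp)).congr_fun (fun y hy => ?_) measurableSet_Ioo
  simp [hy.1.ne']

theorem integral_ball_inv (ρ : ℝ) (hρ : 0 < ρ) :
    ∫ w in ball (0 : ℂ) ρ, ‖w‖⁻¹ = 2 * Real.pi * ρ := by
  have h1 : ∫ w in ball (0 : ℂ) ρ, ‖w‖⁻¹
      = ∫ w : ℂ, (Iio ρ).indicator (fun r : ℝ => r⁻¹) ‖w‖ := by
    rw [← integral_indicator measurableSet_ball]
    refine integral_congr_ae (.of_forall fun w => ?_)
    simp [indicator]
  rw [h1, integral_fun_norm_addHaar (μ := (volume : Measure ℂ)) (fun y => (Iio ρ).indicator (fun r : ℝ => r⁻¹) y),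
    Complex.finrank_real_complex]
  have h2 : ∫ y in Ioi (0 : ℝ), y ^ (2 - 1) • (Iio ρ).indicator (fun r : ℝ => r⁻¹) y = ρ := by
    have : ∫ y in Ioi (0 : ℝ), y ^ (2 - 1) • (Iio ρ).indicator (fun r : ℝ => r⁻¹) y
        = ∫ y in Ioi (0 : ℝ), (Iio ρ).indicator (fun _ => (1 : ℝ)) y := by
      refine setIntegral_congr_fun measurableSet_Ioi fun y hy => ?_
      have hy' : y ≠ 0 := (mem_Ioi.1 hy).ne'
      by_cases h : y < ρ <;> simp [h, hy', indicator]
    rw [this, setIntegral_indicator measurableSet_Iio, Ioi_inter_Iio]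
    simp [hρ.le]
  rw [h2]
  have h3 : (volume : Measure ℂ).real (ball 0 1) = Real.pi := by
    simp [Measure.real, Complex.volume_ball]
  rw [h3]
  simp
  ring

variable {V : Type} [NormedAddCommGroup V] [NormedSpace ℝ V]
variable {E : Type} [NormedAddCommGroup E] [NormedSpace ℝ E] [NormedSpace ℂ E]
  [IsScalarTower ℝ ℂ E]

/-- the kernel `1/(2πw)` -/
def K (w : ℂ) : ℂ := (2 * Real.pi * w)⁻¹

theorem norm_K (w : ℂ) : ‖K w‖ = (2 * Real.pi)⁻¹ * ‖w‖⁻¹ := by
  simp [K, abs_of_pos Real.pi_pos]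
  ring

theorem measurable_K : Measurable K := by
  unfold K; fun_prop

/-- Cauchy transform along the plane `ι` -/
def T (ι : ℂ →L[ℝ] V) (f : V → E) (x : V) : E := ∫ w : ℂ, K w • f (x - ι w)

/-- the function vanishes outside the ball of radius `R` -/
def Sp (R : ℝ) (f : V → E) : Prop := ∀ x, R ≤ ‖x‖ → f x = 0

/-- lower bound for the embedding -/
def Low (c : ℝ) (ι : ℂ →L[ℝ] V) : Prop := ∀ z, c * ‖z‖ ≤ ‖ι z‖

theorem eq_zero_of_large {c R : ℝ} (hc : 0 < c) {ι : ℂ →L[ℝ] V} (hι : Low c ι) {f : V → E}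
    (hf : Sp R f) {x : V} {w : ℂ} (hw : (R + ‖x‖) / c ≤ ‖w‖) : f (x - ι w) = 0 := by
  apply hf
  have h1 := hι w
  have h2 : R + ‖x‖ ≤ c * ‖w‖ := by
    rw [div_le_iff₀ hc] at hw; linarith
  have h3 : ‖ι w‖ ≤ ‖x - ι w‖ + ‖x‖ := by
    have := norm_sub_le x (x - ι w)
    simpa [add_comm] using this
  linarith

/-- dominating function -/
def Bd (ρ b : ℝ) (w : ℂ) : ℝ := (ball (0 : ℂ) ρ).indicator (fun w => ‖w‖⁻¹) w * ((2 * Real.pi)⁻¹ * b)

theorem integrable_Bd (ρ b : ℝ) : Integrable (Bd ρ b) := by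
  unfold Bd
  exact (((integrable_ball_inv ρ).integrable_indicator measurableSet_ball)).mul_const _

theorem norm_le_Bd {c R : ℝ} (hc : 0 < c) {ι : ℂ →L[ℝ] V} (hι : Low c ι) {f : V → E}
    (hf : Sp R f) {b : ℝ} (hb : ∀ x, ‖f x‖ ≤ b) {x : V} {ρ : ℝ} (hρ : (R + ‖x‖) / c ≤ ρ) (w : ℂ) :
    ‖K w • f (x - ι w)‖ ≤ Bd ρ b w := by
  unfold Bd
  by_cases h : w ∈ ball (0 : ℂ) ρ
  · rw [indicator_of_mem h, norm_smul, norm_K]
    have := hb (x - ι w)
    have hp := Real.pi_pos
    calc (2 * Real.pi)⁻¹ * ‖w‖⁻¹ * ‖f (x - ι w)‖ ≤ (2 * Real.pi)⁻¹ * ‖w‖⁻¹ * b := by gcongr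
      _ = _ := by ring
  · rw [indicator_of_notMem h, eq_zero_of_large hc hι hf]
    · simp
    · simp at h; linarith

theorem aesm {ι : ℂ →L[ℝ] V} {f : V → E} (hf : Continuous f) (x : V) :
    AEStronglyMeasurable (fun w : ℂ => K w • f (x - ι w)) := by
  refine (measurable_K.aestronglyMeasurable).smul ?_
  exact (hf.comp (by fun_prop)).aestronglyMeasurable

theorem integrable {c R : ℝ} (hc : 0 < c) {ι : ℂ →L[ℝ] V} (hι : Low c ι) {f : V → E}
    (hf : Sp R f) (hfc : Continuous f) {b : ℝ} (hb : ∀ x, ‖f x‖ ≤ b) (x : V) :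
    Integrable (fun w : ℂ => K w • f (x - ι w)) :=
  (integrable_Bd _ b).mono' (aesm hfc x) (.of_forall fun w => norm_le_Bd hc hι hf hb le_rfl w)

theorem norm_T_le {c R : ℝ} (hc : 0 < c) (hR : 0 < R) {ι : ℂ →L[ℝ] V} (hι : Low c ι) {f : V → E}
    (hf : Sp R f) {b : ℝ} (hb : ∀ x, ‖f x‖ ≤ b) (x : V) :
    ‖T ι f x‖ ≤ 3 * R / c * b := by
  have hb0 : 0 ≤ b := (norm_nonneg _).trans (hb 0)
  set ρ := 2 * R / c with hρd
  have hρ : 0 < ρ := by positivity
  have hp := Real.pi_pos
  by_cases hS : ∃ w0 : ℂ, ‖x - ι w0‖ < R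
  · obtain ⟨w0, hw0⟩ := hS
    have key : ∀ w, ‖K w • f (x - ι w)‖ ≤ (2 * Real.pi)⁻¹ * b *
        ((ball (0 : ℂ) ρ).indicator (fun w => ‖w‖⁻¹) w
          + (ball w0 ρ).indicator (fun _ => ρ⁻¹) w) := by
      intro w
      by_cases h : ‖x - ι w‖ < R
      · have hw : w ∈ ball w0 ρ := by
          rw [mem_ball, dist_eq_norm, hρd, lt_div_iff₀ hc]
          have h1 := hι (w - w0)
          have h2 : ι (w - w0) = (x - ι w0) - (x - ι w) := by simp
          rw [h2] at h1
          have h3 := norm_sub_le (x - ι w0) (x - ι w)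
          linarith
        rw [indicator_of_mem hw, norm_smul, norm_K]
        have h4 : ‖w‖⁻¹ ≤ (ball (0 : ℂ) ρ).indicator (fun w => ‖w‖⁻¹) w + ρ⁻¹ := by
          by_cases h5 : w ∈ ball (0 : ℂ) ρ
          · rw [indicator_of_mem h5]
            have : 0 < ρ⁻¹ := by positivity
            linarith
          · rw [indicator_of_notMem h5]
            simp at h5
            rw [zero_add]
            exact inv_anti₀ hρ h5
        calc (2 * Real.pi)⁻¹ * ‖w‖⁻¹ * ‖f (x - ι w)‖
            ≤ (2 * Real.pi)⁻¹ * ‖w‖⁻¹ * b := by gcongr; exact hb _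
          _ = (2 * Real.pi)⁻¹ * b * ‖w‖⁻¹ := by ring
          _ ≤ _ := by gcongr
      · rw [hf _ (not_lt.1 h), smul_zero, norm_zero]
        have h1 : 0 ≤ (ball (0 : ℂ) ρ).indicator (fun w => ‖w‖⁻¹) w :=
          indicator_nonneg (fun _ _ => by positivity) _
        have h2 : 0 ≤ (ball w0 ρ).indicator (fun _ => ρ⁻¹) w :=
          indicator_nonneg (fun _ _ => by positivity) _
        positivity
    have hint : Integrable (fun w => (2 * Real.pi)⁻¹ * b *
        ((ball (0 : ℂ) ρ).indicator (fun w => ‖w‖⁻¹) w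
          + (ball w0 ρ).indicator (fun _ => ρ⁻¹) w)) := by
      refine (((integrable_ball_inv ρ).integrable_indicator measurableSet_ball).add ?_).const_mul _
      exact (integrableOn_const measure_ball_lt_top.ne).integrable_indicator measurableSet_ball
    calc ‖T ι f x‖ ≤ ∫ w, ‖K w • f (x - ι w)‖ := norm_integral_le_integral_norm _
      _ ≤ ∫ w, (2 * Real.pi)⁻¹ * b *
        ((ball (0 : ℂ) ρ).indicator (fun w => ‖w‖⁻¹) w
          + (ball w0 ρ).indicator (fun _ => ρ⁻¹) w) :=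
        integral_mono_of_nonneg (.of_forall fun _ => norm_nonneg _) hint (.of_forall key)
      _ = (2 * Real.pi)⁻¹ * b * (2 * Real.pi * ρ + Real.pi * ρ) := by
        rw [integral_const_mul, integral_add, integral_indicator measurableSet_ball,
          integral_ball_inv ρ hρ, integral_indicator measurableSet_ball]
        · simp [Measure.real, Complex.volume_ball, hρ.le]
          left
          field_simp
        · exact (integrable_ball_inv ρ).integrable_indicator measurableSet_ball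
        · exact (integrableOn_const measure_ball_lt_top.ne).integrable_indicator measurableSet_ball
      _ = 3 * R / c * b := by
        rw [hρd]; field_simp; ring
  · push Not at hS
    have : T ι f x = 0 := by
      unfold T
      have : (fun w : ℂ => K w • f (x - ι w)) = fun _ => 0 := by
        funext w; rw [hf _ (hS w), smul_zero]
      rw [this, integral_zero]
    rw [this, norm_zero]
    positivity


theorem K_smul_fderiv {ι : ℂ →L[ℝ] V} (f : V → E) (hf : Differentiable ℝ f) (w : ℂ) (x : V) :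
    HasFDerivAt (fun x => K w • f (x - ι w)) (K w • fderiv ℝ f (x - ι w)) x := by
  have h1 : HasFDerivAt (fun x => f (x - ι w)) (fderiv ℝ f (x - ι w)) x := by
    have h2 : HasFDerivAt (fun x : V => x - ι w) (ContinuousLinearMap.id ℝ V) x :=
      (hasFDerivAt_id x).sub_const (ι w)
    exact (hf (x - ι w)).hasFDerivAt.comp x h2
  exact h1.const_smul (K w)

theorem Sp_fderiv {R : ℝ} {f : V → E} (hf : Sp R f) (hd : Continuous (fderiv ℝ f)) :
    Sp R (fderiv ℝ f) := by
  have h1 : ∀ x, R < ‖x‖ → fderiv ℝ f x = 0 := by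
    intro x hx
    have : f =ᶠ[𝓝 x] fun _ => 0 := by
      have : {y : V | R < ‖y‖} ∈ 𝓝 x := (isOpen_lt continuous_const continuous_norm).mem_nhds hx
      filter_upwards [this] with y hy
      exact hf y (le_of_lt hy)
    rw [this.fderiv_eq]
    simp
  intro x hx
  by_cases h0 : x = 0
  · -- then `R ≤ 0`, so the function is zero everywhere
    subst h0
    rw [norm_zero] at hx
    have : f = fun _ => 0 := by
      funext y; exact hf y (hx.trans (norm_nonneg _))
    rw [this]; simp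
  · -- limit
    have ht : Tendsto (fun t : ℝ => fderiv ℝ f (t • x)) (𝓝[>] 1) (𝓝 (fderiv ℝ f x)) := by
      have : Tendsto (fun t : ℝ => fderiv ℝ f (t • x)) (𝓝 1) (𝓝 (fderiv ℝ f ((1 : ℝ) • x))) :=
        (hd.comp (by fun_prop : Continuous fun t : ℝ => t • x)).tendsto 1
      rw [one_smul] at this
      exact this.mono_left nhdsWithin_le_nhds
    have h2 : ∀ᶠ t : ℝ in 𝓝[>] 1, fderiv ℝ f (t • x) = 0 := by
      filter_upwards [self_mem_nhdsWithin] with t ht
      apply h1
      have ht' : 1 < t := ht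
      rw [norm_smul, Real.norm_of_nonneg (by linarith)]
      have : 0 < ‖x‖ := norm_pos_iff.2 h0
      nlinarith
    have h3 : Tendsto (fun t : ℝ => fderiv ℝ f (t • x)) (𝓝[>] 1) (𝓝 0) :=
      tendsto_const_nhds.congr' (h2.mono fun _ h => h.symm)
    exact tendsto_nhds_unique ht h3

theorem bounded_of_Sp [FiniteDimensional ℝ V] {R : ℝ} {f : V → E} (hf : Sp R f)
    (hc : Continuous f) : ∃ b, 0 ≤ b ∧ ∀ x, ‖f x‖ ≤ b := by
  have : IsCompact (closedBall (0 : V) R) := isCompact_closedBall _ _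
  obtain ⟨b, hb⟩ := this.exists_bound_of_continuousOn hc.continuousOn
  refine ⟨max b 0, le_max_right _ _, fun x => ?_⟩
  by_cases h : ‖x‖ ≤ R
  · exact (hb x (by simpa using h)).trans (le_max_left _ _)
  · rw [hf x (le_of_lt (not_le.1 h)), norm_zero]; exact le_max_right _ _

theorem hasFDerivAt_T [FiniteDimensional ℝ V] {c R : ℝ} (hc : 0 < c) {ι : ℂ →L[ℝ] V}
    (hι : Low c ι) {f : V → E} (hf : Sp R f) (h1 : ContDiff ℝ 1 f) (x : V) :
    HasFDerivAt (T ι f) (T ι (fderiv ℝ f) x) x := by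
  have hd : Continuous (fderiv ℝ f) := h1.continuous_fderiv one_ne_zero
  obtain ⟨b0, -, hb0⟩ := bounded_of_Sp hf h1.continuous
  obtain ⟨b, -, hb⟩ := bounded_of_Sp (Sp_fderiv hf hd) hd
  refine hasFDerivAt_integral_of_dominated_of_fderiv_le (s := ball x 1)
    (F := fun x (w : ℂ) => K w • f (x - ι w)) (F' := fun x w => K w • fderiv ℝ f (x - ι w))
    (bound := Bd ((R + (‖x‖ + 1)) / c) b) (ball_mem_nhds x one_pos)
    (.of_forall fun y => aesm h1.continuous y)
    (integrable hc hι hf h1.continuous hb0 x) (aesm hd x) (.of_forall fun w y hy => ?_)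
    (integrable_Bd _ _) (.of_forall fun w y _ => K_smul_fderiv f (h1.differentiable one_ne_zero) w y)
  refine norm_le_Bd hc hι (Sp_fderiv hf hd) hb ?_ w
  have : ‖y‖ ≤ ‖x‖ + 1 := by
    have h2 := norm_sub_norm_le y x
    rw [mem_ball, dist_eq_norm] at hy
    linarith
  gcongr

theorem continuous_T [FiniteDimensional ℝ V] {c R : ℝ} (hc : 0 < c) {ι : ℂ →L[ℝ] V}
    (hι : Low c ι) {f : V → E} (hf : Sp R f) (h1 : Continuous f) : Continuous (T ι f) := by
  obtain ⟨b, -, hb⟩ := bounded_of_Sp hf h1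
  rw [continuous_iff_continuousAt]
  intro x
  refine continuousAt_of_dominated (F := fun x (w : ℂ) => K w • f (x - ι w))
    (bound := Bd ((R + (‖x‖ + 1)) / c) b) (.of_forall fun y => aesm h1 y) ?_ (integrable_Bd _ _)
    (.of_forall fun w => ?_)
  · filter_upwards [ball_mem_nhds x one_pos] with y hy
    refine .of_forall fun w => norm_le_Bd hc hι hf hb ?_ w
    have : ‖y‖ ≤ ‖x‖ + 1 := by
      have h2 := norm_sub_norm_le y x
      rw [mem_ball, dist_eq_norm] at hy
      linarith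
    gcongr
  · fun_prop


theorem contDiff_T_nat [FiniteDimensional ℝ V] {c R : ℝ} (hc : 0 < c) {ι : ℂ →L[ℝ] V}
    (hι : Low c ι) (n : ℕ) : ∀ {E : Type} [NormedAddCommGroup E] [NormedSpace ℝ E]
    [NormedSpace ℂ E] [IsScalarTower ℝ ℂ E] {f : V → E}, Sp R f → ContDiff ℝ n f →
    ContDiff ℝ n (T ι f) := by
  induction n with
  | zero =>
    intro E _ _ _ _ f hf h
    simp only [Nat.cast_zero, contDiff_zero] at h ⊢
    exact continuous_T hc hι hf h
  | succ n ih =>
    intro E _ _ _ _ f hf h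
    have h1 : ContDiff ℝ 1 f := h.of_le (by exact_mod_cast Nat.le_add_left 1 n)
    have hd : Continuous (fderiv ℝ f) := h1.continuous_fderiv one_ne_zero
    have hT := hasFDerivAt_T hc hι hf h1
    push_cast
    rw [contDiff_succ_iff_fderiv]
    refine ⟨fun x => (hT x).differentiableAt, by simp, ?_⟩
    have : fderiv ℝ (T ι f) = T ι (fderiv ℝ f) := funext fun x => (hT x).fderiv
    rw [this]
    refine ih (Sp_fderiv hf hd) ?_
    have h' : ContDiff ℝ ((n : WithTop ℕ∞) + 1) f := by exact_mod_cast h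
    exact (contDiff_succ_iff_fderiv.1 h').2.2

theorem contDiff_T [FiniteDimensional ℝ V] {c R : ℝ} (hc : 0 < c) {ι : ℂ →L[ℝ] V}
    (hι : Low c ι) {f : V → E} (hf : Sp R f) (h : ContDiff ℝ ∞ f) : ContDiff ℝ ∞ (T ι f) :=
  contDiff_infty.2 fun n => contDiff_T_nat hc hι n hf (contDiff_infty.1 h n)

theorem fderiv_T [FiniteDimensional ℝ V] {c R : ℝ} (hc : 0 < c) {ι : ℂ →L[ℝ] V}
    (hι : Low c ι) {f : V → E} (hf : Sp R f) (h1 : ContDiff ℝ 1 f) :
    fderiv ℝ (T ι f) = T ι (fderiv ℝ f) := funext fun x => (hasFDerivAt_T hc hι hf h1 x).fderiv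

/-- all derivatives are bounded by the same constant -/
theorem norm_iteratedFDeriv_T_le [FiniteDimensional ℝ V] {c R : ℝ} (hc : 0 < c) (hR : 0 < R)
    {ι : ℂ →L[ℝ] V} (hι : Low c ι) (k : ℕ) : ∀ {E : Type} [NormedAddCommGroup E] [NormedSpace ℝ E]
    [NormedSpace ℂ E] [IsScalarTower ℝ ℂ E] {f : V → E}, Sp R f → ContDiff ℝ k f → ∀ b,
    (∀ x, ‖iteratedFDeriv ℝ k f x‖ ≤ b) → ∀ x, ‖iteratedFDeriv ℝ k (T ι f) x‖ ≤ 3 * R / c * b := by
  induction k with
  | zero =>
    intro E _ _ _ _ f hf h b hb x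
    simp only [norm_iteratedFDeriv_zero] at hb ⊢
    exact norm_T_le hc hR hι hf hb x
  | succ k ih =>
    intro E _ _ _ _ f hf h b hb x
    have h1 : ContDiff ℝ 1 f := h.of_le (by exact_mod_cast Nat.le_add_left 1 k)
    have hd : Continuous (fderiv ℝ f) := h1.continuous_fderiv one_ne_zero
    rw [← norm_iteratedFDeriv_fderiv, fderiv_T hc hι hf h1]
    refine ih (Sp_fderiv hf hd) ?_ b (fun y => ?_) x
    · have h' : ContDiff ℝ ((k : WithTop ℕ∞) + 1) f := by exact_mod_cast h
      exact (contDiff_succ_iff_fderiv.1 h').2.2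
    · rw [norm_iteratedFDeriv_fderiv]; exact hb y

end Crest.Agent.R080.CT
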