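import Crest.Agent.R080.Defs

/-!
Row 80 (S0107): statements of all the modules, as `Prop`s. A module proves `theorem ... : StmtX`
(possibly from other `StmtY` as hypotheses), so that all modules can be written in parallel.
-/

set_option autoImplicit false

open MeasureTheory Filter
open scoped ContDiff Topology
open Crest.AnalysisR.VecCalc3 Crest.AnalysisR.PDE.Elasticity

noncomputable section
namespace Crest.Agent.R080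

/-! ## T1: smooth positive extension of the moduli -/

def StmtExtend : Prop :=
  ∀ (G : Dom) (lam mu : R3 → ℝ), ContDiffOn ℝ ∞ lam (closure G.Ω) →
    ContDiffOn ℝ ∞ mu (closure G.Ω) →
    (∀ x ∈ closure G.Ω, 0 < mu x ∧ 0 < 3 * lam x + 2 * mu x) →
    ∃ P : Moduli, ∀ x ∈ closure G.Ω, P.lam x = lam x ∧ P.mu x = mu x

/-! ## T2: integration over the domain -/

/-- `∫_Ω ∂_j F = 0` if `F` is `C¹` and vanishes on the boundary -/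
def StmtZ : Prop :=
  ∀ (G : Dom) (F : R3 → ℂ), ContDiff ℝ 1 F → (∀ x ∈ frontier G.Ω, F x = 0) →
    ∀ j, ∫ x in G.Ω, pd j F x = 0

/-- Korn and Poincaré inequalities for `C¹` fields vanishing on the boundary -/
def StmtKorn : Prop :=
  ∀ G : Dom, ∃ C : ℝ, 0 < C ∧ ∀ v : Fin 3 → R3 → ℂ, (∀ i, ContDiff ℝ 1 (v i)) →
    (∀ x ∈ frontier G.Ω, ∀ i, v i x = 0) →
      (∫ x in G.Ω, ∑ i, ‖v i x‖ ^ 2 ≤ C * gradSq G.Ω v) ∧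
      (gradSq G.Ω v ≤ C * ∫ x in G.Ω, ∑ i, ∑ j, ‖strain v i j x‖ ^ 2)

/-! ## T3: polarization of the hypothesis -/

/-- `u` is a weak solution of the Lamé system in `Ω` up to an error `ε` -/
def WeakRes (G : Dom) (P : Moduli) (u : Fin 3 → R3 → ℂ) (ε : ℝ) : Prop :=
  ∀ w : Fin 3 → R3 → ℂ, (∀ i, ContDiff ℝ 1 (w i)) → (∀ x ∈ frontier G.Ω, ∀ i, w i x = 0) →
    ‖BE G.Ω P u w‖ ≤ ε * Real.sqrt (gradSq G.Ω w)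

def StmtPolar : Prop :=
  ∀ (G : Dom) (P₁ P₂ : Moduli), SameData G P₁ P₂ → ∃ C : ℝ, 0 < C ∧
    ∀ u v : Fin 3 → R3 → ℂ, (∀ i, ContDiff ℝ 1 (u i)) → (∀ i, ContDiff ℝ 1 (v i)) →
    ∀ ε₁ ε₂ : ℝ, 0 ≤ ε₁ → 0 ≤ ε₂ → WeakRes G P₁ u ε₁ → WeakRes G P₂ v ε₂ →
      ‖BE G.Ω P₁ u v - BE G.Ω P₂ u v‖ ≤
        C * (ε₁ ^ 2 + ε₂ ^ 2 + ε₁ * Real.sqrt (gradSq G.Ω v) + ε₂ * Real.sqrt (gradSq G.Ω u))

/-! ## T4: boundary determination of `μ` -/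

def StmtBdry : Prop :=
  ∀ (G : Dom) (P₁ P₂ : Moduli), SameData G P₁ P₂ → ∀ x ∈ frontier G.Ω, P₁.mu x = P₂.mu x

/-! ## T5-T7: `∂̄`-systems -/

/-- local fundamental matrices with `D`-closed cutoffs, for a fixed null vector -/
def StmtFM : Prop :=
  ∀ (ι : Type) [Fintype ι] [DecidableEq ι] (θ : Fin 3 → ℂ), IsNull θ →
    ∀ A : ι → ι → R3 → ℂ, (∀ i j, ContDiff ℝ ∞ (A i j)) → ∀ R : ℝ,
    ∃ (N : ℕ) (h g : Fin N → R3 → ℂ) (C Ci : Fin N → ι → ι → R3 → ℂ),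
      (∀ a, ContDiff ℝ ∞ (h a)) ∧ (∀ a, ContDiff ℝ ∞ (g a)) ∧
      (∀ a x, DD θ (h a) x = 0) ∧ (∀ a x, DD θ (g a) x = 0) ∧
      (∀ x : R3, ‖x‖ < R → ∑ a, h a x = 1) ∧
      (∀ a x, h a x ≠ 0 → g a x = 1) ∧
      (∀ a i j, ContDiff ℝ ∞ (C a i j)) ∧ (∀ a i j, ContDiff ℝ ∞ (Ci a i j)) ∧
      (∀ a, ∀ x ∈ tsupport (g a), ‖x‖ < R →
        (∀ i j, DD θ (C a i j) x = ∑ l, A i l x * C a l j x) ∧
        (∀ i j, DD θ (Ci a i j) x = -∑ l, Ci a i l x * A l j x) ∧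
        (∀ i j, ∑ l, C a i l x * Ci a l j x = if i = j then 1 else 0) ∧
        (∀ i j, ∑ l, Ci a i l x * C a l j x = if i = j then 1 else 0))

/-- right inverse of `D - A`, locally uniformly in a parameter -/
def StmtRI : Prop :=
  ∀ (ι : Type) [Fintype ι] [DecidableEq ι] (S : Type) [TopologicalSpace S] (θ : S → Fin 3 → ℂ),
    Continuous θ → (∀ s, IsNull (θ s)) →
    ∀ A : S → ι → ι → R3 → ℂ, (∀ s i j, ContDiff ℝ ∞ (A s i j)) →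
    (∀ i j, Continuous fun p : S × R3 => A p.1 i j p.2) → ∀ (R : ℝ) (s₀ : S),
    ∃ M : ℝ, ∀ᶠ s in 𝓝 s₀, ∀ φ : ι → R3 → ℂ, (∀ i, ContDiff ℝ ∞ (φ i)) → ∀ b : ℝ,
      (∀ i x, ‖φ i x‖ ≤ b) →
      ∃ ψ : ι → R3 → ℂ, (∀ i, ContDiff ℝ ∞ (ψ i)) ∧
        (∀ x : R3, ‖x‖ < R → ∀ i, DD (θ s) (ψ i) x = ∑ j, A s i j x * ψ j x + φ i x) ∧
        (∀ i (x : R3), ‖x‖ < R → ‖ψ i x‖ ≤ M * b)

/-! ## T8-T10: approximate right inverse for the conjugated second order system -/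

def StmtRI3D : Prop :=
  ∀ (ι : Type) [Fintype ι] [DecidableEq ι] (θ : Fin 3 → ℂ), IsNull θ →
    ∀ (A : Fin 3 → ι → ι → R3 → ℂ) (B : ι → ι → R3 → ℂ),
    (∀ j i l, ContDiff ℝ ∞ (A j i l)) → (∀ i l, ContDiff ℝ ∞ (B i l)) → ∀ R : ℝ,
    ∃ C τ₀ : ℝ, 0 < C ∧ 0 < τ₀ ∧ ∀ τ : ℝ, τ₀ ≤ τ → ∀ f : ι → R3 → ℂ,
      (∀ i, ContDiff ℝ ∞ (f i)) → (∀ i, HasCompactSupport (f i)) → ∀ ε : ℝ, 0 < ε →
      ∃ r : ι → R3 → ℂ, (∀ i, ContDiff ℝ ∞ (r i)) ∧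
        (∫ x in Metric.ball (0 : R3) R, ∑ i, ‖P0 A B r i x + τ * M0 θ A r i x - f i x‖ ^ 2
          ≤ ε) ∧
        H2sq (Metric.ball (0 : R3) R) r ≤ (C * τ) ^ 2 * ∫ x, ∑ i, ‖f i x‖ ^ 2

/-! ## T12: the limit identity -/

def StmtW0 : Prop :=
  ∀ (G : Dom) (P₁ P₂ : Moduli), SameData G P₁ P₂ → ∀ θ : Fin 3 → ℂ, IsNull θ →
    ∀ U V V' : Option (Fin 3) → R3 → ℂ, (∀ i, ContDiff ℝ ∞ (U i)) → (∀ i, ContDiff ℝ ∞ (V i)) →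
    (∀ i, ContDiff ℝ ∞ (V' i)) →
    (∀ᶠ x in 𝓝ˢ (closure G.Ω), ∀ i, M0 θ (A4 P₁) U i x = 0) →
    (∀ x, V none x = 0) → (∀ x, ∑ i, θ i * V (some i) x = 0) →
    (∀ᶠ x in 𝓝ˢ (closure G.Ω), ∀ i, M0 θ (A4 P₂) V i x = 0) →
    (∀ᶠ x in 𝓝ˢ (closure G.Ω), ∀ i, M0 θ (A4 P₂) V' i x = P0 (A4 P₂) (B4 P₂) V i x) →
    ∫ x in G.Ω, (q2 P₁ P₂ θ U V' x + q1 P₁ P₂ θ U V x) = 0

/-! ## T13: the orthogonality identity for the reduced system -/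

def StmtW1 : Prop :=
  ∀ (G : Dom) (P₁ P₂ : Moduli), SameData G P₁ P₂ → ∀ s : Fin 2 → ℂ, s ≠ 0 →
    ∀ X Y : Option (Fin 2) → R3 → ℂ, (∀ i, ContDiff ℝ ∞ (X i)) → (∀ i, ContDiff ℝ ∞ (Y i)) →
    (∀ᶠ x in 𝓝ˢ (closure G.Ω), DSys (th s) (Amat P₁ s) X x) →
    (∀ᶠ x in 𝓝ˢ (closure G.Ω), DAdj (th s) (Amat P₂ s) Y x) →
    ∫ x in G.Ω, DD (th s) (fun y => ∑ a, Y a y * X a y) x = 0

/-! ## T14: orthogonality to all solutions of the matrix adjoint system -/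

/-- the adjoint matrix operator `𝓓* ψ = - Dψ - A₂ᵀ ψ + ψ A₁ᵀ` -/
def Dstar (P₁ P₂ : Moduli) (s : Fin 2 → ℂ) (ψ : Option (Fin 2) → Option (Fin 2) → R3 → ℂ)
    (a b : Option (Fin 2)) (x : R3) : ℂ :=
  -DD (th s) (ψ a b) x - ∑ c, Amat P₂ s c a x * ψ c b x + ∑ c, ψ a c x * Amat P₁ s b c x

/-- the pairing `∫_Ω ⟨A₂ - A₁, ψ⟩` -/
def pairing (G : Dom) (P₁ P₂ : Moduli) (s : Fin 2 → ℂ)
    (ψ : Option (Fin 2) → Option (Fin 2) → R3 → ℂ) : ℂ :=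
  ∫ x in G.Ω, ∑ a, ∑ b, (Amat P₂ s a b x - Amat P₁ s a b x) * ψ a b x

def StmtOrth : Prop :=
  ∀ (G : Dom) (P₁ P₂ : Moduli), SameData G P₁ P₂ → ∀ s : Fin 2 → ℂ, s ≠ 0 →
    ∀ ψ : Option (Fin 2) → Option (Fin 2) → R3 → ℂ, (∀ a b, ContDiff ℝ ∞ (ψ a b)) →
    (∀ᶠ x in 𝓝ˢ (closure G.Ω), ∀ a b, Dstar P₁ P₂ s ψ a b x = 0) →
    pairing G P₁ P₂ s ψ = 0

/-! ## T15: the gauge functional and its structure -/

/-- matrix field with a single nonzero entry -/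
def single (a b : Option (Fin 2)) (η : R3 → ℂ) : Option (Fin 2) → Option (Fin 2) → R3 → ℂ :=
  fun a' b' => if a' = a ∧ b' = b then η else 0

def StmtGauge : Prop :=
  ∀ (G : Dom) (P₁ P₂ : Moduli), SameData G P₁ P₂ →
    ∃ Φ : (Fin 2 → ℂ) → (Option (Fin 2) → Option (Fin 2) → R3 → ℂ) → ℂ,
      (∀ s, s ≠ 0 → ∀ ψ φ : Option (Fin 2) → Option (Fin 2) → R3 → ℂ,
        (∀ a b, ContDiff ℝ ∞ (ψ a b)) → (∀ a b, ContDiff ℝ ∞ (φ a b)) →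
        (∀ᶠ x in 𝓝ˢ (closure G.Ω), ∀ a b, Dstar P₁ P₂ s ψ a b x = φ a b x) →
        Φ s φ = pairing G P₁ P₂ s ψ) ∧
      (∀ s, s ≠ 0 → ∀ φ φ' : Option (Fin 2) → Option (Fin 2) → R3 → ℂ,
        (∀ a b, ContDiff ℝ ∞ (φ a b)) → (∀ a b, ContDiff ℝ ∞ (φ' a b)) →
        Φ s (fun a b x => φ a b x + φ' a b x) = Φ s φ + Φ s φ') ∧
      (∀ s, s ≠ 0 → ∀ (c : ℂ) (φ : Option (Fin 2) → Option (Fin 2) → R3 → ℂ),
        (∀ a b, ContDiff ℝ ∞ (φ a b)) → Φ s (fun a b x => c * φ a b x) = c * Φ s φ) ∧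
      (∀ η : R3 → ℂ, ContDiff ℝ ∞ η → ∃ c : ℂ, ∀ s, s ≠ 0 → Φ s (single none none η) = c) ∧
      (∀ η : R3 → ℂ, ContDiff ℝ ∞ η → ∀ s, s ≠ 0 → ∀ j, Φ s (single none (some j) η) = 0) ∧
      (∀ η : R3 → ℂ, ContDiff ℝ ∞ η → ∀ s, s ≠ 0 → ∀ i j,
        Φ s (single (some i) (some j) η) = 0)

/-! ## T16: the relations -/

def StmtRelations : Prop :=
  ∀ (G : Dom) (P₁ P₂ : Moduli), SameData G P₁ P₂ → Relations G P₁ P₂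

/-! ## T17: the relations force equality -/

def StmtFinal : Prop :=
  ∀ (G : Dom) (P₁ P₂ : Moduli), Relations G P₁ P₂ →
    ∀ x ∈ G.Ω, P₁.lam x = P₂.lam x ∧ P₁.mu x = P₂.mu x

end Crest.Agent.R080
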