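import Crest.Agent.R080.DomBasic
import Crest.Agent.R080.Stmts

/-!
Row 80 (S0107), T2a: a `C¹` function vanishing on the frontier of `Ω` is approximated by `C¹`
functions with compact support in `Ω`, and `StmtZ`.
-/

set_option autoImplicit false

open MeasureTheory Filter
open scoped ContDiff Topology
open Crest.AnalysisR.VecCalc3 Crest.AnalysisR.PDE.Elasticity

noncomputable section
namespace Crest.Agent.R080
namespace DB

/-- integral of a derivative of a compactly supported `C¹` function -/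
theorem integral_fderiv_eq_zero {f : R3 → ℂ} (hf : ContDiff ℝ 1 f) (hc : HasCompactSupport f)
    (v : R3) : ∫ x, fderiv ℝ f x v = 0 := by
  have hd : Differentiable ℝ f := hf.differentiable (by norm_num)
  have hcd : Continuous fun x => fderiv ℝ f x v :=
    (hf.continuous_fderiv (by norm_num)).clm_apply continuous_const
  have hcs : HasCompactSupport fun x => fderiv ℝ f x v := by
    refine (hc.fderiv ℝ).mono' ?_
    intro x hx
    apply subset_tsupport
    intro h
    apply hx
    simp [h]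
  have h := integral_mul_fderiv_eq_neg_fderiv_mul_of_integrable (μ := (volume : Measure R3))
    (f := fun _ : R3 => (1 : ℂ)) (g := f) (v := v) (by simp)
    (by simpa using hcd.integrable_of_hasCompactSupport hcs)
    (by simpa using hd.continuous.integrable_of_hasCompactSupport hc)
    (by intro x _; exact differentiableAt_const _) (by intro x _; exact hd x)
  simpa using h

theorem integral_pd_eq_zero {f : R3 → ℂ} (hf : ContDiff ℝ 1 f) (hc : HasCompactSupport f)
    (j : Fin 3) : ∫ x, pd j f x = 0 := integral_fderiv_eq_zero hf hc _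

/-! ### the cutoff of small values -/

/-- a fixed bump on `ℂ` -/
def kb : ContDiffBump (0 : ℂ) := ⟨1, 2, one_pos, one_lt_two⟩

/-- `k z = β(z) z` -/
def kk (z : ℂ) : ℂ := (kb z : ℂ) * z

theorem kk_contDiff : ContDiff ℝ ∞ kk := by
  unfold kk
  have h1 : ContDiff ℝ ∞ (kb : ℂ → ℝ) := kb.contDiff
  exact (Complex.ofRealCLM.contDiff.comp h1).mul contDiff_id

theorem kk_compact : HasCompactSupport kk := by
  have h1 : HasCompactSupport (kb : ℂ → ℝ) := kb.hasCompactSupport
  refine h1.mono ?_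
  intro z hz h
  apply hz
  simp [kk, h]

theorem kk_of_le {z : ℂ} (h : ‖z‖ ≤ 1) : kk z = z := by
  have : kb z = 1 := kb.one_of_mem_closedBall (by simpa [kb] using h)
  simp [kk, this]

theorem kk_of_ge {z : ℂ} (h : 2 ≤ ‖z‖) : kk z = 0 := by
  have : kb z = 0 := kb.zero_of_le_dist (by simpa [kb] using h)
  simp [kk, this]

theorem kk_bound : ∃ C : ℝ, 0 < C ∧ ∀ z, ‖fderiv ℝ kk z‖ ≤ C := by
  have h1 : Continuous (fderiv ℝ kk) := kk_contDiff.continuous_fderiv (by simp)
  obtain ⟨C, hC⟩ := h1.bounded_above_of_compact_support (kk_compact.fderiv ℝ)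
  exact ⟨max C 1, by positivity, fun z => (hC z).trans (le_max_left _ _)⟩

/-- `K_δ z = δ k(z/δ)` -/
def Kd (δ : ℝ) (z : ℂ) : ℂ := (δ : ℂ) * kk ((δ⁻¹ : ℝ) • z)

theorem Kd_contDiff (δ : ℝ) : ContDiff ℝ ∞ (Kd δ) := by
  unfold Kd
  exact contDiff_const.mul (kk_contDiff.comp (contDiff_id.const_smul (δ⁻¹ : ℝ)))

theorem Kd_of_le {δ : ℝ} (hδ : 0 < δ) {z : ℂ} (h : ‖z‖ ≤ δ) : Kd δ z = z := by
  unfold Kd
  rw [kk_of_le]
  · rw [Complex.real_smul, ← mul_assoc, ← Complex.ofReal_mul, mul_inv_cancel₀ hδ.ne']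
    simp
  · rw [norm_smul, Real.norm_of_nonneg (inv_nonneg.2 hδ.le), inv_mul_le_iff₀ hδ]
    simpa using h

theorem Kd_of_ge {δ : ℝ} (hδ : 0 < δ) {z : ℂ} (h : 2 * δ ≤ ‖z‖) : Kd δ z = 0 := by
  unfold Kd
  rw [kk_of_ge, mul_zero]
  rw [norm_smul, Real.norm_of_nonneg (inv_nonneg.2 hδ.le), le_inv_mul_iff₀ hδ]
  linarith

theorem norm_kk_le (z : ℂ) : ‖kk z‖ ≤ ‖z‖ := by
  unfold kk
  rw [norm_mul, Complex.norm_real, Real.norm_of_nonneg kb.nonneg]
  exact mul_le_of_le_one_left (norm_nonneg _) kb.le_one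

theorem norm_Kd_le {δ : ℝ} (hδ : 0 < δ) (z : ℂ) : ‖Kd δ z‖ ≤ 2 * δ := by
  rcases le_total (2 * δ) ‖z‖ with h | h
  · rw [Kd_of_ge hδ h]; simp; positivity
  · unfold Kd
    rw [norm_mul, Complex.norm_real, Real.norm_of_nonneg hδ.le]
    refine (mul_le_mul_of_nonneg_left (norm_kk_le _) hδ.le).trans ?_
    rw [norm_smul, Real.norm_of_nonneg (inv_nonneg.2 hδ.le), ← mul_assoc,
      mul_inv_cancel₀ hδ.ne', one_mul]
    exact h

theorem fderiv_Kd {δ : ℝ} (hδ : 0 < δ) (z : ℂ) :
    fderiv ℝ (Kd δ) z = fderiv ℝ kk ((δ⁻¹ : ℝ) • z) := by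
  have h0 : HasFDerivAt (fun z : ℂ => (δ⁻¹ : ℝ) • z)
      ((δ⁻¹ : ℝ) • ContinuousLinearMap.id ℝ ℂ) z := (hasFDerivAt_id (𝕜 := ℝ) z).const_smul (δ⁻¹ : ℝ)
  have h1 : HasFDerivAt kk (fderiv ℝ kk ((δ⁻¹ : ℝ) • z)) ((δ⁻¹ : ℝ) • z) :=
    (kk_contDiff.differentiable (by simp) _).hasFDerivAt
  have h2 := (h1.comp z h0).const_mul (δ : ℂ)
  have h3 : Kd δ = fun y => (δ : ℂ) * (kk ∘ fun z : ℂ => (δ⁻¹ : ℝ) • z) y := rfl
  rw [h3, h2.fderiv]
  ext w
  simp only [ContinuousLinearMap.smul_apply, ContinuousLinearMap.comp_apply,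
    ContinuousLinearMap.id_apply, map_smul, smul_eq_mul]
  rw [Complex.real_smul, ← mul_assoc, ← Complex.ofReal_mul, mul_inv_cancel₀ hδ.ne']
  simp

theorem fderiv_Kd_zero {δ : ℝ} (hδ : 0 < δ) :
    fderiv ℝ (Kd δ) 0 = ContinuousLinearMap.id ℝ ℂ := by
  have h : Kd δ =ᶠ[𝓝 0] id := by
    filter_upwards [Metric.ball_mem_nhds (0 : ℂ) hδ] with z hz
    exact Kd_of_le hδ (by simpa using (mem_ball_zero_iff.1 hz).le)
  rw [h.fderiv_eq, fderiv_id]

theorem fderiv_Kd_of_gt {δ : ℝ} (hδ : 0 < δ) {z : ℂ} (h : 2 * δ < ‖z‖) :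
    fderiv ℝ (Kd δ) z = 0 := by
  have h1 : Kd δ =ᶠ[𝓝 z] fun _ => (0 : ℂ) := by
    filter_upwards [(isOpen_lt continuous_const continuous_norm).mem_nhds h] with y hy
    exact Kd_of_ge hδ (le_of_lt hy)
  rw [h1.fderiv_eq]; simp

theorem fderiv_Kd_comp {F : R3 → ℂ} {x : R3} (hF : DifferentiableAt ℝ F x) (δ : ℝ) (v : R3) :
    fderiv ℝ (fun y => Kd δ (F y)) x v = fderiv ℝ (Kd δ) (F x) (fderiv ℝ F x v) := by
  have h := ((Kd_contDiff δ).differentiable (by simp) (F x)).hasFDerivAt.comp x hF.hasFDerivAt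
  have h2 : (fun y => Kd δ (F y)) = Kd δ ∘ F := rfl
  rw [h2, h.fderiv]; rfl

/-- pointwise limit of the derivative of the cutoff -/
theorem tendsto_fderiv_Kd (z w : ℂ) (δ : ℕ → ℝ) (hδ : ∀ n, 0 < δ n)
    (hl : Tendsto δ atTop (𝓝 0)) :
    Tendsto (fun n => fderiv ℝ (Kd (δ n)) z w) atTop (𝓝 (if z = 0 then w else 0)) := by
  by_cases hz : z = 0
  · subst hz
    simp only [if_true]
    refine tendsto_const_nhds.congr fun n => ?_
    rw [fderiv_Kd_zero (hδ n)]; rfl
  · rw [if_neg hz]
    have h1 : ∀ᶠ n in atTop, 2 * δ n < ‖z‖ := by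
      have : Tendsto (fun n => 2 * δ n) atTop (𝓝 (2 * 0)) := hl.const_mul 2
      apply this.eventually_lt_const
      simpa using hz
    refine tendsto_const_nhds.congr' ?_
    filter_upwards [h1] with n hn
    rw [fderiv_Kd_of_gt (hδ n) hn]; rfl

/-- **the gradient vanishes almost everywhere on the zero set** -/
theorem ae_fderiv_eq_zero {F : R3 → ℂ} (hF : ContDiff ℝ 1 F) (v : R3) :
    ∀ᵐ x, F x = 0 → fderiv ℝ F x v = 0 := by
  classical
  have hFd : Differentiable ℝ F := hF.differentiable (by norm_num)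
  have hFc : Continuous F := hF.continuous
  have hcd : Continuous fun x => fderiv ℝ F x v :=
    (hF.continuous_fderiv (by norm_num)).clm_apply continuous_const
  let g : R3 → ℂ := fun x => if F x = 0 then fderiv ℝ F x v else 0
  have hmeas : MeasurableSet {x | F x = 0} := (isClosed_eq hFc continuous_const).measurableSet
  have hg : g = Set.indicator {x | F x = 0} (fun x => fderiv ℝ F x v) := by
    ext x; simp only [g, Set.indicator_apply]; rfl
  have hloc : LocallyIntegrable g volume := by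
    rw [hg]
    exact hcd.locallyIntegrable.indicator hmeas
  obtain ⟨C, hC0, hC⟩ := kk_bound
  have key : ∀ φ : R3 → ℝ, ContDiff ℝ ∞ φ → HasCompactSupport φ → ∫ x, φ x • g x = 0 := by
    intro φ hφ hφc
    let δ : ℕ → ℝ := fun n => 1 / ((n : ℝ) + 1)
    have hδ : ∀ n, 0 < δ n := fun n => by positivity
    have hl : Tendsto δ atTop (𝓝 0) := tendsto_one_div_add_atTop_nhds_zero_nat
    have hφd : Differentiable ℝ φ := hφ.differentiable (by simp)
    have hφcd : Continuous fun x => fderiv ℝ φ x v :=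
      (hφ.continuous_fderiv (by simp)).clm_apply continuous_const
    have hφcs : HasCompactSupport fun x => fderiv ℝ φ x v := by
      refine (hφc.fderiv ℝ).mono' ?_
      intro x hx
      apply subset_tsupport
      intro h
      apply hx
      simp [h]
    -- the exact identity
    have h1 : ∀ n, (∫ x, φ x • fderiv ℝ (Kd (δ n)) (F x) (fderiv ℝ F x v))
        + ∫ x, fderiv ℝ φ x v • Kd (δ n) (F x) = 0 := by
      intro n
      have hK : ContDiff ℝ 1 fun x => Kd (δ n) (F x) := ((Kd_contDiff (δ n)).of_le (by simp)).comp hF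
      have hsm : ContDiff ℝ 1 fun x => φ x • Kd (δ n) (F x) :=
        (hφ.of_le (by simp)).smul hK
      have hcs : HasCompactSupport fun x => φ x • Kd (δ n) (F x) := hφc.smul_right
      have h2 := integral_fderiv_eq_zero hsm hcs v
      have h3 : ∀ x, fderiv ℝ (fun x => φ x • Kd (δ n) (F x)) x v
          = φ x • fderiv ℝ (Kd (δ n)) (F x) (fderiv ℝ F x v) + fderiv ℝ φ x v • Kd (δ n) (F x) := by
        intro x
        rw [fderiv_fun_smul (hφd x) (hK.differentiable (by norm_num) x)]
        simp only [ContinuousLinearMap.add_apply, ContinuousLinearMap.smul_apply,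
          ContinuousLinearMap.smulRight_apply]
        rw [fderiv_Kd_comp (hFd x)]
      simp only [h3] at h2
      rw [← integral_add, h2]
      · apply Continuous.integrable_of_hasCompactSupport
        · exact hφ.continuous.smul ((((Kd_contDiff (δ n)).continuous_fderiv (by simp)).comp
            hFc).clm_apply hcd)
        · exact hφc.smul_right
      · apply Continuous.integrable_of_hasCompactSupport
        · exact hφcd.smul ((Kd_contDiff (δ n)).continuous.comp hFc)
        · exact hφcs.smul_right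
    have h4 : Tendsto (fun n => ∫ x, φ x • fderiv ℝ (Kd (δ n)) (F x) (fderiv ℝ F x v)) atTop
        (𝓝 (∫ x, φ x • g x)) := by
      apply tendsto_integral_of_dominated_convergence
        (fun x => ‖φ x‖ * (C * ‖fderiv ℝ F x v‖))
      · intro n
        exact (hφ.continuous.smul ((((Kd_contDiff (δ n)).continuous_fderiv (by simp)).comp
            hFc).clm_apply hcd)).aestronglyMeasurable
      · apply Continuous.integrable_of_hasCompactSupport
        · exact hφ.continuous.norm.mul (continuous_const.mul hcd.norm)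
        · exact hφc.norm.mul_right
      · intro n
        refine Eventually.of_forall fun x => ?_
        rw [norm_smul]
        refine mul_le_mul_of_nonneg_left ?_ (norm_nonneg _)
        refine (ContinuousLinearMap.le_opNorm _ _).trans ?_
        refine mul_le_mul_of_nonneg_right ?_ (norm_nonneg _)
        rw [fderiv_Kd (hδ n)]; exact hC _
      · refine Eventually.of_forall fun x => ?_
        exact (tendsto_fderiv_Kd (F x) (fderiv ℝ F x v) δ hδ hl).const_smul (φ x)
    have h5 : Tendsto (fun n => ∫ x, fderiv ℝ φ x v • Kd (δ n) (F x)) atTop (𝓝 (∫ x : R3, (0 : ℂ))) := by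
      apply tendsto_integral_of_dominated_convergence
        (fun x => ‖fderiv ℝ φ x v‖ * 2)
      · intro n
        exact (hφcd.smul ((Kd_contDiff (δ n)).continuous.comp hFc)).aestronglyMeasurable
      · apply Continuous.integrable_of_hasCompactSupport
        · exact hφcd.norm.mul continuous_const
        · exact hφcs.norm.mul_right
      · intro n
        refine Eventually.of_forall fun x => ?_
        rw [norm_smul]
        refine mul_le_mul_of_nonneg_left ?_ (norm_nonneg _)
        refine (norm_Kd_le (hδ n) _).trans ?_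
        have : δ n ≤ 1 := by
          simp only [δ]
          rw [div_le_one (by positivity)]
          linarith [Nat.cast_nonneg (α := ℝ) n]
        linarith
      · refine Eventually.of_forall fun x => ?_
        have h6 : Tendsto (fun n => Kd (δ n) (F x)) atTop (𝓝 0) := by
          rw [tendsto_zero_iff_norm_tendsto_zero]
          have : Tendsto (fun n => 2 * δ n) atTop (𝓝 0) := by simpa using hl.const_mul 2
          exact squeeze_zero (fun _ => norm_nonneg _) (fun n => norm_Kd_le (hδ n) _) this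
        simpa using h6.const_smul (fderiv ℝ φ x v)
    have h7 := h4.add h5
    have h8 : Tendsto (fun n => (∫ x, φ x • fderiv ℝ (Kd (δ n)) (F x) (fderiv ℝ F x v))
        + ∫ x, fderiv ℝ φ x v • Kd (δ n) (F x)) atTop (𝓝 0) := by
      simp only [h1]; exact tendsto_const_nhds
    have := tendsto_nhds_unique h7 h8
    simpa using this
  have h9 := ae_eq_zero_of_integral_contDiff_smul_eq_zero hloc key
  filter_upwards [h9] with x hx h0
  simpa [g, h0] using hx

theorem ae_pd_eq_zero {F : R3 → ℂ} (hF : ContDiff ℝ 1 F) (j : Fin 3) :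
    ∀ᵐ x, F x = 0 → pd j F x = 0 := ae_fderiv_eq_zero hF _

/-- approximation by `C¹` functions compactly supported in `Ω` -/
theorem exists_cutoff_seq (G : Dom) {F : R3 → ℂ} (hF : ContDiff ℝ 1 F)
    (h0 : ∀ x ∈ frontier G.Ω, F x = 0) :
    ∃ Fn : ℕ → R3 → ℂ, (∀ n, ContDiff ℝ 1 (Fn n)) ∧ (∀ n, HasCompactSupport (Fn n)) ∧
      (∀ n, tsupport (Fn n) ⊆ G.Ω) ∧
      (∃ C, ∀ n x, ‖Fn n x‖ ≤ C ∧ ∀ j, ‖pd j (Fn n) x‖ ≤ C) ∧
      (∀ j, ∀ᵐ x ∂(volume.restrict G.Ω), Tendsto (fun n => pd j (Fn n) x) atTop (𝓝 (pd j F x))) ∧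
      (∀ x ∈ G.Ω, Tendsto (fun n => Fn n x) atTop (𝓝 (F x))) := by
  classical
  have hFd : Differentiable ℝ F := hF.differentiable (by norm_num)
  have hFc : Continuous F := hF.continuous
  let δ : ℕ → ℝ := fun n => 1 / ((n : ℝ) + 1)
  have hδ : ∀ n, 0 < δ n := fun n => by positivity
  have hl : Tendsto δ atTop (𝓝 0) := tendsto_one_div_add_atTop_nhds_zero_nat
  obtain ⟨C, hC0, hC⟩ := kk_bound
  let Fn : ℕ → R3 → ℂ := fun n x => if x ∈ G.Ω then F x - Kd (δ n) (F x) else 0
  have hK : ∀ n, ContDiff ℝ 1 fun x => Kd (δ n) (F x) := fun n =>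
    ((Kd_contDiff (δ n)).of_le (by simp)).comp hF
  let S : ℕ → Set R3 := fun n => closure G.Ω ∩ {x | δ n ≤ ‖F x‖}
  have hSc : ∀ n, IsClosed (S n) := fun n =>
    isClosed_closure.inter (isClosed_le continuous_const hFc.norm)
  have hSΩ : ∀ n, S n ⊆ G.Ω := by
    intro n x hx
    by_contra hcon
    have h1 : x ∈ frontier G.Ω := by
      rw [(DB.isOpen G).frontier_eq]; exact ⟨hx.1, hcon⟩
    have h2 : δ n ≤ ‖F x‖ := hx.2
    rw [h0 x h1, norm_zero] at h2
    exact absurd h2 (not_le.2 (hδ n))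
  have hout : ∀ n x, x ∉ S n → Fn n x = 0 := by
    intro n x hx
    by_cases hxΩ : x ∈ G.Ω
    · have : ‖F x‖ < δ n := by
        by_contra hcon
        exact hx ⟨subset_closure hxΩ, le_of_not_gt hcon⟩
      simp only [Fn, if_pos hxΩ]
      rw [Kd_of_le (hδ n) this.le, sub_self]
    · simp only [Fn, if_neg hxΩ]
  have hts : ∀ n, tsupport (Fn n) ⊆ S n := by
    intro n
    apply closure_minimal _ (hSc n)
    intro x hx
    by_contra hcon
    exact hx (hout n x hcon)
  have hin : ∀ n, ∀ x ∈ G.Ω, Fn n =ᶠ[𝓝 x] fun y => F y - Kd (δ n) (F y) := by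
    intro n x hx
    filter_upwards [(DB.isOpen G).mem_nhds hx] with y hy
    simp only [Fn, if_pos hy]
  have hnear : ∀ n, ∀ x ∉ G.Ω, Fn n =ᶠ[𝓝 x] fun _ => (0 : ℂ) := by
    intro n x hx
    have h1 : x ∉ S n := fun h => hx (hSΩ n h)
    filter_upwards [(hSc n).isOpen_compl.mem_nhds h1] with y hy
    exact hout n y hy
  have hpd : ∀ n, ∀ x ∈ G.Ω, ∀ j, pd j (Fn n) x = pd j F x
      - fderiv ℝ (Kd (δ n)) (F x) (pd j F x) := by
    intro n x hx j
    rw [pd_congr (hin n x hx), pd_sub (hFd x) ((hK n).differentiable (by norm_num) x)]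
    congr 1
    exact fderiv_Kd_comp (hFd x) (δ n) _
  have hpd0 : ∀ n, ∀ x ∉ G.Ω, ∀ j, pd j (Fn n) x = 0 := by
    intro n x hx j
    rw [pd_congr (hnear n x hx), pd_const]
  -- bounds on the closure
  obtain ⟨M0, hM0⟩ := (DB.isCompact_closure G).exists_bound_of_continuousOn hFc.continuousOn
  have hMj : ∀ j, ∃ M, ∀ x ∈ closure G.Ω, ‖pd j F x‖ ≤ M := fun j =>
    (DB.isCompact_closure G).exists_bound_of_continuousOn (continuous_pd hF j).continuousOn
  choose M hM using hMj
  obtain ⟨x0, hx0⟩ := (DB.nonempty G)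
  have hM0' : 0 ≤ M0 := (norm_nonneg _).trans (hM0 x0 (subset_closure hx0))
  have hM' : ∀ j, 0 ≤ M j := fun j => (norm_nonneg _).trans (hM j x0 (subset_closure hx0))
  refine ⟨Fn, ?_, ?_, ?_, ?_, ?_, ?_⟩
  · intro n
    rw [contDiff_iff_contDiffAt]
    intro x
    by_cases hx : x ∈ G.Ω
    · exact (hF.sub (hK n)).contDiffAt.congr_of_eventuallyEq (hin n x hx)
    · exact contDiffAt_const.congr_of_eventuallyEq (hnear n x hx)
  · intro n
    exact (DB.isCompact_closure G).of_isClosed_subset (isClosed_tsupport _)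
      ((hts n).trans Set.inter_subset_left)
  · intro n; exact (hts n).trans (hSΩ n)
  · refine ⟨(M0 + 2) + (1 + C) * ∑ j, M j, fun n x => ⟨?_, fun j => ?_⟩⟩
    · have h2 : 0 ≤ (1 + C) * ∑ j, M j :=
        mul_nonneg (by positivity) (Finset.sum_nonneg fun j _ => hM' j)
      by_cases hx : x ∈ G.Ω
      · simp only [Fn, if_pos hx]
        have h3 := norm_sub_le (F x) (Kd (δ n) (F x))
        have h4 := hM0 x (subset_closure hx)
        have h5 := norm_Kd_le (hδ n) (F x)
        have : δ n ≤ 1 := by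
          simp only [δ]
          rw [div_le_one (by positivity)]
          linarith [Nat.cast_nonneg (α := ℝ) n]
        linarith
      · simp only [Fn, if_neg hx, norm_zero]; positivity
    · have h1 : (1 + C) * M j ≤ (1 + C) * ∑ j, M j :=
        mul_le_mul_of_nonneg_left
          (Finset.single_le_sum (f := M) (fun i _ => hM' i) (Finset.mem_univ j)) (by positivity)
      by_cases hx : x ∈ G.Ω
      · rw [hpd n x hx j]
        have h3 := norm_sub_le (pd j F x) (fderiv ℝ (Kd (δ n)) (F x) (pd j F x))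
        have h4 := hM j x (subset_closure hx)
        have h5 : ‖fderiv ℝ (Kd (δ n)) (F x) (pd j F x)‖ ≤ C * M j := by
          refine (ContinuousLinearMap.le_opNorm _ _).trans ?_
          apply mul_le_mul _ h4 (norm_nonneg _) hC0.le
          rw [fderiv_Kd (hδ n)]; exact hC _
        nlinarith
      · rw [hpd0 n x hx j, norm_zero]
        have : 0 ≤ (1 + C) * M j := mul_nonneg (by positivity) (hM' j)
        linarith
  · intro j
    rw [ae_restrict_iff' (DB.measurableSet G)]
    filter_upwards [ae_pd_eq_zero hF j] with x hx hxΩ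
    have h1 : Tendsto (fun n => pd j F x - fderiv ℝ (Kd (δ n)) (F x) (pd j F x)) atTop
        (𝓝 (pd j F x - if F x = 0 then pd j F x else 0)) :=
      tendsto_const_nhds.sub (tendsto_fderiv_Kd _ _ δ hδ hl)
    have h2 : (pd j F x - if F x = 0 then pd j F x else 0) = pd j F x := by
      by_cases h : F x = 0
      · simp [h, hx h]
      · simp [h]
    rw [h2] at h1
    refine h1.congr fun n => ?_
    rw [hpd n x hxΩ j]
  · intro x hx
    have h6 : Tendsto (fun n => Kd (δ n) (F x)) atTop (𝓝 0) := by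
      rw [tendsto_zero_iff_norm_tendsto_zero]
      have : Tendsto (fun n => 2 * δ n) atTop (𝓝 0) := by simpa using hl.const_mul 2
      exact squeeze_zero (fun _ => norm_nonneg _) (fun n => norm_Kd_le (hδ n) _) this
    have h7 : Tendsto (fun n => F x - Kd (δ n) (F x)) atTop (𝓝 (F x - 0)) :=
      tendsto_const_nhds.sub h6
    rw [sub_zero] at h7
    refine h7.congr fun n => ?_
    simp only [Fn, if_pos hx]

end DB

open DB in
/-- **T2a** -/
theorem t_Z : StmtZ := by
  intro G F hF h0 j
  obtain ⟨Fn, h1, h2, h3, ⟨C, hC⟩, h4, -⟩ := exists_cutoff_seq G hF h0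
  have h5 : Tendsto (fun n => ∫ x in G.Ω, pd j (Fn n) x) atTop (𝓝 (∫ x in G.Ω, pd j F x)) := by
    apply tendsto_integral_of_dominated_convergence (fun _ => C)
    · intro n; exact (continuous_pd (h1 n) j).aestronglyMeasurable
    · exact (DB.integrableOn' G) continuous_const
    · intro n; exact Eventually.of_forall fun x => (hC n x).2 j
    · exact h4 j
  have h6 : ∀ n, ∫ x in G.Ω, pd j (Fn n) x = 0 := by
    intro n
    rw [setIntegral_eq_integral_of_forall_compl_eq_zero]
    · exact integral_pd_eq_zero (h1 n) (h2 n) j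
    · intro x hx
      have : x ∉ tsupport (pd j (Fn n)) := fun h => hx (h3 n (tsupport_pd_subset _ j h))
      exact image_eq_zero_of_notMem_tsupport this
  simp only [h6] at h5
  exact tendsto_nhds_unique h5 tendsto_const_nhds

end Crest.Agent.R080
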