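import Crest.Agent.R080.Stmts2

/-!
Row 80 (S0107), task T6b, part 1: calculus of `D = ∂₁ + i ∂₂` on `ℂ`, Weyl's lemma for `D`.
-/

set_option autoImplicit false

open MeasureTheory Filter Set
open scoped ContDiff Topology

noncomputable section
namespace Crest.Agent.R080.DbarBasic

/-- `∂₁ + i∂₂` on `ℂ` -/
abbrev D1 (f : ℂ → ℂ) (z : ℂ) : ℂ := Dp (ContinuousLinearMap.id ℝ ℂ) f z

theorem D1_def (f : ℂ → ℂ) (z : ℂ) :
    D1 f z = fderiv ℝ f z 1 + Complex.I * fderiv ℝ f z Complex.I := rfl

theorem D1_of_hasFDerivAt {f : ℂ → ℂ} {z : ℂ} {f' : ℂ →L[ℝ] ℂ} (h : HasFDerivAt f f' z) :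
    D1 f z = f' 1 + Complex.I * f' Complex.I := by
  rw [D1_def, h.fderiv]

theorem D1_mul {f g : ℂ → ℂ} {z : ℂ} (hf : DifferentiableAt ℝ f z)
    (hg : DifferentiableAt ℝ g z) :
    D1 (fun w => f w * g w) z = D1 f z * g z + f z * D1 g z := by
  have h : HasFDerivAt (fun w => f w * g w) _ z := hf.hasFDerivAt.mul hg.hasFDerivAt
  rw [D1_of_hasFDerivAt h, D1_def, D1_def]
  simp only [_root_.add_apply, _root_.smul_apply, smul_eq_mul]
  ring

theorem D1_add {f g : ℂ → ℂ} {z : ℂ} (hf : DifferentiableAt ℝ f z)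
    (hg : DifferentiableAt ℝ g z) :
    D1 (fun w => f w + g w) z = D1 f z + D1 g z := by
  have h : HasFDerivAt (fun w => f w + g w) _ z := hf.hasFDerivAt.add hg.hasFDerivAt
  rw [D1_of_hasFDerivAt h, D1_def, D1_def]
  simp only [_root_.add_apply]
  ring

theorem D1_sum {κ : Type*} (s : Finset κ) {f : κ → ℂ → ℂ} {z : ℂ}
    (hf : ∀ i ∈ s, DifferentiableAt ℝ (f i) z) :
    D1 (fun w => ∑ i ∈ s, f i w) z = ∑ i ∈ s, D1 (f i) z := by
  have h := HasFDerivAt.fun_sum (u := s) (fun i hi => (hf i hi).hasFDerivAt)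
  rw [D1_of_hasFDerivAt h]
  simp only [D1_def, _root_.sum_apply, Finset.mul_sum, Finset.sum_add_distrib]

theorem D1_const (c : ℂ) (z : ℂ) : D1 (fun _ => c) z = 0 := by
  simp [D1_def]

theorem D1_congr {f g : ℂ → ℂ} {z : ℂ} (h : f =ᶠ[𝓝 z] g) : D1 f z = D1 g z := by
  rw [D1_def, D1_def, h.fderiv_eq]

theorem D1_of_complex {f : ℂ → ℂ} {z : ℂ} (h : DifferentiableAt ℂ f z) : D1 f z = 0 := by
  have h2 := (differentiableAt_complex_iff_differentiableAt_real.1 h).2
  rw [D1_def, h2, smul_eq_mul, ← mul_assoc, Complex.I_mul_I]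
  ring

theorem complex_of_D1 {f : ℂ → ℂ} {z : ℂ} (h : DifferentiableAt ℝ f z) (h0 : D1 f z = 0) :
    DifferentiableAt ℂ f z := by
  rw [differentiableAt_complex_iff_differentiableAt_real]
  refine ⟨h, ?_⟩
  rw [D1_def] at h0
  have : fderiv ℝ f z 1 = -(Complex.I * fderiv ℝ f z Complex.I) := by linear_combination h0
  rw [this, smul_eq_mul]
  linear_combination (fderiv ℝ f z Complex.I) * Complex.I_mul_I

theorem D1_comp_complex {f g : ℂ → ℂ} {z : ℂ} (hf : DifferentiableAt ℂ f (g z))
    (hg : DifferentiableAt ℝ g z) :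
    D1 (fun w => f (g w)) z = deriv f (g z) * D1 g z := by
  have h1 : HasFDerivAt f ((ContinuousLinearMap.toSpanSingleton ℂ (deriv f (g z))).restrictScalars ℝ)
      (g z) := hf.hasDerivAt.hasFDerivAt.restrictScalars ℝ
  have h := h1.comp z hg.hasFDerivAt
  have h' : D1 (fun w => f (g w)) z = _ := D1_of_hasFDerivAt h
  rw [h', D1_def]
  simp
  ring

/-- derivative after an affine real rescaling -/
theorem D1_comp_affine {f : ℂ → ℂ} (z0 : ℂ) {ε : ℝ} (z : ℂ)
    (hf : DifferentiableAt ℝ f ((ε⁻¹ : ℝ) • (z - z0))) :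
    D1 (fun w => f ((ε⁻¹ : ℝ) • (w - z0))) z = (ε⁻¹ : ℝ) * D1 f ((ε⁻¹ : ℝ) • (z - z0)) := by
  have hg : HasFDerivAt (fun w : ℂ => (ε⁻¹ : ℝ) • (w - z0))
      ((ε⁻¹ : ℝ) • ContinuousLinearMap.id ℝ ℂ) z :=
    HasFDerivAt.const_smul (f := fun w : ℂ => w - z0) ((hasFDerivAt_id z).sub_const z0) (ε⁻¹ : ℝ)
  have h := hf.hasFDerivAt.comp z hg
  have h' : D1 (fun w => f ((ε⁻¹ : ℝ) • (w - z0))) z = _ := D1_of_hasFDerivAt h
  rw [h', D1_def]
  rw [ContinuousLinearMap.comp_apply, ContinuousLinearMap.comp_apply, _root_.smul_apply,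
    _root_.smul_apply, ContinuousLinearMap.id_apply, ContinuousLinearMap.id_apply,
    ContinuousLinearMap.map_smul, ContinuousLinearMap.map_smul]
  simp only [Complex.real_smul]
  ring

/-! ### Weyl's lemma -/

theorem contDiff_D1 {f : ℂ → ℂ} (hf : ContDiff ℝ ∞ f) : ContDiff ℝ ∞ (D1 f) := by
  have h := hf.fderiv_right (m := ∞) (by simp)
  exact (h.clm_apply contDiff_const).add (contDiff_const.mul (h.clm_apply contDiff_const))

theorem D1_eq_zero_of_notMem_tsupport {f : ℂ → ℂ} {z : ℂ} (hz : z ∉ tsupport f) : D1 f z = 0 := by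
  have h : f =ᶠ[𝓝 z] fun _ => (0 : ℂ) := by
    exact (notMem_tsupport_iff_eventuallyEq.1 hz)
  rw [D1_congr h, D1_const]

/-- reflected translate of a test function -/
theorem D1_reflect (f : ℂ → ℂ) (x w : ℂ) (hf : DifferentiableAt ℝ f (x - w)) :
    D1 (fun w => f (x - w)) w = -D1 f (x - w) := by
  have hg : HasFDerivAt (fun w : ℂ => x - w) (-ContinuousLinearMap.id ℝ ℂ) w :=
    (hasFDerivAt_id w).const_sub x
  have h := hf.hasFDerivAt.comp w hg
  have h' : D1 (fun w => f (x - w)) w = _ := D1_of_hasFDerivAt h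
  rw [h', D1_def]
  simp only [ContinuousLinearMap.comp_apply, _root_.neg_apply,
    ContinuousLinearMap.id_apply, map_neg]
  ring

open ContinuousLinearMap in
theorem weyl_D1 {H : ℂ → ℂ} (hH : Continuous H) {U : Set ℂ} (hU : IsOpen U)
    (hw : ∀ φ : ℂ → ℂ, ContDiff ℝ ∞ φ → HasCompactSupport φ → tsupport φ ⊆ U →
      ∫ z, H z * D1 φ z = 0) : DifferentiableOn ℂ H U := by
  intro z1 hz1
  obtain ⟨ρ, hρ, hρU⟩ := Metric.isOpen_iff.1 hU z1 hz1
  suffices h : DifferentiableOn ℂ H (Metric.ball z1 (ρ / 2)) from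
    ((h z1 (Metric.mem_ball_self (by positivity))).differentiableAt
      (Metric.isOpen_ball.mem_nhds (Metric.mem_ball_self (by positivity)))).differentiableWithinAt
  -- bump functions with radii tending to zero
  let φ : ℕ → ContDiffBump (0 : ℂ) := fun n =>
    { rIn := ρ / (4 * (n + 1)), rOut := ρ / (2 * (n + 1)), rIn_pos := by positivity,
      rIn_lt_rOut := by
        have : (0 : ℝ) < n + 1 := by positivity
        rw [div_lt_div_iff₀ (by positivity) (by positivity)]
        nlinarith }
  let L : ℝ →L[ℝ] ℂ →L[ℝ] ℂ := ContinuousLinearMap.lsmul ℝ ℝ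
  let F : ℕ → ℂ → ℂ := fun n => convolution ((φ n).normed volume) H L volume
  have hφlim : Tendsto (fun n => (φ n).rOut) atTop (𝓝 0) := by
    have h1 : Tendsto (fun n : ℕ => (ρ / 2) * (1 / ((n : ℝ) + 1))) atTop (𝓝 ((ρ / 2) * 0)) :=
      tendsto_one_div_add_atTop_nhds_zero_nat.const_mul _
    rw [mul_zero] at h1
    refine h1.congr fun n => ?_
    show _ = ρ / (2 * (n + 1))
    have : (0 : ℝ) < n + 1 := by positivity
    field_simp
  have hrO : ∀ n, (φ n).rOut ≤ ρ / 2 := by
    intro n
    show ρ / (2 * (n + 1)) ≤ ρ / 2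
    have h0 : (0 : ℝ) ≤ n := Nat.cast_nonneg n
    rw [div_le_div_iff₀ (by positivity) (by positivity)]
    nlinarith
  -- convergence
  have hconv : TendstoLocallyUniformlyOn F H atTop (Metric.ball z1 (ρ / 2)) := by
    rw [Metric.tendstoLocallyUniformlyOn_iff]
    intro e he x hx
    -- uniform continuity of H on a compact ball
    have hK : IsCompact (Metric.closedBall z1 (2 * ρ)) := isCompact_closedBall _ _
    have huc : UniformContinuousOn H (Metric.closedBall z1 (2 * ρ)) :=
      hK.uniformContinuousOn_of_continuous hH.continuousOn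
    rw [Metric.uniformContinuousOn_iff] at huc
    obtain ⟨d, hd, hd'⟩ := huc (e / 2) (by positivity)
    refine ⟨Metric.ball z1 (ρ / 2), self_mem_nhdsWithin, ?_⟩
    have hev : ∀ᶠ n in atTop, (φ n).rOut < d := hφlim.eventually (gt_mem_nhds hd)
    filter_upwards [hev] with n hn y hy
    have hb : dist (F n y) (H y) ≤ e / 2 := by
      refine ContDiffBump.dist_normed_convolution_le (φ := φ n) hH.aestronglyMeasurable ?_
      intro x' hx'
      have h1 : dist x' y < (φ n).rOut := hx'
      have h2 : dist y z1 < ρ / 2 := hy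
      refine (hd' x' ?_ y ?_ ?_).le
      · rw [Metric.mem_closedBall]
        have := dist_triangle x' y z1
        have := hrO n
        linarith
      · rw [Metric.mem_closedBall]; linarith
      · exact h1.trans hn
    rw [dist_comm]
    linarith
  have hFd : ∀ n, DifferentiableOn ℂ (F n) (Metric.ball z1 (ρ / 2)) := by
    intro n x hx
    refine DifferentiableAt.differentiableWithinAt ?_
    have hcs : HasCompactSupport ((φ n).normed volume) := (φ n).hasCompactSupport_normed
    have hcd : ContDiff ℝ 1 ((φ n).normed volume) := (φ n).contDiff_normed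
    have hder := hcs.hasFDerivAt_convolution_left L hcd
      (hH.locallyIntegrable (μ := volume)) x
    refine complex_of_D1 hder.differentiableAt ?_
    rw [D1_of_hasFDerivAt hder]
    -- the test function
    let ψ : ℂ → ℂ := fun w => (((φ n).normed volume (x - w) : ℝ) : ℂ)
    let η : ℂ → ℂ := fun w => (((φ n).normed volume w : ℝ) : ℂ)
    have hη : ContDiff ℝ ∞ η := Complex.ofRealCLM.contDiff.comp (φ n).contDiff_normed
    have hψ : ContDiff ℝ ∞ ψ := hη.comp (contDiff_const.sub contDiff_id)
    have hψsub : tsupport ψ ⊆ Metric.closedBall x (φ n).rOut := by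
      refine closure_minimal ?_ Metric.isClosed_closedBall
      intro w hw'
      rw [Function.mem_support] at hw'
      have h1 : (φ n).normed volume (x - w) ≠ 0 := by
        intro h; apply hw'; simp [ψ, h]
      have h2 : x - w ∈ Function.support ((φ n).normed volume) := h1
      rw [(φ n).support_normed_eq] at h2
      rw [Metric.mem_ball, dist_zero_right] at h2
      rw [Metric.mem_closedBall, dist_comm, dist_eq_norm]
      exact h2.le
    have hψc : HasCompactSupport ψ :=
      (isCompact_closedBall x (φ n).rOut).of_isClosed_subset (isClosed_tsupport _) hψsub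
    have hψU : tsupport ψ ⊆ U := by
      refine hψsub.trans (subset_trans ?_ hρU)
      intro w hw'
      rw [Metric.mem_closedBall] at hw'
      rw [Metric.mem_ball] at hx ⊢
      have := dist_triangle w x z1
      have := hrO n
      linarith
    have key := hw ψ hψ hψc hψU
    have hD : ∀ w, D1 ψ w = -D1 η (x - w) := fun w =>
      D1_reflect η x w (hη.differentiable (by simp)).differentiableAt
    have hηfd : ∀ w v, fderiv ℝ η w v = ((fderiv ℝ ((φ n).normed volume) w v : ℝ) : ℂ) := by
      intro w v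
      have h1 : HasFDerivAt ((φ n).normed volume) (fderiv ℝ ((φ n).normed volume) w) w :=
        (hcd.differentiable (by simp)).differentiableAt.hasFDerivAt
      have h2 : HasFDerivAt η (Complex.ofRealCLM.comp (fderiv ℝ ((φ n).normed volume) w)) w :=
        Complex.ofRealCLM.hasFDerivAt.comp w h1
      rw [h2.fderiv]; rfl
    -- evaluate the derivative of the convolution
    have hev : ∀ v : ℂ, (convolution (fderiv ℝ ((φ n).normed volume)) H (L.precompL ℂ) volume x) v
        = ∫ t, fderiv ℝ η t v * H (x - t) := by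
      intro v
      have hcf : HasCompactSupport (fderiv ℝ ((φ n).normed volume)) := hcs.fderiv ℝ
      have hcont : Continuous (fderiv ℝ ((φ n).normed volume)) :=
        hcd.continuous_fderiv (by simp)
      have hce : ConvolutionExistsAt (fderiv ℝ ((φ n).normed volume)) H x (L.precompL ℂ) volume :=
        (hcf.convolutionExists_left (L.precompL ℂ) hcont
          (hH.locallyIntegrable (μ := volume))) x
      rw [convolution_def, ContinuousLinearMap.integral_apply hce v]
      refine integral_congr_ae (Filter.Eventually.of_forall fun t => ?_)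
      simp only [ContinuousLinearMap.precompL_apply, hηfd, L, ContinuousLinearMap.lsmul_apply,
        Complex.real_smul]
    rw [hev, hev, ← integral_const_mul, ← integral_add]
    · have h3 : (fun t => fderiv ℝ η t 1 * H (x - t)
          + Complex.I * (fderiv ℝ η t Complex.I * H (x - t))) =
          fun t => (fun w => -(H w * D1 ψ w)) (x - t) := by
        funext t
        simp only [hD, sub_sub_cancel, D1_def]
        ring
      rw [h3, integral_sub_left_eq_self (fun w => -(H w * D1 ψ w)) volume x, integral_neg, key,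
        neg_zero]
    all_goals
      have hηcs : HasCompactSupport η := hcs.comp_left (g := fun r : ℝ => (r : ℂ)) (by simp)
      have hcont2 : Continuous (fderiv ℝ η) := hη.continuous_fderiv (by simp)
      have hcf2 : HasCompactSupport (fderiv ℝ η) := hηcs.fderiv ℝ
    · refine Continuous.integrable_of_hasCompactSupport ?_ ?_
      · exact (hcont2.clm_apply continuous_const).mul (hH.comp (continuous_const.sub continuous_id))
      · exact (hcf2.comp_left (g := fun l : ℂ →L[ℝ] ℂ => l 1) (by simp)).mul_right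
    · refine Integrable.const_mul (Continuous.integrable_of_hasCompactSupport ?_ ?_) _
      · exact (hcont2.clm_apply continuous_const).mul (hH.comp (continuous_const.sub continuous_id))
      · exact (hcf2.comp_left (g := fun l : ℂ →L[ℝ] ℂ => l Complex.I) (by simp)).mul_right
  exact hconv.differentiableOn (Filter.Eventually.of_forall hFd) Metric.isOpen_ball

end Crest.Agent.R080.DbarBasic
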