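import Mathlib
import Crest.Prelude.Def_VecCalc3
import Crest.Prelude.Def_PlanarDomain
import Crest.Prelude.Def_Elasticity

/-!
Row 80 (S0107): shared definitions.

All auxiliary functions are complex valued functions on `R3`; vector fields and matrix fields are
families of component functions (`X : ι → R3 → ℂ`, `A : ι → ι → R3 → ℂ`).
-/

set_option autoImplicit false

open MeasureTheory
open scoped ContDiff Topology
open Crest.AnalysisR.VecCalc3 Crest.AnalysisR.PDE.Elasticity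

noncomputable section
namespace Crest.Agent.R080

/-- coordinate unit vectors -/
abbrev ee (j : Fin 3) : R3 := EuclideanSpace.single j (1 : ℝ)

/-- `j`-th partial derivative of a complex function on ℝ³ -/
def pd (j : Fin 3) (f : R3 → ℂ) (x : R3) : ℂ := fderiv ℝ f x (ee j)

/-- the complex derivative `θ·∇ f` -/
def DD (θ : Fin 3 → ℂ) (f : R3 → ℂ) (x : R3) : ℂ := ∑ j, θ j * pd j f x

/-- the Laplacian -/
def Lap (f : R3 → ℂ) (x : R3) : ℂ := ∑ j, pd j (pd j f) x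

/-- null vectors of ℂ³ -/
def IsNull (θ : Fin 3 → ℂ) : Prop := θ ≠ 0 ∧ ∑ j, θ j ^ 2 = 0

/-- a real function seen as a complex function -/
abbrev cf (f : R3 → ℝ) : R3 → ℂ := fun x => (f x : ℂ)

/-- `x` satisfies the first order system `(θ·∇) X = A X` -/
def DSys {ι : Type} [Fintype ι] (θ : Fin 3 → ℂ) (A : ι → ι → R3 → ℂ) (X : ι → R3 → ℂ) (x : R3) :
    Prop := ∀ a, DD θ (X a) x = ∑ b, A a b x * X b x

/-- `x` satisfies the adjoint first order system `(θ·∇) Y = - Aᵀ Y` -/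
def DAdj {ι : Type} [Fintype ι] (θ : Fin 3 → ℂ) (A : ι → ι → R3 → ℂ) (Y : ι → R3 → ℂ) (x : R3) :
    Prop := ∀ a, DD θ (Y a) x = -∑ b, A b a x * Y b x

/-! ### domains and moduli -/

/-- a bounded connected smooth domain with a chosen defining function -/
structure Dom where
  Ω : Set R3
  rho : R3 → ℝ
  smooth : ContDiff ℝ ∞ rho
  eq : Ω = {x | rho x < 0}
  reg : ∀ x, rho x = 0 → fderiv ℝ rho x ≠ 0
  bdd : Bornology.IsBounded Ω
  conn : IsConnected Ω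

/-- smooth Lamé moduli, positive on all of ℝ³ -/
structure Moduli where
  lam : R3 → ℝ
  mu : R3 → ℝ
  smooth_lam : ContDiff ℝ ∞ lam
  smooth_mu : ContDiff ℝ ∞ mu
  mu_pos : ∀ x, 0 < mu x
  bulk_pos : ∀ x, 0 < 3 * lam x + 2 * mu x

namespace Moduli
variable (P : Moduli)
/-- `m = 1/μ` -/
def m (x : R3) : ℝ := (P.mu x)⁻¹
/-- `√m` -/
def sm (x : R3) : ℝ := Real.sqrt (P.m x)
/-- `κ = (λ+μ) μ / (2 (λ+2μ))` -/
def kap (x : R3) : ℝ := (P.lam x + P.mu x) * P.mu x / (2 * (P.lam x + 2 * P.mu x))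
/-- `c = μ/(λ+2μ) = 1/(λ m + 2)` -/
def cc (x : R3) : ℝ := P.mu x / (P.lam x + 2 * P.mu x)
end Moduli

/-- the hypothesis of the theorem for two sets of moduli on a domain -/
def SameData (G : Dom) (P₁ P₂ : Moduli) : Prop :=
  SameBoundaryData G.Ω P₁.lam P₁.mu P₂.lam P₂.mu

/-! ### bilinear elastic energy for complex fields -/

/-- strain of a complex field -/
def strain (u : Fin 3 → R3 → ℂ) (i j : Fin 3) (x : R3) : ℂ := (pd i (u j) x + pd j (u i) x) / 2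

/-- divergence of a complex field -/
def divg (u : Fin 3 → R3 → ℂ) (x : R3) : ℂ := ∑ i, pd i (u i) x

/-- bilinear (not sesquilinear) energy -/
def BE (Ω : Set R3) (P : Moduli) (u v : Fin 3 → R3 → ℂ) : ℂ :=
  ∫ x in Ω, ((P.lam x : ℂ) * divg u x * divg v x
    + 2 * (P.mu x : ℂ) * ∑ i, ∑ j, strain u i j x * strain v i j x)

/-- `∫_Ω |∇u|²` -/
def gradSq (Ω : Set R3) (u : Fin 3 → R3 → ℂ) : ℝ := ∫ x in Ω, ∑ i, ∑ j, ‖pd j (u i) x‖ ^ 2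

/-! ### spinor parametrization of null vectors -/

/-- the null vector of a spinor -/
def th (s : Fin 2 → ℂ) : Fin 3 → ℂ :=
  ![s 0 ^ 2 - s 1 ^ 2, Complex.I * (s 0 ^ 2 + s 1 ^ 2), 2 * s 0 * s 1]

/-- `nu s i = (1/2) ∂ th / ∂ s_i` -/
def nu (s : Fin 2 → ℂ) (i : Fin 2) : Fin 3 → ℂ :=
  if i = 0 then ![s 0, Complex.I * s 0, s 1] else ![-s 1, Complex.I * s 1, s 0]

/-- The 3×3 matrix of the reduced transport system for `(g, ψ₀, ψ₁)`,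
`ψ_i = m^{-1/2} ν_i · (w - g ∇m)`. -/
def Amat (P : Moduli) (s : Fin 2 → ℂ) : Option (Fin 2) → Option (Fin 2) → R3 → ℂ
  | none, none => fun x => -(P.kap x : ℂ) * DD (th s) (cf P.m) x
  | none, some j => fun x => -(P.kap x : ℂ) * (P.sm x : ℂ) * s j
  | some i, none => fun x =>
      (P.kap x : ℂ) / (P.sm x : ℂ) * DD (th s) (cf P.m) x * DD (nu s i) (cf P.m) x
  | some i, some j => fun x =>
      ((P.kap x : ℂ) - 1 / (2 * (P.m x : ℂ))) * s j * DD (nu s i) (cf P.m) x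

/-! ### second order systems -/

/-- `P⁰ r = Δ r + A_j ∂_j r + B r` -/
def P0 {ι : Type} [Fintype ι] (A : Fin 3 → ι → ι → R3 → ℂ) (B : ι → ι → R3 → ℂ)
    (r : ι → R3 → ℂ) (i : ι) (x : R3) : ℂ :=
  Lap (r i) x + ∑ j, ∑ l, A j i l x * pd j (r l) x + ∑ l, B i l x * r l x

/-- `M r = 2 (θ·∇) r + θ_j A_j r`; `e^{-τθ·x} P⁰ (e^{τθ·x} r) = P⁰ r + τ M r` for null `θ` -/
def M0 {ι : Type} [Fintype ι] (θ : Fin 3 → ℂ) (A : Fin 3 → ι → ι → R3 → ℂ)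
    (r : ι → R3 → ℂ) (i : ι) (x : R3) : ℂ :=
  2 * DD θ (r i) x + ∑ j, ∑ l, A j i l x * θ j * r l x

/-- squared `H²` norm on a set -/
def H2sq {ι : Type} [Fintype ι] (S : Set R3) (r : ι → R3 → ℂ) : ℝ :=
  ∫ x in S, ∑ i, (‖r i x‖ ^ 2 + ∑ j, ‖pd j (r i) x‖ ^ 2 + ∑ j, ∑ k, ‖pd j (pd k (r i)) x‖ ^ 2)

/-! ### the 4×4 system of a pair of moduli: unknown `U`, `U (some i) = w_i`, `U none = g`,
`u = w + m ∇g - g ∇m` -/

/-- first order coefficients -/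
def A4 (P : Moduli) (j : Fin 3) : Option (Fin 3) → Option (Fin 3) → R3 → ℂ
  | some i, some l => fun x => (P.m x : ℂ) *
      ((if i = l then pd j (cf P.mu) x else 0) - (if j = l then pd i (cf P.mu) x else 0))
  | some i, none => fun x => -2 * pd i (pd j (cf P.m)) x
  | none, some l => fun x => if j = l then (P.cc x : ℂ) * ((P.lam x : ℂ) + (P.mu x : ℂ)) else 0
  | none, none => fun _ => 0

/-- zeroth order coefficients -/
def B4 (P : Moduli) : Option (Fin 3) → Option (Fin 3) → R3 → ℂ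
  | some i, some l => fun x => -(P.m x : ℂ) * pd i (pd l (cf P.mu)) x
  | some i, none => fun x =>
      -2 * (P.m x : ℂ) * (∑ j, pd i (pd j (cf P.m)) x * pd j (cf P.mu) x)
        - 2 * pd i (Lap (cf P.m)) x
  | none, some l => fun x => (P.cc x : ℂ) * pd l (cf P.mu) x
  | none, none => fun x => -(P.cc x : ℂ) * (P.lam x : ℂ) * Lap (cf P.m) x

/-- the displacement of `U` with formal exponential factor `e^{τθ·x}` removed:
`w + m (∇ + τθ) g - g ∇m` -/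
def dispU (P : Moduli) (θ : Fin 3 → ℂ) (τ : ℂ) (U : Option (Fin 3) → R3 → ℂ) (i : Fin 3)
    (x : R3) : ℂ :=
  U (some i) x + (P.m x : ℂ) * (pd i (U none) x + τ * θ i * U none x)
    - U none x * pd i (cf P.m) x

/-- `e^{τ θ·x}` -/
def expo (θ : Fin 3 → ℂ) (τ : ℂ) (x : R3) : ℂ := Complex.exp (τ * ∑ j, θ j * (x j : ℂ))

/-- `S = θ·w + 2 m (θ·∇) g` -/
def S1 (P : Moduli) (θ : Fin 3 → ℂ) (U : Option (Fin 3) → R3 → ℂ) (x : R3) : ℂ :=
  (∑ i, θ i * U (some i) x) + 2 * (P.m x : ℂ) * DD θ (U none) x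

/-- `S² = div w + m Δ g - g Δ m` -/
def S2 (P : Moduli) (U : Option (Fin 3) → R3 → ℂ) (x : R3) : ℂ :=
  (∑ i, pd i (U (some i)) x) + (P.m x : ℂ) * Lap (U none) x - U none x * Lap (cf P.m) x

/-- `E⁰ = m g θ⊗θ` -/
def E0 (P : Moduli) (θ : Fin 3 → ℂ) (U : Option (Fin 3) → R3 → ℂ) (i j : Fin 3) (x : R3) : ℂ :=
  (P.m x : ℂ) * U none x * θ i * θ j

/-- `E¹ = sym (θ ⊗ (w + 2 m ∇ g))` -/
def E1 (P : Moduli) (θ : Fin 3 → ℂ) (U : Option (Fin 3) → R3 → ℂ) (i j : Fin 3) (x : R3) : ℂ :=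
  (θ i * (U (some j) x + 2 * (P.m x : ℂ) * pd j (U none) x)
    + θ j * (U (some i) x + 2 * (P.m x : ℂ) * pd i (U none) x)) / 2

/-- `E² = e(w) + m ∇²g - g ∇²m` -/
def E2 (P : Moduli) (U : Option (Fin 3) → R3 → ℂ) (i j : Fin 3) (x : R3) : ℂ :=
  (pd i (U (some j)) x + pd j (U (some i)) x) / 2 + (P.m x : ℂ) * pd i (pd j (U none)) x
    - U none x * pd i (pd j (cf P.m)) x

/-- `δλ` -/
def dlam (P₁ P₂ : Moduli) (x : R3) : ℂ := (P₁.lam x : ℂ) - (P₂.lam x : ℂ)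
/-- `δμ` -/
def dmu (P₁ P₂ : Moduli) (x : R3) : ℂ := (P₁.mu x : ℂ) - (P₂.mu x : ℂ)

/-- coefficient of `τ²` in the integrand of `BE P₁ u v - BE P₂ u v`
(`u` with `τθ` and `P₁`, `v` with `-τθ` and `P₂`) -/
def q2 (P₁ P₂ : Moduli) (θ : Fin 3 → ℂ) (U V : Option (Fin 3) → R3 → ℂ) (x : R3) : ℂ :=
  -(dlam P₁ P₂ x) * S1 P₁ θ U x * S1 P₂ θ V x
    + 2 * dmu P₁ P₂ x * ∑ i, ∑ j, (E0 P₁ θ U i j x * E2 P₂ V i j x
      + E2 P₁ U i j x * E0 P₂ θ V i j x - E1 P₁ θ U i j x * E1 P₂ θ V i j x)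

/-- coefficient of `τ` -/
def q1 (P₁ P₂ : Moduli) (θ : Fin 3 → ℂ) (U V : Option (Fin 3) → R3 → ℂ) (x : R3) : ℂ :=
  dlam P₁ P₂ x * (S1 P₁ θ U x * S2 P₂ V x - S2 P₁ U x * S1 P₂ θ V x)
    + 2 * dmu P₁ P₂ x * ∑ i, ∑ j, (E1 P₁ θ U i j x * E2 P₂ V i j x
      - E2 P₁ U i j x * E1 P₂ θ V i j x)

/-- coefficient of `1` -/
def q0 (P₁ P₂ : Moduli) (U V : Option (Fin 3) → R3 → ℂ) (x : R3) : ℂ :=
  dlam P₁ P₂ x * S2 P₁ U x * S2 P₂ V x
    + 2 * dmu P₁ P₂ x * ∑ i, ∑ j, E2 P₁ U i j x * E2 P₂ V i j x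

/-! ### quantities for the final step -/

/-- `a = κ₂ √m₂ / (κ₁ √m₁)` -/
def aa (P₁ P₂ : Moduli) (x : R3) : ℝ := P₂.kap x * P₂.sm x / (P₁.kap x * P₁.sm x)

/-- `q_l = (κ₁√m₁)⁻¹ [(κ₁ - 1/(2m₁)) ∂_l m₁ - (κ₂ - 1/(2m₂)) ∂_l m₂]` -/
def qq (P₁ P₂ : Moduli) (l : Fin 3) (x : R3) : ℝ :=
  ((P₁.kap x - 1 / (2 * P₁.m x)) * pderiv P₁.m l x
    - (P₂.kap x - 1 / (2 * P₂.m x)) * pderiv P₂.m l x) / (P₁.kap x * P₁.sm x)

/-- the final interior and boundary relations between two sets of moduli -/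
structure Relations (G : Dom) (P₁ P₂ : Moduli) : Prop where
  grad_a : ∀ x ∈ G.Ω, ∀ j, pderiv (aa P₁ P₂) j x
    = aa P₁ P₂ x * (P₁.kap x * pderiv P₁.m j x - P₂.kap x * pderiv P₂.m j x)
      - P₂.kap x * P₂.sm x * qq P₁ P₂ j x
  scal : ∀ x ∈ G.Ω, ∃ φ : ℝ, ∀ j l,
    pderiv (qq P₁ P₂ l) j x
      - P₂.kap x / P₂.sm x * aa P₁ P₂ x * pderiv P₂.m j x * pderiv P₂.m l x
      - (P₂.kap x - 1 / (2 * P₂.m x)) * qq P₁ P₂ j x * pderiv P₂.m l x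
      - P₁.kap x * pderiv P₁.m j x * qq P₁ P₂ l x
      + P₁.kap x / P₁.sm x * pderiv P₁.m j x * pderiv P₁.m l x
    = if j = l then φ else 0
  bdry_m : ∀ x ∈ frontier G.Ω, P₁.mu x = P₂.mu x
  bdry_a : ∀ x ∈ frontier G.Ω, aa P₁ P₂ x = 1
  bdry_q : ∀ x ∈ frontier G.Ω, ∀ l, qq P₁ P₂ l x = 0

end Crest.Agent.R080
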