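import Mathlib

/-!
Row 80: abstract duality lemma in a Hilbert space.
-/

set_option autoImplicit false

open Filter
open scoped Topology

namespace Crest.Agent.R080

theorem dual_solve {S H : Type*} [AddCommGroup S] [Module ℂ S] [NormedAddCommGroup H]
    [InnerProductSpace ℂ H] [CompleteSpace H] (T J : S →ₗ[ℂ] H) (M : ℝ) (hM : 0 < M)
    (h : ∀ v w : H, (∀ r, inner ℂ v (T r) = inner ℂ w (J r)) → ‖v‖ ≤ M * ‖w‖)
    (f : H) (hf : f ≠ 0) (ε : ℝ) (hε : 0 < ε) :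
    ∃ r, ‖T r - f‖ ≤ ε ∧ ‖J r‖ ≤ 2 * M * ‖f‖ := by
  have hf0 : 0 < ‖f‖ := norm_pos_iff.2 hf
  obtain ⟨δ, hδ, hδε⟩ : ∃ δ : ℝ, 0 < δ ∧ M ^ 2 * δ ^ 2 * ‖f‖ ≤ ε / 2 := by
    refine ⟨Real.sqrt (ε / (2 * (M ^ 2 * ‖f‖))), Real.sqrt_pos.2 (by positivity), ?_⟩
    rw [Real.sq_sqrt (by positivity)]
    refine le_of_eq ?_
    field_simp
  -- the operator `(T, δ J)`
  let e := WithLp.linearEquiv 2 ℂ (H × H)
  let L : S →ₗ[ℂ] WithLp 2 (H × H) := e.symm.toLinearMap.comp (T.prod ((δ : ℂ) • J))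
  have hL1 : ∀ r, (L r).fst = T r := fun r => rfl
  have hL2 : ∀ r, (L r).snd = (δ : ℂ) • J r := fun r => rfl
  let K : Submodule ℂ (WithLp 2 (H × H)) := (LinearMap.range L).topologicalClosure
  have : CompleteSpace K := (Submodule.isClosed_topologicalClosure _).completeSpace_coe
  let F : WithLp 2 (H × H) := WithLp.toLp 2 (f, 0)
  let p : WithLp 2 (H × H) := K.starProjection F
  have hpK : p ∈ K := Submodule.starProjection_apply_mem K F
  have hq : ∀ z ∈ K, inner ℂ (F - p) z = 0 := fun z hz => by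
    have := Submodule.starProjection_inner_eq_zero (K := K) F z hz
    exact this
  have hpn : ‖p‖ ≤ ‖F‖ := by
    have := (K.starProjection).le_opNorm F
    refine this.trans ?_
    have h1 : ‖K.starProjection‖ ≤ 1 := Submodule.starProjection_norm_le K
    nlinarith [norm_nonneg F]
  have hF : ‖F‖ = ‖f‖ := by
    have := WithLp.prod_norm_sq_eq_of_L2 F
    have h2 : ‖F‖ ^ 2 = ‖f‖ ^ 2 := by rw [this]; simp [F]
    exact (sq_eq_sq₀ (norm_nonneg F) (norm_nonneg f)).1 h2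
  set a : H := p.fst with ha
  set b : H := p.snd with hb
  have hpsq : ‖p‖ ^ 2 = ‖a‖ ^ 2 + ‖b‖ ^ 2 := WithLp.prod_norm_sq_eq_of_L2 p
  have hinner : ∀ z : WithLp 2 (H × H),
      inner ℂ (F - p) z = inner ℂ (f - a) z.fst - inner ℂ b z.snd := fun z => by
    rw [WithLp.prod_inner_apply]
    have e1 : (WithLp.ofLp (F - p)).1 = f - a := rfl
    have e2 : (WithLp.ofLp (F - p)).2 = 0 - b := rfl
    rw [e1, e2, zero_sub, inner_neg_left]
    rfl
  -- dual inequality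
  have h1 : ‖f - a‖ ≤ M * (δ * ‖b‖) := by
    have := h (f - a) ((δ : ℂ) • b) fun r => by
      have hr : L r ∈ K := Submodule.le_topologicalClosure _ ⟨r, rfl⟩
      have := hq _ hr
      rw [hinner, hL1, hL2, sub_eq_zero, inner_smul_right] at this
      rw [this, inner_smul_left, Complex.conj_ofReal]
    rwa [norm_smul, Complex.norm_real, Real.norm_of_nonneg hδ.le] at this
  -- orthogonality with `p`
  have h2 : ‖b‖ ^ 2 ≤ ‖f - a‖ * ‖a‖ := by
    have := hq _ hpK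
    rw [hinner, sub_eq_zero] at this
    have h3 : inner ℂ (f - a) a = ((‖b‖ : ℂ)) ^ 2 := by
      rw [this]; exact inner_self_eq_norm_sq_to_K b
    have h4 : ‖(inner ℂ (f - a) a : ℂ)‖ = ‖b‖ ^ 2 := by rw [h3]; simp
    rw [← h4]; exact norm_inner_le_norm _ _
  have han : ‖a‖ ≤ ‖f‖ := by
    have : ‖a‖ ^ 2 ≤ ‖f‖ ^ 2 := by
      have h5 : ‖p‖ ^ 2 ≤ ‖f‖ ^ 2 := by rw [← hF]; gcongr
      nlinarith [sq_nonneg ‖b‖]
    exact (sq_le_sq₀ (norm_nonneg _) (norm_nonneg _)).1 this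
  have hbn : ‖b‖ ≤ M * δ * ‖f‖ := by
    rcases eq_or_lt_of_le (norm_nonneg b) with h0 | h0
    · rw [← h0]; positivity
    · have : ‖b‖ * ‖b‖ ≤ (M * δ * ‖f‖) * ‖b‖ := by
        calc ‖b‖ * ‖b‖ = ‖b‖ ^ 2 := by ring
          _ ≤ ‖f - a‖ * ‖a‖ := h2
          _ ≤ (M * (δ * ‖b‖)) * ‖f‖ := by gcongr
          _ = (M * δ * ‖f‖) * ‖b‖ := by ring
      exact le_of_mul_le_mul_right this h0
  have hfa : ‖f - a‖ ≤ ε / 2 := by
    calc ‖f - a‖ ≤ M * (δ * ‖b‖) := h1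
      _ ≤ M * (δ * (M * δ * ‖f‖)) := by gcongr
      _ = M ^ 2 * δ ^ 2 * ‖f‖ := by ring
      _ ≤ ε / 2 := hδε
  -- approximate `p` by the range
  have hρ : 0 < min (ε / 2) (M * δ * ‖f‖) := lt_min (by positivity) (by positivity)
  obtain ⟨z, ⟨r, rfl⟩, hz⟩ := Metric.mem_closure_iff.1
    (show p ∈ closure (LinearMap.range L : Set (WithLp 2 (H × H))) from hpK) _ hρ
  rw [dist_eq_norm] at hz
  have hz1 : ‖a - T r‖ ≤ ‖p - L r‖ := by
    have := WithLp.prod_norm_sq_eq_of_L2 (p - L r)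
    have e1 : (p - L r).fst = a - T r := rfl
    rw [e1] at this
    refine (sq_le_sq₀ (norm_nonneg _) (norm_nonneg _)).1 ?_
    rw [this]; nlinarith [sq_nonneg ‖(p - L r).snd‖]
  have hz2 : ‖b - (δ : ℂ) • J r‖ ≤ ‖p - L r‖ := by
    have := WithLp.prod_norm_sq_eq_of_L2 (p - L r)
    have e1 : (p - L r).snd = b - (δ : ℂ) • J r := rfl
    rw [e1] at this
    refine (sq_le_sq₀ (norm_nonneg _) (norm_nonneg _)).1 ?_
    rw [this]; nlinarith [sq_nonneg ‖(p - L r).fst‖]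
  refine ⟨r, ?_, ?_⟩
  · calc ‖T r - f‖ = ‖(T r - a) + (a - f)‖ := by congr 1; abel
      _ ≤ ‖T r - a‖ + ‖a - f‖ := norm_add_le _ _
      _ ≤ ε / 2 + ε / 2 := by
          rw [norm_sub_rev (T r), norm_sub_rev a f]
          exact add_le_add (hz1.trans (hz.le.trans (min_le_left _ _))) hfa
      _ = ε := by ring
  · have : ‖(δ : ℂ) • J r‖ ≤ 2 * (M * δ * ‖f‖) := by
      calc ‖(δ : ℂ) • J r‖ = ‖b - (b - (δ : ℂ) • J r)‖ := by congr 1; abel
        _ ≤ ‖b‖ + ‖b - (δ : ℂ) • J r‖ := norm_sub_le _ _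
        _ ≤ M * δ * ‖f‖ + M * δ * ‖f‖ :=
            add_le_add hbn (hz2.trans (hz.le.trans (min_le_right _ _)))
        _ = 2 * (M * δ * ‖f‖) := by ring
    rw [norm_smul, Complex.norm_real, Real.norm_of_nonneg hδ.le] at this
    have h6 : δ * ‖J r‖ ≤ δ * (2 * M * ‖f‖) := by linarith
    exact le_of_mul_le_mul_left h6 hδ

end Crest.Agent.R080
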