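import Mathlib

/-!
Row 80 (S0107), task T6b, part 2: factorization of an entire function on a disc.
-/

set_option autoImplicit false

open Filter Set
open scoped Topology

noncomputable section
namespace Crest.Agent.R080.DbarBasic

theorem zeros_finite {h : ℂ → ℂ} (hh : Differentiable ℂ h) (h0 : h 0 ≠ 0) (R : ℝ) :
    {z : ℂ | ‖z‖ ≤ R ∧ h z = 0}.Finite := by
  by_contra hinf
  have hsub : {z : ℂ | ‖z‖ ≤ R ∧ h z = 0} ⊆ Metric.closedBall (0 : ℂ) R := by
    intro z hz
    rw [mem_closedBall_zero_iff]; exact hz.1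
  obtain ⟨x, -, hx⟩ := Set.Infinite.exists_accPt_of_subset_isCompact hinf
    (isCompact_closedBall (0 : ℂ) R) hsub
  have hfr : ∃ᶠ z in 𝓝[≠] x, h z = 0 := by
    rw [accPt_iff_frequently_nhdsNE] at hx
    exact hx.mono fun z hz => hz.2
  have han : AnalyticOnNhd ℂ h univ := fun z _ => (hh.differentiableOn.analyticAt univ_mem)
  have := han.eqOn_zero_of_preconnected_of_frequently_eq_zero isPreconnected_univ (mem_univ x) hfr
  exact h0 (this (mem_univ 0))

theorem entire_factor_aux (R : ℝ) (N : ℕ) : ∀ {h : ℂ → ℂ}, Differentiable ℂ h → h 0 ≠ 0 →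
    {z : ℂ | ‖z‖ ≤ R ∧ h z = 0}.ncard = N →
    ∃ (l : List ℂ) (g : ℂ → ℂ), Differentiable ℂ g ∧ (∀ z, ‖z‖ ≤ R → g z ≠ 0) ∧
      ∀ z, h z = (l.map (fun a => z - a)).prod * g z := by
  induction N with
  | zero =>
    intro h hh h0 hN
    rw [Set.ncard_eq_zero (zeros_finite hh h0 R)] at hN
    refine ⟨[], h, hh, fun z hz h1 => ?_, fun z => by simp⟩
    have : z ∈ {z : ℂ | ‖z‖ ≤ R ∧ h z = 0} := ⟨hz, h1⟩
    rw [hN] at this
    exact this
  | succ N ih =>
    intro h hh h0 hN
    have hfin := zeros_finite hh h0 R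
    have hne : {z : ℂ | ‖z‖ ≤ R ∧ h z = 0}.Nonempty := by
      rw [← Set.ncard_pos hfin, hN]; exact Nat.succ_pos _
    obtain ⟨a, haR, ha⟩ := hne
    have hana : AnalyticAt ℂ h a := hh.differentiableOn.analyticAt univ_mem
    have hnz : ¬ ∀ᶠ z in 𝓝 a, h z = 0 := by
      intro hev
      have han : AnalyticOnNhd ℂ h univ := fun z _ => (hh.differentiableOn.analyticAt univ_mem)
      have := han.eqOn_zero_of_preconnected_of_eventuallyEq_zero isPreconnected_univ
        (mem_univ a) hev
      exact h0 (this (mem_univ 0))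
    obtain ⟨n, g, hg, hga, hev⟩ := hana.exists_eventuallyEq_pow_smul_nonzero_iff.2 hnz
    have ha0 : (0 : ℂ) ≠ a := by
      rintro rfl; exact h0 ha
    have hn : n ≠ 0 := by
      rintro rfl
      have := hev.self_of_nhds
      simp only [pow_zero, one_smul] at this
      exact hga (by rw [← this, ha])
    -- the new function
    let G : ℂ → ℂ := Function.update (fun z => h z / (z - a) ^ n) a (g a)
    have hGa : G a = g a := Function.update_self _ _ _
    have hGz : ∀ z, z ≠ a → G z = h z / (z - a) ^ n := fun z hz => Function.update_of_ne hz _ _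
    have hfac : ∀ z, h z = (z - a) ^ n * G z := by
      intro z
      by_cases hz : z = a
      · subst hz; rw [ha, sub_self, zero_pow hn, zero_mul]
      · rw [hGz z hz, mul_div_cancel₀]
        exact pow_ne_zero _ (sub_ne_zero.2 hz)
    have hGd : Differentiable ℂ G := by
      intro z
      by_cases hz : z = a
      · subst hz
        have : G =ᶠ[𝓝 z] g := by
          filter_upwards [hev] with w hw
          by_cases hwz : w = z
          · subst hwz; exact hGa
          · rw [hGz w hwz, hw, smul_eq_mul, mul_div_cancel_left₀]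
            exact pow_ne_zero _ (sub_ne_zero.2 hwz)
        exact this.differentiableAt_iff.2 hg.differentiableAt
      · have : G =ᶠ[𝓝 z] fun w => h w / (w - a) ^ n := by
          filter_upwards [isOpen_ne.mem_nhds hz] with w hw
          exact hGz w hw
        refine this.differentiableAt_iff.2 ?_
        refine DifferentiableAt.div hh.differentiableAt (by fun_prop) ?_
        exact pow_ne_zero _ (sub_ne_zero.2 hz)
    have hG0 : G 0 ≠ 0 := by
      intro h1
      apply h0; rw [hfac 0, h1, mul_zero]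
    have hset : {z : ℂ | ‖z‖ ≤ R ∧ G z = 0} = {z : ℂ | ‖z‖ ≤ R ∧ h z = 0} \ {a} := by
      ext z
      simp only [Set.mem_ofPred_eq, Set.mem_sdiff, mem_singleton_iff]
      constructor
      · rintro ⟨h1, h2⟩
        refine ⟨⟨h1, by rw [hfac z, h2, mul_zero]⟩, ?_⟩
        rintro rfl
        rw [hGa] at h2; exact hga h2
      · rintro ⟨⟨h1, h2⟩, h3⟩
        refine ⟨h1, ?_⟩
        rw [hGz z h3, h2, zero_div]
    have hcard : {z : ℂ | ‖z‖ ≤ R ∧ G z = 0}.ncard = N := by
      have hmem : a ∈ {z : ℂ | ‖z‖ ≤ R ∧ h z = 0} := ⟨haR, ha⟩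
      rw [hset, Set.ncard_sdiff_singleton_of_mem hmem, hN]
      rfl
    obtain ⟨l, g', hg', hg'0, hl⟩ := ih hGd hG0 hcard
    refine ⟨List.replicate n a ++ l, g', hg', hg'0, fun z => ?_⟩
    rw [hfac z, hl z, List.map_append, List.prod_append, List.map_replicate, List.prod_replicate,
      mul_assoc]

theorem entire_factor {h : ℂ → ℂ} (hh : Differentiable ℂ h) (h0 : h 0 ≠ 0) (R : ℝ) :
    ∃ (l : List ℂ) (g : ℂ → ℂ), Differentiable ℂ g ∧ (∀ z, ‖z‖ ≤ R → g z ≠ 0) ∧
      ∀ z, h z = (l.map (fun a => z - a)).prod * g z :=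
  entire_factor_aux R _ hh h0 rfl

end Crest.Agent.R080.DbarBasic
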