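import Crest.Agent.R080.SeeleyHalf
import Crest.Agent.R080.Stmts

/-!
Row 80, T1: smooth positive extension of the moduli (`StmtExtend`).
-/

set_option autoImplicit false

open Filter Topology Set Metric
open scoped ContDiff Manifold
open Crest.AnalysisR.VecCalc3 Crest.AnalysisR.PDE.Elasticity

noncomputable section
namespace Crest.Agent.R080.Extend

/-- the closure of the domain is the closed sublevel set -/
theorem dom_closure_eq (G : Dom) : closure G.Ω = {x | G.rho x ≤ 0} := by
  apply Subset.antisymm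
  · rw [G.eq]
    exact closure_lt_subset_le G.smooth.continuous continuous_const
  · intro x (hx : G.rho x ≤ 0)
    rcases hx.lt_or_eq with h | h
    · exact subset_closure (by rw [G.eq]; exact h)
    · have hne := G.reg x h
      obtain ⟨v, hv⟩ : ∃ v, fderiv ℝ G.rho x v < 0 := by
        by_contra hcon
        push Not at hcon
        apply hne
        ext v
        have h1 := hcon v
        have h2 := hcon (-v)
        rw [map_neg] at h2
        simpa using le_antisymm (by linarith) h1
      have hd : HasDerivAt (fun t : ℝ => G.rho (x + t • v)) (fderiv ℝ G.rho x v) 0 := by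
        have h1 : HasFDerivAt G.rho (fderiv ℝ G.rho x) (x + (0 : ℝ) • v) := by
          rw [zero_smul, add_zero]
          exact (G.smooth.differentiable (by simp)).differentiableAt.hasFDerivAt
        have h2 : HasDerivAt (fun t : ℝ => x + t • v) v 0 := by
          simpa using ((hasDerivAt_id (0 : ℝ)).smul_const v).const_add x
        exact h1.comp_hasDerivAt (0 : ℝ) h2
      have hsl := hd.hasDerivWithinAt (s := Ioi 0)
      have hlt : ∀ᶠ t in 𝓝[>] (0 : ℝ), G.rho (x + t • v) < 0 := by
        have hd' := hasDerivWithinAt_iff_tendsto_slope.mp hsl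
        have he : Ioi (0 : ℝ) \ {0} = Ioi 0 := by
          ext t; simp only [Set.mem_sdiff, mem_singleton_iff]
          exact ⟨fun h => h.1, fun h => ⟨h, ne_of_gt h⟩⟩
        rw [he] at hd'
        filter_upwards [hd'.eventually_lt_const hv, self_mem_nhdsWithin] with t ht ht0
        have ht0' : 0 < t := ht0
        rw [slope_def_field] at ht
        simp only [zero_smul, add_zero, h, sub_zero] at ht
        rw [div_lt_iff₀ ht0', zero_mul] at ht
        exact ht
      have hcont : Tendsto (fun t : ℝ => x + t • v) (𝓝[>] 0) (𝓝 x) := by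
        have : Continuous (fun t : ℝ => x + t • v) := by fun_prop
        have h3 := this.tendsto 0
        simp only [zero_smul, add_zero] at h3
        exact h3.mono_left nhdsWithin_le_nhds
      refine mem_closure_of_tendsto hcont ?_
      filter_upwards [hlt] with t ht
      rw [G.eq]; exact ht

/-- local smooth extension near a boundary point -/
theorem local_ext (G : Dom) {F : Type} [NormedAddCommGroup F] [NormedSpace ℝ F] [CompleteSpace F]
    {f : R3 → F} (hf : ContDiffOn ℝ ∞ f (closure G.Ω)) {x₀ : R3} (hx₀ : G.rho x₀ = 0) :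
    ∃ h : R3 → F, ContDiff ℝ ∞ h ∧ ∀ᶠ x in 𝓝 x₀, x ∈ closure G.Ω → h x = f x := by
  have hne := G.reg x₀ hx₀
  set ℓ : R3 →L[ℝ] ℝ := fderiv ℝ G.rho x₀ with hℓdef
  obtain ⟨v, hv⟩ : ∃ v, ℓ v ≠ 0 := by
    by_contra hcon
    push Not at hcon
    exact hne (by ext v; simpa using hcon v)
  set e : R3 := (ℓ v)⁻¹ • v with he
  have hℓ : ℓ e = 1 := by rw [he, map_smul, smul_eq_mul, inv_mul_cancel₀ hv]
  set Φ : R3 → R3 := fun x => x + (G.rho x - ℓ x) • e with hΦ
  have hΦs : ContDiff ℝ ∞ Φ :=
    contDiff_id.add ((G.smooth.sub ℓ.contDiff).smul contDiff_const)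
  have hΦℓ : ∀ x, ℓ (Φ x) = G.rho x := by
    intro x
    simp only [hΦ, map_add, map_smul, hℓ, smul_eq_mul, mul_one]
    ring
  have hder : HasFDerivAt Φ ((ContinuousLinearEquiv.refl ℝ R3 : R3 ≃L[ℝ] R3) : R3 →L[ℝ] R3) x₀ := by
    have h1 : HasFDerivAt G.rho ℓ x₀ :=
      (G.smooth.differentiable (by simp)).differentiableAt.hasFDerivAt
    have h2 := (hasFDerivAt_id (𝕜 := ℝ) x₀).add
      ((h1.sub ℓ.hasFDerivAt).smul_const e)
    refine h2.congr_fderiv ?_
    rw [sub_self]
    ext w
    simp
  have hn : (∞ : ℕ∞ω) ≠ 0 := by simp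
  set P := hΦs.contDiffAt.toOpenPartialHomeomorph Φ hder hn with hP
  have hPc : (P : R3 → R3) = Φ := rfl
  have hx₀s : x₀ ∈ P.source := ContDiffAt.mem_toOpenPartialHomeomorph_source _ hder hn
  set U₁ : Set R3 := (fun x => fderiv ℝ Φ x) ⁻¹'
    (range ((↑) : (R3 ≃L[ℝ] R3) → R3 →L[ℝ] R3)) with hU₁
  have hU₁o : IsOpen U₁ :=
    ContinuousLinearEquiv.isOpen.preimage (hΦs.continuous_fderiv (by simp))
  have hx₀U : x₀ ∈ U₁ := ⟨ContinuousLinearEquiv.refl ℝ R3, hder.fderiv.symm⟩
  set W : Set R3 := P.target ∩ P.symm ⁻¹' U₁ with hW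
  have hWo : IsOpen W := P.isOpen_inter_preimage_symm hU₁o
  set z₀ : R3 := Φ x₀ with hz₀
  have hz₀t : z₀ ∈ P.target := by
    have := P.map_source hx₀s
    rwa [hPc] at this
  have hsymm0 : P.symm z₀ = x₀ := by
    have := P.left_inv hx₀s
    rwa [hPc] at this
  have hz₀W : z₀ ∈ W := ⟨hz₀t, by rw [mem_preimage, hsymm0]; exact hx₀U⟩
  obtain ⟨r, hr, hball⟩ := Metric.nhds_basis_closedBall.mem_iff.mp (hWo.mem_nhds hz₀W)
  let b : ContDiffBump z₀ := ⟨r / 2, r, by positivity, by linarith⟩
  set f₁ : R3 → F := fun z => b z • f (P.symm z) with hf₁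
  have hsm : ∀ z ∈ W, ContDiffAt ℝ ∞ P.symm z := by
    intro z hz
    obtain ⟨e', he'⟩ := hz.2
    refine P.contDiffAt_symm hz.1 (f₀' := e') ?_ ?_
    · rw [hPc, he']
      exact (hΦs.differentiable (by simp)).differentiableAt.hasFDerivAt
    · rw [hPc]; exact hΦs.contDiffAt
  have hzero : ∀ z, z ∉ closedBall z₀ r → f₁ z = 0 := by
    intro z hz
    have : b z = 0 := by
      apply b.zero_of_le_dist
      rw [mem_closedBall, not_le] at hz
      exact hz.le
    simp only [hf₁, this, zero_smul]
  have hcl : ∀ z ∈ W, ℓ z ≤ 0 → P.symm z ∈ closure G.Ω := by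
    intro z hz hℓz
    rw [dom_closure_eq G]
    have h1 : Φ (P.symm z) = z := by
      have := P.right_inv hz.1
      rwa [hPc] at this
    change G.rho (P.symm z) ≤ 0
    rw [← hΦℓ, h1]
    exact hℓz
  have hf₁s : ContDiffOn ℝ ∞ f₁ {z | ℓ z ≤ 0} := by
    intro z hz
    by_cases hzW : z ∈ W
    · have h1 : ContDiffWithinAt ℝ ∞ (fun z => f (P.symm z)) ({z | ℓ z ≤ 0} ∩ W) z := by
        have h2 : ContDiffWithinAt ℝ ∞ P.symm ({z | ℓ z ≤ 0} ∩ W) z :=
          (hsm z hzW).contDiffWithinAt
        exact (hf (P.symm z) (hcl z hzW hz)).comp z h2 fun y hy => hcl y hy.2 hy.1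
      have h3 : ContDiffWithinAt ℝ ∞ (fun z => f (P.symm z)) {z | ℓ z ≤ 0} z :=
        h1.mono_of_mem_nhdsWithin (inter_mem self_mem_nhdsWithin
          (mem_nhdsWithin_of_mem_nhds (hWo.mem_nhds hzW)))
      exact (b.contDiff.contDiffAt.contDiffWithinAt).smul h3
    · have h1 : z ∉ closedBall z₀ r := fun h => hzW (hball h)
      have h2 : f₁ =ᶠ[𝓝 z] fun _ => 0 := by
        filter_upwards [isClosed_closedBall.isOpen_compl.mem_nhds h1] with y hy
        exact hzero y hy
      exact (contDiffAt_const.congr_of_eventuallyEq h2).contDiffWithinAt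
  obtain ⟨g, hg, hgf⟩ := Seeley.halfspace_ext hℓ hf₁s (isCompact_closedBall z₀ r) hzero
  refine ⟨g ∘ Φ, hg.comp hΦs, ?_⟩
  have h1 : ∀ᶠ x in 𝓝 x₀, x ∈ P.source := P.open_source.mem_nhds hx₀s
  have h2 : ∀ᶠ x in 𝓝 x₀, Φ x ∈ closedBall z₀ (r / 2) :=
    hΦs.continuous.continuousAt.eventually_mem (closedBall_mem_nhds _ (by positivity))
  filter_upwards [h1, h2] with x hxs hxb hx
  rw [dom_closure_eq G] at hx
  have h3 : ℓ (Φ x) ≤ 0 := by rw [hΦℓ]; exact hx
  rw [Function.comp_apply, hgf _ h3]
  have h4 : b (Φ x) = 1 := b.one_of_mem_closedBall hxb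
  have h5 : P.symm (Φ x) = x := by
    have := P.left_inv hxs
    rwa [hPc] at this
  simp only [hf₁, h4, h5, one_smul]

end Crest.Agent.R080.Extend

namespace Crest.Agent.R080
open Crest.Agent.R080.Extend

theorem t_Extend : StmtExtend := by
  intro G lam mu hlam hmu hpos
  set f : R3 → ℝ × ℝ := fun x => (lam x, mu x) with hf
  have hfs : ContDiffOn ℝ ∞ f (closure G.Ω) := hlam.prodMk hmu
  have hop : IsOpen G.Ω := by
    rw [G.eq]; exact isOpen_lt G.smooth.continuous continuous_const
  set pos : Set (ℝ × ℝ) := {v | 0 < v.2 ∧ 0 < 3 * v.1 + 2 * v.2} with hposdef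
  have hposo : IsOpen pos :=
    (isOpen_lt continuous_const continuous_snd).inter
      (isOpen_lt (g := fun v : ℝ × ℝ => 3 * v.1 + 2 * v.2) continuous_const
        ((continuous_const.mul continuous_fst).add (continuous_const.mul continuous_snd)))
  have hposc : Convex ℝ pos := by
    intro a ha b hb s t hs ht hst
    obtain ⟨ha1, ha2⟩ := ha
    obtain ⟨hb1, hb2⟩ := hb
    constructor
    · change 0 < s * a.2 + t * b.2
      rcases hs.lt_or_eq with h | h
      · have : 0 ≤ t * b.2 := by positivity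
        have : 0 < s * a.2 := by positivity
        linarith
      · have : t = 1 := by linarith
        subst h; rw [this]; linarith
    · change 0 < 3 * (s * a.1 + t * b.1) + 2 * (s * a.2 + t * b.2)
      have h1 : 3 * (s * a.1 + t * b.1) + 2 * (s * a.2 + t * b.2)
        = s * (3 * a.1 + 2 * a.2) + t * (3 * b.1 + 2 * b.2) := by ring
      rw [h1]
      rcases hs.lt_or_eq with h | h
      · have : 0 ≤ t * (3 * b.1 + 2 * b.2) := by positivity
        have : 0 < s * (3 * a.1 + 2 * a.2) := by positivity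
        linarith
      · have : t = 1 := by linarith
        subst h; rw [this]; linarith
  set t : R3 → Set (ℝ × ℝ) := fun x => {v | (x ∈ closure G.Ω → v = f x) ∧ v ∈ pos} with ht
  have htc : ∀ x, Convex ℝ (t x) := by
    intro x
    by_cases hx : x ∈ closure G.Ω
    · have : t x = {f x} ∩ pos := by
        ext v
        constructor
        · rintro ⟨h1, h2⟩; exact ⟨h1 hx, h2⟩
        · rintro ⟨h1, h2⟩; exact ⟨fun _ => h1, h2⟩
      rw [this]
      exact (convex_singleton _).inter hposc
    · have : t x = pos := by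
        ext v
        constructor
        · rintro ⟨h1, h2⟩; exact h2
        · intro h2; exact ⟨fun h => absurd h hx, h2⟩
      rw [this]
      exact hposc
  have hfpos : ∀ x ∈ closure G.Ω, f x ∈ pos := fun x hx => hpos x hx
  obtain ⟨g, hg⟩ := exists_contMDiffMap_forall_mem_convex_of_local (n := ⊤) (t := t)
    𝓘(ℝ, R3) htc (by
      intro x
      by_cases hx : x ∈ closure G.Ω
      · by_cases hxΩ : x ∈ G.Ω
        · refine ⟨G.Ω, hop.mem_nhds hxΩ, f, ?_, ?_⟩
          · rw [contMDiffOn_iff_contDiffOn]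
            exact hfs.mono subset_closure
          · intro y hy
            exact ⟨fun _ => rfl, hfpos y (subset_closure hy)⟩
        · have hx0 : G.rho x = 0 := by
            rw [dom_closure_eq G] at hx
            rw [G.eq] at hxΩ
            exact le_antisymm hx (not_lt.mp hxΩ)
          obtain ⟨h, hh, hev⟩ := local_ext G hfs hx0
          have hpx : h x ∈ pos := by
            rw [hev.self_of_nhds hx]
            exact hfpos x hx
          have hev2 : ∀ᶠ y in 𝓝 x, h y ∈ pos := hh.continuous.continuousAt.eventually_mem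
            (hposo.mem_nhds hpx)
          refine ⟨{y | (y ∈ closure G.Ω → h y = f y) ∧ h y ∈ pos}, hev.and hev2, h, ?_, ?_⟩
          · rw [contMDiffOn_iff_contDiffOn]
            exact hh.contDiffOn
          · intro y hy
            exact hy
      · refine ⟨(closure G.Ω)ᶜ, isClosed_closure.isOpen_compl.mem_nhds hx, fun _ => (1, 1), ?_, ?_⟩
        · exact contMDiffOn_const
        · intro y hy
          exact ⟨fun h => absurd h hy, by constructor <;> norm_num⟩)
  have hgs : ContDiff ℝ ∞ (g : R3 → ℝ × ℝ) := by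
    have := g.contMDiff
    rw [contMDiff_iff_contDiff] at this
    exact this
  refine ⟨⟨fun x => (g x).1, fun x => (g x).2, hgs.fst, hgs.snd, fun x => (hg x).2.1,
    fun x => (hg x).2.2⟩, fun x hx => ?_⟩
  have := (hg x).1 hx
  exact ⟨congrArg Prod.fst this, congrArg Prod.snd this⟩

end Crest.Agent.R080
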