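import Crest.Agent.R080.NullFrame

/-!
Row 80 (S0107), task T7a: local fundamental matrices in `ℝ³` with `D`-closed cutoffs.
-/

set_option autoImplicit false
set_option linter.unusedSectionVars false

open MeasureTheory Filter
open scoped ContDiff Topology Manifold
open Crest.AnalysisR.VecCalc3 Crest.AnalysisR.PDE.Elasticity

noncomputable section
namespace Crest.Agent.R080.FM

open NullFrame

/-- partition of unity on a segment subordinate to small intervals -/
theorem line_partition (T : ℝ) (d : ℝ → ℝ) (hd : ∀ t, 0 < d t) :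
    ∃ (N : ℕ) (c : Fin N → ℝ) (η γ : Fin N → ℝ → ℝ), (∀ a, ContDiff ℝ ∞ (η a)) ∧
      (∀ a, ContDiff ℝ ∞ (γ a)) ∧ (∀ t, |t| ≤ T → ∑ a, η a t = 1) ∧
      (∀ a t, η a t ≠ 0 → γ a t = 1) ∧ (∀ a t, γ a t ≠ 0 → |t - c a| ≤ d (c a)) := by
  have hcov : Set.Icc (-T) T ⊆ ⋃ t : ℝ, Metric.ball t (d t / 2) := by
    intro t _
    exact Set.mem_iUnion.mpr ⟨t, Metric.mem_ball_self (by have := hd t; positivity)⟩
  obtain ⟨S, hS⟩ := isCompact_Icc.elim_finite_subcover (fun t : ℝ => Metric.ball t (d t / 2))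
    (fun t => Metric.isOpen_ball) hcov
  let e := S.equivFin
  let c : Fin S.card → ℝ := fun a => (e.symm a : ℝ)
  have hU : Set.Icc (-T) T ⊆ ⋃ a : Fin S.card, Metric.ball (c a) (d (c a) / 2) := by
    intro t ht
    obtain ⟨s, hs, hts⟩ := Set.mem_iUnion₂.mp (hS ht)
    refine Set.mem_iUnion.mpr ⟨e ⟨s, hs⟩, ?_⟩
    have : c (e ⟨s, hs⟩) = s := by simp [c]
    rw [this]; exact hts
  obtain ⟨f, hf⟩ := SmoothPartitionOfUnity.exists_isSubordinate 𝓘(ℝ, ℝ)
    (isClosed_Icc (a := -T) (b := T)) (fun a : Fin S.card => Metric.ball (c a) (d (c a) / 2))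
    (fun a => Metric.isOpen_ball) hU
  let γ : (a : Fin S.card) → ContDiffBump (c a) := fun a =>
    ⟨d (c a) / 2, d (c a), by have := hd (c a); positivity, by have := hd (c a); linarith⟩
  refine ⟨S.card, c, fun a => f a, fun a => γ a, fun a => (f a).contMDiff.contDiff,
    fun a => (γ a).contDiff, ?_, ?_, ?_⟩
  · intro t ht
    have ht' : t ∈ Set.Icc (-T) T := ⟨(abs_le.mp ht).1, (abs_le.mp ht).2⟩
    have := f.sum_eq_one ht'
    rwa [finsum_eq_sum_of_fintype] at this
  · intro a t h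
    have h1 : t ∈ tsupport (f a) := subset_tsupport _ h
    have h2 := hf a h1
    exact (γ a).one_of_mem_closedBall (Metric.ball_subset_closedBall h2)
  · intro a t h
    have h1 : t ∈ Function.support (γ a) := h
    rw [(γ a).support_eq] at h1
    exact (Metric.mem_ball.mp h1).le

/-- matrix form of a `Dp` system -/
theorem MD_eq_of {V : Type} [NormedAddCommGroup V] [NormedSpace ℝ V] (ι : ℂ →L[ℝ] V)
    {n : Type} [Fintype n] [DecidableEq n] {A C : n → n → V → ℂ} {x : V}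
    (h : ∀ i j, Dp ι (C i j) x = ∑ l, A i l x * C l j x) : MD ι C x = MV A x * MV C x := by
  ext i j
  simp only [MD, MV, Matrix.of_apply, Matrix.mul_apply]
  exact h i j

theorem local_FM (hS : StmtSmallFM) (hP : StmtPlaneFM) (n : Type) [Fintype n] [DecidableEq n]
    (θ : Fin 3 → ℂ) (hθ : IsNull θ) (A : n → n → R3 → ℂ) (hA : ∀ i j, ContDiff ℝ ∞ (A i j))
    (R : ℝ) (p : R3 →L[ℝ] ℂ) (ν : R3) (t : R3 →L[ℝ] ℝ)
    (hpl : ∀ z, p (plane θ z) = z) (hx : ∀ x, x = plane θ (p x) + t x • ν)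
    (hpn : ∀ x, ‖p x‖ ≤ ‖x‖ / ‖reV θ‖) (t0 : ℝ) :
    ∃ d : ℝ, 0 < d ∧ ∃ C Ci : n → n → R3 → ℂ, (∀ i j, ContDiff ℝ ∞ (C i j)) ∧
      (∀ i j, ContDiff ℝ ∞ (Ci i j)) ∧ ∀ x : R3, ‖x‖ < R → |t x - t0| ≤ d →
        (MD (plane θ) C x = MV A x * MV C x) ∧ (MD (plane θ) Ci x = -(MV Ci x * MV A x)) ∧
        MV C x * MV Ci x = 1 ∧ MV Ci x * MV C x = 1 := by
  have hr : 0 < ‖reV θ‖ := isNull_pos hθ
  set r := ‖reV θ‖ with hrdef
  -- fundamental matrix on the plane
  let At : n → n → ℂ → ℂ := fun i j z => A i j (plane θ z + t0 • ν)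
  have hAt : ∀ i j, ContDiff ℝ ∞ (At i j) := fun i j =>
    (hA i j).comp ((plane θ).contDiff.add contDiff_const)
  obtain ⟨C0, Ci0, hC0, hCi0, hpl0⟩ := hP n At hAt (R / r + 1)
  let F0 : n → n → R3 → ℂ := fun i j x => C0 i j (p x)
  let G0 : n → n → R3 → ℂ := fun i j x => Ci0 i j (p x)
  let A0 : n → n → R3 → ℂ := fun i j x => A i j (plane θ (p x) + t0 • ν)
  have hF0 : ∀ i j, ContDiff ℝ ∞ (F0 i j) := fun i j => (hC0 i j).comp p.contDiff
  have hG0 : ∀ i j, ContDiff ℝ ∞ (G0 i j) := fun i j => (hCi0 i j).comp p.contDiff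
  have hA0 : ∀ i j, ContDiff ℝ ∞ (A0 i j) := fun i j => (hAt i j).comp p.contDiff
  have hpx : ∀ x : R3, ‖x‖ < R → ‖p x‖ < R / r + 1 := by
    intro x h
    have h1 : ‖x‖ / r < R / r := div_lt_div_of_pos_right h hr
    have h2 := hpn x
    linarith
  have hcomp : p.comp (plane θ) = ContinuousLinearMap.id ℝ ℂ := by
    ext z; simp [hpl]
  have hMDF0 : ∀ x : R3, ‖x‖ < R → MD (plane θ) F0 x = MV A0 x * MV F0 x := by
    intro x h
    ext i j
    simp only [MD, MV, Matrix.of_apply, Matrix.mul_apply]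
    have h1 := Dp_comp (plane θ) p (C0 i j) x ((hC0 i j).differentiable (by simp) _)
    rw [hcomp, (hpl0 (p x) (hpx x h)).1 i j] at h1
    exact h1
  have hFG : ∀ x : R3, ‖x‖ < R → MV F0 x * MV G0 x = 1 := by
    intro x h
    ext i j
    simp only [MV, Matrix.of_apply, Matrix.mul_apply, Matrix.one_apply]
    exact (hpl0 (p x) (hpx x h)).2 i j
  -- the conjugated difference
  let AA : n → n → R3 → ℂ := fun i j x => A i j x - A0 i j x
  have hAA : ∀ i j, ContDiff ℝ ∞ (AA i j) := fun i j => (hA i j).sub (hA0 i j)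
  let B : n → n → R3 → ℂ := MM G0 (MM AA F0)
  have hB : ∀ i j, ContDiff ℝ ∞ (B i j) :=
    contDiff_MM _ _ hG0 (contDiff_MM _ _ hAA hF0)
  have hMB : ∀ x, MV B x = MV G0 x * ((MV A x - MV A0 x) * MV F0 x) := by
    intro x
    simp only [B, MV_MM]
    rfl
  have hB0 : ∀ x, t x = t0 → ∀ i j, B i j x = 0 := by
    intro x h i j
    have h1 : MV A x = MV A0 x := by
      ext i j
      simp only [MV, Matrix.of_apply, A0]
      congr 1
      conv_lhs => rw [hx x, h]
    have h2 := hMB x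
    rw [h1, sub_self, zero_mul, mul_zero] at h2
    exact congrFun (congrFun h2 i) j
  -- small coefficients
  let e : ℝ := 1 / (2 * (Fintype.card n + 1))
  have hcard : (0 : ℝ) < Fintype.card n + 1 := by positivity
  have he : 0 < e := by positivity
  have hR1 : (0 : ℝ) < |R| + 2 := by positivity
  obtain ⟨δ, hδ, hSm⟩ := hS R3 n r (|R| + 2) e hr hR1 he
  have hd0 : ∃ d0 : ℝ, 0 < d0 ∧ ∀ x ∈ Metric.closedBall (0 : R3) (|R| + 2), |t x - t0| < d0 →
      ∀ i j, ‖B i j x‖ < δ := by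
    let K : Set R3 := Metric.closedBall (0 : R3) (|R| + 2) ∩ ⋃ i, ⋃ j, {x | δ ≤ ‖B i j x‖}
    have hK : IsCompact K := by
      refine (isCompact_closedBall _ _).inter_right ?_
      refine isClosed_iUnion_of_finite fun i => isClosed_iUnion_of_finite fun j => ?_
      exact isClosed_le continuous_const (hB i j).continuous.norm
    by_cases hne : K.Nonempty
    · obtain ⟨x0, hx0, hmin⟩ := hK.exists_isMinOn hne
        (f := fun x => |t x - t0|) (by fun_prop)
      refine ⟨|t x0 - t0|, ?_, ?_⟩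
      · rw [abs_pos]
        intro h
        obtain ⟨i, hi⟩ := Set.mem_iUnion.mp hx0.2
        obtain ⟨j, hj⟩ := Set.mem_iUnion.mp hi
        have h2 : δ ≤ ‖B i j x0‖ := hj
        rw [hB0 x0 (sub_eq_zero.mp h) i j, norm_zero] at h2
        linarith
      · intro x hxb hlt i j
        by_contra hcon
        push Not at hcon
        have : x ∈ K := ⟨hxb, Set.mem_iUnion.mpr ⟨i, Set.mem_iUnion.mpr ⟨j, hcon⟩⟩⟩
        exact absurd (hmin this) (not_le.mpr hlt)
    · refine ⟨1, one_pos, ?_⟩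
      intro x hxb _ i j
      by_contra hcon
      push Not at hcon
      exact hne ⟨x, hxb, Set.mem_iUnion.mpr ⟨i, Set.mem_iUnion.mpr ⟨j, hcon⟩⟩⟩
  obtain ⟨d0, hd0, hsmall⟩ := hd0
  let χ1 : ContDiffBump (0 : R3) := ⟨|R| + 1, |R| + 2, by positivity, by linarith⟩
  let χ2 : ContDiffBump (t0 : ℝ) := ⟨d0 / 3, 2 * d0 / 3, by positivity, by linarith⟩
  let Bt : n → n → R3 → ℂ := fun i j x => ((χ1 x * χ2 (t x) : ℝ) : ℂ) * B i j x
  have hχ : ContDiff ℝ ∞ fun x : R3 => ((χ1 x * χ2 (t x) : ℝ) : ℂ) := by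
    have h1 : ContDiff ℝ ∞ fun x : R3 => χ1 x * χ2 (t x) :=
      χ1.contDiff.mul (χ2.contDiff.comp t.contDiff)
    exact Complex.ofRealCLM.contDiff.comp h1
  have hBt : ∀ i j, ContDiff ℝ ∞ (Bt i j) := fun i j => hχ.mul (hB i j)
  have hBtz : ∀ i j (x : R3), |R| + 2 ≤ ‖x‖ → Bt i j x = 0 := by
    intro i j x h
    have h1 : χ1 x = 0 := by
      rw [← Function.notMem_support, χ1.support_eq, Metric.mem_ball, dist_zero_right]
      exact not_lt.mpr h
    simp [Bt, h1]
  have hBts : ∀ i j x, ‖Bt i j x‖ ≤ δ := by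
    intro i j x
    by_cases h1 : χ1 x = 0
    · simp [Bt, h1, hδ.le]
    by_cases h2 : χ2 (t x) = 0
    · simp [Bt, h2, hδ.le]
    have h3 : x ∈ Metric.closedBall (0 : R3) (|R| + 2) := by
      have : x ∈ Function.support χ1 := h1
      rw [χ1.support_eq] at this
      exact Metric.ball_subset_closedBall this
    have h4 : |t x - t0| < d0 := by
      have : t x ∈ Function.support χ2 := h2
      rw [χ2.support_eq] at this
      have := Metric.mem_ball.mp this
      rw [Real.dist_eq] at this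
      have h5 : χ2.rOut = 2 * d0 / 3 := rfl
      rw [h5] at this
      linarith
    have h5 := hsmall x h3 h4 i j
    have h6 : ‖((χ1 x * χ2 (t x) : ℝ) : ℂ)‖ ≤ 1 := by
      rw [Complex.norm_real, Real.norm_eq_abs, abs_of_nonneg (mul_nonneg χ1.nonneg χ2.nonneg)]
      exact mul_le_one₀ χ1.le_one χ2.nonneg χ2.le_one
    calc ‖Bt i j x‖ = ‖((χ1 x * χ2 (t x) : ℝ) : ℂ)‖ * ‖B i j x‖ := norm_mul _ _
      _ ≤ 1 * δ := mul_le_mul h6 h5.le (norm_nonneg _) zero_le_one
      _ = δ := one_mul _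
  obtain ⟨C', hC', hDC', hnear⟩ := hSm (plane θ) (fun z => (norm_plane hθ z).ge) Bt hBt hBtz hBts
  have hdet : ∀ x, (MV C' x).det ≠ 0 := by
    intro x
    refine det_ne_zero_of_near_one (MV C' x) e ?_ he.le (fun i j => hnear i j x)
    simp only [e]
    rw [div_mul_eq_mul_div, one_mul, div_lt_one (by positivity)]
    linarith
  let D' : n → n → R3 → ℂ := Minv C'
  have hD' : ∀ i j, ContDiff ℝ ∞ (D' i j) := contDiff_Minv _ hC' hdet
  have hCD : ∀ x, MV C' x * MV D' x = 1 := fun x =>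
    Matrix.mul_nonsing_inv _ (isUnit_iff_ne_zero.mpr (hdet x))
  refine ⟨d0 / 3, by positivity, MM F0 C', MM D' G0, contDiff_MM _ _ hF0 hC',
    contDiff_MM _ _ hD' hG0, ?_⟩
  intro x hxR hxt
  have dF0 : ∀ i j, DifferentiableAt ℝ (F0 i j) x := fun i j =>
    (hF0 i j).differentiable (by simp) x
  have dG0 : ∀ i j, DifferentiableAt ℝ (G0 i j) x := fun i j =>
    (hG0 i j).differentiable (by simp) x
  have dC' : ∀ i j, DifferentiableAt ℝ (C' i j) x := fun i j =>
    (hC' i j).differentiable (by simp) x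
  have dD' : ∀ i j, DifferentiableAt ℝ (D' i j) x := fun i j =>
    (hD' i j).differentiable (by simp) x
  have hχ1 : χ1 x = 1 := by
    refine χ1.one_of_mem_closedBall ?_
    rw [mem_closedBall_zero_iff]
    change ‖x‖ ≤ |R| + 1
    have := le_abs_self R
    linarith
  have hχ2 : χ2 (t x) = 1 := by
    refine χ2.one_of_mem_closedBall ?_
    rw [Metric.mem_closedBall, Real.dist_eq]
    exact hxt
  have hBtB : MV Bt x = MV B x := by
    ext i j
    simp [MV, Bt, hχ1, hχ2]
  have e1 : MD (plane θ) F0 x = MV A0 x * MV F0 x := hMDF0 x hxR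
  have e2 : MD (plane θ) C' x = MV B x * MV C' x := by
    rw [← hBtB]; exact MD_eq_of (plane θ) fun i j => hDC' i j x
  have e3 : MV F0 x * MV G0 x = 1 := hFG x hxR
  have e4 : MV C' x * MV D' x = 1 := hCD x
  have e4' : MV D' x * MV C' x = 1 := mul_eq_one_comm.mp e4
  have e3' : MV G0 x * MV F0 x = 1 := mul_eq_one_comm.mp e3
  have e5 : MD (plane θ) G0 x = -(MV G0 x * MD (plane θ) F0 x * MV G0 x) := by
    refine MD_inv (plane θ) dF0 dG0 ?_
    have : ∀ᶠ y in 𝓝 x, ‖y‖ < R := continuous_norm.continuousAt.eventually_lt_const hxR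
    filter_upwards [this] with y hy
    exact hFG y hy
  have e6 : MD (plane θ) D' x = -(MV D' x * MD (plane θ) C' x * MV D' x) :=
    MD_inv (plane θ) dC' dD' (Eventually.of_forall hCD)
  have eB := hMB x
  refine ⟨?_, ?_, ?_, ?_⟩
  · rw [MD_MM _ _ _ dF0 dC', MV_MM, e1, e2, eB]
    calc MV A0 x * MV F0 x * MV C' x + MV F0 x *
          (MV G0 x * ((MV A x - MV A0 x) * MV F0 x) * MV C' x)
        = MV A0 x * MV F0 x * MV C' x + (MV F0 x * MV G0 x) * ((MV A x - MV A0 x) * MV F0 x)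
            * MV C' x := by noncomm_ring
      _ = MV A x * (MV F0 x * MV C' x) := by rw [e3]; noncomm_ring
  · rw [MD_MM _ _ _ dD' dG0, MV_MM, e6, e5, e1, e2, eB]
    calc -(MV D' x * (MV G0 x * ((MV A x - MV A0 x) * MV F0 x) * MV C' x) * MV D' x) * MV G0 x +
          MV D' x * -(MV G0 x * (MV A0 x * MV F0 x) * MV G0 x)
        = -(MV D' x * (MV G0 x * (MV A x - MV A0 x)) * (MV F0 x * (MV C' x * MV D' x) * MV G0 x)) -
          MV D' x * (MV G0 x * MV A0 x * (MV F0 x * MV G0 x)) := by noncomm_ring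
      _ = -(MV D' x * (MV G0 x * (MV A x - MV A0 x)) * (MV F0 x * MV G0 x)) -
          MV D' x * (MV G0 x * MV A0 x * (MV F0 x * MV G0 x)) := by rw [e4, mul_one]
      _ = -(MV D' x * MV G0 x * MV A x) := by rw [e3]; noncomm_ring
  · rw [MV_MM, MV_MM]
    calc MV F0 x * MV C' x * (MV D' x * MV G0 x)
        = MV F0 x * (MV C' x * MV D' x) * MV G0 x := by noncomm_ring
      _ = 1 := by rw [e4, mul_one, e3]
  · rw [MV_MM, MV_MM]
    calc MV D' x * MV G0 x * (MV F0 x * MV C' x)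
        = MV D' x * (MV G0 x * MV F0 x) * MV C' x := by noncomm_ring
      _ = 1 := by rw [e3', mul_one, e4']

end FM

open NullFrame FM

/-- T7a -/
theorem t_FM (hS : StmtSmallFM) (hP : StmtPlaneFM) : StmtFM := by
  intro n _ _ θ hθ A hA R
  obtain ⟨p, ν, t, hpl, htpl, hpν, htν, hx, htn, hpn⟩ := exists_frame hθ
  have hloc := local_FM hS hP n θ hθ A hA R p ν t hpl hx hpn
  choose d hd C Ci hC hCi hid using hloc
  obtain ⟨N, c, η, γ, hη, hγ, hsum, hηγ, hγd⟩ := line_partition |R| d hd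
  have hsm : ∀ f : ℝ → ℝ, ContDiff ℝ ∞ f → ContDiff ℝ ∞ fun x : R3 => ((f (t x) : ℝ) : ℂ) :=
    fun f hf => Complex.ofRealCLM.contDiff.comp (hf.comp t.contDiff)
  have hDz : ∀ f : ℝ → ℝ, ContDiff ℝ ∞ f → ∀ x, DD θ (fun x : R3 => ((f (t x) : ℝ) : ℂ)) x = 0 := by
    intro f hf x
    rw [DD_eq_Dp]
    refine Dp_comp_zero (plane θ) t (fun s : ℝ => ((f s : ℝ) : ℂ)) x ?_ htpl
    have : ContDiff ℝ ∞ fun s : ℝ => ((f s : ℝ) : ℂ) := Complex.ofRealCLM.contDiff.comp hf
    exact this.differentiable (by simp) _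
  refine ⟨N, fun a x => ((η a (t x) : ℝ) : ℂ), fun a x => ((γ a (t x) : ℝ) : ℂ),
    fun a => C (c a), fun a => Ci (c a), fun a => hsm _ (hη a), fun a => hsm _ (hγ a),
    fun a => hDz _ (hη a), fun a => hDz _ (hγ a), ?_, ?_, fun a => hC (c a), fun a => hCi (c a), ?_⟩
  · intro x hxR
    have h1 : |t x| ≤ |R| := by
      have := htn x
      have h2 := le_abs_self R
      linarith
    have h3 := hsum (t x) h1
    have h4 : ((∑ a, η a (t x) : ℝ) : ℂ) = 1 := by rw [h3]; simp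
    rw [← h4]
    push_cast
    rfl
  · intro a x h
    have h1 : η a (t x) ≠ 0 := by
      intro h0; apply h
      change ((η a (t x) : ℝ) : ℂ) = 0
      rw [h0]; simp
    change ((γ a (t x) : ℝ) : ℂ) = 1
    rw [hηγ a _ h1]; simp
  · intro a x hxs hxR
    have h1 : |t x - c a| ≤ d (c a) := by
      have hcl : IsClosed {y : R3 | |t y - c a| ≤ d (c a)} :=
        isClosed_le (by fun_prop) continuous_const
      have hsub : tsupport (fun x : R3 => ((γ a (t x) : ℝ) : ℂ)) ⊆
          {y : R3 | |t y - c a| ≤ d (c a)} := by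
        refine closure_minimal ?_ hcl
        intro y hy
        refine hγd a (t y) ?_
        intro h0
        apply hy
        change ((γ a (t y) : ℝ) : ℂ) = 0
        rw [h0]; simp
      exact hsub hxs
    obtain ⟨i1, i2, i3, i4⟩ := hid (c a) x hxR h1
    refine ⟨?_, ?_, ?_, ?_⟩
    · intro i j
      rw [DD_eq_Dp]
      have := congrFun (congrFun i1 i) j
      simpa only [MD, MV, Matrix.of_apply, Matrix.mul_apply] using this
    · intro i j
      rw [DD_eq_Dp]
      have := congrFun (congrFun i2 i) j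
      simpa only [MD, MV, Matrix.of_apply, Matrix.mul_apply, Matrix.neg_apply] using this
    · intro i j
      have := congrFun (congrFun i3 i) j
      simpa only [MD, MV, Matrix.of_apply, Matrix.mul_apply, Matrix.one_apply] using this
    · intro i j
      have := congrFun (congrFun i4 i) j
      simpa only [MD, MV, Matrix.of_apply, Matrix.mul_apply, Matrix.one_apply] using this

end Crest.Agent.R080
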