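import Crest.Agent.R080.FinalCore

/-!
Row 80 (S0107), T17: the relations force equality of the moduli.
-/

set_option autoImplicit false

open MeasureTheory Filter Set
open scoped ContDiff Topology
open Crest.AnalysisR.VecCalc3 Crest.AnalysisR.PDE.Elasticity

noncomputable section
namespace Crest.Agent.R080.FinalAux

section moduli
variable (P : Moduli)

theorem lam_mu_pos (x : R3) : 0 < P.lam x + P.mu x := by
  have h1 := P.mu_pos x
  have h2 := P.bulk_pos x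
  linarith

theorem lam_2mu_pos (x : R3) : 0 < P.lam x + 2 * P.mu x := by
  have h1 := P.mu_pos x
  have h2 := P.bulk_pos x
  linarith

theorem m_pos (x : R3) : 0 < P.m x := inv_pos.2 (P.mu_pos x)

theorem sm_pos (x : R3) : 0 < P.sm x := Real.sqrt_pos.2 (m_pos P x)

theorem sm_mul (x : R3) : P.sm x * P.sm x = P.m x := Real.mul_self_sqrt (m_pos P x).le

theorem kap_pos (x : R3) : 0 < P.kap x := by
  unfold Moduli.kap
  exact div_pos (mul_pos (lam_mu_pos P x) (P.mu_pos x)) (mul_pos two_pos (lam_2mu_pos P x))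

theorem kap_m (x : R3) : 2 * (P.kap x * P.m x) - 1 < 0 := by
  have h1 := P.mu_pos x
  have h2 := lam_2mu_pos P x
  have h3 : 2 * (P.kap x * P.m x) = (P.lam x + P.mu x) / (P.lam x + 2 * P.mu x) := by
    unfold Moduli.kap Moduli.m
    field_simp
  rw [h3, sub_neg, div_lt_one h2]
  linarith

theorem contDiff_m : ContDiff ℝ ∞ P.m := P.smooth_mu.inv (fun x => (P.mu_pos x).ne')

theorem contDiff_sm : ContDiff ℝ ∞ P.sm := (contDiff_m P).sqrt (fun x => (m_pos P x).ne')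

theorem contDiff_kap : ContDiff ℝ ∞ P.kap := by
  refine ContDiff.div ((P.smooth_lam.add P.smooth_mu).mul P.smooth_mu)
    (contDiff_const.mul (P.smooth_lam.add (contDiff_const.mul P.smooth_mu))) ?_
  intro x
  exact (mul_pos two_pos (lam_2mu_pos P x)).ne'

theorem pderiv_sm (j : Fin 3) (x : R3) :
    pderiv P.sm j x / P.sm x = pderiv P.m j x / P.m x / 2 := by
  have h1 : pderiv (fun y => P.sm y * P.sm y) j x
      = pderiv P.sm j x * P.sm x + P.sm x * pderiv P.sm j x :=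
    pderiv_mul (contDiff_sm P) (contDiff_sm P) j x
  have h2 : (fun y => P.sm y * P.sm y) = P.m := funext (sm_mul P)
  rw [h2] at h1
  rw [h1, ← sm_mul P x]
  have h3 := (sm_pos P x).ne'
  field_simp
  ring

end moduli

section final
variable (G : Dom) (P₁ P₂ : Moduli)

/-- `f = log √m₁ - log √m₂` -/
def ff (x : R3) : ℝ := Real.log (P₁.sm x) - Real.log (P₂.sm x)

/-- `∂_l m / m` -/
def lg (P : Moduli) (l : Fin 3) (x : R3) : ℝ := pderiv P.m l x / P.m x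

theorem contDiff_lg (P : Moduli) (l : Fin 3) : ContDiff ℝ ∞ (lg P l) :=
  (contDiff_pderiv (contDiff_m P) l).div (contDiff_m P) (fun x => (m_pos P x).ne')

theorem contDiff_logsm (P : Moduli) : ContDiff ℝ ∞ (fun x => Real.log (P.sm x)) :=
  (contDiff_sm P).log (fun x => (sm_pos P x).ne')

theorem contDiff_ff : ContDiff ℝ ∞ (ff P₁ P₂) := (contDiff_logsm P₁).sub (contDiff_logsm P₂)

theorem pderiv_ff (l : Fin 3) (x : R3) :
    pderiv (ff P₁ P₂) l x = (lg P₁ l x - lg P₂ l x) / 2 := by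
  have h1 : pderiv (ff P₁ P₂) l x = pderiv (fun y => Real.log (P₁.sm y)) l x
      - pderiv (fun y => Real.log (P₂.sm y)) l x :=
    pderiv_sub (contDiff_logsm P₁) (contDiff_logsm P₂) l x
  rw [h1, pderiv_log (contDiff_sm P₁) l x (sm_pos P₁ x).ne',
    pderiv_log (contDiff_sm P₂) l x (sm_pos P₂ x).ne', pderiv_sm, pderiv_sm]
  unfold lg
  ring

/-- `c = (2 κ₁ m₁ - 1) / (κ₁ √m₁)` -/
def cof (x : R3) : ℝ := (2 * (P₁.kap x * P₁.m x) - 1) / (P₁.kap x * P₁.sm x)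

theorem ks_pos (P : Moduli) (x : R3) : 0 < P.kap x * P.sm x := mul_pos (kap_pos P x) (sm_pos P x)

theorem contDiff_ks (P : Moduli) : ContDiff ℝ ∞ (fun x => P.kap x * P.sm x) :=
  (contDiff_kap P).mul (contDiff_sm P)

theorem cof_ne (x : R3) : cof P₁ x ≠ 0 :=
  (div_neg_of_neg_of_pos (kap_m P₁ x) (ks_pos P₁ x)).ne

theorem contDiff_cof : ContDiff ℝ ∞ (cof P₁) :=
  ((contDiff_const.mul ((contDiff_kap P₁).mul (contDiff_m P₁))).sub contDiff_const).div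
    (contDiff_ks P₁) (fun x => (ks_pos P₁ x).ne')

theorem contDiff_aa : ContDiff ℝ ∞ (aa P₁ P₂) :=
  (contDiff_ks P₂).div (contDiff_ks P₁) (fun x => (ks_pos P₁ x).ne')

theorem aa_pos (x : R3) : 0 < aa P₁ P₂ x := div_pos (ks_pos P₂ x) (ks_pos P₁ x)

theorem contDiff_qq (l : Fin 3) : ContDiff ℝ ∞ (qq P₁ P₂ l) := by
  have h : ∀ P : Moduli, ContDiff ℝ ∞ (fun x => (P.kap x - 1 / (2 * P.m x)) * pderiv P.m l x) := by
    intro P
    refine ContDiff.mul (ContDiff.sub (contDiff_kap P) (contDiff_const.div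
      (contDiff_const.mul (contDiff_m P)) ?_)) (contDiff_pderiv (contDiff_m P) l)
    intro x
    exact (mul_pos two_pos (m_pos P x)).ne'
  exact ((h P₁).sub (h P₂)).div (contDiff_ks P₁) (fun x => (ks_pos P₁ x).ne')

variable {G P₁ P₂}

/-- gradient of `a` -/
theorem grad_a' (H : Relations G P₁ P₂) {x : R3} (hx : x ∈ G.Ω) (j : Fin 3) :
    pderiv (aa P₁ P₂) j x = aa P₁ P₂ x * pderiv (ff P₁ P₂) j x := by
  rw [H.grad_a x hx j, pderiv_ff]
  have h1 := (m_pos P₁ x).ne'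
  have h2 := (m_pos P₂ x).ne'
  have h3 := (kap_pos P₁ x).ne'
  have h4 := (sm_pos P₁ x).ne'
  unfold qq aa lg
  field_simp
  ring

theorem log_aa (H : Relations G P₁ P₂) : ∀ x ∈ G.Ω, Real.log (aa P₁ P₂ x) = ff P₁ P₂ x := by
  have hlog : ContDiff ℝ ∞ (fun x => Real.log (aa P₁ P₂ x)) :=
    (contDiff_aa P₁ P₂).log (fun x => (aa_pos P₁ P₂ x).ne')
  have h := eq_zero_of_line (isOpen_dom G) G.bdd (hlog.sub (contDiff_ff P₁ P₂))
    (by
      intro x hx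
      have h1 : pderiv (fun x => Real.log (aa P₁ P₂ x) - ff P₁ P₂ x) 0 x
        = pderiv (fun x => Real.log (aa P₁ P₂ x)) 0 x - pderiv (ff P₁ P₂) 0 x :=
        pderiv_sub hlog (contDiff_ff P₁ P₂) 0 x
      change pderiv (fun x => Real.log (aa P₁ P₂ x) - ff P₁ P₂ x) 0 x = 0
      rw [h1, pderiv_log (contDiff_aa P₁ P₂) 0 x (aa_pos P₁ P₂ x).ne', grad_a' H hx]
      have := (aa_pos P₁ P₂ x).ne'
      field_simp
      ring)
    (by
      intro x hx
      have h1 : P₁.sm x = P₂.sm x := by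
        unfold Moduli.sm Moduli.m
        rw [H.bdry_m x hx]
      change Real.log (aa P₁ P₂ x) - ff P₁ P₂ x = 0
      unfold ff
      rw [H.bdry_a x hx, h1]
      simp)
  intro x hx
  have h2 : Real.log (aa P₁ P₂ x) - ff P₁ P₂ x = 0 := h x hx
  linarith

theorem aa_eq (H : Relations G P₁ P₂) : ∀ x ∈ G.Ω, aa P₁ P₂ x = P₁.sm x / P₂.sm x := by
  intro x hx
  have h1 := log_aa H x hx
  unfold ff at h1
  rw [← Real.log_div (sm_pos P₁ x).ne' (sm_pos P₂ x).ne'] at h1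
  exact Real.log_injOn_pos (aa_pos P₁ P₂ x) (div_pos (sm_pos P₁ x) (sm_pos P₂ x)) h1

theorem kap_m_eq (H : Relations G P₁ P₂) :
    ∀ x ∈ G.Ω, P₂.kap x * P₂.m x = P₁.kap x * P₁.m x := by
  intro x hx
  have h1 := aa_eq H x hx
  unfold aa at h1
  have h2 := (ks_pos P₁ x).ne'
  have h3 := (sm_pos P₂ x).ne'
  rw [div_eq_div_iff h2 h3] at h1
  rw [← sm_mul P₁ x, ← sm_mul P₂ x]
  linarith

theorem qq_eq (H : Relations G P₁ P₂) (l : Fin 3) :
    ∀ x ∈ G.Ω, qq P₁ P₂ l x = cof P₁ x * pderiv (ff P₁ P₂) l x := by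
  intro x hx
  have h1 := (m_pos P₁ x).ne'
  have h2 := (m_pos P₂ x).ne'
  have h3 := (kap_pos P₁ x).ne'
  have h4 := (sm_pos P₁ x).ne'
  have h5 : P₂.kap x = P₁.kap x * P₁.m x / P₂.m x := by
    rw [eq_div_iff h2]
    exact kap_m_eq H x hx
  rw [pderiv_ff]
  unfold qq cof lg
  rw [h5]
  field_simp

theorem F_bdry (H : Relations G P₁ P₂) :
    ∀ x ∈ frontier G.Ω, ∀ l, pderiv (ff P₁ P₂) l x = 0 := by
  intro x hx l
  have h1 := eq_on_closure (contDiff_qq P₁ P₂ l).continuous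
    ((contDiff_cof P₁).continuous.mul (continuous_pderiv (contDiff_ff P₁ P₂) l)) (qq_eq H l) x hx.1
  rw [H.bdry_q x hx l] at h1
  rcases mul_eq_zero.1 h1.symm with h | h
  · exact absurd h (cof_ne P₁ x)
  · exact h

/-- `u_j` -/
def uu (P₁ P₂ : Moduli) (j : Fin 3) (x : R3) : ℝ :=
  (-pderiv (cof P₁) j x - 2 * (P₁.kap x * P₁.m x * P₁.sm x) * lg P₂ j x) / cof P₁ x
    + P₁.kap x * P₁.m x * lg P₁ j x

/-- `v_l` -/
def vv (P₁ P₂ : Moduli) (l : Fin 3) (x : R3) : ℝ :=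
  (-2 * (P₁.kap x * P₁.m x * P₁.sm x) * lg P₁ l x) / cof P₁ x
    + (P₁.kap x * P₁.m x - 1 / 2) * lg P₂ l x

theorem contDiff_uu (j : Fin 3) : ContDiff ℝ ∞ (uu P₁ P₂ j) := by
  have h1 := contDiff_pderiv (contDiff_cof P₁) j
  have h2 := contDiff_kap P₁
  have h3 := contDiff_m P₁
  have h4 := contDiff_sm P₁
  have h5 := contDiff_lg P₁ j
  have h6 := contDiff_lg P₂ j
  exact ((h1.neg.sub ((contDiff_const.mul ((h2.mul h3).mul h4)).mul h6)).div (contDiff_cof P₁)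
    (cof_ne P₁)).add ((h2.mul h3).mul h5)

theorem contDiff_vv (l : Fin 3) : ContDiff ℝ ∞ (vv P₁ P₂ l) := by
  have h2 := contDiff_kap P₁
  have h3 := contDiff_m P₁
  have h4 := contDiff_sm P₁
  have h5 := contDiff_lg P₁ l
  have h6 := contDiff_lg P₂ l
  exact (((contDiff_const.mul ((h2.mul h3).mul h4)).mul h5).div (contDiff_cof P₁)
    (cof_ne P₁)).add (((h2.mul h3).sub contDiff_const).mul h6)

/-- pointwise algebra for the second order relation -/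
theorem alg_scal (k1 k2 m1 m2 s1 s2 a c dc φ : ℝ) (A B Fj Fl dF : ℝ) (Aj Al Bj Bl dj1 dl1 dj2 dl2 : ℝ)
    (_hm1 : m1 ≠ 0) (hm2 : m2 ≠ 0) (hs1 : s1 ≠ 0) (hs2 : s2 ≠ 0) (hc : c ≠ 0)
    (hs1' : s1 * s1 = m1) (hs2' : s2 * s2 = m2) (hk : k2 * m2 = k1 * m1) (ha : a = s1 / s2)
    (hj1 : dj1 = Aj * m1) (hl1 : dl1 = Al * m1) (hj2 : dj2 = Bj * m2) (hl2 : dl2 = Bl * m2)
    (hFj : Fj = (Aj - Bj) / 2) (hFl : Fl = (Al - Bl) / 2)
    (hA : A = (-dc - 2 * (k1 * m1 * s1) * Bj) / c + k1 * m1 * Aj)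
    (hB : B = (-2 * (k1 * m1 * s1) * Al) / c + (k1 * m1 - 1 / 2) * Bl)
    (h : (dc * Fl + c * dF) - k2 / s2 * a * dj2 * dl2 - (k2 - 1 / (2 * m2)) * (c * Fj) * dl2
      - k1 * dj1 * (c * Fl) + k1 / s1 * dj1 * dl1 = φ) :
    dF = φ / c + A * Fl + B * Fj := by
  have e1 : k2 / s2 * a * dj2 * dl2 = k1 * m1 * s1 * (Bj * Bl) := by
    rw [ha, hj2, hl2, ← hk, ← hs2']
    field_simp
  have e2 : (k2 - 1 / (2 * m2)) * (c * Fj) * dl2 = (k1 * m1 - 1 / 2) * c * Bl * Fj := by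
    rw [hl2, ← hk]
    field_simp
  have e3 : k1 / s1 * dj1 * dl1 = k1 * m1 * s1 * (Aj * Al) := by
    rw [hj1, hl1, ← hs1']
    field_simp
  rw [e1, e2, e3, hj1] at h
  rw [hA, hB, ← h]
  rw [hFj, hFl]
  field_simp
  ring

theorem relation (H : Relations G P₁ P₂) {x : R3} (hx : x ∈ G.Ω) : ∃ φ : ℝ, ∀ j l,
    pderiv (pderiv (ff P₁ P₂) l) j x = (if j = l then φ else 0)
      + uu P₁ P₂ j x * pderiv (ff P₁ P₂) l x + vv P₁ P₂ l x * pderiv (ff P₁ P₂) j x := by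
  obtain ⟨φ, hφ⟩ := H.scal x hx
  refine ⟨φ / cof P₁ x, fun j l => ?_⟩
  have h := hφ j l
  have hd : pderiv (qq P₁ P₂ l) j x = pderiv (cof P₁) j x * pderiv (ff P₁ P₂) l x
      + cof P₁ x * pderiv (pderiv (ff P₁ P₂) l) j x := by
    rw [pderiv_congr_on (isOpen_dom G) (qq_eq H l) hx j,
      pderiv_mul (contDiff_cof P₁) (contDiff_pderiv (contDiff_ff P₁ P₂) l)]
  rw [hd, qq_eq H j x hx, qq_eq H l x hx] at h
  have := alg_scal (P₁.kap x) (P₂.kap x) (P₁.m x) (P₂.m x) (P₁.sm x) (P₂.sm x) (aa P₁ P₂ x)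
    (cof P₁ x) (pderiv (cof P₁) j x) (if j = l then φ else 0) (uu P₁ P₂ j x) (vv P₁ P₂ l x)
    (pderiv (ff P₁ P₂) j x) (pderiv (ff P₁ P₂) l x) (pderiv (pderiv (ff P₁ P₂) l) j x)
    (lg P₁ j x) (lg P₁ l x) (lg P₂ j x) (lg P₂ l x) (pderiv P₁.m j x) (pderiv P₁.m l x)
    (pderiv P₂.m j x) (pderiv P₂.m l x) (m_pos P₁ x).ne' (m_pos P₂ x).ne' (sm_pos P₁ x).ne'
    (sm_pos P₂ x).ne' (cof_ne P₁ x) (sm_mul P₁ x) (sm_mul P₂ x) (kap_m_eq H x hx)
    (aa_eq H x hx) (by unfold lg; field_simp [(m_pos P₁ x).ne'])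
    (by unfold lg; field_simp [(m_pos P₁ x).ne'])
    (by unfold lg; field_simp [(m_pos P₂ x).ne'])
    (by unfold lg; field_simp [(m_pos P₂ x).ne'])
    (pderiv_ff P₁ P₂ j x) (pderiv_ff P₁ P₂ l x) rfl rfl h
  rw [this]
  split_ifs <;> simp

/-- `F = ∇ f` vanishes in `Ω` -/
theorem F_zero (H : Relations G P₁ P₂) : ∀ x ∈ G.Ω, ∀ l, pderiv (ff P₁ P₂) l x = 0 := by
  have hF := fun l => contDiff_pderiv (contDiff_ff P₁ P₂) l
  have hu := fun j => contDiff_uu (P₁ := P₁) (P₂ := P₂) j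
  have hv := fun j => contDiff_vv (P₁ := P₁) (P₂ := P₂) j
  refine core G (fun l => pderiv (ff P₁ P₂) l) (uu P₁ P₂) (vv P₁ P₂)
    (fun x => pderiv (pderiv (ff P₁ P₂) 0) 0 x - (uu P₁ P₂ 0 x + vv P₁ P₂ 0 x)
      * pderiv (ff P₁ P₂) 0 x) hF hu hv
    ((contDiff_pderiv (hF 0) 0).sub (((hu 0).add (hv 0)).mul (hF 0))) ?_ (F_bdry H)
  intro x hx j l
  obtain ⟨φ, hφ⟩ := relation H hx
  have h0 : φ = pderiv (pderiv (ff P₁ P₂) 0) 0 x - (uu P₁ P₂ 0 x + vv P₁ P₂ 0 x)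
      * pderiv (ff P₁ P₂) 0 x := by
    have := hφ 0 0
    rw [if_pos rfl] at this
    rw [this]
    ring
  have h1 := hφ j l
  rw [← h0]
  exact h1

theorem sm_eq (H : Relations G P₁ P₂) : ∀ x ∈ G.Ω, P₁.sm x = P₂.sm x := by
  intro x hx
  have h := eq_zero_of_line (isOpen_dom G) G.bdd (contDiff_ff P₁ P₂)
    (fun y hy => F_zero H y hy 0)
    (by
      intro y hy
      have h1 : P₁.sm y = P₂.sm y := by
        unfold Moduli.sm Moduli.m
        rw [H.bdry_m y hy]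
      unfold ff
      rw [h1, sub_self]) x hx
  unfold ff at h
  exact Real.log_injOn_pos (sm_pos P₁ x) (sm_pos P₂ x) (sub_eq_zero.1 h)

end final

end Crest.Agent.R080.FinalAux

namespace Crest.Agent.R080
open FinalAux

theorem t_Final : StmtFinal := by
  intro G P₁ P₂ H x hx
  have hm : P₁.m x = P₂.m x := by
    rw [← sm_mul P₁ x, ← sm_mul P₂ x, sm_eq H x hx]
  have hmu : P₁.mu x = P₂.mu x := by
    unfold Moduli.m at hm
    exact inv_injective hm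
  have hkap : P₂.kap x = P₁.kap x := by
    have := kap_m_eq H x hx
    rw [hm] at this
    exact mul_right_cancel₀ (m_pos P₂ x).ne' this
  refine ⟨?_, hmu⟩
  unfold Moduli.kap at hkap
  have h1 := lam_2mu_pos P₁ x
  have h2 := lam_2mu_pos P₂ x
  have h3 := P₁.mu_pos x
  rw [← hmu] at hkap h2
  rw [div_eq_div_iff (mul_pos two_pos h2).ne' (mul_pos two_pos h1).ne'] at hkap
  have h4 : P₁.mu x * P₁.mu x * (P₁.lam x - P₂.lam x) = 0 := by linarith
  rcases mul_eq_zero.1 h4 with h | h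
  · exact absurd h (mul_pos h3 h3).ne'
  · linarith

end Crest.Agent.R080
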