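import Crest.Agent.R080.Stmts

/-!
Row 80 (S0107), T17: auxiliary lemmas for the final step (calculus of `pderiv`, domain facts,
lines to the boundary, the core uniqueness lemma).
-/

set_option autoImplicit false

open MeasureTheory Filter Set
open scoped ContDiff Topology
open Crest.AnalysisR.VecCalc3 Crest.AnalysisR.PDE.Elasticity

noncomputable section
namespace Crest.Agent.R080.FinalAux

/-! ### calculus of `pderiv` -/

theorem contDiff_pderiv {f : R3 → ℝ} (hf : ContDiff ℝ ∞ f) (j : Fin 3) :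
    ContDiff ℝ ∞ (pderiv f j) := by
  have h : ContDiff ℝ ∞ (fderiv ℝ f) := hf.fderiv_right (m := ∞) (by simp)
  exact h.clm_apply contDiff_const

theorem differentiable_of {f : R3 → ℝ} (hf : ContDiff ℝ ∞ f) : Differentiable ℝ f :=
  hf.differentiable (by simp)

theorem pderiv_mul {f g : R3 → ℝ} (hf : ContDiff ℝ ∞ f) (hg : ContDiff ℝ ∞ g) (j : Fin 3)
    (x : R3) : pderiv (fun y => f y * g y) j x = pderiv f j x * g x + f x * pderiv g j x := by
  unfold pderiv
  rw [fderiv_fun_mul (differentiable_of hf x) (differentiable_of hg x)]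
  simp only [add_apply, smul_apply, smul_eq_mul]
  ring

theorem pderiv_add {f g : R3 → ℝ} (hf : ContDiff ℝ ∞ f) (hg : ContDiff ℝ ∞ g) (j : Fin 3)
    (x : R3) : pderiv (fun y => f y + g y) j x = pderiv f j x + pderiv g j x := by
  unfold pderiv
  rw [fderiv_fun_add (differentiable_of hf x) (differentiable_of hg x)]
  rfl

theorem pderiv_sub {f g : R3 → ℝ} (hf : ContDiff ℝ ∞ f) (hg : ContDiff ℝ ∞ g) (j : Fin 3)
    (x : R3) : pderiv (fun y => f y - g y) j x = pderiv f j x - pderiv g j x := by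
  unfold pderiv
  rw [fderiv_fun_sub (differentiable_of hf x) (differentiable_of hg x)]
  rfl

theorem pderiv_congr {f g : R3 → ℝ} {x : R3} (h : f =ᶠ[𝓝 x] g) (j : Fin 3) :
    pderiv f j x = pderiv g j x := by
  unfold pderiv
  rw [h.fderiv_eq]

theorem pderiv_congr_on {Ω : Set R3} (hΩ : IsOpen Ω) {f g : R3 → ℝ} (h : ∀ x ∈ Ω, f x = g x)
    {x : R3} (hx : x ∈ Ω) (j : Fin 3) : pderiv f j x = pderiv g j x :=
  pderiv_congr (Filter.eventually_of_mem (hΩ.mem_nhds hx) h) j

theorem pderiv_comm {f : R3 → ℝ} (hf : ContDiff ℝ ∞ f) (i j : Fin 3) (x : R3) :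
    pderiv (pderiv f i) j x = pderiv (pderiv f j) i x := by
  have hs : IsSymmSndFDerivAt ℝ f x := by
    have h2 : ContDiff ℝ 2 f := by exact_mod_cast (contDiff_infty.1 hf 2)
    apply h2.contDiffAt.isSymmSndFDerivAt
    simp only [minSmoothness_of_isRCLikeNormedField, le_refl]
  have h : ContDiff ℝ ∞ (fderiv ℝ f) := hf.fderiv_right (m := ∞) (by simp)
  have hd : DifferentiableAt ℝ (fderiv ℝ f) x := h.differentiable (by simp) x
  have key : ∀ i j : Fin 3, pderiv (pderiv f i) j x
      = fderiv ℝ (fderiv ℝ f) x (EuclideanSpace.single j 1) (EuclideanSpace.single i 1) := by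
    intro i j
    unfold pderiv
    rw [fderiv_clm_apply hd (differentiableAt_const _)]
    simp
  rw [key i j, key j i]
  exact hs _ _

theorem pderiv_log {f : R3 → ℝ} (hf : ContDiff ℝ ∞ f) (j : Fin 3) (x : R3) (h0 : f x ≠ 0) :
    pderiv (fun y => Real.log (f y)) j x = pderiv f j x / f x := by
  unfold pderiv
  rw [fderiv.log (differentiable_of hf x) h0]
  simp [div_eq_inv_mul]

theorem continuous_pderiv {f : R3 → ℝ} (hf : ContDiff ℝ ∞ f) (j : Fin 3) :
    Continuous (pderiv f j) := (contDiff_pderiv hf j).continuous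

/-- the derivative along a line in direction `e₀` -/
theorem hasDerivAt_line {f : R3 → ℝ} (hf : ContDiff ℝ ∞ f) (x : R3) (t : ℝ) :
    HasDerivAt (fun s : ℝ => f (x + s • EuclideanSpace.single (0 : Fin 3) (1 : ℝ)))
      (pderiv f 0 (x + t • EuclideanSpace.single (0 : Fin 3) (1 : ℝ))) t := by
  have h1 : HasFDerivAt f (fderiv ℝ f (x + t • EuclideanSpace.single (0 : Fin 3) (1 : ℝ)))
      (x + t • EuclideanSpace.single (0 : Fin 3) (1 : ℝ)) :=
    (differentiable_of hf _).hasFDerivAt
  have h2 : HasDerivAt (fun s : ℝ => x + s • EuclideanSpace.single (0 : Fin 3) (1 : ℝ))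
      (EuclideanSpace.single (0 : Fin 3) (1 : ℝ)) t := by
    have := ((hasDerivAt_id t).smul_const (EuclideanSpace.single (0 : Fin 3) (1 : ℝ))).const_add x
    simpa using this
  exact h1.comp_hasDerivAt t h2


/-! ### domain facts -/

theorem isOpen_dom (G : Dom) : IsOpen G.Ω := by
  rw [G.eq]
  exact isOpen_lt G.smooth.continuous continuous_const

theorem rho_eq_zero_of_frontier (G : Dom) {x : R3} (hx : x ∈ frontier G.Ω) : G.rho x = 0 := by
  have h1 : x ∈ closure G.Ω := hx.1
  have h2 : x ∉ G.Ω := by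
    intro h
    exact hx.2 (by rwa [(isOpen_dom G).interior_eq])
  have h3 : G.rho x ≤ 0 := by
    have hc : IsClosed {y | G.rho y ≤ 0} := isClosed_le G.smooth.continuous continuous_const
    have hsub : G.Ω ⊆ {y | G.rho y ≤ 0} := by
      intro y hy
      rw [G.eq] at hy
      exact le_of_lt (show G.rho y < 0 from hy)
    exact closure_minimal hsub hc h1
  have h4 : 0 ≤ G.rho x := by
    by_contra h
    push Not at h
    apply h2
    rw [G.eq]
    exact h
  exact le_antisymm h3 h4

/-- along a line, a differentiable function vanishing at `0` with derivative `c` -/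
theorem tendsto_div_line (G : Dom) (x e : R3) :
    HasDerivAt (fun s : ℝ => G.rho (x + s • e)) (fderiv ℝ G.rho x e) 0 := by
  have h1 : HasFDerivAt G.rho (fderiv ℝ G.rho (x + (0 : ℝ) • e)) (x + (0 : ℝ) • e) :=
    ((G.smooth.differentiable (by simp)) _).hasFDerivAt
  have h2 : HasDerivAt (fun s : ℝ => x + s • e) e 0 := by
    have := ((hasDerivAt_id (0 : ℝ)).smul_const e).const_add x
    simpa using this
  have h3 := h1.comp_hasDerivAt (0 : ℝ) h2
  simp only [zero_smul, add_zero] at h3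
  exact h3

theorem mem_frontier_of_rho (G : Dom) {x : R3} (hx : G.rho x = 0) : x ∈ frontier G.Ω := by
  have hne := G.reg x hx
  obtain ⟨v, hv⟩ : ∃ v, fderiv ℝ G.rho x v ≠ 0 := by
    by_contra h
    push Not at h
    exact hne (ContinuousLinearMap.ext h)
  obtain ⟨e, he⟩ : ∃ e, fderiv ℝ G.rho x e < 0 := by
    rcases lt_or_gt_of_ne hv with h | h
    · exact ⟨v, h⟩
    · exact ⟨-v, by simpa using h⟩
  have hd := tendsto_div_line G x e
  have hneg : ∀ᶠ s in 𝓝[>] (0 : ℝ), G.rho (x + s • e) < 0 := by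
    have h1 := (hasDerivAt_iff_tendsto_slope.1 hd).eventually (gt_mem_nhds he)
    have h2 : 𝓝[>] (0 : ℝ) ≤ 𝓝[≠] 0 := nhdsWithin_mono _ (fun y (hy : 0 < y) => ne_of_gt hy)
    filter_upwards [h2 h1, self_mem_nhdsWithin] with s hs hs0
    have hs0' : 0 < s := hs0
    simp only [slope_def_field, zero_smul, add_zero, hx, sub_zero] at hs
    have := (div_lt_iff₀ hs0').1 hs
    simpa using this
  have hcl : x ∈ closure G.Ω := by
    have ht : Tendsto (fun s : ℝ => x + s • e) (𝓝[>] 0) (𝓝 x) := by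
      have : Tendsto (fun s : ℝ => x + s • e) (𝓝 0) (𝓝 (x + (0 : ℝ) • e)) := by
        apply Continuous.tendsto
        fun_prop
      simp only [zero_smul, add_zero] at this
      exact this.mono_left nhdsWithin_le_nhds
    refine mem_closure_of_tendsto ht ?_
    filter_upwards [hneg] with s hs
    rw [G.eq]
    exact hs
  refine ⟨hcl, ?_⟩
  rw [(isOpen_dom G).interior_eq, G.eq]
  simp [hx]

/-- a line from an interior point reaches the frontier -/
theorem exists_exit {Ω : Set R3} (hopen : IsOpen Ω) (hbdd : Bornology.IsBounded Ω) {x : R3}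
    (hx : x ∈ Ω) :
    ∃ T : ℝ, 0 < T ∧ (∀ t, 0 ≤ t → t < T →
      x + t • EuclideanSpace.single (0 : Fin 3) (1 : ℝ) ∈ Ω) ∧
      x + T • EuclideanSpace.single (0 : Fin 3) (1 : ℝ) ∈ frontier Ω := by
  set e : R3 := EuclideanSpace.single (0 : Fin 3) (1 : ℝ) with he
  have hen : ‖e‖ = 1 := by simp [he]
  set S : Set ℝ := {t | 0 ≤ t ∧ x + t • e ∉ Ω} with hS
  have hcont : Continuous fun t : ℝ => x + t • e := by fun_prop
  have hclosed : IsClosed S := by
    have h1 : IsClosed {t : ℝ | 0 ≤ t} := isClosed_Ici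
    have h2 : IsClosed {t : ℝ | x + t • e ∉ Ω} := by
      have : {t : ℝ | x + t • e ∉ Ω} = (fun t : ℝ => x + t • e) ⁻¹' Ωᶜ := rfl
      rw [this]
      exact hopen.isClosed_compl.preimage hcont
    exact h1.inter h2
  obtain ⟨R, hR⟩ := hbdd.subset_ball (0 : R3)
  have hne : S.Nonempty := by
    refine ⟨|R| + ‖x‖, by positivity, ?_⟩
    intro h
    have h1 := hR h
    rw [Metric.mem_ball, dist_zero_right] at h1
    have h2 : ‖(|R| + ‖x‖) • e‖ = |R| + ‖x‖ := by
      rw [norm_smul, hen, mul_one, Real.norm_of_nonneg (by positivity)]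
    have h3 : ‖(|R| + ‖x‖) • e‖ ≤ ‖x + (|R| + ‖x‖) • e‖ + ‖x‖ := by
      have : (|R| + ‖x‖) • e = (x + (|R| + ‖x‖) • e) - x := by abel
      calc ‖(|R| + ‖x‖) • e‖ = ‖(x + (|R| + ‖x‖) • e) - x‖ := by rw [← this]
        _ ≤ _ := norm_sub_le _ _
    have h4 := le_abs_self R
    linarith
  have hbelow : BddBelow S := ⟨0, fun t ht => ht.1⟩
  have hmem : sInf S ∈ S := hclosed.csInf_mem hne hbelow
  have hpos : 0 < sInf S := by
    rcases eq_or_lt_of_le hmem.1 with h | h
    · exfalso
      apply hmem.2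
      rw [← h]
      simpa using hx
    · exact h
  have hin : ∀ t, 0 ≤ t → t < sInf S → x + t • e ∈ Ω := by
    intro t ht0 ht
    by_contra hcon
    exact absurd (csInf_le hbelow (show t ∈ S from ⟨ht0, hcon⟩)) (not_le.2 ht)
  refine ⟨sInf S, hpos, hin, ?_, ?_⟩
  · have ht : Tendsto (fun s : ℝ => x + s • e) (𝓝[<] (sInf S)) (𝓝 (x + (sInf S) • e)) :=
      (hcont.tendsto _).mono_left nhdsWithin_le_nhds
    refine mem_closure_of_tendsto ht ?_
    have h0 : ∀ᶠ s in 𝓝[<] (sInf S), 0 < s :=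
      nhdsWithin_le_nhds (lt_mem_nhds hpos)
    filter_upwards [h0, self_mem_nhdsWithin] with s hs hs'
    exact hin s hs.le hs'
  · rw [hopen.interior_eq]
    exact hmem.2

/-- a function with zero gradient inside and zero on the frontier vanishes inside -/
theorem eq_zero_of_line {Ω : Set R3} (hopen : IsOpen Ω) (hbdd : Bornology.IsBounded Ω)
    {f : R3 → ℝ} (hf : ContDiff ℝ ∞ f) (h0 : ∀ x ∈ Ω, pderiv f 0 x = 0)
    (hb : ∀ x ∈ frontier Ω, f x = 0) : ∀ x ∈ Ω, f x = 0 := by
  intro x hx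
  obtain ⟨T, hT, hin, hfr⟩ := exists_exit hopen hbdd hx
  set e : R3 := EuclideanSpace.single (0 : Fin 3) (1 : ℝ) with he
  have hcont : ContinuousOn (fun s : ℝ => f (x + s • e)) (Icc 0 T) := by
    apply Continuous.continuousOn
    exact hf.continuous.comp (by fun_prop)
  have hconst : ∀ t ∈ Icc (0 : ℝ) T, f (x + t • e) = f (x + (0 : ℝ) • e) := by
    apply constant_of_has_deriv_right_zero hcont
    intro t ht
    have := hasDerivAt_line hf x t
    rw [h0 _ (hin t ht.1 ht.2)] at this
    exact this.hasDerivWithinAt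
  have h1 := hconst T ⟨hT.le, le_refl T⟩
  rw [hb _ hfr] at h1
  simpa using h1.symm

end Crest.Agent.R080.FinalAux
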