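import Crest.Agent.R080.FinalAux

/-!
Row 80 (S0107), T17: the core uniqueness lemma for the overdetermined first order system
`∂_j F_l = δ_jl ψ + u_j F_l + v_l F_j`.
-/

set_option autoImplicit false

open MeasureTheory Filter Set
open scoped ContDiff Topology
open Crest.AnalysisR.VecCalc3 Crest.AnalysisR.PDE.Elasticity

noncomputable section
namespace Crest.Agent.R080.FinalAux

/-- a smooth function vanishing on the frontier has gradient proportional to that of `rho` -/
theorem exists_mult (G : Dom) {f : R3 → ℝ} (hf : ContDiff ℝ ∞ f)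
    (hb : ∀ x ∈ frontier G.Ω, f x = 0) {y : R3} (hy : y ∈ frontier G.Ω) :
    ∃ c : ℝ, ∀ e : R3, fderiv ℝ f y e = c * fderiv ℝ G.rho y e := by
  have hy0 := rho_eq_zero_of_frontier G hy
  have hext : IsLocalExtrOn f {x | G.rho x = G.rho y} y := by
    left
    change ∀ᶠ x in 𝓝[{x | G.rho x = G.rho y}] y, f y ≤ f x
    filter_upwards [self_mem_nhdsWithin] with x hx
    have hx0 : G.rho x = 0 := by
      have : G.rho x = G.rho y := hx
      rw [this, hy0]
    rw [hb y hy, hb x (mem_frontier_of_rho G hx0)]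
  have h1 : HasStrictFDerivAt G.rho (fderiv ℝ G.rho y) y :=
    G.smooth.contDiffAt.hasStrictFDerivAt (by simp)
  have h2 : HasStrictFDerivAt f (fderiv ℝ f y) y :=
    hf.contDiffAt.hasStrictFDerivAt (by simp)
  obtain ⟨a, b, hab, h⟩ := hext.exists_multipliers_of_hasStrictFDerivAt_1d h1 h2
  have hb0 : b ≠ 0 := by
    intro hb0
    rw [hb0] at h hab
    have ha : a ≠ 0 := by
      rintro rfl
      exact hab rfl
    rw [zero_smul, add_zero] at h
    rcases smul_eq_zero.1 h with h3 | h3
    · exact ha h3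
    · exact G.reg y hy0 h3
  refine ⟨-(a / b), fun e => ?_⟩
  have h3 : a * fderiv ℝ G.rho y e + b * fderiv ℝ f y e = 0 := by
    have := congrArg (fun L : R3 →L[ℝ] ℝ => L e) h
    simpa using this
  field_simp
  linarith

/-- backward uniqueness for a linear differential inequality -/
theorem lin_ode_zero {ι : Type} [Fintype ι] (y y' : ι → ℝ → ℝ) {T B : ℝ} (hT : 0 < T)
    (hB : 0 ≤ B) (hy : ∀ i, ContinuousOn (y i) (Icc 0 T))
    (hd : ∀ i, ∀ t ∈ Ico 0 T, HasDerivAt (y i) (y' i t) t)
    (hb : ∀ i, ∀ t ∈ Ico 0 T, |y' i t| ≤ B * ∑ j, |y j t|) (hT0 : ∀ i, y i T = 0) :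
    ∀ i, y i 0 = 0 := by
  set n : ℝ := (Fintype.card ι : ℝ) with hn
  set w : ℝ → ℝ := fun t => ∑ i, y i t ^ 2 with hw
  set g : ℝ → ℝ := fun t => w t * Real.exp (2 * B * n * t) with hg
  have hwd : ∀ t ∈ Ico 0 T, HasDerivAt w (∑ i, 2 * y i t * y' i t) t := by
    intro t ht
    have : HasDerivAt (fun t => ∑ i, y i t ^ 2) (∑ i, 2 * y i t * y' i t) t := by
      apply HasDerivAt.fun_sum
      intro i _
      have := (hd i t ht).fun_pow 2
      simpa using this
    exact this
  have hgd : ∀ t ∈ Ico 0 T, HasDerivAt g ((∑ i, 2 * y i t * y' i t) * Real.exp (2 * B * n * t)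
      + w t * (Real.exp (2 * B * n * t) * (2 * B * n))) t := by
    intro t ht
    refine (hwd t ht).mul ?_
    have h1 : HasDerivAt (fun t : ℝ => 2 * B * n * t) (2 * B * n) t := by
      simpa using (hasDerivAt_id t).const_mul (2 * B * n)
    exact h1.exp
  have hcont : ContinuousOn g (Icc 0 T) := by
    apply ContinuousOn.mul
    · apply continuousOn_finsetSum
      intro i _
      exact (hy i).pow 2
    · fun_prop
  have hsub : interior (Icc (0 : ℝ) T) ⊆ Ico 0 T := by
    rw [interior_Icc]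
    exact Ioo_subset_Ico_self
  have hmono : MonotoneOn g (Icc 0 T) := by
    apply monotoneOn_of_deriv_nonneg (convex_Icc 0 T) hcont
    · intro t ht
      exact (hgd t (hsub ht)).differentiableAt.differentiableWithinAt
    · intro t ht
      have ht' := hsub ht
      rw [(hgd t ht').deriv]
      have hS : 0 ≤ ∑ j, |y j t| := Finset.sum_nonneg fun j _ => abs_nonneg _
      have h1 : -(∑ i, 2 * y i t * y' i t) ≤ 2 * B * (∑ j, |y j t|) ^ 2 := by
        rw [← Finset.sum_neg_distrib]
        calc ∑ i, -(2 * y i t * y' i t) ≤ ∑ i, 2 * |y i t| * (B * ∑ j, |y j t|) := by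
              apply Finset.sum_le_sum
              intro i _
              have h2 : -(2 * y i t * y' i t) ≤ |2 * y i t * y' i t| := neg_le_abs _
              have h3 : |2 * y i t * y' i t| = 2 * |y i t| * |y' i t| := by
                rw [abs_mul, abs_mul, abs_of_pos (by norm_num : (0 : ℝ) < 2)]
              rw [h3] at h2
              exact h2.trans (mul_le_mul_of_nonneg_left (hb i t ht') (by positivity))
          _ = 2 * B * (∑ j, |y j t|) ^ 2 := by
              rw [← Finset.sum_mul, ← Finset.mul_sum]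
              ring
      have h2 : (∑ j, |y j t|) ^ 2 ≤ n * w t := by
        have := sq_sum_le_card_mul_sum_sq (s := (Finset.univ : Finset ι)) (f := fun j => |y j t|)
        simp only [sq_abs, Finset.card_univ] at this
        exact this
      have h3 : 0 ≤ (∑ i, 2 * y i t * y' i t) + w t * (2 * B * n) := by
        have h4 : 2 * B * (∑ j, |y j t|) ^ 2 ≤ 2 * B * (n * w t) :=
          mul_le_mul_of_nonneg_left h2 (by positivity)
        nlinarith
      have h5 : (∑ i, 2 * y i t * y' i t) * Real.exp (2 * B * n * t)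
          + w t * (Real.exp (2 * B * n * t) * (2 * B * n))
          = ((∑ i, 2 * y i t * y' i t) + w t * (2 * B * n)) * Real.exp (2 * B * n * t) := by ring
      rw [h5]
      exact mul_nonneg h3 (Real.exp_pos _).le
  have h0 : g 0 ≤ g T := hmono ⟨le_refl _, hT.le⟩ ⟨hT.le, le_refl _⟩ hT.le
  have hgT : g T = 0 := by
    simp [hg, hw, hT0]
  have hg0 : g 0 = ∑ i, y i 0 ^ 2 := by
    simp [hg, hw]
  rw [hgT, hg0] at h0
  intro i
  have h1 : y i 0 ^ 2 ≤ ∑ i, y i 0 ^ 2 :=
    Finset.single_le_sum (f := fun i => y i 0 ^ 2) (fun j _ => sq_nonneg _) (Finset.mem_univ i)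
  have h2 : y i 0 ^ 2 = 0 := le_antisymm (h1.trans h0) (sq_nonneg _)
  exact pow_eq_zero_iff (two_ne_zero) |>.1 h2

/-- relations between continuous functions extend from `Ω` to its closure -/
theorem eq_on_closure {Ω : Set R3} {f g : R3 → ℝ} (hf : Continuous f) (hg : Continuous g)
    (h : ∀ x ∈ Ω, f x = g x) : ∀ x ∈ closure Ω, f x = g x := by
  have hc : IsClosed {x | f x = g x} := isClosed_eq hf hg
  exact closure_minimal h hc

section core
variable (G : Dom) (F u v : Fin 3 → R3 → ℝ) (ψ : R3 → ℝ)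

theorem core_bdry (hF : ∀ l, ContDiff ℝ ∞ (F l)) (hu : ∀ l, ContDiff ℝ ∞ (u l))
    (hv : ∀ l, ContDiff ℝ ∞ (v l)) (hψ : ContDiff ℝ ∞ ψ)
    (heq : ∀ x ∈ G.Ω, ∀ j l, pderiv (F l) j x
      = (if j = l then ψ x else 0) + u j x * F l x + v l x * F j x)
    (hb : ∀ x ∈ frontier G.Ω, ∀ l, F l x = 0) : ∀ x ∈ frontier G.Ω, ψ x = 0 := by
  intro y hy
  have hext : ∀ j l, pderiv (F l) j y = (if j = l then ψ y else 0) := by
    intro j l
    have h1 : ∀ x ∈ closure G.Ω, pderiv (F l) j x
        = (if j = l then ψ x else 0) + u j x * F l x + v l x * F j x := by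
      apply eq_on_closure (continuous_pderiv (hF l) j)
      · have h2 : Continuous fun x => if j = l then ψ x else 0 := by
          split_ifs
          · exact hψ.continuous
          · exact continuous_const
        have h3 := (hu j).continuous
        have h4 := (hv l).continuous
        have h5 := (hF l).continuous
        have h6 := (hF j).continuous
        fun_prop
      · intro x hx
        exact heq x hx j l
    have h2 := h1 y hy.1
    rw [hb y hy l, hb y hy j] at h2
    simpa using h2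
  by_contra hne
  obtain ⟨c, hc⟩ := exists_mult G (hF 0) (fun x hx => hb x hx 0) hy
  obtain ⟨d, hd⟩ := exists_mult G (hF 1) (fun x hx => hb x hx 1) hy
  have e1 := hext 0 0
  have e2 := hext 1 0
  have e3 := hext 1 1
  simp only [pderiv, hc, hd, if_true] at e1 e2 e3
  rw [if_neg (by decide)] at e2
  rcases mul_eq_zero.1 e2 with h | h
  · rw [h, zero_mul] at e1
    exact hne e1.symm
  · rw [h, mul_zero] at e3
    exact hne e3.symm

theorem core_psi (hF : ∀ l, ContDiff ℝ ∞ (F l)) (hu : ∀ l, ContDiff ℝ ∞ (u l))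
    (hv : ∀ l, ContDiff ℝ ∞ (v l))
    (heq : ∀ x ∈ G.Ω, ∀ j l, pderiv (F l) j x
      = (if j = l then ψ x else 0) + u j x * F l x + v l x * F j x) {x : R3} (hx : x ∈ G.Ω) :
    pderiv ψ 0 x = pderiv (u 0) 1 x * F 1 x + u 0 x * pderiv (F 1) 1 x
      + (pderiv (v 1) 1 x * F 0 x + v 1 x * pderiv (F 0) 1 x)
      - ((pderiv (u 1) 0 x + pderiv (v 1) 0 x) * F 1 x
        + (u 1 x + v 1 x) * pderiv (F 1) 0 x) := by
  have h1 : ∀ y ∈ G.Ω, ψ y = pderiv (F 1) 1 y - (u 1 y + v 1 y) * F 1 y := by
    intro y hy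
    have := heq y hy 1 1
    rw [if_pos rfl] at this
    rw [this]; ring
  have h2 : ∀ y ∈ G.Ω, pderiv (F 1) 0 y = u 0 y * F 1 y + v 1 y * F 0 y := by
    intro y hy
    have := heq y hy 0 1
    rw [if_neg (by decide)] at this
    rw [this]; ring
  have huv : ContDiff ℝ ∞ fun y => u 1 y + v 1 y := (hu 1).add (hv 1)
  rw [pderiv_congr_on (isOpen_dom G) h1 hx 0,
    pderiv_sub (contDiff_pderiv (hF 1) 1) (huv.mul (hF 1)),
    pderiv_mul huv (hF 1), pderiv_add (hu 1) (hv 1), pderiv_comm (hF 1) 1 0,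
    pderiv_congr_on (isOpen_dom G) h2 hx 1,
    pderiv_add ((hu 0).mul (hF 1)) ((hv 1).mul (hF 0)), pderiv_mul (hu 0) (hF 1),
    pderiv_mul (hv 1) (hF 0)]

theorem core (hF : ∀ l, ContDiff ℝ ∞ (F l)) (hu : ∀ l, ContDiff ℝ ∞ (u l))
    (hv : ∀ l, ContDiff ℝ ∞ (v l)) (hψ : ContDiff ℝ ∞ ψ)
    (heq : ∀ x ∈ G.Ω, ∀ j l, pderiv (F l) j x
      = (if j = l then ψ x else 0) + u j x * F l x + v l x * F j x)
    (hb : ∀ x ∈ frontier G.Ω, ∀ l, F l x = 0) : ∀ x ∈ G.Ω, ∀ l, F l x = 0 := by
  have hψb := core_bdry G F u v ψ hF hu hv hψ heq hb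
  have hcomp : IsCompact (closure G.Ω) := G.bdd.isCompact_closure
  have hbd : ∀ f : R3 → ℝ, Continuous f → ∃ B : ℝ, ∀ x ∈ closure G.Ω, |f x| ≤ B := by
    intro f hf
    obtain ⟨B, hB⟩ := hcomp.exists_bound_of_continuousOn (f := f) hf.continuousOn
    exact ⟨B, fun x hx => by simpa using hB x hx⟩
  have huc := fun j => (hu j).continuous
  have hvc := fun j => (hv j).continuous
  have hupc := fun j k => continuous_pderiv (hu j) k
  have hvpc := fun j k => continuous_pderiv (hv j) k
  -- coefficients of the equation for ψ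
  set c0 : R3 → ℝ := fun x => pderiv (v 1) 1 x + v 1 x * u 1 x - (u 1 x + v 1 x) * v 1 x with hc0
  set c1 : R3 → ℝ := fun x => pderiv (u 0) 1 x + u 0 x * (u 1 x + v 1 x) + v 1 x * v 0 x
    - (pderiv (u 1) 0 x + pderiv (v 1) 0 x) - (u 1 x + v 1 x) * u 0 x with hc1
  have hc0c : Continuous c0 := by
    have h1 := huc 1
    have h2 := hvc 1
    have h3 := hvpc 1 1
    fun_prop
  have hc1c : Continuous c1 := by
    have h1 := huc 1
    have h2 := hvc 1
    have h3 := huc 0
    have h4 := hvc 0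
    have h5 := hupc 0 1
    have h6 := hupc 1 0
    have h7 := hvpc 1 0
    fun_prop
  have hψ' : ∀ x ∈ G.Ω, pderiv ψ 0 x = u 0 x * ψ x + c0 x * F 0 x + c1 x * F 1 x := by
    intro x hx
    rw [core_psi G F u v ψ hF hu hv heq hx, heq x hx 1 1, heq x hx 1 0, heq x hx 0 1,
      if_pos rfl, if_neg (by decide), if_neg (by decide)]
    simp only [hc0, hc1]
    ring
  obtain ⟨B0, hB0⟩ := hbd (u 0) (huc 0)
  obtain ⟨B1, hB1⟩ := hbd (v 0) (hvc 0)
  obtain ⟨B2, hB2⟩ := hbd (v 1) (hvc 1)
  obtain ⟨B3, hB3⟩ := hbd (v 2) (hvc 2)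
  obtain ⟨B4, hB4⟩ := hbd c0 hc0c
  obtain ⟨B5, hB5⟩ := hbd c1 hc1c
  set B : ℝ := 1 + |B0| + |B1| + |B2| + |B3| + |B4| + |B5| with hBdef
  have p0 := abs_nonneg B0
  have p1 := abs_nonneg B1
  have p2 := abs_nonneg B2
  have p3 := abs_nonneg B3
  have p4 := abs_nonneg B4
  have p5 := abs_nonneg B5
  have hB1' : 1 ≤ B := by rw [hBdef]; linarith
  have hu0 : ∀ x ∈ closure G.Ω, |u 0 x| ≤ B := fun x hx => by
    have := hB0 x hx; have := le_abs_self B0; rw [hBdef]; linarith
  have hv' : ∀ l, ∀ x ∈ closure G.Ω, |v l x| ≤ B := by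
    intro l x hx
    fin_cases l
    · have h := hB1 x hx
      have := le_abs_self B1
      change |v 0 x| ≤ B
      rw [hBdef]; linarith
    · have h := hB2 x hx
      have := le_abs_self B2
      change |v 1 x| ≤ B
      rw [hBdef]; linarith
    · have h := hB3 x hx
      have := le_abs_self B3
      change |v 2 x| ≤ B
      rw [hBdef]; linarith
  have hc0' : ∀ x ∈ closure G.Ω, |c0 x| ≤ B := fun x hx => by
    have := hB4 x hx; have := le_abs_self B4; rw [hBdef]; linarith
  have hc1' : ∀ x ∈ closure G.Ω, |c1 x| ≤ B := fun x hx => by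
    have := hB5 x hx; have := le_abs_self B5; rw [hBdef]; linarith
  intro x hx
  obtain ⟨T, hT, hin, hfr⟩ := exists_exit (isOpen_dom G) G.bdd hx
  set e : R3 := EuclideanSpace.single (0 : Fin 3) (1 : ℝ) with he
  let Y : Option (Fin 3) → R3 → ℝ := fun i => i.elim ψ F
  have hY : ∀ i, ContDiff ℝ ∞ (Y i) := by
    intro i
    cases i with
    | none => exact hψ
    | some l => exact hF l
  have hbound : ∀ z ∈ G.Ω, ∀ i, |pderiv (Y i) 0 z| ≤ (2 * B) * ∑ j, |Y j z| := by
    intro z hz i
    have hzc := subset_closure hz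
    have hsum : ∑ j, |Y j z| = |ψ z| + (|F 0 z| + |F 1 z| + |F 2 z|) := by
      rw [Fintype.sum_option, Fin.sum_univ_three]
      rfl
    have q := abs_nonneg (ψ z)
    have q0 := abs_nonneg (F 0 z)
    have q1 := abs_nonneg (F 1 z)
    have q2 := abs_nonneg (F 2 z)
    have hBp : 0 ≤ B := by linarith
    have m : |ψ z| ≤ B * |ψ z| := by nlinarith
    have n : 0 ≤ B * |ψ z| := by positivity
    have n0 : 0 ≤ B * |F 0 z| := by positivity
    have n1 : 0 ≤ B * |F 1 z| := by positivity
    have n2 : 0 ≤ B * |F 2 z| := by positivity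
    have hmul : ∀ a b : ℝ, |a| ≤ B → |a * b| ≤ B * |b| := by
      intro a b hab
      rw [abs_mul]
      exact mul_le_mul_of_nonneg_right hab (abs_nonneg b)
    rw [hsum]
    cases i with
    | none =>
      change |pderiv ψ 0 z| ≤ _
      rw [hψ' z hz]
      have r1 := hmul _ (ψ z) (hu0 z hzc)
      have r2 := hmul _ (F 0 z) (hc0' z hzc)
      have r3 := hmul _ (F 1 z) (hc1' z hzc)
      have r4 := abs_add_three (u 0 z * ψ z) (c0 z * F 0 z) (c1 z * F 1 z)
      linarith
    | some l =>
      change |pderiv (F l) 0 z| ≤ _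
      rw [heq z hz 0 l]
      have r0 : |(if (0 : Fin 3) = l then ψ z else 0)| ≤ |ψ z| := by
        split_ifs
        · exact le_refl _
        · simp
      have r1 := hmul _ (F l z) (hu0 z hzc)
      have r2 := hmul _ (F 0 z) (hv' l z hzc)
      have r4 := abs_add_three (if (0 : Fin 3) = l then ψ z else 0) (u 0 z * F l z)
        (v l z * F 0 z)
      have r5 : |F l z| ≤ |F 0 z| + |F 1 z| + |F 2 z| := by
        fin_cases l
        · change |F 0 z| ≤ _
          linarith
        · change |F 1 z| ≤ _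
          linarith
        · change |F 2 z| ≤ _
          linarith
      have r6 : B * |F l z| ≤ B * (|F 0 z| + |F 1 z| + |F 2 z|) :=
        mul_le_mul_of_nonneg_left r5 hBp
      nlinarith
  have hmain := lin_ode_zero (ι := Option (Fin 3)) (fun i t => Y i (x + t • e))
    (fun i t => pderiv (Y i) 0 (x + t • e)) (T := T) (B := 2 * B) hT (by linarith)
    (by
      intro i
      apply Continuous.continuousOn
      exact (hY i).continuous.comp (by fun_prop))
    (by
      intro i t _
      exact hasDerivAt_line (hY i) x t)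
    (by
      intro i t ht
      exact hbound _ (hin t ht.1 ht.2) i)
    (by
      intro i
      cases i with
      | none => exact hψb _ hfr
      | some l => exact hb _ hfr l)
  intro l
  have := hmain (some l)
  simpa [Y] using this

end core

end Crest.Agent.R080.FinalAux
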