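import Crest.Agent.R080.ModBasic

/-!
Row 80 (S0107), T15: the gauge functional `Φ` and its structure (`t_Gauge`). (helper208)
-/

set_option autoImplicit false

open MeasureTheory Filter
open scoped ContDiff Topology
open Crest.AnalysisR.VecCalc3 Crest.AnalysisR.PDE.Elasticity

noncomputable section
namespace Crest.Agent.R080.Gg

/-- index set of the reduced system -/
abbrev Opt := Option (Fin 2)
/-- matrix fields -/
abbrev Fld := Opt → Opt → R3 → ℂ

/-- smooth matrix fields -/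
def SmF (φ : Fld) : Prop := ∀ a b, ContDiff ℝ ∞ (φ a b)

/-- `ψ` solves `𝓓*ψ = φ` near the closure of `Ω` -/
def Sol (G : Dom) (P₁ P₂ : Moduli) (s : Fin 2 → ℂ) (ψ φ : Fld) : Prop :=
  ∀ᶠ x in 𝓝ˢ (closure G.Ω), ∀ a b, Dstar P₁ P₂ s ψ a b x = φ a b x

lemma sm_diff {f : R3 → ℂ} (hf : ContDiff ℝ ∞ f) : Differentiable ℝ f :=
  hf.differentiable (by simp)

lemma Dstar_lin (P₁ P₂ : Moduli) (s : Fin 2 → ℂ) (c d : ℂ) {ψ ψ' : Fld} (h : SmF ψ)
    (h' : SmF ψ') (a b : Opt) (x : R3) :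
    Dstar P₁ P₂ s (fun a b x => c * ψ a b x + d * ψ' a b x) a b x
      = c * Dstar P₁ P₂ s ψ a b x + d * Dstar P₁ P₂ s ψ' a b x := by
  have e : DD (th s) (fun y => c * ψ a b y + d * ψ' a b y) x
      = c * DD (th s) (ψ a b) x + d * DD (th s) (ψ' a b) x := by
    rw [DD_add ((sm_diff (h a b)).const_mul c) ((sm_diff (h' a b)).const_mul d),
      DD_const_mul (sm_diff (h a b)), DD_const_mul (sm_diff (h' a b))]
  simp only [Dstar]
  rw [e]
  simp only [Fintype.sum_option, Fin.sum_univ_two]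
  ring

lemma SmF.lin {ψ ψ' : Fld} (h : SmF ψ) (h' : SmF ψ') (c d : ℂ) :
    SmF (fun a b x => c * ψ a b x + d * ψ' a b x) := fun a b =>
  (contDiff_const.mul (h a b)).add (contDiff_const.mul (h' a b))

lemma contDiff_pairing_integrand (P₁ P₂ : Moduli) (s : Fin 2 → ℂ) {ψ : Fld} (h : SmF ψ) :
    ContDiff ℝ ∞ fun x => ∑ a, ∑ b, (Amat P₂ s a b x - Amat P₁ s a b x) * ψ a b x :=
  ContDiff.sum fun a _ => ContDiff.sum fun b _ =>
    ((contDiff_Amat P₂ s a b).sub (contDiff_Amat P₁ s a b)).mul (h a b)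

lemma pairing_lin (G : Dom) (P₁ P₂ : Moduli) (s : Fin 2 → ℂ) (c d : ℂ) {ψ ψ' : Fld} (h : SmF ψ)
    (h' : SmF ψ') :
    pairing G P₁ P₂ s (fun a b x => c * ψ a b x + d * ψ' a b x)
      = c * pairing G P₁ P₂ s ψ + d * pairing G P₁ P₂ s ψ' := by
  have i1 := dom_integrableOn G (contDiff_pairing_integrand P₁ P₂ s h).continuous
  have i2 := dom_integrableOn G (contDiff_pairing_integrand P₁ P₂ s h').continuous
  unfold pairing
  rw [← integral_const_mul, ← integral_const_mul, ← integral_add (i1.const_mul c) (i2.const_mul d)]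
  refine integral_congr_ae (ae_of_all _ fun x => ?_)
  simp only [Fintype.sum_option, Fin.sum_univ_two]
  ring

/-! ### solvability, locally uniformly in the parameter -/

lemma bdd_cut {χ f : R3 → ℂ} (hχ : Continuous χ) (hc : HasCompactSupport χ)
    (hf : Continuous f) : ∃ B : ℝ, ∀ x, ‖-(χ x * f x)‖ ≤ B := by
  have hcs : HasCompactSupport (fun x => χ x * f x) := hc.mul_right
  obtain ⟨B, hB⟩ := hcs.exists_bound_of_continuous (hχ.mul hf)
  exact ⟨B, fun x => by rw [norm_neg]; exact hB x⟩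

lemma bdd_cut_all {χ : R3 → ℂ} (hχ : Continuous χ) (hc : HasCompactSupport χ) {φ : Fld}
    (hφ : SmF φ) : ∃ B : ℝ, ∀ (p : Opt × Opt) x, ‖-(χ x * φ p.1 p.2 x)‖ ≤ B := by
  choose B hB using fun p : Opt × Opt => bdd_cut hχ hc (hφ p.1 p.2).continuous
  obtain ⟨b, hb⟩ := Finite.exists_le B
  exact ⟨b, fun p x => (hB p x).trans (hb p)⟩

lemma bdd_coeff (G : Dom) (P₁ P₂ : Moduli) (s₀ : Fin 2 → ℂ) :
    ∃ K : ℝ, ∀ (p : Opt × Opt) (s : Fin 2 → ℂ) (x : R3),
      s ∈ Metric.closedBall s₀ 1 → x ∈ closure G.Ω →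
      ‖Amat P₂ s p.1 p.2 x - Amat P₁ s p.1 p.2 x‖ ≤ K := by
  have hKc : IsCompact (Metric.closedBall s₀ 1 ×ˢ closure G.Ω) :=
    (isCompact_closedBall s₀ 1).prod (dom_isCompact_closure G)
  have : ∀ p : Opt × Opt, ∃ K : ℝ, ∀ y ∈ Metric.closedBall s₀ 1 ×ˢ closure G.Ω,
      ‖Amat P₂ y.1 p.1 p.2 y.2 - Amat P₁ y.1 p.1 p.2 y.2‖ ≤ K := fun p =>
    hKc.exists_bound_of_continuousOn
      ((continuous_Amat P₂ p.1 p.2).sub (continuous_Amat P₁ p.1 p.2)).continuousOn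
  choose K hK using this
  obtain ⟨k, hk⟩ := Finite.exists_le K
  exact ⟨k, fun p s x hs hx => (hK p (s, x) ⟨hs, hx⟩).trans (hk p)⟩

/-- the coefficient matrix of `𝓓*` seen as a first order system -/
def coefA (P₁ P₂ : Moduli) (s : Fin 2 → ℂ) (p q : Opt × Opt) (x : R3) : ℂ :=
  (if p.2 = q.2 then -Amat P₂ s q.1 p.1 x else 0)
    + (if p.1 = q.1 then Amat P₁ s p.2 q.2 x else 0)

lemma contDiff_coefA (P₁ P₂ : Moduli) (s : Fin 2 → ℂ) (p q : Opt × Opt) :
    ContDiff ℝ ∞ (coefA P₁ P₂ s p q) := by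
  unfold coefA
  refine ContDiff.add ?_ ?_
  · by_cases h : p.2 = q.2
    · simp only [if_pos h]; exact (contDiff_Amat P₂ s q.1 p.1).neg
    · simp only [if_neg h]; exact contDiff_const
  · by_cases h : p.1 = q.1
    · simp only [if_pos h]; exact contDiff_Amat P₁ s p.2 q.2
    · simp only [if_neg h]; exact contDiff_const

lemma continuous_coefA (P₁ P₂ : Moduli) (p q : Opt × Opt) :
    Continuous fun y : (Fin 2 → ℂ) × R3 => coefA P₁ P₂ y.1 p q y.2 := by
  unfold coefA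
  refine Continuous.add ?_ ?_
  · by_cases h : p.2 = q.2
    · simp only [if_pos h]; exact (continuous_Amat P₂ q.1 p.1).neg
    · simp only [if_neg h]; exact continuous_const
  · by_cases h : p.1 = q.1
    · simp only [if_pos h]; exact continuous_Amat P₁ p.2 q.2
    · simp only [if_neg h]; exact continuous_const

lemma continuous_coefA' (P₁ P₂ : Moduli) (p q : Opt × Opt) {X : Type*} [TopologicalSpace X]
    {f : X → Fin 2 → ℂ} {g : X → R3} (hf : Continuous f) (hg : Continuous g) :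
    Continuous fun y => coefA P₁ P₂ (f y) p q (g y) :=
  Continuous.comp (g := fun y : (Fin 2 → ℂ) × R3 => coefA P₁ P₂ y.1 p q y.2)
    (f := fun y => (f y, g y)) (continuous_coefA P₁ P₂ p q) (hf.prodMk hg)

lemma sum_coefA (P₁ P₂ : Moduli) (s : Fin 2 → ℂ) (a b : Opt) (ψ : Opt × Opt → R3 → ℂ) (x : R3) :
    ∑ j, coefA P₁ P₂ s (a, b) j x * ψ j x
      = -∑ c, Amat P₂ s c a x * ψ (c, b) x + ∑ c, ψ (a, c) x * Amat P₁ s b c x := by
  rw [Fintype.sum_prod_type]
  simp only [coefA, add_mul, Finset.sum_add_distrib, ite_mul, zero_mul]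
  congr 1
  · simp
  · rw [Finset.sum_comm]
    simp [mul_comm]

/-- transfer of an eventual statement from a subtype of nonzero vectors -/
lemma eventually_of_subtype {s₀ : Fin 2 → ℂ} (hs₀ : s₀ ≠ 0)
    {p : {s : Fin 2 → ℂ // s ≠ 0} → Prop}
    (h : ∀ᶠ s in 𝓝 (⟨s₀, hs₀⟩ : {s : Fin 2 → ℂ // s ≠ 0}), p s) :
    ∀ᶠ s in 𝓝 s₀, ∀ h : s ≠ 0, p ⟨s, h⟩ := by
  rw [nhds_subtype_eq_comap, eventually_comap] at h
  filter_upwards [h] with s hs h
  exact hs ⟨s, h⟩ rfl

lemma solve_loc (hRI : StmtRI) (G : Dom) (P₁ P₂ : Moduli) (s₀ : Fin 2 → ℂ) (hs₀ : s₀ ≠ 0)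
    (φ : Fld) (hφ : SmF φ) :
    ∃ C : ℝ, ∀ᶠ s in 𝓝 s₀, ∃ ψ : Fld, SmF ψ ∧ Sol G P₁ P₂ s ψ φ ∧
      ‖pairing G P₁ P₂ s ψ‖ ≤ C := by
  obtain ⟨R, hR0, hR⟩ := dom_exists_ball G
  obtain ⟨χ, hχ, hχc, hχ1, -, -⟩ := exists_cutoff R (R + 1) hR0 (by linarith)
  have hAc : ∀ i j, Continuous fun p : {s : Fin 2 → ℂ // s ≠ 0} × R3 =>
      coefA P₁ P₂ p.1.1 i j p.2 := fun i j =>
    continuous_coefA' P₁ P₂ i j (continuous_subtype_val.comp continuous_fst) continuous_snd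
  obtain ⟨M, hM⟩ := hRI (Opt × Opt) {s : Fin 2 → ℂ // s ≠ 0} (fun s => th s.1)
    (continuous_th.comp continuous_subtype_val) (fun s => isNull_th s.2)
    (fun s => coefA P₁ P₂ s.1) (fun s => contDiff_coefA P₁ P₂ s.1) hAc R ⟨s₀, hs₀⟩
  -- bounds
  obtain ⟨B, hB⟩ := bdd_cut_all hχ.continuous hχc hφ
  obtain ⟨K, hK⟩ := bdd_coeff G P₁ P₂ s₀
  refine ⟨(∑ _a : Opt, ∑ _b : Opt, K * (M * B)) * volume.real G.Ω, ?_⟩
  -- transfer from the subtype
  have hM' := eventually_of_subtype hs₀ hM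
  filter_upwards [hM', isOpen_ne.mem_nhds hs₀, Metric.closedBall_mem_nhds s₀ one_pos]
    with s h1 h2 h3
  obtain ⟨ψ, hψ1, hψ2, hψ3⟩ := h1 h2 (fun p x => -(χ x * φ p.1 p.2 x))
    (fun p => (hχ.mul (hφ _ _)).neg) B hB
  refine ⟨fun a b => ψ (a, b), fun a b => hψ1 _, ?_, ?_⟩
  · have hnear : Metric.ball (0 : R3) R ∈ 𝓝ˢ (closure G.Ω) :=
      Metric.isOpen_ball.mem_nhdsSet.2 hR
    filter_upwards [hnear] with x hx a b
    have hx' : ‖x‖ < R := by simpa using hx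
    have h4 := hψ2 x hx' (a, b)
    simp only [Dstar]
    rw [h4, sum_coefA, hχ1 x hx'.le]
    ring
  · have hle : ∀ x ∈ G.Ω, ‖∑ a, ∑ b, (Amat P₂ s a b x - Amat P₁ s a b x) * ψ (a, b) x‖
        ≤ ∑ _a : Opt, ∑ _b : Opt, K * (M * B) := by
      intro x hx
      have hxc : x ∈ closure G.Ω := subset_closure hx
      have hxR : ‖x‖ < R := by simpa using hR hxc
      refine norm_sum_le_of_le _ fun a _ => norm_sum_le_of_le _ fun b _ => ?_
      rw [norm_mul]
      exact mul_le_mul (hK (a, b) s x h3 hxc) (hψ3 (a, b) x hxR) (norm_nonneg _)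
        ((norm_nonneg _).trans (hK (a, b) s x h3 hxc))
    exact norm_setIntegral_le_of_norm_le_const (dom_volume_lt_top G) hle

lemma solve (hRI : StmtRI) (G : Dom) (P₁ P₂ : Moduli) {s : Fin 2 → ℂ} (hs : s ≠ 0)
    {φ : Fld} (hφ : SmF φ) : ∃ ψ : Fld, SmF ψ ∧ Sol G P₁ P₂ s ψ φ := by
  obtain ⟨C, hC⟩ := solve_loc hRI G P₁ P₂ s hs φ hφ
  obtain ⟨ψ, h1, h2, -⟩ := hC.self_of_nhds
  exact ⟨ψ, h1, h2⟩

/-! ### the functional -/

open Classical in
/-- the gauge functional -/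
def Phi (G : Dom) (P₁ P₂ : Moduli) (s : Fin 2 → ℂ) (φ : Fld) : ℂ :=
  if h : ∃ ψ : Fld, SmF ψ ∧ Sol G P₁ P₂ s ψ φ then pairing G P₁ P₂ s h.choose else 0

section
variable {G : Dom} {P₁ P₂ : Moduli} (hO : StmtOrth) (hD : SameData G P₁ P₂)
include hO hD

lemma Phi_eq {s : Fin 2 → ℂ} (hs : s ≠ 0) {ψ φ : Fld} (hψ : SmF ψ)
    (h : Sol G P₁ P₂ s ψ φ) : Phi G P₁ P₂ s φ = pairing G P₁ P₂ s ψ := by
  have hex : ∃ ψ : Fld, SmF ψ ∧ Sol G P₁ P₂ s ψ φ := ⟨ψ, hψ, h⟩
  have e : Phi G P₁ P₂ s φ = pairing G P₁ P₂ s hex.choose := by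
    unfold Phi; rw [dif_pos hex]
  rw [e]
  obtain ⟨h1, h2⟩ := hex.choose_spec
  have h3 := hO G P₁ P₂ hD s hs _ (h1.lin hψ 1 (-1)) (by
    filter_upwards [h2, h] with x hx hx' a b
    rw [Dstar_lin P₁ P₂ s 1 (-1) h1 hψ, hx, hx']; ring)
  rw [pairing_lin G P₁ P₂ s 1 (-1) h1 hψ] at h3
  linear_combination h3

variable (hRI : StmtRI)
include hRI

lemma Phi_lin {s : Fin 2 → ℂ} (hs : s ≠ 0) {φ φ' : Fld} (hφ : SmF φ) (hφ' : SmF φ') (c d : ℂ) :
    Phi G P₁ P₂ s (fun a b x => c * φ a b x + d * φ' a b x)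
      = c * Phi G P₁ P₂ s φ + d * Phi G P₁ P₂ s φ' := by
  obtain ⟨ψ, h1, h2⟩ := solve hRI G P₁ P₂ hs hφ
  obtain ⟨ψ', h1', h2'⟩ := solve hRI G P₁ P₂ hs hφ'
  rw [Phi_eq hO hD hs h1 h2, Phi_eq hO hD hs h1' h2', ← pairing_lin G P₁ P₂ s c d h1 h1']
  refine Phi_eq hO hD hs (h1.lin h1' c d) ?_
  filter_upwards [h2, h2'] with x hx hx' a b
  rw [Dstar_lin P₁ P₂ s c d h1 h1', hx, hx']

lemma Phi_congr {s : Fin 2 → ℂ} (hs : s ≠ 0) {φ φ' : Fld} (hφ : SmF φ)
    (h : ∀ᶠ x in 𝓝ˢ (closure G.Ω), ∀ a b, φ a b x = φ' a b x) :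
    Phi G P₁ P₂ s φ = Phi G P₁ P₂ s φ' := by
  obtain ⟨ψ, h1, h2⟩ := solve hRI G P₁ P₂ hs hφ
  rw [Phi_eq hO hD hs h1 h2]
  symm
  refine Phi_eq hO hD hs h1 ?_
  filter_upwards [h, h2] with x hx hx' a b
  rw [hx', hx]

lemma Phi_zero {s : Fin 2 → ℂ} (hs : s ≠ 0) : Phi G P₁ P₂ s (fun _ _ _ => 0) = 0 := by
  have h0 : SmF (fun _ _ _ => 0) := fun _ _ => contDiff_const
  have := Phi_lin hO hD hRI hs h0 h0 0 0
  simpa using this

lemma Phi_sum {s : Fin 2 → ℂ} (hs : s ≠ 0) (N : ℕ) (t : ℕ → ℂ) (c : ℕ → Fld)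
    (hc : ∀ k, SmF (c k)) :
    Phi G P₁ P₂ s (fun a b x => ∑ k ∈ Finset.range N, t k * c k a b x)
      = ∑ k ∈ Finset.range N, t k * Phi G P₁ P₂ s (c k) := by
  induction N with
  | zero => simpa using Phi_zero hO hD hRI hs
  | succ n ih =>
    have hs1 : SmF (fun a b x => ∑ k ∈ Finset.range n, t k * c k a b x) := fun a b =>
      ContDiff.sum fun k _ => contDiff_const.mul (hc k a b)
    have := Phi_lin hO hD hRI hs hs1 (hc n) 1 (t n)
    simp only [one_mul] at this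
    simp only [Finset.sum_range_succ]
    rw [this, ih]

lemma Phi_bdd {s₀ : Fin 2 → ℂ} (hs₀ : s₀ ≠ 0) {φ : Fld} (hφ : SmF φ) :
    ∃ C : ℝ, ∀ᶠ s in 𝓝 s₀, ‖Phi G P₁ P₂ s φ‖ ≤ C := by
  obtain ⟨C, hC⟩ := solve_loc hRI G P₁ P₂ s₀ hs₀ φ hφ
  refine ⟨C, ?_⟩
  filter_upwards [hC, isOpen_ne.mem_nhds hs₀] with s hs hs'
  obtain ⟨ψ, h1, h2, h3⟩ := hs
  rw [Phi_eq hO hD hs' h1 h2]
  exact h3

end

/-! ### polynomial dependence on an affine parameter -/

/-- smooth complex functions on `ℝ³` -/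
def SmA : Subalgebra ℂ (R3 → ℂ) where
  carrier := {f | ContDiff ℝ ∞ f}
  mul_mem' := fun {a b} (ha : ContDiff ℝ ∞ a) (hb : ContDiff ℝ ∞ b) => ha.mul hb
  add_mem' := fun {a b} (ha : ContDiff ℝ ∞ a) (hb : ContDiff ℝ ∞ b) => ha.add hb
  algebraMap_mem' := fun c => (contDiff_const : ContDiff ℝ ∞ fun _ : R3 => c)

/-- evaluation at a point -/
def ev (x : R3) : SmA →+* ℂ := (Pi.evalRingHom (fun _ : R3 => ℂ) x).comp SmA.val.toRingHom

lemma ev_apply (x : R3) (f : SmA) : ev x f = (f : R3 → ℂ) x := rfl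

/-- functions depending polynomially on `z`, with smooth coefficients -/
def PF (F : ℂ → R3 → ℂ) : Prop := ∃ p : Polynomial SmA, ∀ z x, F z x = p.eval₂ (ev x) z

namespace PF

lemma add {F G : ℂ → R3 → ℂ} (hF : PF F) (hG : PF G) : PF fun z x => F z x + G z x := by
  obtain ⟨p, hp⟩ := hF
  obtain ⟨q, hq⟩ := hG
  exact ⟨p + q, fun z x => by rw [Polynomial.eval₂_add, ← hp, ← hq]⟩

lemma mul {F G : ℂ → R3 → ℂ} (hF : PF F) (hG : PF G) : PF fun z x => F z x * G z x := by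
  obtain ⟨p, hp⟩ := hF
  obtain ⟨q, hq⟩ := hG
  exact ⟨p * q, fun z x => by rw [Polynomial.eval₂_mul, ← hp, ← hq]⟩

lemma const {f : R3 → ℂ} (hf : ContDiff ℝ ∞ f) : PF fun _ x => f x :=
  ⟨Polynomial.C ⟨f, hf⟩, fun z x => by rw [Polynomial.eval₂_C]; rfl⟩

lemma cst (c : ℂ) : PF fun _ _ => c := const (f := fun _ => c) contDiff_const

lemma id : PF fun z _ => z := ⟨Polynomial.X, fun z x => by rw [Polynomial.eval₂_X]⟩

lemma neg {F : ℂ → R3 → ℂ} (hF : PF F) : PF fun z x => -F z x := by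
  have := (cst (-1)).mul hF
  simpa using this

lemma sub {F G : ℂ → R3 → ℂ} (hF : PF F) (hG : PF G) : PF fun z x => F z x - G z x := by
  have := hF.add hG.neg
  simpa [sub_eq_add_neg] using this

lemma sum {ι : Type*} (s : Finset ι) {F : ι → ℂ → R3 → ℂ} (hF : ∀ i, PF (F i)) :
    PF fun z x => ∑ i ∈ s, F i z x := by
  classical
  induction s using Finset.induction_on with
  | empty => simpa using cst 0
  | insert a s ha ih =>
    simp only [Finset.sum_insert ha]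
    exact (hF a).add ih

lemma pow {F : ℂ → R3 → ℂ} (hF : PF F) (n : ℕ) : PF fun z x => F z x ^ n := by
  induction n with
  | zero => simpa using cst 1
  | succ n ih => simp only [pow_succ]; exact ih.mul hF

/-- simultaneous expansion of a finite family -/
lemma expand {ι : Type*} [Finite ι] {F : ι → ℂ → R3 → ℂ} (hF : ∀ i, PF (F i)) :
    ∃ (N : ℕ) (c : ℕ → ι → R3 → ℂ), (∀ k i, ContDiff ℝ ∞ (c k i)) ∧
      ∀ i z x, F i z x = ∑ k ∈ Finset.range N, z ^ k * c k i x := by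
  choose p hp using hF
  obtain ⟨N, hN⟩ := Finite.exists_le fun i => (p i).natDegree
  refine ⟨N + 1, fun k i => ((p i).coeff k : SmA), fun k i => ((p i).coeff k).2, fun i z x => ?_⟩
  rw [hp, Polynomial.eval₂_eq_sum_range' _ (Nat.lt_succ_of_le (hN i))]
  refine Finset.sum_congr rfl fun k _ => ?_
  rw [ev_apply, mul_comm]

end PF

/-- an affine path of spinors -/
def pth (u v : Fin 2 → ℂ) (z : ℂ) : Fin 2 → ℂ := fun i => u i + z * v i

lemma continuous_pth (u v : Fin 2 → ℂ) : Continuous (pth u v) := by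
  unfold pth; fun_prop

lemma PF_pth (u v : Fin 2 → ℂ) (i : Fin 2) : PF fun z _ => pth u v z i :=
  (PF.cst (u i)).add (PF.id.mul (PF.cst (v i)))

lemma PF_th (u v : Fin 2 → ℂ) (j : Fin 3) : PF fun z _ => th (pth u v z) j := by
  have h0 := PF_pth u v 0
  have h1 := PF_pth u v 1
  fin_cases j
  · exact (h0.pow 2).sub (h1.pow 2)
  · exact (PF.cst Complex.I).mul ((h0.pow 2).add (h1.pow 2))
  · exact ((PF.cst 2).mul h0).mul h1

lemma PF_nu (u v : Fin 2 → ℂ) (i : Fin 2) (j : Fin 3) : PF fun z _ => nu (pth u v z) i j := by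
  have h0 := PF_pth u v 0
  have h1 := PF_pth u v 1
  fin_cases i
  · fin_cases j
    · exact h0
    · exact (PF.cst Complex.I).mul h0
    · exact h1
  · fin_cases j
    · exact h1.neg
    · exact (PF.cst Complex.I).mul h1
    · exact h0

lemma PF_DD {θ : ℂ → Fin 3 → ℂ} (hθ : ∀ j, PF fun z _ => θ z j) {f : R3 → ℂ}
    (hf : ContDiff ℝ ∞ f) : PF fun z x => DD (θ z) f x := by
  unfold DD
  exact PF.sum _ fun j => (hθ j).mul (PF.const (contDiff_pd hf j))

lemma PF_Amat (P : Moduli) (u v : Fin 2 → ℂ) (a b : Opt) :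
    PF fun z x => Amat P (pth u v z) a b x := by
  have hm := contDiff_cf (contDiff_m P)
  have h1 := PF_DD (PF_th u v) hm
  cases a with
  | none =>
    cases b with
    | none => exact (PF.const (contDiff_ckap P).neg).mul h1
    | some j =>
      exact (PF.const ((contDiff_ckap P).neg.mul (contDiff_csm P))).mul (PF_pth u v j)
  | some i =>
    have h2 := PF_DD (PF_nu u v i) hm
    cases b with
    | none =>
      exact ((PF.const (contDiff_cdiv (contDiff_ckap P) (contDiff_csm P)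
        (fun x => Complex.ofReal_ne_zero.2 (sm_ne P x)))).mul h1).mul h2
    | some j =>
      refine ((PF.const ((contDiff_ckap P).sub (contDiff_cdiv contDiff_const
        (contDiff_const.mul (contDiff_cm P)) fun x => ?_))).mul (PF_pth u v j)).mul h2
      exact mul_ne_zero two_ne_zero (Complex.ofReal_ne_zero.2 (m_ne P x))

lemma PF_Dstar (P₁ P₂ : Moduli) (u v : Fin 2 → ℂ) {ψ : Fld} (hψ : SmF ψ) (a b : Opt) :
    PF fun z x => Dstar P₁ P₂ (pth u v z) ψ a b x := by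
  unfold Dstar
  refine ((PF_DD (PF_th u v) (hψ a b)).neg.sub (PF.sum _ fun c => ?_)).add
    (PF.sum _ fun c => ?_)
  · exact (PF_Amat P₂ u v c a).mul (PF.const (hψ c b))
  · exact (PF.const (hψ a c)).mul (PF_Amat P₁ u v b c)

lemma differentiable_pairing (G : Dom) (P₁ P₂ : Moduli) (u v : Fin 2 → ℂ) {ψ : Fld}
    (hψ : SmF ψ) : Differentiable ℂ fun z => pairing G P₁ P₂ (pth u v z) ψ := by
  have h : PF fun z x => ∑ a, ∑ b,
      (Amat P₂ (pth u v z) a b x - Amat P₁ (pth u v z) a b x) * ψ a b x :=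
    PF.sum _ fun a => PF.sum _ fun b =>
      ((PF_Amat P₂ u v a b).sub (PF_Amat P₁ u v a b)).mul (PF.const (hψ a b))
  obtain ⟨N, c, hc, he⟩ := PF.expand (ι := Unit) (fun _ => h)
  have e : (fun z => pairing G P₁ P₂ (pth u v z) ψ)
      = fun z => ∑ k ∈ Finset.range N, z ^ k * ∫ x in G.Ω, c k () x := by
    funext z
    unfold pairing
    simp only [he () z]
    rw [integral_finsetSum _ fun k _ =>
      (dom_integrableOn G (hc k ()).continuous).const_mul _]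
    simp only [integral_const_mul]
  rw [e]
  fun_prop

section
variable {G : Dom} {P₁ P₂ : Moduli} (hO : StmtOrth) (hD : SameData G P₁ P₂) (hRI : StmtRI)
include hO hD hRI

/-- the key expansion at a point of the path -/
lemma Phi_expand {u v : Fin 2 → ℂ} (hne : ∀ z, pth u v z ≠ 0) {φ : Fld} (hφ : SmF φ) (z₀ : ℂ) :
    ∃ (N : ℕ) (c : ℕ → Fld) (p : ℂ → ℂ), (∀ k, SmF (c k)) ∧ Differentiable ℂ p ∧
      ∀ z, Phi G P₁ P₂ (pth u v z) φ = p z - ∑ k ∈ Finset.range N,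
        (z ^ k - z₀ ^ k) * Phi G P₁ P₂ (pth u v z) (c k) := by
  obtain ⟨ψ, hψ, hsol⟩ := solve hRI G P₁ P₂ (hne z₀) hφ
  obtain ⟨N, c, hc, he⟩ := PF.expand (ι := Opt × Opt)
    (F := fun i z x => Dstar P₁ P₂ (pth u v z) ψ i.1 i.2 x)
    (fun i => PF_Dstar P₁ P₂ u v hψ i.1 i.2)
  have hc' : ∀ k, SmF (fun a b => c k (a, b)) := fun k a b => hc k (a, b)
  refine ⟨N, fun k a b => c k (a, b), fun z => pairing G P₁ P₂ (pth u v z) ψ, hc',
    differentiable_pairing G P₁ P₂ u v hψ, fun z => ?_⟩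
  have hs : ∀ t : ℕ → ℂ,
      SmF (fun a b x => ∑ k ∈ Finset.range N, t k * c k (a, b) x) := fun t a b =>
    ContDiff.sum fun k _ => contDiff_const.mul (hc k (a, b))
  have h1 : Phi G P₁ P₂ (pth u v z)
      (fun a b x => ∑ k ∈ Finset.range N, z ^ k * c k (a, b) x)
      = pairing G P₁ P₂ (pth u v z) ψ := by
    refine Phi_eq hO hD (hne z) hψ (Filter.Eventually.of_forall fun x a b => ?_)
    exact he (a, b) z x
  have h2 : Phi G P₁ P₂ (pth u v z) φ = Phi G P₁ P₂ (pth u v z)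
      (fun a b x => ∑ k ∈ Finset.range N, z₀ ^ k * c k (a, b) x) := by
    refine Phi_congr hO hD hRI (hne z) hφ ?_
    filter_upwards [hsol] with x hx a b
    rw [← hx a b]
    exact he (a, b) z₀ x
  rw [Phi_sum hO hD hRI (hne z) N (fun k => z ^ k) _ hc'] at h1
  rw [h2, Phi_sum hO hD hRI (hne z) N (fun k => z₀ ^ k) _ hc']
  change _ = pairing G P₁ P₂ (pth u v z) ψ - _
  rw [← h1, ← Finset.sum_sub_distrib]
  exact Finset.sum_congr rfl fun k _ => by ring

lemma Phi_continuousAt {u v : Fin 2 → ℂ} (hne : ∀ z, pth u v z ≠ 0) {φ : Fld} (hφ : SmF φ)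
    (z₀ : ℂ) : ContinuousAt (fun z => Phi G P₁ P₂ (pth u v z) φ) z₀ := by
  obtain ⟨N, c, p, hc, hp, he⟩ := Phi_expand hO hD hRI hne hφ z₀
  have e : (fun z => Phi G P₁ P₂ (pth u v z) φ) = fun z => p z - ∑ k ∈ Finset.range N,
      (z ^ k - z₀ ^ k) * Phi G P₁ P₂ (pth u v z) (c k) := funext he
  have h0 : Phi G P₁ P₂ (pth u v z₀) φ = p z₀ := by rw [he z₀]; simp
  rw [ContinuousAt, h0, e]
  have h1 : Tendsto p (𝓝 z₀) (𝓝 (p z₀)) := hp.continuous.continuousAt
  have h2 : Tendsto (fun z => ∑ k ∈ Finset.range N,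
      (z ^ k - z₀ ^ k) * Phi G P₁ P₂ (pth u v z) (c k)) (𝓝 z₀) (𝓝 (∑ k ∈ Finset.range N, 0)) := by
    refine tendsto_finsetSum _ fun k _ => ?_
    have h3 : Tendsto (fun z : ℂ => z ^ k - z₀ ^ k) (𝓝 z₀) (𝓝 0) := by
      have : Continuous fun z : ℂ => z ^ k - z₀ ^ k := by fun_prop
      simpa using this.tendsto z₀
    obtain ⟨C, hC⟩ := Phi_bdd hO hD hRI (hne z₀) (hc k)
    have hC' : ∀ᶠ z in 𝓝 z₀, ‖Phi G P₁ P₂ (pth u v z) (c k)‖ ≤ C :=
      (continuous_pth u v).continuousAt.eventually hC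
    exact h3.zero_mul_isBoundedUnder_le ⟨C, by simpa using hC'⟩
  simpa using h1.sub h2

lemma Phi_differentiable {u v : Fin 2 → ℂ} (hne : ∀ z, pth u v z ≠ 0) {φ : Fld} (hφ : SmF φ) :
    Differentiable ℂ (fun z => Phi G P₁ P₂ (pth u v z) φ) := by
  intro z₀
  obtain ⟨N, c, p, hc, hp, he⟩ := Phi_expand hO hD hRI hne hφ z₀
  have e : (fun z => Phi G P₁ P₂ (pth u v z) φ) = fun z => p z - ∑ k ∈ Finset.range N,
      (z ^ k - z₀ ^ k) * Phi G P₁ P₂ (pth u v z) (c k) := funext he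
  rw [e]
  refine (hp z₀).sub (DifferentiableAt.fun_sum fun k _ => ?_)
  -- product of a function vanishing at `z₀` and a continuous function
  have hd : HasDerivAt (fun z : ℂ => z ^ k - z₀ ^ k) (k * z₀ ^ (k - 1)) z₀ := by
    simpa using (hasDerivAt_pow k z₀).sub_const (z₀ ^ k)
  have hg := Phi_continuousAt hO hD hRI hne (hc k) z₀
  refine HasDerivAt.differentiableAt
    (f' := (k * z₀ ^ (k - 1)) * Phi G P₁ P₂ (pth u v z₀) (c k)) ?_
  rw [hasDerivAt_iff_tendsto_slope] at hd ⊢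
  have hg' : Tendsto (fun z => Phi G P₁ P₂ (pth u v z) (c k)) (𝓝[≠] z₀)
      (𝓝 (Phi G P₁ P₂ (pth u v z₀) (c k))) := hg.mono_left nhdsWithin_le_nhds
  refine (hd.mul hg').congr' ?_
  filter_upwards with z
  simp only [slope_def_field, sub_self, zero_mul, sub_zero]
  ring

end

/-! ### scaling -/

lemma single_smooth (a b : Opt) {η : R3 → ℂ} (hη : ContDiff ℝ ∞ η) : SmF (single a b η) := by
  intro a' b'
  unfold single
  by_cases h : a' = a ∧ b' = b
  · simp only [if_pos h]; exact hη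
  · simp only [if_neg h]; exact contDiff_const


/-- the weights of the scaling -/
def wt (c : ℂ) : Opt → ℂ
  | none => 1
  | some _ => c

lemma th_smul (c : ℂ) (s : Fin 2 → ℂ) : th (c • s) = fun j => c ^ 2 * th s j := by
  funext j
  fin_cases j <;> simp [th] <;> ring

lemma nu_smul (c : ℂ) (s : Fin 2 → ℂ) (i : Fin 2) : nu (c • s) i = fun j => c * nu s i j := by
  funext j
  fin_cases i <;> fin_cases j <;> simp [nu] <;> ring

lemma Amat_smul (P : Moduli) (c : ℂ) (s : Fin 2 → ℂ) (a b : Opt) (x : R3) :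
    wt c b * Amat P (c • s) a b x = c ^ 2 * wt c a * Amat P s a b x := by
  cases a <;> cases b <;>
    simp only [Amat, wt, th_smul, nu_smul, DD_smul_left, Pi.smul_apply, smul_eq_mul] <;> ring

/-- the rescaled field -/
def scl (c : ℂ) (ψ : Fld) : Fld := fun a b x => (wt c a)⁻¹ * wt c b * ψ a b x

lemma scl_smooth (c : ℂ) {ψ : Fld} (h : SmF ψ) : SmF (scl c ψ) := fun a b =>
  contDiff_const.mul (h a b)

lemma wt_ne {c : ℂ} (hc : c ≠ 0) (a : Opt) : wt c a ≠ 0 := by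
  cases a
  · exact one_ne_zero
  · exact hc

lemma Amat_smul' (P : Moduli) {c : ℂ} (hc : c ≠ 0) (s : Fin 2 → ℂ) (a b : Opt) (x : R3) :
    Amat P (c • s) a b x = c ^ 2 * wt c a * (wt c b)⁻¹ * Amat P s a b x := by
  have h := Amat_smul P c s a b x
  have hb := wt_ne hc b
  field_simp
  linear_combination h

lemma Dstar_scl (P₁ P₂ : Moduli) {c : ℂ} (hc : c ≠ 0) (s : Fin 2 → ℂ) {ψ : Fld} (h : SmF ψ)
    (a b : Opt) (x : R3) :
    Dstar P₁ P₂ (c • s) (scl c ψ) a b x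
      = c ^ 2 * ((wt c a)⁻¹ * wt c b * Dstar P₁ P₂ s ψ a b x) := by
  have h1 : DD (th (c • s)) (scl c ψ a b) x
      = c ^ 2 * ((wt c a)⁻¹ * wt c b * DD (th s) (ψ a b) x) := by
    rw [th_smul, DD_smul_left]
    unfold scl
    rw [DD_const_mul (sm_diff (h a b))]
  have h2 : ∑ d, Amat P₂ (c • s) d a x * scl c ψ d b x
      = c ^ 2 * ((wt c a)⁻¹ * wt c b * ∑ d, Amat P₂ s d a x * ψ d b x) := by
    simp only [Finset.mul_sum]
    refine Finset.sum_congr rfl fun d _ => ?_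
    rw [Amat_smul' P₂ hc, scl]
    have := wt_ne hc d
    field_simp
  have h3 : ∑ d, scl c ψ a d x * Amat P₁ (c • s) b d x
      = c ^ 2 * ((wt c a)⁻¹ * wt c b * ∑ d, ψ a d x * Amat P₁ s b d x) := by
    simp only [Finset.mul_sum]
    refine Finset.sum_congr rfl fun d _ => ?_
    rw [Amat_smul' P₁ hc, scl]
    have := wt_ne hc d
    field_simp
  simp only [Dstar]
  rw [h1, h2, h3]
  ring

lemma pairing_scl (G : Dom) (P₁ P₂ : Moduli) {c : ℂ} (hc : c ≠ 0) (s : Fin 2 → ℂ) (ψ : Fld) :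
    pairing G P₁ P₂ (c • s) (scl c ψ) = c ^ 2 * pairing G P₁ P₂ s ψ := by
  unfold pairing
  rw [← integral_const_mul]
  refine integral_congr_ae (ae_of_all _ fun x => ?_)
  simp only [Finset.mul_sum]
  refine Finset.sum_congr rfl fun a _ => Finset.sum_congr rfl fun b _ => ?_
  rw [Amat_smul' P₂ hc, Amat_smul' P₁ hc, scl]
  have h1 := wt_ne hc a
  have h2 := wt_ne hc b
  field_simp

section
variable {G : Dom} {P₁ P₂ : Moduli} (hO : StmtOrth) (hD : SameData G P₁ P₂) (hRI : StmtRI)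
include hO hD hRI

lemma Phi_scl {c : ℂ} (hc : c ≠ 0) {s : Fin 2 → ℂ} (hs : s ≠ 0) {φ : Fld} (hφ : SmF φ) :
    Phi G P₁ P₂ (c • s) (scl c φ) = Phi G P₁ P₂ s φ := by
  obtain ⟨ψ, h1, h2⟩ := solve hRI G P₁ P₂ hs hφ
  have hcs : c • s ≠ 0 := smul_ne_zero hc hs
  rw [Phi_eq hO hD hs h1 h2]
  have h3 : Phi G P₁ P₂ (c • s) (fun a b x => c ^ 2 * scl c φ a b x + 0 * scl c φ a b x)
      = pairing G P₁ P₂ (c • s) (scl c ψ) := by
    refine Phi_eq hO hD hcs (scl_smooth c h1) ?_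
    filter_upwards [h2] with x hx a b
    rw [Dstar_scl P₁ P₂ hc s h1, hx]
    simp [scl]
  rw [Phi_lin hO hD hRI hcs (scl_smooth c hφ) (scl_smooth c hφ), pairing_scl G P₁ P₂ hc] at h3
  have h4 : c ^ 2 ≠ 0 := pow_ne_zero 2 hc
  apply mul_left_cancel₀ h4
  linear_combination h3

lemma Phi_single_scl {c : ℂ} (hc : c ≠ 0) {s : Fin 2 → ℂ} (hs : s ≠ 0) (a b : Opt) {η : R3 → ℂ}
    (hη : ContDiff ℝ ∞ η) :
    wt c b * Phi G P₁ P₂ (c • s) (single a b η) = wt c a * Phi G P₁ P₂ s (single a b η) := by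
  have hsm := single_smooth a b hη
  have h := Phi_scl hO hD hRI hc hs hsm
  have hcs : c • s ≠ 0 := smul_ne_zero hc hs
  have e : scl c (single a b η) = fun a' b' x =>
      ((wt c a)⁻¹ * wt c b) * single a b η a' b' x + 0 * single a b η a' b' x := by
    funext a' b' x
    unfold scl single
    by_cases h : a' = a ∧ b' = b
    · rw [if_pos h, h.1, h.2]; ring
    · rw [if_neg h]; simp
  rw [e, Phi_lin hO hD hRI hcs hsm hsm] at h
  have ha := wt_ne hc a
  rw [← h]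
  field_simp
  ring

end

/-! ### Liouville -/

lemma pth_left (z : ℂ) : pth ![1, 0] ![0, 1] z = ![1, z] := by
  funext i; fin_cases i <;> simp [pth]

lemma pth_right (z : ℂ) : pth ![0, 1] ![1, 0] z = ![z, 1] := by
  funext i; fin_cases i <;> simp [pth]

lemma left_ne (z : ℂ) : (![1, z] : Fin 2 → ℂ) ≠ 0 := fun h => by
  have := congrFun h 0
  simp at this

lemma right_ne (z : ℂ) : (![z, 1] : Fin 2 → ℂ) ≠ 0 := fun h => by
  have := congrFun h 1
  simp at this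

lemma left_eq_smul {z : ℂ} (hz : z ≠ 0) : (![1, z] : Fin 2 → ℂ) = z • ![z⁻¹, 1] := by
  funext i; fin_cases i <;> simp [hz]

lemma right_eq_smul {z : ℂ} (hz : z ≠ 0) : (![z, 1] : Fin 2 → ℂ) = z • ![1, z⁻¹] := by
  funext i; fin_cases i <;> simp [hz]

lemma spinor_cases (s : Fin 2 → ℂ) (hs : s ≠ 0) :
    (∃ c z : ℂ, c ≠ 0 ∧ s = c • ![1, z]) ∨ (∃ c : ℂ, c ≠ 0 ∧ s = c • ![0, 1]) := by
  by_cases h : s 0 = 0
  · right
    have h1 : s 1 ≠ 0 := by
      intro h1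
      exact hs (by funext i; fin_cases i <;> simp [h, h1])
    exact ⟨s 1, h1, by funext i; fin_cases i <;> simp [h]⟩
  · left
    exact ⟨s 0, s 1 / s 0, h, by funext i; fin_cases i <;> simp [h, mul_div_cancel₀]⟩

lemma tendsto_left {g : ℂ → ℂ} (hg : ContinuousAt g 0) :
    Tendsto (fun z : ℂ => g z⁻¹) (cocompact ℂ) (𝓝 (g 0)) := by
  rw [← Metric.cobounded_eq_cocompact]
  exact hg.tendsto.comp tendsto_inv₀_cobounded

/-- Liouville on the sphere, degree `0` -/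
lemma liouville_zero {Ψ : (Fin 2 → ℂ) → ℂ}
    (hf : Differentiable ℂ fun z => Ψ ![1, z]) (hg : Differentiable ℂ fun z => Ψ ![z, 1])
    (hs : ∀ c : ℂ, c ≠ 0 → ∀ s : Fin 2 → ℂ, s ≠ 0 → Ψ (c • s) = Ψ s) :
    ∃ k : ℂ, ∀ s : Fin 2 → ℂ, s ≠ 0 → Ψ s = k := by
  have hne : ∀ᶠ z in cocompact ℂ, z ≠ 0 := by
    rw [← Metric.cobounded_eq_cocompact]; exact Bornology.eventually_ne_cobounded 0
  have h1 : Tendsto (fun z : ℂ => Ψ ![1, z]) (cocompact ℂ) (𝓝 (Ψ ![0, 1])) := by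
    refine (tendsto_left (g := fun z => Ψ ![z, 1]) hg.continuous.continuousAt).congr' ?_
    filter_upwards [hne] with z hz
    rw [left_eq_smul hz, hs z hz _ (right_ne _)]
  have h2 := hf.eq_const_of_tendsto_cocompact h1
  refine ⟨Ψ ![0, 1], fun s h => ?_⟩
  rcases spinor_cases s h with ⟨c, z, hc, rfl⟩ | ⟨c, hc, rfl⟩
  · rw [hs c hc _ (left_ne z)]
    exact congrFun h2 z
  · rw [hs c hc _ (right_ne 0)]

/-- Liouville on the sphere, degree `-1` -/
lemma liouville_neg {Ψ : (Fin 2 → ℂ) → ℂ}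
    (hf : Differentiable ℂ fun z => Ψ ![1, z]) (hg : Differentiable ℂ fun z => Ψ ![z, 1])
    (hs : ∀ c : ℂ, c ≠ 0 → ∀ s : Fin 2 → ℂ, s ≠ 0 → c * Ψ (c • s) = Ψ s) :
    ∀ s : Fin 2 → ℂ, s ≠ 0 → Ψ s = 0 := by
  have hs' : ∀ c : ℂ, c ≠ 0 → ∀ s : Fin 2 → ℂ, s ≠ 0 → Ψ (c • s) = c⁻¹ * Ψ s := by
    intro c hc s h
    rw [← hs c hc s h]; field_simp
  have hne : ∀ᶠ z in cocompact ℂ, z ≠ 0 := by
    rw [← Metric.cobounded_eq_cocompact]; exact Bornology.eventually_ne_cobounded 0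
  have h1 : Tendsto (fun z : ℂ => Ψ ![1, z]) (cocompact ℂ) (𝓝 0) := by
    have h2 := tendsto_left (g := fun z => z * Ψ ![z, 1])
      (continuous_id.mul hg.continuous).continuousAt
    simp only [zero_mul] at h2
    refine h2.congr' ?_
    filter_upwards [hne] with z hz
    rw [left_eq_smul hz, hs' z hz _ (right_ne _)]
  have h2 : ∀ z, Ψ ![1, z] = 0 := fun z => congrFun (hf.eq_const_of_tendsto_cocompact h1) z
  have h3 : ∀ z : ℂ, z ≠ 0 → Ψ ![z, 1] = 0 := by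
    intro z hz
    rw [right_eq_smul hz, hs' z hz _ (left_ne _), h2, mul_zero]
  have h4 : Ψ ![0, 1] = 0 := by
    have hc : Tendsto (fun z : ℂ => Ψ ![z, 1]) (𝓝[≠] 0) (𝓝 (Ψ ![0, 1])) :=
      (hg.continuous.tendsto 0).mono_left nhdsWithin_le_nhds
    have hc' : Tendsto (fun z : ℂ => Ψ ![z, 1]) (𝓝[≠] 0) (𝓝 0) := by
      refine tendsto_const_nhds.congr' ?_
      filter_upwards [self_mem_nhdsWithin] with z hz
      exact (h3 z hz).symm
    exact tendsto_nhds_unique hc hc'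
  intro s h
  rcases spinor_cases s h with ⟨c, z, hc, rfl⟩ | ⟨c, hc, rfl⟩
  · rw [hs' c hc _ (left_ne z), h2, mul_zero]
  · rw [hs' c hc _ (right_ne 0), h4, mul_zero]

section
variable {G : Dom} {P₁ P₂ : Moduli} (hO : StmtOrth) (hD : SameData G P₁ P₂) (hRI : StmtRI)
include hO hD hRI

lemma Phi_diff_left {φ : Fld} (hφ : SmF φ) :
    Differentiable ℂ fun z => Phi G P₁ P₂ ![1, z] φ := by
  have h := Phi_differentiable hO hD hRI (u := ![1, 0]) (v := ![0, 1])
    (fun z => by rw [pth_left]; exact left_ne z) hφ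
  simpa only [pth_left] using h

lemma Phi_diff_right {φ : Fld} (hφ : SmF φ) :
    Differentiable ℂ fun z => Phi G P₁ P₂ ![z, 1] φ := by
  have h := Phi_differentiable hO hD hRI (u := ![0, 1]) (v := ![1, 0])
    (fun z => by rw [pth_right]; exact right_ne z) hφ
  simpa only [pth_right] using h

lemma Phi_deg_zero (a b : Opt) (hab : ∀ c, wt c a = wt c b) {η : R3 → ℂ}
    (hη : ContDiff ℝ ∞ η) :
    ∃ k : ℂ, ∀ s : Fin 2 → ℂ, s ≠ 0 → Phi G P₁ P₂ s (single a b η) = k := by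
  have hsm := single_smooth a b hη
  refine liouville_zero (Phi_diff_left hO hD hRI hsm) (Phi_diff_right hO hD hRI hsm)
    fun c hc s hs => ?_
  have := Phi_single_scl hO hD hRI hc hs a b hη
  rw [hab c] at this
  exact mul_left_cancel₀ (wt_ne hc b) this

lemma Phi_deg_neg (j : Fin 2) {η : R3 → ℂ} (hη : ContDiff ℝ ∞ η) :
    ∀ s : Fin 2 → ℂ, s ≠ 0 → Phi G P₁ P₂ s (single none (some j) η) = 0 := by
  have hsm := single_smooth none (some j) hη
  refine liouville_neg (Phi_diff_left hO hD hRI hsm) (Phi_diff_right hO hD hRI hsm)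
    fun c hc s hs => ?_
  have := Phi_single_scl hO hD hRI hc hs none (some j) hη
  simpa [wt] using this

omit hO hD in
/-- solvability of the vector adjoint system -/
lemma solve_vec {s : Fin 2 → ℂ} (hs : s ≠ 0) (i : Opt) {η : R3 → ℂ} (hη : ContDiff ℝ ∞ η) :
    ∃ ζ : Opt → R3 → ℂ, (∀ a, ContDiff ℝ ∞ (ζ a)) ∧ ∀ᶠ x in 𝓝ˢ (closure G.Ω), ∀ a,
      -DD (th s) (ζ a) x - ∑ c, Amat P₂ s c a x * ζ c x = if a = i then η x else 0 := by
  obtain ⟨R, hR0, hR⟩ := dom_exists_ball G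
  obtain ⟨χ, hχ, hχc, hχ1, -, -⟩ := exists_cutoff R (R + 1) hR0 (by linarith)
  obtain ⟨B, hB⟩ := bdd_cut hχ.continuous hχc hη.continuous
  have hB0 : 0 ≤ B := (norm_nonneg _).trans (hB 0)
  obtain ⟨M, hM⟩ := hRI Opt Unit (fun _ => th s) continuous_const (fun _ => isNull_th hs)
    (fun _ a c x => -Amat P₂ s c a x) (fun _ a c => (contDiff_Amat P₂ s c a).neg)
    (fun a c => (contDiff_Amat P₂ s c a).continuous.neg.comp continuous_snd) R ()
  obtain ⟨ζ, h1, h2, -⟩ := hM.self_of_nhds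
    (fun a x => if a = i then -(χ x * η x) else 0) (fun a => by
      by_cases h : a = i
      · simp only [if_pos h]; exact (hχ.mul hη).neg
      · simp only [if_neg h]; exact contDiff_const) B (fun a x => by
      by_cases h : a = i
      · simp only [if_pos h]; exact hB x
      · simp only [if_neg h]; simpa using hB0)
  refine ⟨ζ, h1, ?_⟩
  have hnear : Metric.ball (0 : R3) R ∈ 𝓝ˢ (closure G.Ω) :=
    Metric.isOpen_ball.mem_nhdsSet.2 hR
  filter_upwards [hnear] with x hx a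
  have hx' : ‖x‖ < R := by simpa using hx
  rw [h2 x hx' a]
  by_cases h : a = i
  · simp only [if_pos h, hχ1 x hx'.le, neg_mul, Finset.sum_neg_distrib]; ring
  · simp only [if_neg h, neg_mul, Finset.sum_neg_distrib]; ring

/-- the vector `(0, -s₁, s₀)` -/
def perp (s : Fin 2 → ℂ) : Opt → ℂ
  | none => 0
  | some j => if j = 0 then -s 1 else s 0

omit hO hD hRI in
lemma Amat_perp (P : Moduli) (s : Fin 2 → ℂ) (a : Opt) (x : R3) :
    ∑ b, Amat P s a b x * perp s b = 0 := by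
  have := Amat_mul_perp P s a x
  simp only [Fintype.sum_option, Fin.sum_univ_two, perp]
  simpa using this

lemma Phi_perp {s : Fin 2 → ℂ} (hs : s ≠ 0) (i : Opt) {η : R3 → ℂ} (hη : ContDiff ℝ ∞ η) :
    Phi G P₁ P₂ s (fun a b x => (-s 1) * single i (some 0) η a b x
      + (s 0) * single i (some 1) η a b x) = 0 := by
  obtain ⟨ζ, h1, h2⟩ := solve_vec (G := G) (P₂ := P₂) hRI hs i hη
  have hψ : SmF (fun a b x => ζ a x * perp s b) := fun a b => (h1 a).mul contDiff_const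
  have e : Phi G P₁ P₂ s (fun a b x => (-s 1) * single i (some 0) η a b x
      + (s 0) * single i (some 1) η a b x)
      = pairing G P₁ P₂ s (fun a b x => ζ a x * perp s b) := by
    refine Phi_eq hO hD hs hψ ?_
    filter_upwards [h2] with x hx a b
    have hx' := hx a
    have e1 : DD (th s) (fun x => ζ a x * perp s b) x = DD (th s) (ζ a) x * perp s b := by
      have : (fun x => ζ a x * perp s b) = fun x => perp s b * ζ a x := by
        funext x; ring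
      rw [this, DD_const_mul (sm_diff (h1 a))]; ring
    have e2 : ∑ c, Amat P₂ s c a x * (ζ c x * perp s b)
        = (∑ c, Amat P₂ s c a x * ζ c x) * perp s b := by
      rw [Finset.sum_mul]; exact Finset.sum_congr rfl fun c _ => by ring
    have e3 : ∑ c, ζ a x * perp s c * Amat P₁ s b c x = 0 := by
      have := Amat_perp P₁ s b x
      calc ∑ c, ζ a x * perp s c * Amat P₁ s b c x
          = ζ a x * ∑ c, Amat P₁ s b c x * perp s c := by
            rw [Finset.mul_sum]; exact Finset.sum_congr rfl fun c _ => by ring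
        _ = 0 := by rw [this, mul_zero]
    have e4 : Dstar P₁ P₂ s (fun a b x => ζ a x * perp s b) a b x
        = (if a = i then η x else 0) * perp s b := by
      simp only [Dstar]
      rw [e1, e2, e3, ← hx']
      ring
    rw [e4]
    unfold single perp
    rcases b with _ | j
    · by_cases h : a = i <;> simp [h]
    · fin_cases j <;> by_cases h : a = i <;> simp [h, mul_comm]
  rw [e]
  unfold pairing
  have : ∀ x, ∑ a, ∑ b, (Amat P₂ s a b x - Amat P₁ s a b x) * (ζ a x * perp s b) = 0 := by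
    intro x
    refine Finset.sum_eq_zero fun a _ => ?_
    have h1 := Amat_perp P₂ s a x
    have h2 := Amat_perp P₁ s a x
    calc ∑ b, (Amat P₂ s a b x - Amat P₁ s a b x) * (ζ a x * perp s b)
        = ζ a x * (∑ b, Amat P₂ s a b x * perp s b - ∑ b, Amat P₁ s a b x * perp s b) := by
          rw [← Finset.sum_sub_distrib, Finset.mul_sum]
          exact Finset.sum_congr rfl fun b _ => by ring
      _ = 0 := by rw [h1, h2]; ring
  simp only [this, integral_zero]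

lemma Phi_some_some (i j : Fin 2) {η : R3 → ℂ} (hη : ContDiff ℝ ∞ η) :
    ∀ s : Fin 2 → ℂ, s ≠ 0 → Phi G P₁ P₂ s (single (some i) (some j) η) = 0 := by
  have key : ∀ s : Fin 2 → ℂ, s ≠ 0 →
      (-s 1) * Phi G P₁ P₂ s (single (some i) (some 0) η)
        + (s 0) * Phi G P₁ P₂ s (single (some i) (some 1) η) = 0 := by
    intro s hs
    rw [← Phi_lin hO hD hRI hs (single_smooth _ _ hη) (single_smooth _ _ hη)]
    exact Phi_perp hO hD hRI hs (some i) hη
  obtain ⟨k, hk⟩ := Phi_deg_zero hO hD hRI (some i) (some j) (fun _ => rfl) hη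
  have hk0 : k = 0 := by
    fin_cases j
    · have h := key ![0, 1] (right_ne 0)
      rw [← hk ![0, 1] (right_ne 0)]
      simpa using h
    · have h := key ![1, 0] (left_ne 0)
      rw [← hk ![1, 0] (left_ne 0)]
      simpa using h
  intro s hs
  rw [hk s hs, hk0]

end

end Crest.Agent.R080.Gg

namespace Crest.Agent.R080

open Gg in
/-- T15: the gauge functional and its structure -/
theorem t_Gauge (hO : StmtOrth) (hRI : StmtRI) : StmtGauge := by
  intro G P₁ P₂ hD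
  refine ⟨Phi G P₁ P₂, ?_, ?_, ?_, ?_, ?_, ?_⟩
  · intro s hs ψ φ hψ hφ h
    exact Phi_eq hO hD hs hψ h
  · intro s hs φ φ' hφ hφ'
    have := Phi_lin hO hD hRI hs hφ hφ' 1 1
    simpa only [one_mul] using this
  · intro s hs c φ hφ
    have := Phi_lin hO hD hRI hs hφ hφ c 0
    simpa only [zero_mul, add_zero] using this
  · intro η hη
    exact Phi_deg_zero hO hD hRI none none (fun _ => rfl) hη
  · intro η hη s hs j
    exact Phi_deg_neg hO hD hRI j hη s hs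
  · intro η hη s hs i j
    exact Phi_some_some hO hD hRI i j hη s hs

end Crest.Agent.R080
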