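import Crest.Agent.R080.Calc

/-!
Row 80 (S0107), task T10: interior `H²` estimate (`StmtInterior`) and `StmtRI3D`.
-/

set_option autoImplicit false

open MeasureTheory Filter Metric
open scoped ContDiff Topology ComplexConjugate
open Crest.AnalysisR.VecCalc3 Crest.AnalysisR.PDE.Elasticity
open Crest.Agent.R080.Calc

noncomputable section
namespace Crest.Agent.R080.Interior

/-! ### integration on balls -/

/-- the open ball centered at the origin -/
abbrev BB (R : ℝ) : Set R3 := ball (0 : R3) R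

lemma intOn {f : R3 → ℝ} (hf : Continuous f) (R : ℝ) : IntegrableOn f (BB R) :=
  (hf.continuousOn.integrableOn_compact (isCompact_closedBall (0 : R3) R)).mono_set
    ball_subset_closedBall

lemma int_mono {f g : R3 → ℝ} (hf : Continuous f) (hg : Continuous g) (R : ℝ)
    (h : ∀ x ∈ BB R, f x ≤ g x) : ∫ x in BB R, f x ≤ ∫ x in BB R, g x :=
  setIntegral_mono_on (intOn hf R) (intOn hg R) measurableSet_ball h

lemma int_mono_set {f : R3 → ℝ} (hf : Continuous f) (h0 : ∀ x, 0 ≤ f x) {R R' : ℝ}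
    (h : R ≤ R') : ∫ x in BB R, f x ≤ ∫ x in BB R', f x :=
  setIntegral_mono_set (intOn hf R') (ae_of_all _ h0) (ball_subset_ball h).eventuallyLE

lemma int_nonneg {f : R3 → ℝ} (h0 : ∀ x, 0 ≤ f x) (R : ℝ) : 0 ≤ ∫ x in BB R, f x :=
  setIntegral_nonneg measurableSet_ball (fun x _ => h0 x)

/-! ### quantities -/

variable {ι : Type} [Fintype ι]

/-- `|r|²` -/
def rho (r : ι → R3 → ℂ) (x : R3) : ℝ := ∑ l, ‖r l x‖ ^ 2

/-- `|∇r|²` -/
def gr (r : ι → R3 → ℂ) (x : R3) : ℝ := ∑ l, ∑ j, ‖pd j (r l) x‖ ^ 2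

/-- `|∇²r|²` -/
def he (r : ι → R3 → ℂ) (x : R3) : ℝ := ∑ l, ∑ j, ∑ k, ‖pd j (pd k (r l)) x‖ ^ 2

/-- the right hand side -/
def ff (θ : Fin 3 → ℂ) (A : Fin 3 → ι → ι → R3 → ℂ) (B : ι → ι → R3 → ℂ) (τ : ℝ)
    (r : ι → R3 → ℂ) (i : ι) (x : R3) : ℂ := P0 A B r i x + τ * M0 θ A r i x

/-- `|f|²` -/
def FF (θ : Fin 3 → ℂ) (A : Fin 3 → ι → ι → R3 → ℂ) (B : ι → ι → R3 → ℂ) (τ : ℝ)
    (r : ι → R3 → ℂ) (x : R3) : ℝ := ∑ i, ‖ff θ A B τ r i x‖ ^ 2

lemma rho_nonneg (r : ι → R3 → ℂ) (x : R3) : 0 ≤ rho r x :=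
  Finset.sum_nonneg (fun _ _ => by positivity)

lemma gr_nonneg (r : ι → R3 → ℂ) (x : R3) : 0 ≤ gr r x :=
  Finset.sum_nonneg (fun _ _ => Finset.sum_nonneg (fun _ _ => by positivity))

lemma he_nonneg (r : ι → R3 → ℂ) (x : R3) : 0 ≤ he r x :=
  Finset.sum_nonneg (fun _ _ => Finset.sum_nonneg (fun _ _ =>
    Finset.sum_nonneg (fun _ _ => by positivity)))

lemma FF_nonneg (θ : Fin 3 → ℂ) (A : Fin 3 → ι → ι → R3 → ℂ) (B : ι → ι → R3 → ℂ) (τ : ℝ)
    (r : ι → R3 → ℂ) (x : R3) : 0 ≤ FF θ A B τ r x :=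
  Finset.sum_nonneg (fun _ _ => by positivity)

lemma continuous_rho {r : ι → R3 → ℂ} (hr : ∀ i, ContDiff ℝ ∞ (r i)) : Continuous (rho r) :=
  continuous_finsetSum _ (fun l _ => (hr l).continuous.norm.pow 2)

lemma continuous_gr {r : ι → R3 → ℂ} (hr : ∀ i, ContDiff ℝ ∞ (r i)) : Continuous (gr r) :=
  continuous_finsetSum _ (fun l _ => continuous_finsetSum _ (fun j _ =>
    (smooth_pd (hr l) j).continuous.norm.pow 2))

lemma continuous_he {r : ι → R3 → ℂ} (hr : ∀ i, ContDiff ℝ ∞ (r i)) : Continuous (he r) :=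
  continuous_finsetSum _ (fun l _ => continuous_finsetSum _ (fun j _ =>
    continuous_finsetSum _ (fun k _ => (smooth_pd (smooth_pd (hr l) k) j).continuous.norm.pow 2)))

lemma smooth_DD {f : R3 → ℂ} (hf : ContDiff ℝ ∞ f) (θ : Fin 3 → ℂ) : ContDiff ℝ ∞ (DD θ f) := by
  unfold DD
  exact ContDiff.sum (fun j _ => contDiff_const.mul (smooth_pd hf j))

lemma smooth_P0 {A : Fin 3 → ι → ι → R3 → ℂ} {B : ι → ι → R3 → ℂ}
    (hA : ∀ j i l, ContDiff ℝ ∞ (A j i l)) (hB : ∀ i l, ContDiff ℝ ∞ (B i l))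
    {r : ι → R3 → ℂ} (hr : ∀ i, ContDiff ℝ ∞ (r i)) (i : ι) : ContDiff ℝ ∞ (P0 A B r i) := by
  unfold P0
  exact ((smooth_Lap (hr i)).add (ContDiff.sum (fun j _ => ContDiff.sum (fun l _ =>
    (hA j i l).mul (smooth_pd (hr l) j))))).add (ContDiff.sum (fun l _ => (hB i l).mul (hr l)))

lemma smooth_M0 {A : Fin 3 → ι → ι → R3 → ℂ} (θ : Fin 3 → ℂ)
    (hA : ∀ j i l, ContDiff ℝ ∞ (A j i l))
    {r : ι → R3 → ℂ} (hr : ∀ i, ContDiff ℝ ∞ (r i)) (i : ι) : ContDiff ℝ ∞ (M0 θ A r i) := by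
  unfold M0
  exact (contDiff_const.mul (smooth_DD (hr i) θ)).add (ContDiff.sum (fun j _ =>
    ContDiff.sum (fun l _ => ((hA j i l).mul contDiff_const).mul (hr l))))

lemma smooth_ff {A : Fin 3 → ι → ι → R3 → ℂ} {B : ι → ι → R3 → ℂ} (θ : Fin 3 → ℂ)
    (hA : ∀ j i l, ContDiff ℝ ∞ (A j i l)) (hB : ∀ i l, ContDiff ℝ ∞ (B i l)) (τ : ℝ)
    {r : ι → R3 → ℂ} (hr : ∀ i, ContDiff ℝ ∞ (r i)) (i : ι) :
    ContDiff ℝ ∞ (ff θ A B τ r i) := by
  unfold ff
  exact (smooth_P0 hA hB hr i).add (contDiff_const.mul (smooth_M0 θ hA hr i))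

lemma continuous_FF {A : Fin 3 → ι → ι → R3 → ℂ} {B : ι → ι → R3 → ℂ} (θ : Fin 3 → ℂ)
    (hA : ∀ j i l, ContDiff ℝ ∞ (A j i l)) (hB : ∀ i l, ContDiff ℝ ∞ (B i l)) (τ : ℝ)
    {r : ι → R3 → ℂ} (hr : ∀ i, ContDiff ℝ ∞ (r i)) : Continuous (FF θ A B τ r) :=
  continuous_finsetSum _ (fun i _ => (smooth_ff θ hA hB τ hr i).continuous.norm.pow 2)

/-! ### bounds for the Laplacian -/

lemma exists_bound {f : R3 → ℂ} (hf : Continuous f) (R : ℝ) :
    ∃ M : ℝ, 0 ≤ M ∧ ∀ x ∈ closedBall (0 : R3) R, ‖f x‖ ≤ M := by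
  obtain ⟨M, hM⟩ := (isCompact_closedBall (0 : R3) R).exists_bound_of_continuousOn
    hf.continuousOn
  exact ⟨max M 0, le_max_right _ _, fun x hx => (hM x hx).trans (le_max_left _ _)⟩

lemma exists_bound_fam {κ : Type} [Fintype κ] {f : κ → R3 → ℂ} (hf : ∀ a, Continuous (f a))
    (R : ℝ) : ∃ M : ℝ, 0 ≤ M ∧ ∀ a, ∀ x ∈ closedBall (0 : R3) R, ‖f a x‖ ≤ M := by
  choose M hM0 hM using fun a => exists_bound (hf a) R
  refine ⟨∑ a, M a, Finset.sum_nonneg (fun a _ => hM0 a), fun a x hx => ?_⟩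
  exact (hM a x hx).trans (Finset.single_le_sum (fun b _ => hM0 b) (Finset.mem_univ a))

set_option maxHeartbeats 800000 in
lemma lap_bound (θ : Fin 3 → ℂ) {A : Fin 3 → ι → ι → R3 → ℂ} {B : ι → ι → R3 → ℂ}
    (hA : ∀ j i l, ContDiff ℝ ∞ (A j i l)) (hB : ∀ i l, ContDiff ℝ ∞ (B i l)) (R : ℝ) :
    ∃ K : ℝ, 0 ≤ K ∧ ∀ τ : ℝ, 1 ≤ τ → ∀ r : ι → R3 → ℂ, ∀ i, ∀ x ∈ closedBall (0 : R3) R,
      ‖Lap (r i) x‖ ^ 2 ≤ K * (‖ff θ A B τ r i x‖ ^ 2 + τ ^ 2 * (gr r x + rho r x)) := by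
  obtain ⟨MA, hMA0, hMA⟩ := exists_bound_fam (κ := Fin 3 × ι × ι)
    (f := fun p => A p.1 p.2.1 p.2.2) (fun p => (hA _ _ _).continuous) R
  obtain ⟨MB, hMB0, hMB⟩ := exists_bound_fam (κ := ι × ι)
    (f := fun p => B p.1 p.2) (fun p => (hB _ _).continuous) R
  obtain ⟨T, hT⟩ : ∃ T : ℝ, T = ∑ j, ‖θ j‖ := ⟨_, rfl⟩
  have hT0 : 0 ≤ T := hT ▸ Finset.sum_nonneg (fun _ _ => norm_nonneg _)
  obtain ⟨K1, hK1⟩ : ∃ K1 : ℝ, K1 = MA + MB + 2 * T + MA * T := ⟨_, rfl⟩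
  have hK10 : 0 ≤ K1 := by rw [hK1]; positivity
  obtain ⟨n, hn⟩ : ∃ n : ℝ, n = (Fintype.card ι : ℝ) := ⟨_, rfl⟩
  have hn0 : 0 ≤ n := by rw [hn]; positivity
  refine ⟨2 + 12 * n * K1 ^ 2, by positivity, ?_⟩
  intro τ hτ r i x hx
  -- the l¹ quantity
  obtain ⟨a, ha⟩ : ∃ a : ℝ, a = ∑ l, ∑ j, ‖pd j (r l) x‖ := ⟨_, rfl⟩
  obtain ⟨b, hb⟩ : ∃ b : ℝ, b = ∑ l, ‖r l x‖ := ⟨_, rfl⟩
  have ha0 : 0 ≤ a := by
    rw [ha]
    exact Finset.sum_nonneg (fun _ _ => Finset.sum_nonneg (fun _ _ => norm_nonneg _))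
  have hb0 : 0 ≤ b := by
    rw [hb]
    exact Finset.sum_nonneg (fun _ _ => norm_nonneg _)
  have hasq : a ^ 2 ≤ 3 * n * gr r x := by
    have h1 : a ^ 2 ≤ n * ∑ l, (∑ j, ‖pd j (r l) x‖) ^ 2 := by
      have := sq_sum_le_card_mul_sum_sq (s := (Finset.univ : Finset ι))
        (f := fun l => ∑ j, ‖pd j (r l) x‖)
      simpa [ha, hn] using this
    have h2 : ∀ l, (∑ j, ‖pd j (r l) x‖) ^ 2 ≤ 3 * ∑ j, ‖pd j (r l) x‖ ^ 2 := by
      intro l
      have := sq_sum_le_card_mul_sum_sq (s := (Finset.univ : Finset (Fin 3)))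
        (f := fun j => ‖pd j (r l) x‖)
      simpa using this
    calc a ^ 2 ≤ n * ∑ l, (∑ j, ‖pd j (r l) x‖) ^ 2 := h1
      _ ≤ n * ∑ l, (3 * ∑ j, ‖pd j (r l) x‖ ^ 2) := by
          apply mul_le_mul_of_nonneg_left _ hn0
          exact Finset.sum_le_sum (fun l _ => h2 l)
      _ = 3 * n * gr r x := by
          unfold gr
          rw [← Finset.mul_sum]
          ring
  have hbsq : b ^ 2 ≤ n * rho r x := by
    have := sq_sum_le_card_mul_sum_sq (s := (Finset.univ : Finset ι))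
      (f := fun l => ‖r l x‖)
    simpa [hb, hn, rho] using this
  have hpd : ∀ j, ∀ l, ‖pd j (r l) x‖ ≤ a := by
    intro j l
    have h1 : ‖pd j (r l) x‖ ≤ ∑ j, ‖pd j (r l) x‖ :=
      Finset.single_le_sum (f := fun j => ‖pd j (r l) x‖) (fun _ _ => norm_nonneg _)
        (Finset.mem_univ j)
    have h2 : ∑ j, ‖pd j (r l) x‖ ≤ a := by
      rw [ha]
      exact Finset.single_le_sum (f := fun l => ∑ j, ‖pd j (r l) x‖)
        (fun _ _ => Finset.sum_nonneg (fun _ _ => norm_nonneg _)) (Finset.mem_univ l)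
    exact h1.trans h2
  have e : Lap (r i) x = ff θ A B τ r i x
      - (∑ j, ∑ l, A j i l x * pd j (r l) x) - (∑ l, B i l x * r l x)
      - τ * (2 * DD θ (r i) x + ∑ j, ∑ l, A j i l x * θ j * r l x) := by
    unfold ff P0 M0
    ring
  have b1 : ‖∑ j, ∑ l, A j i l x * pd j (r l) x‖ ≤ MA * a := by
    have : MA * a = ∑ j, ∑ l, MA * ‖pd j (r l) x‖ := by
      rw [ha, Finset.sum_comm, Finset.mul_sum]
      apply Finset.sum_congr rfl
      intro j _
      rw [Finset.mul_sum]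
    rw [this]
    refine (norm_sum_le _ _).trans (Finset.sum_le_sum (fun j _ => ?_))
    refine (norm_sum_le _ _).trans (Finset.sum_le_sum (fun l _ => ?_))
    rw [norm_mul]
    exact mul_le_mul_of_nonneg_right (hMA (j, i, l) x hx) (norm_nonneg _)
  have b2 : ‖∑ l, B i l x * r l x‖ ≤ MB * b := by
    rw [hb, Finset.mul_sum]
    refine (norm_sum_le _ _).trans (Finset.sum_le_sum (fun l _ => ?_))
    rw [norm_mul]
    exact mul_le_mul_of_nonneg_right (hMB (i, l) x hx) (norm_nonneg _)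
  have b3 : ‖DD θ (r i) x‖ ≤ T * a := by
    unfold DD
    rw [hT, Finset.sum_mul]
    refine (norm_sum_le _ _).trans (Finset.sum_le_sum (fun j _ => ?_))
    rw [norm_mul]
    exact mul_le_mul_of_nonneg_left (hpd j i) (norm_nonneg _)
  have b4 : ‖∑ j, ∑ l, A j i l x * θ j * r l x‖ ≤ MA * T * b := by
    have : MA * T * b = ∑ j, ∑ l, MA * ‖θ j‖ * ‖r l x‖ := by
      have h1 : ∀ j, ∑ l, MA * ‖θ j‖ * ‖r l x‖ = MA * b * ‖θ j‖ := by
        intro j
        rw [← Finset.mul_sum, ← hb]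
        ring
      simp_rw [h1]
      rw [← Finset.mul_sum, ← hT]
      ring
    rw [this]
    refine (norm_sum_le _ _).trans (Finset.sum_le_sum (fun j _ => ?_))
    refine (norm_sum_le _ _).trans (Finset.sum_le_sum (fun l _ => ?_))
    rw [norm_mul, norm_mul]
    gcongr
    exact hMA (j, i, l) x hx
  have hτ0 : 0 ≤ τ := by linarith
  have main : ‖Lap (r i) x‖ ≤ ‖ff θ A B τ r i x‖ + τ * (K1 * (a + b)) := by
    rw [e]
    have t1 := norm_sub_le (ff θ A B τ r i x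
      - (∑ j, ∑ l, A j i l x * pd j (r l) x) - (∑ l, B i l x * r l x))
      ((τ : ℂ) * (2 * DD θ (r i) x + ∑ j, ∑ l, A j i l x * θ j * r l x))
    have t2 := norm_sub_le (ff θ A B τ r i x
      - (∑ j, ∑ l, A j i l x * pd j (r l) x)) (∑ l, B i l x * r l x)
    have t3 := norm_sub_le (ff θ A B τ r i x) (∑ j, ∑ l, A j i l x * pd j (r l) x)
    have t4 : ‖(τ : ℂ) * (2 * DD θ (r i) x + ∑ j, ∑ l, A j i l x * θ j * r l x)‖
        ≤ τ * (2 * (T * a) + MA * T * b) := by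
      rw [norm_mul, Complex.norm_real, Real.norm_of_nonneg hτ0]
      apply mul_le_mul_of_nonneg_left _ hτ0
      refine (norm_add_le _ _).trans ?_
      rw [norm_mul]
      have : ‖(2 : ℂ)‖ = 2 := by norm_num
      rw [this]
      linarith
    have t5 : MA * a + MB * b ≤ τ * (MA * a + MB * b) := by
      have h0 : 0 ≤ MA * a + MB * b := by positivity
      nlinarith
    have t6 : τ * (MA * a + MB * b) + τ * (2 * (T * a) + MA * T * b) ≤ τ * (K1 * (a + b)) := by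
      rw [← mul_add]
      apply mul_le_mul_of_nonneg_left _ hτ0
      rw [hK1]
      have p1 : 0 ≤ MA * b := by positivity
      have p2 : 0 ≤ MB * a := by positivity
      have p3 : 0 ≤ T * b := by positivity
      have p4 : 0 ≤ MA * T * a := by positivity
      nlinarith
    linarith
  have hab : (a + b) ^ 2 ≤ 6 * n * (gr r x + rho r x) := by
    have h1 : (a + b) ^ 2 ≤ 2 * a ^ 2 + 2 * b ^ 2 := by nlinarith [sq_nonneg (a - b)]
    have h2 : 0 ≤ n * rho r x := mul_nonneg hn0 (rho_nonneg r x)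
    nlinarith
  have hg0 := gr_nonneg r x
  have hr0 := rho_nonneg r x
  calc ‖Lap (r i) x‖ ^ 2 ≤ (‖ff θ A B τ r i x‖ + τ * (K1 * (a + b))) ^ 2 := by
        gcongr
    _ ≤ 2 * ‖ff θ A B τ r i x‖ ^ 2 + 2 * (τ * (K1 * (a + b))) ^ 2 := by
        nlinarith [sq_nonneg (‖ff θ A B τ r i x‖ - τ * (K1 * (a + b)))]
    _ = 2 * ‖ff θ A B τ r i x‖ ^ 2 + 2 * (τ ^ 2 * K1 ^ 2) * (a + b) ^ 2 := by ring
    _ ≤ 2 * ‖ff θ A B τ r i x‖ ^ 2
        + 2 * (τ ^ 2 * K1 ^ 2) * (6 * n * (gr r x + rho r x)) := by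
        gcongr
    _ ≤ (2 + 12 * n * K1 ^ 2) * (‖ff θ A B τ r i x‖ ^ 2 + τ ^ 2 * (gr r x + rho r x)) := by
        have p1 : 0 ≤ 12 * n * K1 ^ 2 * ‖ff θ A B τ r i x‖ ^ 2 := by positivity
        have p2 : 0 ≤ 2 * (τ ^ 2 * (gr r x + rho r x)) := by positivity
        nlinarith

/-! ### cutoffs -/

lemma exists_cutoff {R₁ R₂ : ℝ} (h0 : 0 < R₁) (h : R₁ < R₂) :
    ∃ χ : R3 → ℝ, ContDiff ℝ ∞ χ ∧ (∀ x, 0 ≤ χ x) ∧ (∀ x, χ x ≤ 1) ∧
      (∀ x ∈ BB R₁, χ x = 1) ∧ (∀ x, x ∈ tsupport (cf χ) → x ∈ BB R₂) ∧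
      HasCompactSupport (cf χ) := by
  have hm : R₁ < (R₁ + R₂) / 2 := by linarith
  let φ : ContDiffBump (0 : R3) := ⟨R₁, (R₁ + R₂) / 2, h0, hm⟩
  have hts : tsupport (cf φ) ⊆ closedBall (0 : R3) ((R₁ + R₂) / 2) := by
    have h1 : Function.support (cf φ) ⊆ ball (0 : R3) ((R₁ + R₂) / 2) := by
      intro x hx
      have h2 : φ x ≠ 0 := by
        intro h3
        apply hx
        simp [h3]
      have h3 : x ∈ Function.support φ := h2
      rwa [φ.support_eq] at h3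
    exact (closure_mono h1).trans closure_ball_subset_closedBall
  refine ⟨φ, φ.contDiff, fun x => φ.nonneg, fun x => φ.le_one, ?_, ?_, ?_⟩
  · intro x hx
    exact φ.one_of_mem_closedBall (ball_subset_closedBall hx)
  · intro x hx
    have := hts hx
    rw [mem_closedBall] at this
    rw [mem_ball]
    linarith
  · exact HasCompactSupport.of_support_subset_isCompact (isCompact_closedBall (0 : R3) _)
      ((subset_tsupport _).trans hts)

lemma smooth_cf {χ : R3 → ℝ} (h : ContDiff ℝ ∞ χ) : ContDiff ℝ ∞ (cf χ) :=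
  Complex.ofRealCLM.contDiff.comp h

/-- multiplication by a real cutoff -/
def cut (χ : R3 → ℝ) (r : ι → R3 → ℂ) (i : ι) : R3 → ℂ := fun y => cf χ y * r i y

omit [Fintype ι] in
lemma smooth_cut {χ : R3 → ℝ} (h : ContDiff ℝ ∞ χ) {r : ι → R3 → ℂ}
    (hr : ∀ i, ContDiff ℝ ∞ (r i)) (i : ι) : ContDiff ℝ ∞ (cut χ r i) :=
  (smooth_cf h).mul (hr i)

omit [Fintype ι] in
lemma cs_cut {χ : R3 → ℝ} (h : HasCompactSupport (cf χ)) (r : ι → R3 → ℂ) (i : ι) :
    HasCompactSupport (cut χ r i) := h.mul_right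

omit [Fintype ι] in
lemma pd_cut {χ : R3 → ℝ} (h : ContDiff ℝ ∞ χ) {r : ι → R3 → ℂ}
    (hr : ∀ i, ContDiff ℝ ∞ (r i)) (i : ι) (j : Fin 3) (x : R3) :
    pd j (cut χ r i) x = pd j (cf χ) x * r i x + cf χ x * pd j (r i) x :=
  pd_mul ((smooth_cf h).differentiable (by simp) x) ((hr i).differentiable (by simp) x) j

omit [Fintype ι] in
lemma lap_cut {χ : R3 → ℝ} (h : ContDiff ℝ ∞ χ) {r : ι → R3 → ℂ}
    (hr : ∀ i, ContDiff ℝ ∞ (r i)) (i : ι) (x : R3) :
    Lap (cut χ r i) x = Lap (cf χ) x * r i x + 2 * ∑ j, pd j (cf χ) x * pd j (r i) x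
      + cf χ x * Lap (r i) x :=
  Lap_mul (smooth_cf h) (hr i) x

omit [Fintype ι] in
lemma tsupport_cut {χ : R3 → ℝ} (r : ι → R3 → ℂ) (i : ι) :
    tsupport (cut χ r i) ⊆ tsupport (cf χ) := tsupport_mul_subset_left

omit [Fintype ι] in
lemma cut_eq_near {χ : R3 → ℝ} {R : ℝ} (h1 : ∀ x ∈ BB R, χ x = 1) (r : ι → R3 → ℂ) (i : ι)
    {x : R3} (hx : x ∈ BB R) : cut χ r i =ᶠ[𝓝 x] r i := by
  filter_upwards [isOpen_ball.mem_nhds hx] with y hy
  have h2 : χ y = 1 := h1 y hy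
  change (χ y : ℂ) * r i y = r i y
  rw [h2]
  simp

/-! ### step A: the gradient -/

lemma energy_one' {u : R3 → ℂ} (hu : ContDiff ℝ ∞ u) (hc : HasCompactSupport u) :
    ∫ x, ∑ j, ‖pd j u x‖ ^ 2 ≤ ∫ x, ‖Lap u x * conj (u x)‖ := by
  have h := energy_one hu hc
  have h1 : ((∫ x, ∑ j, ‖pd j u x‖ ^ 2 : ℝ) : ℂ) = -∫ x, Lap u x * conj (u x) := by
    rw [← h, ← integral_complex_ofReal]
    congr 1
    funext x
    push_cast
    rfl
  have h2 : ‖((∫ x, ∑ j, ‖pd j u x‖ ^ 2 : ℝ) : ℂ)‖ ≤ ∫ x, ‖Lap u x * conj (u x)‖ := by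
    rw [h1, norm_neg]
    exact norm_integral_le_integral_norm _
  rw [Complex.norm_real] at h2
  exact (le_abs_self _).trans h2

set_option maxHeartbeats 800000 in
lemma stepA_pt (θ : Fin 3 → ℂ) {A : Fin 3 → ι → ι → R3 → ℂ} {B : ι → ι → R3 → ℂ}
    {χ : R3 → ℝ} (hχ : ContDiff ℝ ∞ χ) {x : R3} (h0 : 0 ≤ χ x) (h1 : χ x ≤ 1)
    {M K δ τ : ℝ} (hM0 : 0 ≤ M) (hMp : ∀ j, ‖pd j (cf χ) x‖ ≤ M) (hMl : ‖Lap (cf χ) x‖ ≤ M)
    (hK : 0 ≤ K) (hδ : 0 < δ) (hδK : δ * K * (Fintype.card ι : ℝ) ≤ 1 / 8) (hτ : 1 ≤ τ)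
    {r : ι → R3 → ℂ} (hr : ∀ i, ContDiff ℝ ∞ (r i))
    (hL : ∀ i, ‖Lap (r i) x‖ ^ 2 ≤ K * (‖ff θ A B τ r i x‖ ^ 2 + τ ^ 2 * (gr r x + rho r x))) :
    ∑ i, ‖Lap (cut χ r i) x * conj (cut χ r i x)‖ ≤ 1 / 2 * gr (cut χ r) x
      + (M + 26 * M ^ 2 + 1 + 1 / (4 * δ) + δ * K)
        * (τ ^ 2 * rho r x + FF θ A B τ r x / τ ^ 2) := by
  obtain ⟨c, hc⟩ : ∃ c : ℝ, c = χ x := ⟨_, rfl⟩
  obtain ⟨n, hn⟩ : ∃ n : ℝ, n = (Fintype.card ι : ℝ) := ⟨_, rfl⟩
  rw [← hn] at hδK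
  have hn0 : 0 ≤ n := by rw [hn]; positivity
  rw [← hc] at h0 h1
  have hτ0 : 0 < τ := by linarith
  have hτ2 : 1 ≤ τ ^ 2 := by nlinarith
  have ncf : ‖cf χ x‖ = c := by
    rw [hc, Complex.norm_real, Real.norm_of_nonneg (hc ▸ h0)]
  have hg0 := gr_nonneg r x
  have hr0 := rho_nonneg r x
  have hF0 := FF_nonneg θ A B τ r x
  -- comparison of the cut gradient
  have hcp : ∀ i j, (c * ‖pd j (r i) x‖) ^ 2 ≤ 2 * ‖pd j (cut χ r i) x‖ ^ 2
      + 2 * M ^ 2 * ‖r i x‖ ^ 2 := by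
    intro i j
    have e : cf χ x * pd j (r i) x = pd j (cut χ r i) x - pd j (cf χ) x * r i x := by
      rw [pd_cut hχ hr]
      ring
    have e1 : c * ‖pd j (r i) x‖ ≤ ‖pd j (cut χ r i) x‖ + M * ‖r i x‖ := by
      rw [← ncf, ← norm_mul, e]
      refine (norm_sub_le _ _).trans ?_
      rw [norm_mul]
      gcongr
      exact hMp j
    have e2 : 0 ≤ c * ‖pd j (r i) x‖ := by positivity
    calc (c * ‖pd j (r i) x‖) ^ 2 ≤ (‖pd j (cut χ r i) x‖ + M * ‖r i x‖) ^ 2 := by gcongr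
      _ ≤ 2 * ‖pd j (cut χ r i) x‖ ^ 2 + 2 * M ^ 2 * ‖r i x‖ ^ 2 := by
        nlinarith [sq_nonneg (‖pd j (cut χ r i) x‖ - M * ‖r i x‖)]
  have hcg : c ^ 2 * gr r x ≤ 2 * gr (cut χ r) x + 6 * M ^ 2 * rho r x := by
    have e1 : c ^ 2 * gr r x = ∑ i, ∑ j, (c * ‖pd j (r i) x‖) ^ 2 := by
      unfold gr
      rw [Finset.mul_sum]
      apply Finset.sum_congr rfl
      intro i _
      rw [Finset.mul_sum]
      apply Finset.sum_congr rfl
      intro j _
      ring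
    have e2 : 2 * gr (cut χ r) x + 6 * M ^ 2 * rho r x
        = ∑ i, ∑ j : Fin 3, (2 * ‖pd j (cut χ r i) x‖ ^ 2 + 2 * M ^ 2 * ‖r i x‖ ^ 2) := by
      unfold gr rho
      simp_rw [Finset.sum_add_distrib]
      rw [Finset.mul_sum, Finset.mul_sum]
      congr 1
      · apply Finset.sum_congr rfl
        intro i _
        rw [Finset.mul_sum]
      · apply Finset.sum_congr rfl
        intro i _
        rw [Finset.sum_const, Finset.card_univ, Fintype.card_fin, nsmul_eq_mul]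
        push_cast
        ring
    rw [e1, e2]
    exact Finset.sum_le_sum (fun i _ => Finset.sum_le_sum (fun j _ => hcp i j))
  -- the individual bound
  have hone : ∀ i, ‖Lap (cut χ r i) x * conj (cut χ r i x)‖ ≤
      (M + 24 * M ^ 2 + τ ^ 2 / (4 * δ)) * ‖r i x‖ ^ 2
        + 1 / 8 * ∑ j, (c * ‖pd j (r i) x‖) ^ 2
        + δ * K * (‖ff θ A B τ r i x‖ ^ 2 / τ ^ 2 + (c ^ 2 * gr r x + rho r x)) := by
    intro i
    have e1 : ‖cut χ r i x‖ = c * ‖r i x‖ := by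
      unfold cut
      rw [norm_mul, ncf]
    rw [norm_mul, RCLike.norm_conj, e1, lap_cut hχ hr]
    have e2 : ‖Lap (cf χ) x * r i x + 2 * ∑ j, pd j (cf χ) x * pd j (r i) x
        + cf χ x * Lap (r i) x‖ ≤ M * ‖r i x‖ + 2 * ∑ j, M * ‖pd j (r i) x‖
          + c * ‖Lap (r i) x‖ := by
      refine (norm_add_le _ _).trans ?_
      rw [norm_mul (cf χ x), ncf]
      refine add_le_add_left ((norm_add_le _ _).trans ?_) _
      rw [norm_mul, norm_mul]
      have : ‖(2 : ℂ)‖ = 2 := by norm_num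
      rw [this]
      refine add_le_add (mul_le_mul_of_nonneg_right hMl (norm_nonneg _)) ?_
      refine mul_le_mul_of_nonneg_left ?_ (by norm_num)
      refine (norm_sum_le _ _).trans (Finset.sum_le_sum (fun j _ => ?_))
      rw [norm_mul]
      exact mul_le_mul_of_nonneg_right (hMp j) (norm_nonneg _)
    have hcr : 0 ≤ c * ‖r i x‖ := by positivity
    have e3 := mul_le_mul_of_nonneg_right e2 hcr
    refine e3.trans ?_
    have s1 : M * ‖r i x‖ * (c * ‖r i x‖) ≤ M * ‖r i x‖ ^ 2 := by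
      have : M * ‖r i x‖ * (c * ‖r i x‖) = c * (M * ‖r i x‖ ^ 2) := by ring
      rw [this]
      exact mul_le_of_le_one_left (by positivity) h1
    have s2 : (2 * ∑ j, M * ‖pd j (r i) x‖) * (c * ‖r i x‖) ≤
        1 / 8 * ∑ j, (c * ‖pd j (r i) x‖) ^ 2 + 24 * M ^ 2 * ‖r i x‖ ^ 2 := by
      have l1 : (2 * ∑ j, M * ‖pd j (r i) x‖) * (c * ‖r i x‖)
          = ∑ j, 2 * (c * ‖pd j (r i) x‖) * (M * ‖r i x‖) := by
        rw [Finset.mul_sum, Finset.sum_mul]
        apply Finset.sum_congr rfl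
        intro j _
        ring
      have l2 : 1 / 8 * ∑ j, (c * ‖pd j (r i) x‖) ^ 2 + 24 * M ^ 2 * ‖r i x‖ ^ 2
          = ∑ j : Fin 3, (1 / 8 * (c * ‖pd j (r i) x‖) ^ 2 + 8 * (M * ‖r i x‖) ^ 2) := by
        rw [Finset.sum_add_distrib, ← Finset.mul_sum, Finset.sum_const, Finset.card_univ,
          Fintype.card_fin, nsmul_eq_mul]
        push_cast
        ring
      rw [l1, l2]
      apply Finset.sum_le_sum
      intro j _
      nlinarith [sq_nonneg (c * ‖pd j (r i) x‖ - 8 * (M * ‖r i x‖))]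
    have s3 : c * ‖Lap (r i) x‖ * (c * ‖r i x‖) ≤
        τ ^ 2 / (4 * δ) * ‖r i x‖ ^ 2
          + δ * K * (‖ff θ A B τ r i x‖ ^ 2 / τ ^ 2 + (c ^ 2 * gr r x + rho r x)) := by
      have q1 : c * ‖Lap (r i) x‖ * (c * ‖r i x‖) ≤
          δ / τ ^ 2 * (c * ‖Lap (r i) x‖) ^ 2 + τ ^ 2 / (4 * δ) * (c * ‖r i x‖) ^ 2 := by
        have hsd : 0 < Real.sqrt δ := Real.sqrt_pos.mpr hδ
        have hss : Real.sqrt δ ^ 2 = δ := Real.sq_sqrt hδ.le
        have := sq_nonneg (Real.sqrt δ / τ * (c * ‖Lap (r i) x‖)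
          - τ / (2 * Real.sqrt δ) * (c * ‖r i x‖))
        have q2 : (Real.sqrt δ / τ * (c * ‖Lap (r i) x‖)
          - τ / (2 * Real.sqrt δ) * (c * ‖r i x‖)) ^ 2
          = Real.sqrt δ ^ 2 / τ ^ 2 * (c * ‖Lap (r i) x‖) ^ 2
            + τ ^ 2 / (4 * Real.sqrt δ ^ 2) * (c * ‖r i x‖) ^ 2
            - c * ‖Lap (r i) x‖ * (c * ‖r i x‖) := by
          field_simp
          ring
        rw [q2, hss] at this
        linarith
      have q3 : (c * ‖r i x‖) ^ 2 ≤ ‖r i x‖ ^ 2 := by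
        have : c * ‖r i x‖ ≤ ‖r i x‖ := mul_le_of_le_one_left (norm_nonneg _) h1
        gcongr
      have q4 : δ / τ ^ 2 * (c * ‖Lap (r i) x‖) ^ 2 ≤
          δ * K * (‖ff θ A B τ r i x‖ ^ 2 / τ ^ 2 + (c ^ 2 * gr r x + rho r x)) := by
        have hc2 : c ^ 2 ≤ 1 := by nlinarith
        have w1 : (c * ‖Lap (r i) x‖) ^ 2 ≤
            K * (‖ff θ A B τ r i x‖ ^ 2 + τ ^ 2 * (c ^ 2 * gr r x + rho r x)) := by
          calc (c * ‖Lap (r i) x‖) ^ 2 = c ^ 2 * ‖Lap (r i) x‖ ^ 2 := by ring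
            _ ≤ c ^ 2 * (K * (‖ff θ A B τ r i x‖ ^ 2 + τ ^ 2 * (gr r x + rho r x))) := by
                gcongr
                exact hL i
            _ = K * (c ^ 2 * ‖ff θ A B τ r i x‖ ^ 2
                  + τ ^ 2 * (c ^ 2 * gr r x + c ^ 2 * rho r x)) := by ring
            _ ≤ K * (‖ff θ A B τ r i x‖ ^ 2 + τ ^ 2 * (c ^ 2 * gr r x + rho r x)) := by
                have z1 : c ^ 2 * ‖ff θ A B τ r i x‖ ^ 2 ≤ ‖ff θ A B τ r i x‖ ^ 2 :=
                  mul_le_of_le_one_left (by positivity) hc2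
                have z2 : c ^ 2 * rho r x ≤ rho r x := mul_le_of_le_one_left hr0 hc2
                gcongr
        calc δ / τ ^ 2 * (c * ‖Lap (r i) x‖) ^ 2
            ≤ δ / τ ^ 2 * (K * (‖ff θ A B τ r i x‖ ^ 2
                + τ ^ 2 * (c ^ 2 * gr r x + rho r x))) := by
              gcongr
          _ = δ * K * (‖ff θ A B τ r i x‖ ^ 2 / τ ^ 2 + (c ^ 2 * gr r x + rho r x)) := by
              field_simp
      have q5 : 0 ≤ τ ^ 2 / (4 * δ) := by positivity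
      have q6 := mul_le_mul_of_nonneg_left q3 q5
      linarith
    have expand : (M * ‖r i x‖ + 2 * ∑ j, M * ‖pd j (r i) x‖ + c * ‖Lap (r i) x‖)
          * (c * ‖r i x‖)
        = M * ‖r i x‖ * (c * ‖r i x‖) + (2 * ∑ j, M * ‖pd j (r i) x‖) * (c * ‖r i x‖)
          + c * ‖Lap (r i) x‖ * (c * ‖r i x‖) := by ring
    rw [expand]
    linarith
  refine (Finset.sum_le_sum (fun i _ => hone i)).trans ?_
  have hsum : ∑ i, ((M + 24 * M ^ 2 + τ ^ 2 / (4 * δ)) * ‖r i x‖ ^ 2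
        + 1 / 8 * ∑ j, (c * ‖pd j (r i) x‖) ^ 2
        + δ * K * (‖ff θ A B τ r i x‖ ^ 2 / τ ^ 2 + (c ^ 2 * gr r x + rho r x)))
      = (M + 24 * M ^ 2 + τ ^ 2 / (4 * δ)) * rho r x + 1 / 8 * (c ^ 2 * gr r x)
        + δ * K * (FF θ A B τ r x / τ ^ 2 + n * (c ^ 2 * gr r x + rho r x)) := by
    rw [Finset.sum_add_distrib, Finset.sum_add_distrib]
    congr 1
    · congr 1
      · unfold rho
        rw [Finset.mul_sum]
      · have : ∀ i, ∑ j, (c * ‖pd j (r i) x‖) ^ 2 = c ^ 2 * ∑ j, ‖pd j (r i) x‖ ^ 2 := by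
          intro i
          rw [Finset.mul_sum]
          apply Finset.sum_congr rfl
          intro j _
          ring
        simp_rw [this]
        unfold gr
        rw [← Finset.mul_sum, ← Finset.mul_sum]
    · rw [← Finset.mul_sum, Finset.sum_add_distrib, ← Finset.sum_div, Finset.sum_const,
        Finset.card_univ, nsmul_eq_mul, ← hn]
      rfl
  rw [hsum]
  have hcg0 : 0 ≤ c ^ 2 * gr r x := by positivity
  have f1 : δ * K * (n * (c ^ 2 * gr r x + rho r x)) ≤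
      1 / 8 * (c ^ 2 * gr r x + rho r x) := by
    have : δ * K * (n * (c ^ 2 * gr r x + rho r x))
        = δ * K * n * (c ^ 2 * gr r x + rho r x) := by ring
    rw [this]
    exact mul_le_mul_of_nonneg_right hδK (by positivity)
  have hFt : 0 ≤ FF θ A B τ r x / τ ^ 2 := by positivity
  have ht2 : rho r x ≤ τ ^ 2 * rho r x := le_mul_of_one_le_left hr0 hτ2
  have hdk : 0 ≤ δ * K := by positivity
  have hdi : 0 ≤ 1 / (4 * δ) := by positivity
  have g1 : τ ^ 2 / (4 * δ) * rho r x = 1 / (4 * δ) * (τ ^ 2 * rho r x) := by ring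
  have expand2 : (M + 26 * M ^ 2 + 1 + 1 / (4 * δ) + δ * K)
        * (τ ^ 2 * rho r x + FF θ A B τ r x / τ ^ 2)
      = M * (τ ^ 2 * rho r x) + 26 * M ^ 2 * (τ ^ 2 * rho r x) + τ ^ 2 * rho r x
        + 1 / (4 * δ) * (τ ^ 2 * rho r x) + δ * K * (τ ^ 2 * rho r x)
        + (M + 26 * M ^ 2 + 1 + 1 / (4 * δ)) * (FF θ A B τ r x / τ ^ 2)
        + δ * K * (FF θ A B τ r x / τ ^ 2) := by ring
  rw [expand2]
  have k1 : M * rho r x ≤ M * (τ ^ 2 * rho r x) := mul_le_mul_of_nonneg_left ht2 hM0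
  have hM2 : 0 ≤ M ^ 2 := by positivity
  have k2 : M ^ 2 * rho r x ≤ M ^ 2 * (τ ^ 2 * rho r x) := mul_le_mul_of_nonneg_left ht2 hM2
  have k3 : 0 ≤ (M + 26 * M ^ 2 + 1 + 1 / (4 * δ)) * (FF θ A B τ r x / τ ^ 2) := by positivity
  have k4 : 0 ≤ δ * K * (τ ^ 2 * rho r x) := by positivity
  have k5 : 0 ≤ M ^ 2 * rho r x := by positivity
  nlinarith

lemma continuous_lapconj {u : R3 → ℂ} (hu : ContDiff ℝ ∞ u) :
    Continuous (fun x => ‖Lap u x * conj (u x)‖) :=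
  ((smooth_Lap hu).continuous.mul (smooth_conj hu).continuous).norm

lemma stepA (θ : Fin 3 → ℂ) {A : Fin 3 → ι → ι → R3 → ℂ} {B : ι → ι → R3 → ℂ}
    (hA : ∀ j i l, ContDiff ℝ ∞ (A j i l)) (hB : ∀ i l, ContDiff ℝ ∞ (B i l)) {R₁ R₂ : ℝ}
    (h0 : 0 < R₁) (h12 : R₁ < R₂) :
    ∃ C : ℝ, 0 ≤ C ∧ ∀ τ : ℝ, 1 ≤ τ → ∀ r : ι → R3 → ℂ, (∀ i, ContDiff ℝ ∞ (r i)) →
      ∫ x in BB R₁, gr r x ≤ C * (τ ^ 2 * (∫ x in BB R₂, rho r x)
        + (∫ x in BB R₂, FF θ A B τ r x) / τ ^ 2) := by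
  obtain ⟨χ, hχ, hc0, hc1, hone, hts, hcs⟩ := exists_cutoff h0 h12
  obtain ⟨K, hK, hLap⟩ := lap_bound θ hA hB R₂
  obtain ⟨M1, hM10, hM1⟩ := exists_bound_fam (f := fun j => pd j (cf χ))
    (fun j => (smooth_pd (smooth_cf hχ) j).continuous) R₂
  obtain ⟨M2, hM20, hM2⟩ := exists_bound (smooth_Lap (smooth_cf hχ)).continuous R₂
  obtain ⟨δ, hδ, hδK⟩ : ∃ δ : ℝ, 0 < δ ∧ δ * K * (Fintype.card ι : ℝ) ≤ 1 / 8 := by
    refine ⟨1 / (8 * (K * (Fintype.card ι : ℝ) + 1)), by positivity, ?_⟩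
    have hp : 0 < K * (Fintype.card ι : ℝ) + 1 := by positivity
    rw [mul_assoc, div_mul_eq_mul_div, one_mul, div_le_iff₀ (by positivity)]
    nlinarith
  have hCA : 0 ≤ max M1 M2 + 26 * (max M1 M2) ^ 2 + 1 + 1 / (4 * δ) + δ * K := by
    have : 0 ≤ max M1 M2 := le_max_of_le_left hM10
    positivity
  obtain ⟨CA, hCAe⟩ : ∃ CA : ℝ,
    CA = max M1 M2 + 26 * (max M1 M2) ^ 2 + 1 + 1 / (4 * δ) + δ * K := ⟨_, rfl⟩
  refine ⟨2 * CA, by rw [hCAe]; positivity, ?_⟩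
  intro τ hτ r hr
  have hτ0 : 0 < τ := by linarith
  have hu : ∀ i, ContDiff ℝ ∞ (cut χ r i) := smooth_cut hχ hr
  have hcu : ∀ i, HasCompactSupport (cut χ r i) := cs_cut hcs r
  -- total gradient energy of the cut field
  have hgi : ∀ i, Integrable (fun x => ∑ j, ‖pd j (cut χ r i) x‖ ^ 2) := by
    intro i
    apply Continuous.integrable_of_hasCompactSupport
    · exact continuous_finsetSum _ (fun j _ => (smooth_pd (hu i) j).continuous.norm.pow 2)
    · apply HasCompactSupport.of_support_subset_isCompact (hcu i)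
      intro x hx
      by_contra hcon
      apply hx
      simp only
      apply Finset.sum_eq_zero
      intro j _
      rw [pd_eq_zero_of_notMem_tsupport hcon]
      simp
  have hli : ∀ i, Integrable (fun x => ‖Lap (cut χ r i) x * conj (cut χ r i x)‖) := by
    intro i
    apply Continuous.integrable_of_hasCompactSupport (continuous_lapconj (hu i))
    apply HasCompactSupport.norm
    apply HasCompactSupport.mul_left
    exact (hcu i).comp_left (g := fun z : ℂ => conj z) (by simp)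
  have e1 : ∫ x, gr (cut χ r) x ≤ ∫ x, ∑ i, ‖Lap (cut χ r i) x * conj (cut χ r i x)‖ := by
    unfold gr
    rw [integral_finsetSum _ (fun i _ => hgi i), integral_finsetSum _ (fun i _ => hli i)]
    exact Finset.sum_le_sum (fun i _ => energy_one' (hu i) (hcu i))
  have hgint : Integrable (gr (cut χ r)) := integrable_finsetSum _ (fun i _ => hgi i)
  have e2 : ∫ x, ∑ i, ‖Lap (cut χ r i) x * conj (cut χ r i x)‖
      = ∫ x in BB R₂, ∑ i, ‖Lap (cut χ r i) x * conj (cut χ r i x)‖ := by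
    symm
    apply setIntegral_eq_integral_of_forall_compl_eq_zero
    intro x hx
    apply Finset.sum_eq_zero
    intro i _
    have : cut χ r i x = 0 := by
      by_contra hcon
      exact hx (hts x (tsupport_cut r i (subset_tsupport _ hcon)))
    rw [this]
    simp
  have e3 : ∫ x in BB R₂, ∑ i, ‖Lap (cut χ r i) x * conj (cut χ r i x)‖
      ≤ ∫ x in BB R₂, (1 / 2 * gr (cut χ r) x
        + CA * (τ ^ 2 * rho r x + FF θ A B τ r x / τ ^ 2)) := by
    apply int_mono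
    · exact continuous_finsetSum _ (fun i _ => continuous_lapconj (hu i))
    · exact (continuous_const.mul (continuous_gr hu)).add (continuous_const.mul
        ((continuous_const.mul (continuous_rho hr)).add
          ((continuous_FF θ hA hB τ hr).div_const _)))
    · intro x hx
      have hx' := ball_subset_closedBall hx
      rw [hCAe]
      exact stepA_pt θ hχ (hc0 x) (hc1 x) (le_max_of_le_left hM10)
        (fun j => (hM1 j x hx').trans (le_max_left _ _))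
        ((hM2 x hx').trans (le_max_right _ _)) hK hδ hδK hτ hr
        (fun i => hLap τ hτ r i x hx')
  have e4 : ∫ x in BB R₂, (1 / 2 * gr (cut χ r) x
        + CA * (τ ^ 2 * rho r x + FF θ A B τ r x / τ ^ 2))
      = 1 / 2 * (∫ x in BB R₂, gr (cut χ r) x) + CA * (τ ^ 2 * (∫ x in BB R₂, rho r x)
        + (∫ x in BB R₂, FF θ A B τ r x) / τ ^ 2) := by
    have i1 : IntegrableOn (fun x => 1 / 2 * gr (cut χ r) x) (BB R₂) :=
      intOn (continuous_const.mul (continuous_gr hu)) R₂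
    have i2 : IntegrableOn (fun x => τ ^ 2 * rho r x) (BB R₂) :=
      intOn (continuous_const.mul (continuous_rho hr)) R₂
    have i3 : IntegrableOn (fun x => FF θ A B τ r x / τ ^ 2) (BB R₂) :=
      intOn ((continuous_FF θ hA hB τ hr).div_const _) R₂
    have i4 : IntegrableOn (fun x => CA * (τ ^ 2 * rho r x + FF θ A B τ r x / τ ^ 2))
        (BB R₂) := (i2.add i3).const_mul CA
    rw [integral_add i1 i4, integral_const_mul, integral_const_mul, integral_add i2 i3,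
      integral_const_mul, integral_div]
  have e5 : ∫ x in BB R₂, gr (cut χ r) x ≤ ∫ x, gr (cut χ r) x :=
    setIntegral_le_integral hgint (ae_of_all _ (gr_nonneg _))
  have e6 : ∫ x in BB R₁, gr r x ≤ ∫ x, gr (cut χ r) x := by
    have : ∫ x in BB R₁, gr r x = ∫ x in BB R₁, gr (cut χ r) x := by
      apply setIntegral_congr_fun measurableSet_ball
      intro x hx
      unfold gr
      apply Finset.sum_congr rfl
      intro i _
      apply Finset.sum_congr rfl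
      intro j _
      rw [pd_congr (cut_eq_near hone r i hx)]
    rw [this]
    exact setIntegral_le_integral hgint (ae_of_all _ (gr_nonneg _))
  rw [e2] at e1
  rw [e4] at e3
  linarith

/-! ### step B: the second derivatives -/

lemma stepB_pt (θ : Fin 3 → ℂ) {A : Fin 3 → ι → ι → R3 → ℂ} {B : ι → ι → R3 → ℂ}
    {χ : R3 → ℝ} (hχ : ContDiff ℝ ∞ χ) {x : R3} (h0 : 0 ≤ χ x) (h1 : χ x ≤ 1)
    {M K τ : ℝ} (hMp : ∀ j, ‖pd j (cf χ) x‖ ≤ M) (hMl : ‖Lap (cf χ) x‖ ≤ M)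
    (hK : 0 ≤ K) (hτ : 1 ≤ τ)
    {r : ι → R3 → ℂ} (hr : ∀ i, ContDiff ℝ ∞ (r i))
    (hL : ∀ i, ‖Lap (r i) x‖ ^ 2 ≤ K * (‖ff θ A B τ r i x‖ ^ 2 + τ ^ 2 * (gr r x + rho r x))) :
    ∑ i, ‖Lap (cut χ r i) x‖ ^ 2 ≤ (36 * M ^ 2 + 3 * K + 3 * K * (Fintype.card ι : ℝ))
        * (FF θ A B τ r x + τ ^ 2 * (gr r x + rho r x)) := by
  have hτ2 : 1 ≤ τ ^ 2 := by nlinarith
  have hg0 := gr_nonneg r x
  have hr0 := rho_nonneg r x
  have hF0 := FF_nonneg θ A B τ r x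
  have ncf : ‖cf χ x‖ ≤ 1 := by
    rw [Complex.norm_real, Real.norm_of_nonneg h0]
    exact h1
  have hone : ∀ i, ‖Lap (cut χ r i) x‖ ^ 2 ≤ 3 * M ^ 2 * ‖r i x‖ ^ 2
      + 36 * M ^ 2 * ∑ j, ‖pd j (r i) x‖ ^ 2
      + 3 * (K * (‖ff θ A B τ r i x‖ ^ 2 + τ ^ 2 * (gr r x + rho r x))) := by
    intro i
    have e2 : ‖Lap (cut χ r i) x‖ ≤ M * ‖r i x‖ + 2 * (M * ∑ j, ‖pd j (r i) x‖)
        + ‖Lap (r i) x‖ := by
      rw [lap_cut hχ hr]
      refine (norm_add_le _ _).trans (add_le_add ((norm_add_le _ _).trans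
        (add_le_add ?_ ?_)) ?_)
      · rw [norm_mul]
        exact mul_le_mul_of_nonneg_right hMl (norm_nonneg _)
      · rw [norm_mul]
        have : ‖(2 : ℂ)‖ = 2 := by norm_num
        rw [this]
        refine mul_le_mul_of_nonneg_left ?_ (by norm_num)
        rw [Finset.mul_sum]
        refine (norm_sum_le _ _).trans (Finset.sum_le_sum (fun j _ => ?_))
        rw [norm_mul]
        exact mul_le_mul_of_nonneg_right (hMp j) (norm_nonneg _)
      · rw [norm_mul]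
        exact mul_le_of_le_one_left (norm_nonneg _) ncf
    have e3 : (∑ j, ‖pd j (r i) x‖) ^ 2 ≤ 3 * ∑ j, ‖pd j (r i) x‖ ^ 2 := by
      have := sq_sum_le_card_mul_sum_sq (s := (Finset.univ : Finset (Fin 3)))
        (f := fun j => ‖pd j (r i) x‖)
      simpa using this
    have e4 : ∀ a b c : ℝ, (a + b + c) ^ 2 ≤ 3 * a ^ 2 + 3 * b ^ 2 + 3 * c ^ 2 := by
      intro a b c
      nlinarith [sq_nonneg (a - b), sq_nonneg (b - c), sq_nonneg (a - c)]
    calc ‖Lap (cut χ r i) x‖ ^ 2 ≤ (M * ‖r i x‖ + 2 * (M * ∑ j, ‖pd j (r i) x‖)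
        + ‖Lap (r i) x‖) ^ 2 := by gcongr
      _ ≤ 3 * (M * ‖r i x‖) ^ 2 + 3 * (2 * (M * ∑ j, ‖pd j (r i) x‖)) ^ 2
          + 3 * ‖Lap (r i) x‖ ^ 2 := e4 _ _ _
      _ = 3 * M ^ 2 * ‖r i x‖ ^ 2 + 12 * M ^ 2 * (∑ j, ‖pd j (r i) x‖) ^ 2
          + 3 * ‖Lap (r i) x‖ ^ 2 := by ring
      _ ≤ 3 * M ^ 2 * ‖r i x‖ ^ 2 + 12 * M ^ 2 * (3 * ∑ j, ‖pd j (r i) x‖ ^ 2)
          + 3 * (K * (‖ff θ A B τ r i x‖ ^ 2 + τ ^ 2 * (gr r x + rho r x))) := by
        gcongr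
        exact hL i
      _ = _ := by ring
  refine (Finset.sum_le_sum (fun i _ => hone i)).trans ?_
  have hsum : ∑ i, (3 * M ^ 2 * ‖r i x‖ ^ 2 + 36 * M ^ 2 * ∑ j, ‖pd j (r i) x‖ ^ 2
      + 3 * (K * (‖ff θ A B τ r i x‖ ^ 2 + τ ^ 2 * (gr r x + rho r x))))
      = 3 * M ^ 2 * rho r x + 36 * M ^ 2 * gr r x
        + 3 * (K * (FF θ A B τ r x + (Fintype.card ι : ℝ) * (τ ^ 2 * (gr r x + rho r x)))) := by
    rw [Finset.sum_add_distrib, Finset.sum_add_distrib, ← Finset.mul_sum, ← Finset.mul_sum,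
      ← Finset.mul_sum, ← Finset.mul_sum, Finset.sum_add_distrib, Finset.sum_const,
      Finset.card_univ, nsmul_eq_mul]
    rfl
  rw [hsum]
  have hM2 : 0 ≤ M ^ 2 := by positivity
  have t0 : gr r x + rho r x ≤ τ ^ 2 * (gr r x + rho r x) :=
    le_mul_of_one_le_left (by positivity) hτ2
  have t1 : M ^ 2 * (gr r x + rho r x) ≤ M ^ 2 * (τ ^ 2 * (gr r x + rho r x)) :=
    mul_le_mul_of_nonneg_left t0 hM2
  have t2 : 0 ≤ M ^ 2 * rho r x := by positivity
  have t3 : 0 ≤ M ^ 2 * FF θ A B τ r x := by positivity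
  have hn : (0 : ℝ) ≤ (Fintype.card ι : ℝ) := by positivity
  have t4 : 0 ≤ K * (Fintype.card ι : ℝ) * FF θ A B τ r x := by positivity
  have t5 : 0 ≤ K * (τ ^ 2 * (gr r x + rho r x)) := by positivity
  nlinarith

lemma stepB (θ : Fin 3 → ℂ) {A : Fin 3 → ι → ι → R3 → ℂ} {B : ι → ι → R3 → ℂ}
    (hA : ∀ j i l, ContDiff ℝ ∞ (A j i l)) (hB : ∀ i l, ContDiff ℝ ∞ (B i l)) {R₁ R₂ : ℝ}
    (h0 : 0 < R₁) (h12 : R₁ < R₂) :
    ∃ C : ℝ, 0 ≤ C ∧ ∀ τ : ℝ, 1 ≤ τ → ∀ r : ι → R3 → ℂ, (∀ i, ContDiff ℝ ∞ (r i)) →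
      ∫ x in BB R₁, he r x ≤ C * ((∫ x in BB R₂, FF θ A B τ r x)
        + τ ^ 2 * ((∫ x in BB R₂, gr r x) + (∫ x in BB R₂, rho r x))) := by
  obtain ⟨χ, hχ, hc0, hc1, hone, hts, hcs⟩ := exists_cutoff h0 h12
  obtain ⟨K, hK, hLap⟩ := lap_bound θ hA hB R₂
  obtain ⟨M1, hM10, hM1⟩ := exists_bound_fam (f := fun j => pd j (cf χ))
    (fun j => (smooth_pd (smooth_cf hχ) j).continuous) R₂
  obtain ⟨M2, hM20, hM2⟩ := exists_bound (smooth_Lap (smooth_cf hχ)).continuous R₂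
  obtain ⟨CB, hCBe⟩ : ∃ CB : ℝ,
    CB = 36 * (max M1 M2) ^ 2 + 3 * K + 3 * K * (Fintype.card ι : ℝ) := ⟨_, rfl⟩
  refine ⟨CB, by rw [hCBe]; positivity, ?_⟩
  intro τ hτ r hr
  have hu : ∀ i, ContDiff ℝ ∞ (cut χ r i) := smooth_cut hχ hr
  have hcu : ∀ i, HasCompactSupport (cut χ r i) := cs_cut hcs r
  have hpz : ∀ i x, x ∉ tsupport (cut χ r i) → ∀ j k, pd j (pd k (cut χ r i)) x = 0 := by
    intro i x hx j k
    have h1 : cut χ r i =ᶠ[𝓝 x] (fun _ => 0) := notMem_tsupport_iff_eventuallyEq.mp hx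
    have h2 : pd k (cut χ r i) =ᶠ[𝓝 x] (fun _ => 0) := by
      filter_upwards [h1.eventuallyEq_nhds] with y hy
      rw [pd_congr hy, pd_const]
    rw [pd_congr h2, pd_const]
  have hhi : ∀ i, Integrable (fun x => ∑ j, ∑ k, ‖pd j (pd k (cut χ r i)) x‖ ^ 2) := by
    intro i
    apply Continuous.integrable_of_hasCompactSupport
    · exact continuous_finsetSum _ (fun j _ => continuous_finsetSum _ (fun k _ =>
        (smooth_pd (smooth_pd (hu i) k) j).continuous.norm.pow 2))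
    · apply HasCompactSupport.of_support_subset_isCompact (hcu i)
      intro x hx
      by_contra hcon
      apply hx
      simp only
      apply Finset.sum_eq_zero
      intro j _
      apply Finset.sum_eq_zero
      intro k _
      rw [hpz i x hcon]
      simp
  have hlz : ∀ i x, x ∉ tsupport (cut χ r i) → Lap (cut χ r i) x = 0 := by
    intro i x hx
    unfold Lap
    exact Finset.sum_eq_zero (fun j _ => hpz i x hx j j)
  have hli : ∀ i, Integrable (fun x => ‖Lap (cut χ r i) x‖ ^ 2) := by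
    intro i
    apply Continuous.integrable_of_hasCompactSupport
    · exact (smooth_Lap (hu i)).continuous.norm.pow 2
    · apply HasCompactSupport.of_support_subset_isCompact (hcu i)
      intro x hx
      by_contra hcon
      apply hx
      simp only
      rw [hlz i x hcon]
      simp
  have hhint : Integrable (he (cut χ r)) := integrable_finsetSum _ (fun i _ => hhi i)
  have e1 : ∫ x, he (cut χ r) x = ∫ x, ∑ i, ‖Lap (cut χ r i) x‖ ^ 2 := by
    unfold he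
    rw [integral_finsetSum _ (fun i _ => hhi i), integral_finsetSum _ (fun i _ => hli i)]
    exact Finset.sum_congr rfl (fun i _ => energy_two (hu i) (hcu i))
  have e2 : ∫ x, ∑ i, ‖Lap (cut χ r i) x‖ ^ 2
      = ∫ x in BB R₂, ∑ i, ‖Lap (cut χ r i) x‖ ^ 2 := by
    symm
    apply setIntegral_eq_integral_of_forall_compl_eq_zero
    intro x hx
    apply Finset.sum_eq_zero
    intro i _
    rw [hlz i x (fun hcon => hx (hts x (tsupport_cut r i hcon)))]
    simp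
  have e3 : ∫ x in BB R₂, ∑ i, ‖Lap (cut χ r i) x‖ ^ 2
      ≤ ∫ x in BB R₂, CB * (FF θ A B τ r x + τ ^ 2 * (gr r x + rho r x)) := by
    apply int_mono
    · exact continuous_finsetSum _ (fun i _ => (smooth_Lap (hu i)).continuous.norm.pow 2)
    · exact continuous_const.mul ((continuous_FF θ hA hB τ hr).add (continuous_const.mul
        ((continuous_gr hr).add (continuous_rho hr))))
    · intro x hx
      have hx' := ball_subset_closedBall hx
      rw [hCBe]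
      exact stepB_pt θ hχ (hc0 x) (hc1 x)
        (fun j => (hM1 j x hx').trans (le_max_left _ _))
        ((hM2 x hx').trans (le_max_right _ _)) hK hτ hr
        (fun i => hLap τ hτ r i x hx')
  have e4 : ∫ x in BB R₂, CB * (FF θ A B τ r x + τ ^ 2 * (gr r x + rho r x))
      = CB * ((∫ x in BB R₂, FF θ A B τ r x)
        + τ ^ 2 * ((∫ x in BB R₂, gr r x) + (∫ x in BB R₂, rho r x))) := by
    have i1 : IntegrableOn (FF θ A B τ r) (BB R₂) := intOn (continuous_FF θ hA hB τ hr) R₂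
    have i2 : IntegrableOn (gr r) (BB R₂) := intOn (continuous_gr hr) R₂
    have i3 : IntegrableOn (rho r) (BB R₂) := intOn (continuous_rho hr) R₂
    have i4 : IntegrableOn (fun x => τ ^ 2 * (gr r x + rho r x)) (BB R₂) :=
      (i2.add i3).const_mul _
    rw [integral_const_mul, integral_add i1 i4, integral_const_mul, integral_add i2 i3]
  have e6 : ∫ x in BB R₁, he r x ≤ ∫ x, he (cut χ r) x := by
    have : ∫ x in BB R₁, he r x = ∫ x in BB R₁, he (cut χ r) x := by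
      apply setIntegral_congr_fun measurableSet_ball
      intro x hx
      unfold he
      apply Finset.sum_congr rfl
      intro i _
      apply Finset.sum_congr rfl
      intro j _
      apply Finset.sum_congr rfl
      intro k _
      have h2 : pd k (cut χ r i) =ᶠ[𝓝 x] pd k (r i) := by
        filter_upwards [(cut_eq_near hone r i hx).eventuallyEq_nhds] with y hy
        exact pd_congr hy k
      rw [pd_congr h2]
    rw [this]
    exact setIntegral_le_integral hhint (ae_of_all _ (he_nonneg _))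
  rw [e1, e2] at e6
  rw [e4] at e3
  exact e6.trans e3

/-! ### the theorems -/

lemma H2sq_eq {r : ι → R3 → ℂ} (hr : ∀ i, ContDiff ℝ ∞ (r i)) (R : ℝ) :
    H2sq (BB R) r = (∫ x in BB R, rho r x) + (∫ x in BB R, gr r x) + ∫ x in BB R, he r x := by
  have i1 : IntegrableOn (rho r) (BB R) := intOn (continuous_rho hr) R
  have i2 : IntegrableOn (gr r) (BB R) := intOn (continuous_gr hr) R
  have i3 : IntegrableOn (he r) (BB R) := intOn (continuous_he hr) R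
  have i4 : IntegrableOn (fun x => rho r x + gr r x) (BB R) := i1.add i2
  rw [← integral_add i1 i2, ← integral_add i4 i3]
  unfold H2sq rho gr he
  apply setIntegral_congr_fun measurableSet_ball
  intro x _
  simp only [Finset.sum_add_distrib]

end Crest.Agent.R080.Interior

namespace Crest.Agent.R080

open Crest.Agent.R080.Interior

/-- T10: interior `H²` estimate -/
theorem t_Interior : StmtInterior := by
  intro ι _ _ θ A B hA hB R R' hRR'
  by_cases hR' : R' ≤ 0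
  · refine ⟨1, one_pos, ?_⟩
    intro τ hτ r hr
    have hR : R ≤ 0 := by linarith
    have h1 : (ball (0 : R3) R) = ∅ := ball_eq_empty.mpr hR
    have h2 : (ball (0 : R3) R') = ∅ := ball_eq_empty.mpr hR'
    unfold H2sq
    rw [h1, h2]
    simp
  · push Not at hR'
    have hR0 : max R 0 < R' := max_lt hRR' hR'
    have hz : 0 ≤ max R 0 := le_max_right _ _
    have hRz : R ≤ max R 0 := le_max_left _ _
    obtain ⟨Ra, hRa⟩ : ∃ Ra : ℝ, Ra = (2 * max R 0 + R') / 3 := ⟨_, rfl⟩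
    obtain ⟨Rb, hRb⟩ : ∃ Rb : ℝ, Rb = (max R 0 + 2 * R') / 3 := ⟨_, rfl⟩
    have ha0 : 0 < Ra := by rw [hRa]; linarith
    have hb0 : 0 < Rb := by rw [hRb]; linarith
    have hab : Ra < Rb := by rw [hRa, hRb]; linarith
    have hbR : Rb < R' := by rw [hRb]; linarith
    have hRRa : R ≤ Ra := by rw [hRa]; linarith
    obtain ⟨CA, hCA0, hCA⟩ := stepA θ hA hB hb0 hbR
    obtain ⟨CB, hCB0, hCB⟩ := stepB θ hA hB ha0 hab
    refine ⟨1 + (1 + CB) * CA + CB, by positivity, ?_⟩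
    intro τ hτ r hr
    have hτ0 : 0 < τ := by linarith
    have hτ2 : 1 ≤ τ ^ 2 := by nlinarith
    have hτ4 : τ ^ 2 ≤ τ ^ 4 := by nlinarith
    have hA1 := hCA τ hτ r hr
    have hB1 := hCB τ hτ r hr
    have cr := continuous_rho hr
    have cg := continuous_gr hr
    have ch := continuous_he hr
    have cF := continuous_FF θ hA hB τ hr
    have m1 : ∫ x in BB R, rho r x ≤ ∫ x in BB R', rho r x :=
      int_mono_set cr (rho_nonneg r) hRR'.le
    have m2 : ∫ x in BB R, gr r x ≤ ∫ x in BB Rb, gr r x :=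
      int_mono_set cg (gr_nonneg r) (hRRa.trans hab.le)
    have m3 : ∫ x in BB R, he r x ≤ ∫ x in BB Ra, he r x :=
      int_mono_set ch (he_nonneg r) hRRa
    have m4 : ∫ x in BB Rb, FF θ A B τ r x ≤ ∫ x in BB R', FF θ A B τ r x :=
      int_mono_set cF (FF_nonneg θ A B τ r) hbR.le
    have m5 : ∫ x in BB Rb, rho r x ≤ ∫ x in BB R', rho r x :=
      int_mono_set cr (rho_nonneg r) hbR.le
    have n1 : 0 ≤ ∫ x in BB R', rho r x := int_nonneg (rho_nonneg r) R'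
    have n2 : 0 ≤ ∫ x in BB R', FF θ A B τ r x := int_nonneg (FF_nonneg θ A B τ r) R'
    have n3 : 0 ≤ ∫ x in BB Rb, gr r x := int_nonneg (gr_nonneg r) Rb
    have hH := H2sq_eq hr R
    change H2sq (BB R) r ≤ (1 + (1 + CB) * CA + CB) *
      (τ ^ 4 * (∫ x in BB R', rho r x) + ∫ x in BB R', FF θ A B τ r x)
    rw [hH]
    obtain ⟨P, hP⟩ : ∃ P, P = ∫ x in BB R', rho r x := ⟨_, rfl⟩
    obtain ⟨F, hF⟩ : ∃ F, F = ∫ x in BB R', FF θ A B τ r x := ⟨_, rfl⟩
    obtain ⟨G, hG⟩ : ∃ G, G = ∫ x in BB Rb, gr r x := ⟨_, rfl⟩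
    rw [← hP] at hA1 m1 m5 n1 ⊢
    rw [← hF] at hA1 m4 n2 ⊢
    rw [← hG] at hA1 hB1 m2 n3
    have k1 : τ ^ 2 * G ≤ CA * (τ ^ 4 * P + F) := by
      calc τ ^ 2 * G ≤ τ ^ 2 * (CA * (τ ^ 2 * P + F / τ ^ 2)) := by gcongr
        _ = CA * (τ ^ 4 * P + F) := by
            field_simp
    have k2 : G ≤ τ ^ 2 * G := le_mul_of_one_le_left n3 hτ2
    have k3 : ∫ x in BB Ra, he r x ≤ CB * (F + τ ^ 2 * (G + P)) := by
      refine hB1.trans ?_
      gcongr
    have k4 : P ≤ τ ^ 4 * P := le_mul_of_one_le_left n1 (hτ2.trans hτ4)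
    have k5 : τ ^ 2 * P ≤ τ ^ 4 * P := mul_le_mul_of_nonneg_right hτ4 n1
    have k6 : (1 + CB) * (τ ^ 2 * G) ≤ (1 + CB) * (CA * (τ ^ 4 * P + F)) :=
      mul_le_mul_of_nonneg_left k1 (by positivity)
    have k7 : CB * (τ ^ 2 * P) ≤ CB * (τ ^ 4 * P) := mul_le_mul_of_nonneg_left k5 hCB0
    nlinarith

/-- T10: approximate right inverse with `H²` bounds -/
theorem t_RI3D (h1 : StmtL2Solve) (h2 : StmtInterior) : StmtRI3D := by
  intro ι _ _ θ hθ A B hA hB R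
  obtain ⟨C1, τ1, hC1, hτ1, hL⟩ := h1 ι θ hθ A B hA hB (R + 1)
  obtain ⟨C2, hC2, hI⟩ := h2 ι θ A B hA hB R (R + 1) (by linarith)
  refine ⟨C2 * (C1 ^ 2 + 4) + 1, max τ1 1, by positivity, by positivity, ?_⟩
  intro τ hτ f hf hfc ε hε
  have hτ1' : τ1 ≤ τ := (le_max_left _ _).trans hτ
  have hτ1'' : 1 ≤ τ := (le_max_right _ _).trans hτ
  have hτ0 : 0 < τ := by linarith
  have hfint : Integrable (fun x => ∑ i, ‖f i x‖ ^ 2) := by
    apply integrable_finsetSum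
    intro i _
    apply Continuous.integrable_of_hasCompactSupport
    · exact (hf i).continuous.norm.pow 2
    · exact (hfc i).comp_left (g := fun z : ℂ => ‖z‖ ^ 2) (by simp)
  have hf0 : ∀ x, 0 ≤ ∑ i, ‖f i x‖ ^ 2 := fun x => Finset.sum_nonneg (fun _ _ => by positivity)
  have hN0 : 0 ≤ ∫ x, ∑ i, ‖f i x‖ ^ 2 := integral_nonneg hf0
  rcases hN0.lt_or_eq with hN | hN
  · obtain ⟨r, hr, hres, hnorm⟩ := hL τ hτ1' f hf hfc (min ε (∫ x, ∑ i, ‖f i x‖ ^ 2))
      (lt_min hε hN)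
    have cres : Continuous (fun x => ∑ i, ‖P0 A B r i x + τ * M0 θ A r i x - f i x‖ ^ 2) :=
      continuous_finsetSum _ (fun i _ =>
        ((smooth_ff θ hA hB τ hr i).continuous.sub (hf i).continuous).norm.pow 2)
    have cf2 : Continuous (fun x => ∑ i, ‖f i x‖ ^ 2) :=
      continuous_finsetSum _ (fun i _ => (hf i).continuous.norm.pow 2)
    refine ⟨r, hr, ?_, ?_⟩
    · refine (int_mono_set cres (fun x => Finset.sum_nonneg (fun _ _ => by positivity))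
        (by linarith : R ≤ R + 1)).trans (hres.trans (min_le_left _ _))
    · have hI1 := hI τ hτ1'' r hr
      have e1 : ∫ x in ball (0 : R3) (R + 1), ∑ i, ‖P0 A B r i x + τ * M0 θ A r i x‖ ^ 2
          ≤ 4 * ∫ x, ∑ i, ‖f i x‖ ^ 2 := by
        have e2 : ∫ x in ball (0 : R3) (R + 1), ∑ i, ‖P0 A B r i x + τ * M0 θ A r i x‖ ^ 2
            ≤ ∫ x in ball (0 : R3) (R + 1),
              (2 * (∑ i, ‖P0 A B r i x + τ * M0 θ A r i x - f i x‖ ^ 2)
                + 2 * ∑ i, ‖f i x‖ ^ 2) := by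
          apply int_mono (continuous_FF θ hA hB τ hr)
            ((continuous_const.mul cres).add (continuous_const.mul cf2))
          intro x _
          change FF θ A B τ r x ≤
              (2 * (∑ i, ‖P0 A B r i x + τ * M0 θ A r i x - f i x‖ ^ 2)
                + 2 * ∑ i, ‖f i x‖ ^ 2)
          unfold FF
          rw [Finset.mul_sum, Finset.mul_sum, ← Finset.sum_add_distrib]
          apply Finset.sum_le_sum
          intro i _
          have t1 : ‖ff θ A B τ r i x‖ ≤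
              ‖P0 A B r i x + τ * M0 θ A r i x - f i x‖ + ‖f i x‖ := by
            have : ff θ A B τ r i x = (P0 A B r i x + τ * M0 θ A r i x - f i x) + f i x := by
              unfold ff
              ring
            rw [this]
            exact norm_add_le _ _
          calc ‖ff θ A B τ r i x‖ ^ 2
              ≤ (‖P0 A B r i x + τ * M0 θ A r i x - f i x‖ + ‖f i x‖) ^ 2 := by gcongr
            _ ≤ _ := by
              nlinarith [sq_nonneg (‖P0 A B r i x + τ * M0 θ A r i x - f i x‖ - ‖f i x‖)]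
        have i1 : IntegrableOn (fun x => 2 * (∑ i, ‖P0 A B r i x + τ * M0 θ A r i x
            - f i x‖ ^ 2)) (ball (0 : R3) (R + 1)) := intOn (continuous_const.mul cres) _
        have i2 : IntegrableOn (fun x => 2 * ∑ i, ‖f i x‖ ^ 2) (ball (0 : R3) (R + 1)) :=
          intOn (continuous_const.mul cf2) _
        rw [integral_add i1 i2, integral_const_mul, integral_const_mul] at e2
        have e3 : ∫ x in ball (0 : R3) (R + 1), ∑ i, ‖f i x‖ ^ 2 ≤ ∫ x, ∑ i, ‖f i x‖ ^ 2 :=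
          setIntegral_le_integral hfint (ae_of_all _ hf0)
        have e4 := hres.trans (min_le_right _ _)
        linarith
      obtain ⟨N, hNe⟩ : ∃ N, N = ∫ x, ∑ i, ‖f i x‖ ^ 2 := ⟨_, rfl⟩
      rw [← hNe] at e1 hnorm hN ⊢
      have hτ2 : 1 ≤ τ ^ 2 := by nlinarith
      have k1 : τ ^ 4 * (∫ x in ball (0 : R3) (R + 1), ∑ i, ‖r i x‖ ^ 2)
          ≤ C1 ^ 2 * τ ^ 2 * N := by
        calc τ ^ 4 * (∫ x in ball (0 : R3) (R + 1), ∑ i, ‖r i x‖ ^ 2)
            ≤ τ ^ 4 * ((C1 / τ) ^ 2 * N) := by gcongr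
          _ = C1 ^ 2 * τ ^ 2 * N := by field_simp
      have k2 : 4 * N ≤ 4 * τ ^ 2 * N := by nlinarith
      calc H2sq (ball (0 : R3) R) r ≤ C2 * (τ ^ 4 * (∫ x in ball (0 : R3) (R + 1),
              ∑ i, ‖r i x‖ ^ 2) + ∫ x in ball (0 : R3) (R + 1),
              ∑ i, ‖P0 A B r i x + τ * M0 θ A r i x‖ ^ 2) := hI1
        _ ≤ C2 * (C1 ^ 2 * τ ^ 2 * N + 4 * τ ^ 2 * N) := by
            apply mul_le_mul_of_nonneg_left _ hC2.le
            linarith
        _ = C2 * (C1 ^ 2 + 4) * (τ ^ 2 * N) := by ring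
        _ ≤ (C2 * (C1 ^ 2 + 4) + 1) ^ 2 * (τ ^ 2 * N) := by
            apply mul_le_mul_of_nonneg_right _ (by positivity)
            have : 0 ≤ C2 * (C1 ^ 2 + 4) := by positivity
            nlinarith
        _ = ((C2 * (C1 ^ 2 + 4) + 1) * τ) ^ 2 * N := by ring
  · refine ⟨fun _ _ => 0, fun _ => contDiff_const, ?_, ?_⟩
    · have hz : ∀ i x, P0 A B (fun _ _ => (0 : ℂ)) i x + τ * M0 θ A (fun _ _ => (0 : ℂ)) i x
          - f i x = - f i x := by
        intro i x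
        have hp : ∀ j, pd j (fun _ : R3 => (0 : ℂ)) = fun _ => 0 := by
          intro j
          funext y
          exact Calc.pd_const 0 j
        unfold P0 M0 Lap DD
        simp only [hp]
        simp
      simp_rw [hz, norm_neg]
      have e3 : ∫ x in ball (0 : R3) R, ∑ i, ‖f i x‖ ^ 2 ≤ ∫ x, ∑ i, ‖f i x‖ ^ 2 :=
        setIntegral_le_integral hfint (ae_of_all _ hf0)
      linarith
    · have hp : ∀ j, pd j (fun _ : R3 => (0 : ℂ)) = fun _ => 0 := by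
        intro j
        funext y
        exact Calc.pd_const 0 j
      unfold H2sq
      simp only [hp]
      simp
      positivity

end Crest.Agent.R080
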