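import Crest.Agent.R080.Stmts2

/-!
Row 80 (S0107): Korn and Poincaré inequalities for `C¹` fields vanishing on the boundary
(helper251).
-/

set_option autoImplicit false

open MeasureTheory Filter
open scoped ContDiff Topology
open Crest.AnalysisR.VecCalc3 Crest.AnalysisR.PDE.Elasticity

noncomputable section
namespace Crest.Agent.R080
namespace KornAux

theorem dom_isOpen (G : Dom) : IsOpen G.Ω := by
  rw [G.eq]; exact isOpen_lt G.smooth.continuous continuous_const

theorem dom_meas (G : Dom) : MeasurableSet G.Ω := (dom_isOpen G).measurableSet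

theorem intOn (G : Dom) {E : Type*} [NormedAddCommGroup E] {f : R3 → E}
    (hf : Continuous f) : IntegrableOn f G.Ω :=
  (hf.continuousOn.integrableOn_compact G.bdd.isCompact_closure).mono_set subset_closure

theorem diff1 {f : R3 → ℂ} (hf : ContDiff ℝ 1 f) : Differentiable ℝ f :=
  hf.differentiable (by norm_num)

theorem continuous_pd {f : R3 → ℂ} (hf : ContDiff ℝ 1 f) (j : Fin 3) : Continuous (pd j f) :=
  (hf.continuous_fderiv (by norm_num)).clm_apply continuous_const

theorem contDiff_pd {f : R3 → ℂ} (hf : ContDiff ℝ ∞ f) (j : Fin 3) : ContDiff ℝ ∞ (pd j f) :=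
  (hf.fderiv_right (m := ∞) (by simp)).clm_apply contDiff_const

theorem pd_mul {f g : R3 → ℂ} {x : R3} (hf : DifferentiableAt ℝ f x)
    (hg : DifferentiableAt ℝ g x) (j : Fin 3) :
    pd j (fun y => f y * g y) x = pd j f x * g x + f x * pd j g x := by
  unfold pd
  rw [fderiv_fun_mul hf hg]
  simp only [add_apply, smul_apply, smul_eq_mul]
  ring

theorem pd_conj {f : R3 → ℂ} {x : R3} (hf : DifferentiableAt ℝ f x) (j : Fin 3) :
    pd j (fun y => (starRingEnd ℂ) (f y)) x = (starRingEnd ℂ) (pd j f x) := by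
  unfold pd
  have h := (Complex.conjCLE.toContinuousLinearMap.hasFDerivAt (x := f x)).comp x hf.hasFDerivAt
  have h2 : (fun y => (starRingEnd ℂ) (f y)) = Complex.conjCLE.toContinuousLinearMap ∘ f := by
    ext y; simp
  rw [h2, h.fderiv]
  rfl

theorem contDiff_conj {f : R3 → ℂ} {n : WithTop ℕ∞} (hf : ContDiff ℝ n f) :
    ContDiff ℝ n (fun y => (starRingEnd ℂ) (f y)) :=
  Complex.conjCLE.toContinuousLinearMap.contDiff.comp hf

theorem pd_comm {f : R3 → ℂ} (hf : ContDiff ℝ ∞ f) (i j : Fin 3) (x : R3) :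
    pd i (pd j f) x = pd j (pd i f) x := by
  have hd : Differentiable ℝ (fderiv ℝ f) :=
    (hf.fderiv_right (m := ∞) (by simp)).differentiable (by simp)
  have key : ∀ a b : Fin 3, pd a (pd b f) x = fderiv ℝ (fderiv ℝ f) x (ee a) (ee b) := by
    intro a b
    have h1 : pd b f = fun y => fderiv ℝ f y (ee b) := rfl
    rw [h1]
    unfold pd
    rw [fderiv_clm_apply (hd x) (by fun_prop)]
    simp
  rw [key, key]
  have hs : IsSymmSndFDerivAt ℝ f x := by
    apply ContDiffAt.isSymmSndFDerivAt (n := ∞) hf.contDiffAt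
    rw [minSmoothness_of_isRCLikeNormedField]
    exact WithTop.coe_le_coe.2 le_top
  exact hs _ _

/-- A `C¹` function is approximated on a bounded set, together with its first derivatives, by
smooth functions. -/
theorem exists_smooth_approx {g : R3 → ℂ} (hg : ContDiff ℝ 1 g) (R : ℝ) {ε : ℝ} (hε : 0 < ε) :
    ∃ g' : R3 → ℂ, ContDiff ℝ ∞ g' ∧ HasCompactSupport g' ∧
      (∀ x ∈ Metric.ball (0 : R3) R, ‖g' x - g x‖ ≤ ε) ∧
      ∀ j, ∀ x ∈ Metric.ball (0 : R3) R, ‖pd j g' x - pd j g x‖ ≤ ε := by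
  -- cut off
  let χ : ContDiffBump (0 : R3) := ⟨|R| + 1, |R| + 2, by positivity, by linarith⟩
  let h : R3 → ℂ := fun x => (χ x : ℂ) * g x
  have hχ : ContDiff ℝ ∞ (fun x : R3 => ((χ x : ℝ) : ℂ)) :=
    Complex.ofRealCLM.contDiff.comp (χ.contDiff (n := ⊤))
  have hh : ContDiff ℝ 1 h := (hχ.of_le (by simp)).mul hg
  have hhc : HasCompactSupport h := by
    apply HasCompactSupport.mul_right
    have := χ.hasCompactSupport
    exact this.comp_left (g := fun r : ℝ => (r : ℂ)) (by simp)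
  have heq : ∀ x ∈ Metric.ball (0 : R3) R, h =ᶠ[𝓝 x] g := by
    intro x hx
    have hx' : x ∈ Metric.ball (0 : R3) (|R| + 1) := by
      simp only [Metric.mem_ball] at hx ⊢
      have := le_abs_self R
      linarith
    filter_upwards [Metric.isOpen_ball.mem_nhds hx'] with y hy
    have : χ y = 1 := χ.one_of_mem_closedBall (Metric.ball_subset_closedBall hy)
    simp [h, this]
  have hfd : Continuous (fderiv ℝ h) := hh.continuous_fderiv (by norm_num)
  have hfdc : HasCompactSupport (fderiv ℝ h) := hhc.fderiv ℝ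
  have u1 : UniformContinuous h := hhc.uniformContinuous_of_continuous hh.continuous
  have u2 : UniformContinuous (fderiv ℝ h) := hfdc.uniformContinuous_of_continuous hfd
  obtain ⟨δ1, hδ1, h1⟩ := Metric.uniformContinuous_iff.1 u1 ε hε
  obtain ⟨δ2, hδ2, h2⟩ := Metric.uniformContinuous_iff.1 u2 ε hε
  let δ := min δ1 δ2
  have hδ : 0 < δ := lt_min hδ1 hδ2
  let φ : ContDiffBump (0 : R3) := ⟨δ / 2, δ, half_pos hδ, half_lt_self hδ⟩
  let L := ContinuousLinearMap.lsmul ℝ ℝ (E := ℂ)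
  let g' : R3 → ℂ := MeasureTheory.convolution (φ.normed volume) h L volume
  have hφl : LocallyIntegrable (φ.normed volume) (volume : Measure R3) :=
    (φ.continuous_normed).locallyIntegrable
  have hd : ∀ x, HasFDerivAt g'
      ((MeasureTheory.convolution (φ.normed volume) (fderiv ℝ h) (L.precompR R3) volume) x) x :=
    fun x => hhc.hasFDerivAt_convolution_right L hφl hh x
  refine ⟨g', ?_, ?_, ?_, ?_⟩
  · exact φ.hasCompactSupport_normed.contDiff_convolution_left (n := ⊤) _ φ.contDiff_normed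
      hh.continuous.locallyIntegrable
  · exact φ.hasCompactSupport_normed.convolution L hhc
  · intro x hx
    have := φ.dist_normed_convolution_le (μ := volume) (g := h) (x₀ := x) (ε := ε)
      hh.continuous.aestronglyMeasurable (fun y hy => (h1 (lt_of_lt_of_le hy (min_le_left _ _))).le)
    rw [← (heq x hx).self_of_nhds, ← dist_eq_norm]
    exact this
  · intro j x hx
    have hpd : pd j g' x
        = MeasureTheory.convolution (φ.normed volume) (fun y => fderiv ℝ h y (ee j)) L volume x := by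
      unfold pd
      rw [(hd x).fderiv]
      exact convolution_precompR_apply L hφl hfdc hfd x (ee j)
    have hnorm : ‖(ee j : R3)‖ = 1 := by simp
    have := φ.dist_normed_convolution_le (μ := volume) (g := fun y => fderiv ℝ h y (ee j))
      (x₀ := x) (ε := ε) (by
        exact (hfd.clm_apply continuous_const).aestronglyMeasurable)
      (fun y hy => by
        have h3 := (h2 (lt_of_lt_of_le hy (min_le_right _ _))).le
        rw [dist_eq_norm] at h3 ⊢
        rw [← sub_apply]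
        refine (ContinuousLinearMap.le_opNorm _ _).trans ?_
        rw [hnorm, mul_one]
        exact h3)
    have e1 : pd j g x = fderiv ℝ h x (ee j) := by
      unfold pd
      rw [(heq x hx).fderiv_eq]
    rw [hpd, e1, ← dist_eq_norm]
    exact this

/-- symmetry of the first order bilinear form -/
theorem symm_form (hZ : StmtZ) (G : Dom) {f g : R3 → ℂ} (hf : ContDiff ℝ 1 f)
    (hg : ContDiff ℝ 1 g) (h0 : ∀ x ∈ frontier G.Ω, f x = 0) (i j : Fin 3) :
    ∫ x in G.Ω, pd i f x * pd j g x = ∫ x in G.Ω, pd j f x * pd i g x := by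
  -- smooth case
  have smooth : ∀ g : R3 → ℂ, ContDiff ℝ ∞ g →
      ∫ x in G.Ω, pd i f x * pd j g x = ∫ x in G.Ω, pd j f x * pd i g x := by
    intro g hg
    have hgj := contDiff_pd hg j
    have hgi := contDiff_pd hg i
    have e1 := hZ G (fun x => f x * pd j g x) (hf.mul (hgj.of_le (by simp)))
      (fun x hx => by simp [h0 x hx]) i
    have e2 := hZ G (fun x => f x * pd i g x) (hf.mul (hgi.of_le (by simp)))
      (fun x hx => by simp [h0 x hx]) j
    have d1 : ∀ x, pd i (fun x => f x * pd j g x) x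
        = pd i f x * pd j g x + f x * pd i (pd j g) x := fun x =>
      pd_mul (diff1 hf x) (hgj.differentiable (by simp) x) i
    have d2 : ∀ x, pd j (fun x => f x * pd i g x) x
        = pd j f x * pd i g x + f x * pd i (pd j g) x := fun x => by
      rw [pd_mul (diff1 hf x) (hgi.differentiable (by simp) x) j, pd_comm hg j i]
    have c1 : Continuous (fun x => pd i f x * pd j g x) :=
      (continuous_pd hf i).mul hgj.continuous
    have c2 : Continuous (fun x => pd j f x * pd i g x) :=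
      (continuous_pd hf j).mul hgi.continuous
    have c3 : Continuous (fun x => f x * pd i (pd j g) x) :=
      hf.continuous.mul (contDiff_pd hgj i).continuous
    simp only [d1] at e1
    simp only [d2] at e2
    rw [integral_add (intOn G c1) (intOn G c3)] at e1
    rw [integral_add (intOn G c2) (intOn G c3)] at e2
    linear_combination e1 - e2
  -- approximation
  obtain ⟨R, hR⟩ := G.bdd.isCompact_closure.isBounded.subset_ball (0 : R3)
  have hR' : G.Ω ⊆ Metric.ball (0 : R3) R := subset_closure.trans hR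
  let Ci := ∫ x in G.Ω, ‖pd i f x‖
  let Cj := ∫ x in G.Ω, ‖pd j f x‖
  have key : ∀ (a b : Fin 3) (ε : ℝ), 0 < ε → ∀ g' : R3 → ℂ, ContDiff ℝ ∞ g' →
      (∀ j, ∀ x ∈ Metric.ball (0 : R3) R, ‖pd j g' x - pd j g x‖ ≤ ε) →
      ‖(∫ x in G.Ω, pd a f x * pd b g' x) - ∫ x in G.Ω, pd a f x * pd b g x‖
        ≤ (∫ x in G.Ω, ‖pd a f x‖) * ε := by
    intro a b ε hε g' hg' hclose
    have c1 : Continuous (fun x => pd a f x * pd b g' x) :=
      (continuous_pd hf a).mul (contDiff_pd hg' b).continuous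
    have c2 : Continuous (fun x => pd a f x * pd b g x) :=
      (continuous_pd hf a).mul (continuous_pd hg b)
    rw [← integral_sub (intOn G c1) (intOn G c2)]
    refine (norm_integral_le_integral_norm _).trans ?_
    rw [← integral_mul_const]
    apply setIntegral_mono_on (intOn G (c1.sub c2).norm)
      ((intOn G (continuous_pd hf a).norm).mul_const _) (dom_meas G)
    intro x hx
    show ‖pd a f x * pd b g' x - pd a f x * pd b g x‖ ≤ ‖pd a f x‖ * ε
    rw [← mul_sub, norm_mul]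
    exact mul_le_mul_of_nonneg_left (hclose b x (hR' hx)) (norm_nonneg _)
  have fin : ∀ ε : ℝ, 0 < ε →
      ‖(∫ x in G.Ω, pd i f x * pd j g x) - ∫ x in G.Ω, pd j f x * pd i g x‖
        ≤ (Ci + Cj) * ε := by
    intro ε hε
    obtain ⟨g', hg', -, -, hcl⟩ := exists_smooth_approx hg R hε
    have k1 := key i j ε hε g' hg' hcl
    have k2 := key j i ε hε g' hg' hcl
    have k3 := smooth g' hg'
    rw [k3] at k1
    rw [norm_sub_rev] at k1
    calc _ = ‖((∫ x in G.Ω, pd i f x * pd j g x) - ∫ x in G.Ω, pd j f x * pd i g' x)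
          + ((∫ x in G.Ω, pd j f x * pd i g' x) - ∫ x in G.Ω, pd j f x * pd i g x)‖ := by
            congr 1; ring
      _ ≤ _ := (norm_add_le _ _).trans (by rw [add_mul]; exact add_le_add k1 k2)
  have hC : 0 ≤ Ci + Cj := by
    apply add_nonneg <;> exact integral_nonneg fun x => norm_nonneg _
  have : ‖(∫ x in G.Ω, pd i f x * pd j g x) - ∫ x in G.Ω, pd j f x * pd i g x‖ ≤ 0 := by
    apply le_of_forall_pos_le_add
    intro η hη
    have := fin (η / (Ci + Cj + 1)) (by positivity)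
    refine this.trans ?_
    rw [zero_add, mul_div_assoc']
    rw [div_le_iff₀ (by positivity)]
    nlinarith
  exact sub_eq_zero.1 (norm_le_zero_iff.1 this)

/-- Poincaré -/
theorem poincare (hZ : StmtZ) (G : Dom) {R : ℝ} (hR : closure G.Ω ⊆ Metric.ball (0 : R3) R)
    {f : R3 → ℂ} (hf : ContDiff ℝ 1 f) (h0 : ∀ x ∈ frontier G.Ω, f x = 0) :
    ∫ x in G.Ω, ‖f x‖ ^ 2 ≤ 4 * R ^ 2 * ∫ x in G.Ω, ‖pd 0 f x‖ ^ 2 := by
  let X : R3 → ℂ := fun x => ((x 0 : ℝ) : ℂ)
  have hX : ContDiff ℝ 1 X := by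
    apply Complex.ofRealCLM.contDiff.comp
    exact (EuclideanSpace.proj (𝕜 := ℝ) (0 : Fin 3)).contDiff
  have hXd : ∀ x, pd 0 X x = 1 := by
    intro x
    have h1 : HasFDerivAt X (Complex.ofRealCLM.comp (EuclideanSpace.proj (𝕜 := ℝ) (0 : Fin 3))) x :=
      Complex.ofRealCLM.hasFDerivAt.comp x (EuclideanSpace.proj (𝕜 := ℝ) (0 : Fin 3)).hasFDerivAt
    unfold pd
    rw [h1.fderiv]
    simp
  let F : R3 → ℂ := fun x => X x * (f x * (starRingEnd ℂ) (f x))
  have hF : ContDiff ℝ 1 F := hX.mul (hf.mul (contDiff_conj hf))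
  have e1 := hZ G F hF (fun x hx => by simp [F, h0 x hx]) 0
  have d1 : ∀ x, pd 0 F x = ((‖f x‖ ^ 2 + 2 * (x 0 * (pd 0 f x * (starRingEnd ℂ) (f x)).re) : ℝ)
      : ℂ) := by
    intro x
    have a1 := pd_mul (diff1 hX x) ((diff1 (hf.mul (contDiff_conj hf))) x) 0
    have a2 := pd_mul (diff1 hf x) ((diff1 (contDiff_conj hf)) x) 0
    have a3 := pd_conj (diff1 hf x) 0
    have b1 : f x * (starRingEnd ℂ) (f x) = ((‖f x‖ ^ 2 : ℝ) : ℂ) := by
      rw [Complex.mul_conj, Complex.normSq_eq_norm_sq]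
    have b2 : pd 0 f x * (starRingEnd ℂ) (f x) + f x * (starRingEnd ℂ) (pd 0 f x)
        = ((2 * (pd 0 f x * (starRingEnd ℂ) (f x)).re : ℝ) : ℂ) := by
      rw [← Complex.add_conj]
      simp only [map_mul, Complex.conj_conj]
      ring
    show pd 0 (fun y => X y * (f y * (starRingEnd ℂ) (f y))) x = _
    have a1' : pd 0 (fun y => X y * (f y * (starRingEnd ℂ) (f y))) x
        = pd 0 X x * (f x * (starRingEnd ℂ) (f x))
          + X x * pd 0 (fun y => f y * (starRingEnd ℂ) (f y)) x := a1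
    rw [a1', a2, a3, hXd, b1, b2]
    push_cast
    simp only [X]
    ring
  have c1 : Continuous (fun x : R3 => ‖f x‖ ^ 2) := by
    have := hf.continuous
    fun_prop
  have c2 : Continuous (fun x : R3 => ‖pd 0 f x‖ ^ 2) := by
    have := continuous_pd hf 0
    fun_prop
  have c3 : Continuous (fun x : R3 => 2 * (x 0 * (pd 0 f x * (starRingEnd ℂ) (f x)).re)) := by
    have h1 := continuous_pd hf 0
    have h2 := (contDiff_conj hf).continuous
    have h3 : Continuous fun x : R3 => x 0 := (EuclideanSpace.proj (𝕜 := ℝ) (0 : Fin 3)).continuous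
    exact continuous_const.mul (h3.mul (Complex.continuous_re.comp (h1.mul h2)))
  have e2 : (∫ x in G.Ω, ‖f x‖ ^ 2)
      + ∫ x in G.Ω, 2 * (x 0 * (pd 0 f x * (starRingEnd ℂ) (f x)).re) = 0 := by
    rw [← integral_add (intOn G c1) (intOn G c3)]
    simp only [d1] at e1
    rw [integral_complex_ofReal] at e1
    exact_mod_cast e1
  -- pointwise bound
  have e3 : -(∫ x in G.Ω, 2 * (x 0 * (pd 0 f x * (starRingEnd ℂ) (f x)).re))
      ≤ ∫ x in G.Ω, ((1 / 2) * ‖f x‖ ^ 2 + 2 * R ^ 2 * ‖pd 0 f x‖ ^ 2) := by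
    rw [← integral_neg]
    apply setIntegral_mono_on (intOn G c3.neg)
      (intOn G ((c1.const_smul (1 / 2 : ℝ)).add (c2.const_smul (2 * R ^ 2 : ℝ)))) (dom_meas G)
    intro x hx
    have hx1 : ‖x‖ < R := by simpa using hR (subset_closure hx)
    have hx0 : |x 0| ≤ R := by
      have := EuclideanSpace.norm_eq x
      have h4 : ‖x 0‖ ≤ ‖x‖ := PiLp.norm_apply_le x 0
      rw [Real.norm_eq_abs] at h4
      linarith
    have h5 : |(pd 0 f x * (starRingEnd ℂ) (f x)).re| ≤ ‖pd 0 f x‖ * ‖f x‖ := by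
      refine (Complex.abs_re_le_norm _).trans ?_
      rw [norm_mul, RCLike.norm_conj]
    have h6 : |x 0 * (pd 0 f x * (starRingEnd ℂ) (f x)).re| ≤ R * (‖pd 0 f x‖ * ‖f x‖) := by
      rw [abs_mul]
      exact mul_le_mul hx0 h5 (abs_nonneg _) (by linarith [abs_nonneg (x 0)])
    have h7 := (abs_le.1 h6).1
    show -(2 * (x 0 * (pd 0 f x * (starRingEnd ℂ) (f x)).re))
      ≤ (1 / 2) * ‖f x‖ ^ 2 + 2 * R ^ 2 * ‖pd 0 f x‖ ^ 2
    nlinarith [sq_nonneg (‖f x‖ - 2 * (R * ‖pd 0 f x‖))]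
  have e4 : ∫ x in G.Ω, ((1 / 2) * ‖f x‖ ^ 2 + 2 * R ^ 2 * ‖pd 0 f x‖ ^ 2)
      = (1 / 2) * (∫ x in G.Ω, ‖f x‖ ^ 2) + 2 * R ^ 2 * ∫ x in G.Ω, ‖pd 0 f x‖ ^ 2 := by
    rw [integral_add ((intOn G c1).const_mul _) ((intOn G c2).const_mul _), integral_const_mul,
      integral_const_mul]
  rw [e4] at e3
  linarith

/-- pointwise expansion of the squared strain -/
theorem strain_sq (v : Fin 3 → R3 → ℂ) (x : R3) :
    ((∑ i, ∑ j, ‖strain v i j x‖ ^ 2 : ℝ) : ℂ)
      = (1 / 2) * ((∑ i, ∑ j, ‖pd j (v i) x‖ ^ 2 : ℝ) : ℂ)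
        + (1 / 2) * ∑ i, ∑ j, pd i (v j) x * (starRingEnd ℂ) (pd j (v i) x) := by
  have h : ∀ i j, ((‖strain v i j x‖ ^ 2 : ℝ) : ℂ)
      = (1 / 4) * ((‖pd i (v j) x‖ ^ 2 : ℝ) : ℂ) + (1 / 4) * ((‖pd j (v i) x‖ ^ 2 : ℝ) : ℂ)
        + (1 / 4) * (pd i (v j) x * (starRingEnd ℂ) (pd j (v i) x))
        + (1 / 4) * (pd j (v i) x * (starRingEnd ℂ) (pd i (v j) x)) := by
    intro i j
    have e : ∀ z : ℂ, ((‖z‖ ^ 2 : ℝ) : ℂ) = z * (starRingEnd ℂ) z := fun z => by
      rw [Complex.mul_conj, Complex.normSq_eq_norm_sq]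
    rw [e, e, e]
    unfold strain
    simp only [map_div₀, map_add, map_ofNat]
    ring
  simp only [Fin.sum_univ_three]
  push_cast
  have h' : ∀ i j, ((‖strain v i j x‖ : ℂ)) ^ 2
      = (1 / 4) * ((‖pd i (v j) x‖ ^ 2 : ℝ) : ℂ) + (1 / 4) * ((‖pd j (v i) x‖ ^ 2 : ℝ) : ℂ)
        + (1 / 4) * (pd i (v j) x * (starRingEnd ℂ) (pd j (v i) x))
        + (1 / 4) * (pd j (v i) x * (starRingEnd ℂ) (pd i (v j) x)) := by
    intro i j
    rw [← h]
    push_cast
    rfl
  simp only [h']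
  push_cast
  ring

theorem korn (hZ : StmtZ) (G : Dom) {v : Fin 3 → R3 → ℂ} (hv : ∀ i, ContDiff ℝ 1 (v i))
    (h0 : ∀ x ∈ frontier G.Ω, ∀ i, v i x = 0) :
    gradSq G.Ω v ≤ 2 * ∫ x in G.Ω, ∑ i, ∑ j, ‖strain v i j x‖ ^ 2 := by
  have cpd : ∀ i j, Continuous (pd j (v i)) := fun i j => continuous_pd (hv i) j
  have cconj : ∀ i j, Continuous (fun x => (starRingEnd ℂ) (pd j (v i) x)) := fun i j =>
    Complex.continuous_conj.comp (cpd i j)
  have s1 : ∀ i j, ∫ x in G.Ω, pd i (v j) x * (starRingEnd ℂ) (pd j (v i) x)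
      = ∫ x in G.Ω, pd j (v j) x * (starRingEnd ℂ) (pd i (v i) x) := by
    intro i j
    have := symm_form hZ G (hv j) (contDiff_conj (hv i)) (fun x hx => h0 x hx j) i j
    simpa only [pd_conj (diff1 (hv i) _)] using this
  have c1 : Continuous (fun x => ∑ i, ∑ j, ‖pd j (v i) x‖ ^ 2) := by
    refine continuous_finsetSum _ fun i _ => continuous_finsetSum _ fun j _ => ?_
    exact (cpd i j).norm.pow 2
  have c2 : ∀ i j, Continuous (fun x => pd i (v j) x * (starRingEnd ℂ) (pd j (v i) x)) :=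
    fun i j => (cpd j i).mul (cconj i j)
  have c3 : Continuous (fun x => ∑ i, ∑ j, pd i (v j) x * (starRingEnd ℂ) (pd j (v i) x)) :=
    continuous_finsetSum _ fun i _ => continuous_finsetSum _ fun j _ => c2 i j
  have c4 : ∀ i j, Continuous (fun x => pd j (v j) x * (starRingEnd ℂ) (pd i (v i) x)) :=
    fun i j => (cpd j j).mul (cconj i i)
  have e1 : ((∫ x in G.Ω, ∑ i, ∑ j, ‖strain v i j x‖ ^ 2 : ℝ) : ℂ)
      = (1 / 2) * ((gradSq G.Ω v : ℝ) : ℂ)
        + (1 / 2) * ∫ x in G.Ω, ∑ i, ∑ j, pd i (v j) x * (starRingEnd ℂ) (pd j (v i) x) := by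
    rw [← integral_complex_ofReal]
    simp only [strain_sq]
    rw [integral_add, integral_const_mul, integral_const_mul, integral_complex_ofReal]
    · rfl
    · exact (intOn G (Complex.continuous_ofReal.comp c1)).const_mul _
    · exact (intOn G c3).const_mul _
  have e2 : ∫ x in G.Ω, ∑ i, ∑ j, pd i (v j) x * (starRingEnd ℂ) (pd j (v i) x)
      = ((∫ x in G.Ω, ‖divg v x‖ ^ 2 : ℝ) : ℂ) := by
    rw [integral_finsetSum _ fun i _ =>
      intOn G (continuous_finsetSum _ fun j _ => c2 i j)]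
    have : ∀ i, ∫ x in G.Ω, ∑ j, pd i (v j) x * (starRingEnd ℂ) (pd j (v i) x)
        = ∫ x in G.Ω, ∑ j, pd j (v j) x * (starRingEnd ℂ) (pd i (v i) x) := by
      intro i
      rw [integral_finsetSum _ fun j _ => intOn G (c2 i j),
        integral_finsetSum _ fun j _ => intOn G (c4 i j)]
      exact Finset.sum_congr rfl fun j _ => s1 i j
    rw [Finset.sum_congr rfl fun i _ => this i]
    rw [← integral_finsetSum _ fun i _ =>
      intOn G (continuous_finsetSum _ fun j _ => c4 i j)]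
    rw [← integral_complex_ofReal]
    congr 1
    ext x
    have e : ((‖divg v x‖ ^ 2 : ℝ) : ℂ) = divg v x * (starRingEnd ℂ) (divg v x) := by
      rw [Complex.mul_conj, Complex.normSq_eq_norm_sq]
    rw [e]
    unfold divg
    rw [map_sum, Finset.sum_mul_sum, Finset.sum_comm]
  rw [e2] at e1
  have e3 : (∫ x in G.Ω, ∑ i, ∑ j, ‖strain v i j x‖ ^ 2)
      = (1 / 2) * gradSq G.Ω v + (1 / 2) * ∫ x in G.Ω, ‖divg v x‖ ^ 2 := by
    apply Complex.ofReal_injective
    rw [e1]
    push_cast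
    rfl
  have e4 : 0 ≤ ∫ x in G.Ω, ‖divg v x‖ ^ 2 := integral_nonneg fun x => sq_nonneg _
  linarith

end KornAux

open KornAux in
theorem t_Korn (hZ : StmtZ) : StmtKorn := by
  intro G
  obtain ⟨R, hR⟩ := G.bdd.isCompact_closure.isBounded.subset_ball (0 : R3)
  refine ⟨4 * R ^ 2 + 2, by positivity, fun v hv h0 => ⟨?_, ?_⟩⟩
  · have cpd : ∀ i j, Continuous (pd j (v i)) := fun i j => continuous_pd (hv i) j
    have h1 : ∀ i, ∫ x in G.Ω, ‖v i x‖ ^ 2 ≤ 4 * R ^ 2 * ∫ x in G.Ω, ‖pd 0 (v i) x‖ ^ 2 :=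
      fun i => poincare hZ G hR (hv i) fun x hx => h0 x hx i
    have cv : ∀ i, Continuous (fun x => ‖v i x‖ ^ 2) := fun i => (hv i).continuous.norm.pow 2
    have cp : ∀ i j, Continuous (fun x => ‖pd j (v i) x‖ ^ 2) := fun i j => (cpd i j).norm.pow 2
    rw [integral_finsetSum _ fun i _ => intOn G (cv i)]
    refine (Finset.sum_le_sum fun i _ => h1 i).trans ?_
    rw [← Finset.mul_sum, ← integral_finsetSum _ fun i _ => intOn G (cp i 0)]
    have h2 : ∫ x in G.Ω, ∑ i, ‖pd 0 (v i) x‖ ^ 2 ≤ gradSq G.Ω v := by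
      apply setIntegral_mono_on _ _ (dom_meas G)
      · intro x _
        apply Finset.sum_le_sum
        intro i _
        exact Finset.single_le_sum (f := fun j => ‖pd j (v i) x‖ ^ 2) (fun j _ => sq_nonneg _)
          (Finset.mem_univ 0)
      · exact intOn G (continuous_finsetSum _ fun i _ => cp i 0)
      · exact intOn G (continuous_finsetSum _ fun i _ => continuous_finsetSum _ fun j _ =>
          cp i j)
    have h3 : 0 ≤ gradSq G.Ω v := integral_nonneg fun x =>
      Finset.sum_nonneg fun i _ => Finset.sum_nonneg fun j _ => sq_nonneg _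
    have h4 : (0 : ℝ) ≤ 4 * R ^ 2 := by positivity
    nlinarith [mul_le_mul_of_nonneg_left h2 h4]
  · have h1 := korn hZ G hv h0
    have h3 : 0 ≤ ∫ x in G.Ω, ∑ i, ∑ j, ‖strain v i j x‖ ^ 2 := integral_nonneg fun x =>
      Finset.sum_nonneg fun i _ => Finset.sum_nonneg fun j _ => sq_nonneg _
    have h4 : (0 : ℝ) ≤ 4 * R ^ 2 := by positivity
    nlinarith [mul_nonneg h4 h3]

end Crest.Agent.R080
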