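import Crest.Agent.R080.Pompeiu

/-!
Row 80, T6a: nondegenerate continuous weak solution matrices of `D X = A X` on the plane
(Gaussian weights).
-/

set_option autoImplicit false

open MeasureTheory Filter Set
open scoped ContDiff Topology ComplexConjugate BoundedContinuousFunction

noncomputable section
namespace Crest.Agent.R080
namespace Ks

/-- Gaussian-weighted kernel in the variable `w = z - u` -/
def ker (K : ℝ) (z w : ℂ) : ℂ :=
  Complex.exp (K * (w * conj (z - w)) + ((K / 2 * ‖z - w‖ ^ 2 - K / 2 * ‖z‖ ^ 2 : ℝ) : ℂ)) *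
    (2 * Real.pi * w)⁻¹

theorem norm_ker (K : ℝ) (z w : ℂ) :
    ‖ker K z w‖ = Real.exp (-(K / 2) * ‖w‖ ^ 2) * ‖w‖⁻¹ * (2 * Real.pi)⁻¹ := by
  rw [ker, norm_mul, Complex.norm_exp, norm_inv, norm_mul, norm_mul, Complex.norm_real,
    Real.norm_of_nonneg Real.pi_pos.le, RCLike.norm_ofNat, mul_inv, mul_comm ((2 * Real.pi)⁻¹),
    ← mul_assoc]
  congr 3
  simp only [Complex.add_re, Complex.ofReal_re, Complex.sq_norm, Complex.normSq_apply,
    Complex.mul_re, Complex.ofReal_im, Complex.conj_re, Complex.conj_im, Complex.sub_re,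
    Complex.sub_im]
  ring

theorem continuous_ker_left (K : ℝ) (w : ℂ) : Continuous fun z => ker K z w := by
  unfold ker
  fun_prop

theorem measurable_ker (K : ℝ) (z : ℂ) : Measurable fun w => ker K z w := by
  unfold ker
  have h1 : Measurable fun w : ℂ => Complex.exp (K * (w * conj (z - w)) +
      ((K / 2 * ‖z - w‖ ^ 2 - K / 2 * ‖z‖ ^ 2 : ℝ) : ℂ)) := by
    apply Continuous.measurable
    fun_prop
  have h2 : Measurable fun w : ℂ => (2 * Real.pi * w)⁻¹ := by
    apply Measurable.inv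
    fun_prop
  exact h1.mul h2

theorem integrable_norm_ker {K : ℝ} (hK : 0 < K) :
    Integrable fun w : ℂ => Real.exp (-(K / 2) * ‖w‖ ^ 2) * ‖w‖⁻¹ * (2 * Real.pi)⁻¹ :=
  (Pomp.integrable_gauss hK).mul_const _

/-- the operator norm -/
def cK (K : ℝ) : ℝ := Real.sqrt (2 * Real.pi / K) / 2

theorem integral_norm_ker {K : ℝ} (hK : 0 < K) :
    ∫ w : ℂ, Real.exp (-(K / 2) * ‖w‖ ^ 2) * ‖w‖⁻¹ * (2 * Real.pi)⁻¹ = cK K := by
  rw [integral_mul_const, Pomp.integral_gauss hK, cK]
  have := Real.pi_pos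
  field_simp

section conv
variable {E : Type*} [NormedAddCommGroup E] [NormedSpace ℂ E]

/-- integral operator -/
def cv (K : ℝ) (g : ℂ → E) (z : ℂ) : E := ∫ w, ker K z w • g (z - w)

theorem integrable_cv {K : ℝ} (hK : 0 < K) {g : ℂ → E} (hg : Continuous g) {b : ℝ}
    (hb : ∀ z, ‖g z‖ ≤ b) (z : ℂ) : Integrable fun w => ker K z w • g (z - w) := by
  refine ((integrable_norm_ker hK).mul_const b).mono' ?_ (Eventually.of_forall fun w => ?_)
  · exact (measurable_ker K z).aestronglyMeasurable.smul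
      (Continuous.aestronglyMeasurable (by fun_prop))
  · rw [norm_smul, norm_ker]
    exact mul_le_mul_of_nonneg_left (hb _) (by positivity)

theorem continuous_cv {K : ℝ} (hK : 0 < K) {g : ℂ → E} (hg : Continuous g) {b : ℝ}
    (hb : ∀ z, ‖g z‖ ≤ b) : Continuous (cv K g) := by
  unfold cv
  refine continuous_of_dominated (bound := fun w =>
    Real.exp (-(K / 2) * ‖w‖ ^ 2) * ‖w‖⁻¹ * (2 * Real.pi)⁻¹ * b) (fun z => ?_) (fun z => ?_)
    ((integrable_norm_ker hK).mul_const b) ?_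
  · exact (integrable_cv hK hg hb z).aestronglyMeasurable
  · refine Eventually.of_forall fun w => ?_
    rw [norm_smul, norm_ker]
    exact mul_le_mul_of_nonneg_left (hb _) (by positivity)
  · refine Eventually.of_forall fun w => ?_
    exact (continuous_ker_left K w).smul (by fun_prop)

theorem norm_cv_le {K : ℝ} (hK : 0 < K) {g : ℂ → E} {b : ℝ}
    (hb : ∀ z, ‖g z‖ ≤ b) (z : ℂ) : ‖cv K g z‖ ≤ cK K * b := by
  unfold cv
  rw [← integral_norm_ker hK, ← integral_mul_const]
  refine norm_integral_le_of_norm_le ((integrable_norm_ker hK).mul_const b)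
    (Eventually.of_forall fun w => ?_)
  rw [norm_smul, norm_ker]
  exact mul_le_mul_of_nonneg_left (hb _) (by positivity)

theorem cv_sub {K : ℝ} (hK : 0 < K) {g h : ℂ → E} (hg : Continuous g) (hh : Continuous h) {b c : ℝ}
    (hb : ∀ z, ‖g z‖ ≤ b) (hc : ∀ z, ‖h z‖ ≤ c) (z : ℂ) :
    cv K g z - cv K h z = cv K (fun z => g z - h z) z := by
  unfold cv
  rw [← integral_sub (integrable_cv hK hg hb z) (integrable_cv hK hh hc z)]
  refine integral_congr_ae (Eventually.of_forall fun w => ?_)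
  show _ = ker K z w • (g (z - w) - h (z - w))
  rw [smul_sub]

end conv

section fix
variable {n : Type} [Fintype n]

/-- multiplication by the coefficient matrix -/
def mulA (A : n → n → ℂ → ℂ) (u : ℂ) (y : n → ℂ) : n → ℂ := fun i => ∑ l, A i l u * y l

theorem norm_mulA_le {A : n → n → ℂ → ℂ} {M : ℝ} (hM0 : 0 ≤ M) (hM : ∀ i l u, ‖A i l u‖ ≤ M)
    (u : ℂ) (y : n → ℂ) : ‖mulA A u y‖ ≤ (Fintype.card n * M) * ‖y‖ := by
  rw [pi_norm_le_iff_of_nonneg (by positivity)]
  intro i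
  calc ‖∑ l, A i l u * y l‖ ≤ ∑ l, ‖A i l u * y l‖ := norm_sum_le _ _
    _ ≤ ∑ _l : n, M * ‖y‖ := by
        refine Finset.sum_le_sum fun l _ => ?_
        rw [norm_mul]
        exact mul_le_mul (hM i l u) (norm_le_pi_norm y l) (norm_nonneg _) hM0
    _ = _ := by
        rw [Finset.sum_const, Finset.card_univ, nsmul_eq_mul]
        ring

theorem mulA_sub (A : n → n → ℂ → ℂ) (u : ℂ) (y y' : n → ℂ) :
    mulA A u y - mulA A u y' = mulA A u (y - y') := by
  funext i
  simp only [mulA, Pi.sub_apply, mul_sub, Finset.sum_sub_distrib]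

theorem continuous_mulA {A : n → n → ℂ → ℂ} (hA : ∀ i l, Continuous (A i l)) {Y : ℂ → n → ℂ}
    (hY : Continuous Y) : Continuous fun u => mulA A u (Y u) := by
  refine continuous_pi fun i => ?_
  show Continuous fun u => ∑ l, A i l u * Y u l
  refine continuous_finsetSum _ fun l _ => (hA i l).mul ?_
  exact (continuous_apply l).comp hY

theorem exists_fix {A : n → n → ℂ → ℂ} (hA : ∀ i l, Continuous (A i l)) {M : ℝ} (hM0 : 0 ≤ M)
    (hM : ∀ i l u, ‖A i l u‖ ≤ M) {K : ℝ} (hK : 0 < K) {q : ℝ}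
    (hq : cK K * (Fintype.card n * M) ≤ q) (hq1 : q < 1) (Y0 : ℂ →ᵇ (n → ℂ)) :
    ∃ Y : ℂ →ᵇ (n → ℂ), ∀ z, Y z = Y0 z + cv K (fun u => mulA A u (Y u)) z := by
  have hc0 : 0 ≤ cK K := by unfold cK; positivity
  have hbd : ∀ (Y : ℂ →ᵇ (n → ℂ)) (u : ℂ), ‖mulA A u (Y u)‖ ≤ (Fintype.card n * M) * ‖Y‖ :=
    fun Y u => (norm_mulA_le hM0 hM u (Y u)).trans
      (mul_le_mul_of_nonneg_left (Y.norm_coe_le_norm u) (by positivity))
  have hct : ∀ (Y : ℂ →ᵇ (n → ℂ)), Continuous fun u => mulA A u (Y u) := fun Y =>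
    continuous_mulA hA Y.continuous
  let Ψ : (ℂ →ᵇ (n → ℂ)) → (ℂ →ᵇ (n → ℂ)) := fun Y =>
    BoundedContinuousFunction.ofNormedAddCommGroup
      (fun z => Y0 z + cv K (fun u => mulA A u (Y u)) z)
      (Y0.continuous.add (continuous_cv hK (hct Y) (hbd Y)))
      (‖Y0‖ + cK K * ((Fintype.card n * M) * ‖Y‖))
      (fun z => (norm_add_le _ _).trans (add_le_add (Y0.norm_coe_le_norm z)
        (norm_cv_le hK (hbd Y) z)))
  have hΨ : ∀ Y z, Ψ Y z = Y0 z + cv K (fun u => mulA A u (Y u)) z := fun _ _ => rfl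
  have hq0 : 0 ≤ q := le_trans (by positivity) hq
  have hlip : LipschitzWith ⟨q, hq0⟩ Ψ := by
    refine LipschitzWith.of_dist_le_mul fun Y Y' => ?_
    rw [BoundedContinuousFunction.dist_le (by positivity)]
    intro z
    rw [hΨ, hΨ, dist_add_left, dist_eq_norm, cv_sub hK (hct Y) (hct Y') (hbd Y) (hbd Y')]
    have h1 : ∀ u, ‖mulA A u (Y u) - mulA A u (Y' u)‖ ≤ (Fintype.card n * M) * dist Y Y' := by
      intro u
      rw [mulA_sub]
      refine (norm_mulA_le hM0 hM u _).trans (mul_le_mul_of_nonneg_left ?_ (by positivity))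
      rw [← dist_eq_norm]
      exact BoundedContinuousFunction.dist_coe_le_dist u
    refine (norm_cv_le hK h1 z).trans ?_
    rw [← mul_assoc]
    exact mul_le_mul_of_nonneg_right hq dist_nonneg
  have hcon : ContractingWith ⟨q, hq0⟩ Ψ := ⟨by exact_mod_cast hq1, hlip⟩
  refine ⟨hcon.fixedPoint Ψ, fun z => ?_⟩
  have h := hcon.fixedPoint_isFixedPt
  conv_lhs => rw [← h]
  rw [hΨ]

theorem fix_bound {A : n → n → ℂ → ℂ} {M : ℝ} (hM0 : 0 ≤ M)
    (hM : ∀ i l u, ‖A i l u‖ ≤ M) {K : ℝ} (hK : 0 < K) {q : ℝ}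
    (hq : cK K * (Fintype.card n * M) ≤ q) (hq1 : q ≤ 1 / 2) {Y0 Y : ℂ →ᵇ (n → ℂ)}
    (hY0 : ‖Y0‖ ≤ 1) (hY : ∀ z, Y z = Y0 z + cv K (fun u => mulA A u (Y u)) z) (z : ℂ) :
    ‖Y z - Y0 z‖ ≤ 2 * q := by
  have hc0 : 0 ≤ cK K := by unfold cK; positivity
  have hbd : ∀ (u : ℂ), ‖mulA A u (Y u)‖ ≤ (Fintype.card n * M) * ‖Y‖ :=
    fun u => (norm_mulA_le hM0 hM u (Y u)).trans
      (mul_le_mul_of_nonneg_left (Y.norm_coe_le_norm u) (by positivity))
  have hq0 : 0 ≤ q := le_trans (by positivity) hq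
  have h1 : ∀ z, ‖Y z - Y0 z‖ ≤ q * ‖Y‖ := by
    intro z
    rw [hY z, add_sub_cancel_left]
    refine (norm_cv_le hK hbd z).trans ?_
    rw [← mul_assoc]
    exact mul_le_mul_of_nonneg_right hq (norm_nonneg _)
  have h2 : ‖Y‖ ≤ 1 + q * ‖Y‖ := by
    rw [BoundedContinuousFunction.norm_le (by positivity)]
    intro z
    calc ‖Y z‖ = ‖Y0 z + (Y z - Y0 z)‖ := by rw [add_sub_cancel]
      _ ≤ ‖Y0 z‖ + ‖Y z - Y0 z‖ := norm_add_le _ _
      _ ≤ 1 + q * ‖Y‖ := add_le_add ((Y0.norm_coe_le_norm z).trans hY0) (h1 z)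
  have h3 : ‖Y‖ ≤ 2 := by nlinarith [norm_nonneg Y]
  exact (h1 z).trans (by nlinarith [norm_nonneg Y])

end fix

/-! ### the weak equation -/

/-- the kernel `F(z,u) = e^{K(z-u) ū} / (2π (z-u))` -/
theorem ker_eq (K : ℝ) (z u : ℂ) :
    (Real.exp (K / 2 * ‖z‖ ^ 2) : ℂ) * ker K z (z - u) =
      Complex.exp (K * ((z - u) * conj u)) * (2 * Real.pi * (z - u))⁻¹ *
        (Real.exp (K / 2 * ‖u‖ ^ 2) : ℂ) := by
  unfold ker
  have h1 : ∀ a b c : ℂ, Complex.exp a * (Complex.exp b * c) = Complex.exp (a + b) * c :=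
    fun a b c => by rw [Complex.exp_add]; ring
  have h2 : ∀ a b c : ℂ, Complex.exp a * c * Complex.exp b = Complex.exp (a + b) * c :=
    fun a b c => by rw [Complex.exp_add]; ring
  rw [sub_sub_cancel, Complex.ofReal_exp, Complex.ofReal_exp, h1, h2]
  congr 2
  push_cast
  ring

/-- integrability on the product -/
theorem integrable_prod_div {H : ℂ × ℂ → ℂ} (hH : Continuous H) (hs : HasCompactSupport H) :
    Integrable (fun p : ℂ × ℂ => H p * (p.1 - p.2)⁻¹) (volume.prod volume) := by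
  have h1 : Continuous fun p : ℂ × ℂ => H p *
      ((Real.exp (1 / 2 * ‖p.1 - p.2‖ ^ 2) : ℂ) * (Real.exp (‖p.2‖ ^ 2) : ℂ)) := by fun_prop
  have h2 : HasCompactSupport fun p : ℂ × ℂ => H p *
      ((Real.exp (1 / 2 * ‖p.1 - p.2‖ ^ 2) : ℂ) * (Real.exp (‖p.2‖ ^ 2) : ℂ)) := hs.mul_right
  obtain ⟨C, hC⟩ := h1.bounded_above_of_compact_support h2
  have hf : Integrable (fun u : ℂ => (Real.exp (-‖u‖ ^ 2) : ℂ)) := by
    have := Pomp.integrable_radial (f := fun r => Real.exp (-r ^ 2)) (by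
      have := integrable_mul_exp_neg_mul_sq (b := 1) one_pos
      refine this.integrableOn.congr_fun (fun y _ => ?_) measurableSet_Ioi
      simp)
    exact this.ofReal
  have hg := Pomp.integrable_gauss_inv (K := 1) one_pos
  have h3 := (Integrable.convolution_integrand (ContinuousLinearMap.mul ℝ ℂ) hf hg).bdd_mul
    (c := C) (f := fun p : ℂ × ℂ => H p *
      ((Real.exp (1 / 2 * ‖p.1 - p.2‖ ^ 2) : ℂ) * (Real.exp (‖p.2‖ ^ 2) : ℂ)))
    h1.aestronglyMeasurable (Eventually.of_forall hC)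
  refine h3.congr (Eventually.of_forall fun p => ?_)
  show H p * ((Real.exp (1 / 2 * ‖p.1 - p.2‖ ^ 2) : ℂ) * (Real.exp (‖p.2‖ ^ 2) : ℂ)) *
    ((Real.exp (-‖p.2‖ ^ 2) : ℂ) * ((Real.exp (-(1 / 2) * ‖p.1 - p.2‖ ^ 2) : ℂ) *
      (p.1 - p.2)⁻¹)) = _
  have e1 : (Real.exp (1 / 2 * ‖p.1 - p.2‖ ^ 2) : ℂ) *
      (Real.exp (-(1 / 2) * ‖p.1 - p.2‖ ^ 2) : ℂ) = 1 := by
    rw [← Complex.ofReal_mul, ← Real.exp_add]
    simp
  have e2 : (Real.exp (‖p.2‖ ^ 2) : ℂ) * (Real.exp (-‖p.2‖ ^ 2) : ℂ) = 1 := by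
    rw [← Complex.ofReal_mul, ← Real.exp_add]
    simp
  calc _ = H p * (p.1 - p.2)⁻¹ * ((Real.exp (1 / 2 * ‖p.1 - p.2‖ ^ 2) : ℂ) *
      (Real.exp (-(1 / 2) * ‖p.1 - p.2‖ ^ 2) : ℂ)) *
      ((Real.exp (‖p.2‖ ^ 2) : ℂ) * (Real.exp (-‖p.2‖ ^ 2) : ℂ)) := by ring
    _ = _ := by rw [e1, e2, mul_one, mul_one]

/-- `D` of an exponential times a test function -/
theorem Dp_exp_mul (K : ℝ) (u : ℂ) {φ : ℂ → ℂ} (hφ : ContDiff ℝ ∞ φ) (z : ℂ) :
    Dp (ContinuousLinearMap.id ℝ ℂ) (fun z => Complex.exp (K * ((z - u) * conj u)) * φ z) z =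
      Complex.exp (K * ((z - u) * conj u)) * Dp (ContinuousLinearMap.id ℝ ℂ) φ z := by
  have hφd : HasFDerivAt φ (fderiv ℝ φ z) z :=
    (hφ.differentiable (by simp) z).hasFDerivAt
  have he : HasDerivAt (fun z : ℂ => Complex.exp (K * ((z - u) * conj u)))
      (Complex.exp (K * ((z - u) * conj u)) * (K * conj u)) z := by
    have h1 : HasDerivAt (fun z : ℂ => (K : ℂ) * ((z - u) * conj u)) (K * (1 * conj u)) z :=
      ((hasDerivAt_id z).sub_const u |>.mul_const (conj u)).const_mul _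
    simpa using h1.cexp
  have he' := he.hasFDerivAt.restrictScalars ℝ
  have h := he'.mul hφd
  have h' : HasFDerivAt (fun z => Complex.exp (K * ((z - u) * conj u)) * φ z) _ z := h
  unfold Dp
  rw [h'.fderiv]
  simp
  ring_nf
  simp only [Complex.I_sq]
  ring

/-- the adjoint of the kernel -/
theorem kernel_adj (K : ℝ) (u : ℂ) {φ : ℂ → ℂ} (hφ : ContDiff ℝ ∞ φ) (hs : HasCompactSupport φ) :
    ∫ z, Complex.exp (K * ((z - u) * conj u)) * (2 * Real.pi * (z - u))⁻¹ *
      Dp (ContinuousLinearMap.id ℝ ℂ) φ z = -φ u := by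
  have h := Pomp.pompeiu (f := fun z => Complex.exp (K * ((z - u) * conj u)) * φ z)
    (by
      have : ContDiff ℝ 1 φ := hφ.of_le (by simp)
      have h2 : ContDiff ℝ 1 fun z : ℂ => (K : ℂ) * ((z - u) * conj u) := by fun_prop
      exact h2.cexp.mul this) hs.mul_left u
  simp only [sub_self, zero_mul, mul_zero, Complex.exp_zero, one_mul] at h
  have h2 : ∫ z, Complex.exp (K * ((z - u) * conj u)) * (2 * Real.pi * (z - u))⁻¹ *
      Dp (ContinuousLinearMap.id ℝ ℂ) φ z = (2 * Real.pi : ℂ)⁻¹ *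
      ∫ z, Dp (ContinuousLinearMap.id ℝ ℂ) (fun z => Complex.exp (K * ((z - u) * conj u)) * φ z) z
        * (z - u)⁻¹ := by
    rw [← integral_const_mul]
    refine integral_congr_ae (Eventually.of_forall fun z => ?_)
    show Complex.exp (K * ((z - u) * conj u)) * (2 * Real.pi * (z - u))⁻¹ *
      Dp (ContinuousLinearMap.id ℝ ℂ) φ z = (2 * Real.pi : ℂ)⁻¹ *
        (Dp (ContinuousLinearMap.id ℝ ℂ) (fun z => Complex.exp (K * ((z - u) * conj u)) * φ z) z
          * (z - u)⁻¹)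
    rw [Dp_exp_mul K u hφ, mul_inv]
    ring
  rw [h2, h]
  have hpi : (2 * Real.pi : ℂ) ≠ 0 := by
    have := Real.pi_ne_zero
    exact_mod_cast mul_ne_zero two_ne_zero this
  field_simp

theorem exists_bound {n : Type} [Fintype n] {A : n → n → ℂ → ℂ} (hA : ∀ i j, Continuous (A i j))
    (hs : ∀ i j, HasCompactSupport (A i j)) : ∃ M : ℝ, 0 ≤ M ∧ ∀ i l u, ‖A i l u‖ ≤ M := by
  choose C hC using fun i j => (hA i j).bounded_above_of_compact_support (hs i j)
  refine ⟨∑ i, ∑ j, |C i j|, by positivity, fun i l u => (hC i l u).trans ?_⟩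
  calc C i l ≤ |C i l| := le_abs_self _
    _ ≤ ∑ j, |C i j| := Finset.single_le_sum (f := fun j => |C i j|) (fun _ _ => abs_nonneg _)
        (Finset.mem_univ l)
    _ ≤ _ := Finset.single_le_sum (f := fun i => ∑ j, |C i j|)
        (fun _ _ => Finset.sum_nonneg fun _ _ => abs_nonneg _) (Finset.mem_univ i)

/-- T6a -/
theorem t_Ksol : StmtKsol := by
  intro n _ _ A hA hs
  obtain ⟨M, hM0, hM⟩ := exists_bound hA hs
  set N : ℝ := (Fintype.card n : ℝ) with hN
  have hN0 : 0 ≤ N := by positivity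
  -- choice of `K`
  set a : ℝ := N * M * (N + 1) + 1 with ha
  have ha0 : 0 < a := by positivity
  set K : ℝ := 2 * Real.pi * a ^ 2 with hKdef
  have hpi := Real.pi_pos
  have hK : 0 < K := by positivity
  have hcK : cK K = 1 / (2 * a) := by
    have h1 : 2 * Real.pi / K = (1 / a) ^ 2 := by rw [hKdef]; field_simp
    rw [cK, h1, Real.sqrt_sq (by positivity)]
    field_simp
  set q : ℝ := 1 / (2 * (N + 1)) with hqdef
  have hq : cK K * (Fintype.card n * M) ≤ q := by
    rw [hcK, hqdef, ← hN, one_div_mul_eq_div, div_le_div_iff₀ (by positivity) (by positivity), ha]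
    nlinarith
  have hq2 : q ≤ 1 / 2 := by
    rw [hqdef, div_le_div_iff₀ (by positivity) (by positivity)]
    nlinarith
  -- the free solutions
  let Y0 : n → (ℂ →ᵇ (n → ℂ)) := fun j => BoundedContinuousFunction.ofNormedAddCommGroup
    (fun z => fun i => if i = j then (Real.exp (-(K / 2) * ‖z‖ ^ 2) : ℂ) else 0)
    (by
      refine continuous_pi fun i => ?_
      split_ifs
      · fun_prop
      · fun_prop) 1
    (fun z => by
      rw [pi_norm_le_iff_of_nonneg zero_le_one]
      intro i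
      split_ifs
      · rw [Complex.norm_real, Real.norm_of_nonneg (Real.exp_pos _).le, Real.exp_le_one_iff]
        nlinarith [sq_nonneg ‖z‖]
      · simp)
  have hY0e : ∀ j z i, Y0 j z i = if i = j then (Real.exp (-(K / 2) * ‖z‖ ^ 2) : ℂ) else 0 :=
    fun _ _ _ => rfl
  have hY0 : ∀ j, ‖Y0 j‖ ≤ 1 := fun j =>
    BoundedContinuousFunction.norm_ofNormedAddCommGroup_le _ zero_le_one _
  choose Y hY using fun j => exists_fix hA hM0 hM hK hq (by linarith) (Y0 j)
  have hclose : ∀ j z, ‖Y j z - Y0 j z‖ ≤ 2 * q := fun j z =>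
    fix_bound hM0 hM hK hq hq2 (hY0 j) (hY j) z
  have hbd : ∀ j (u : ℂ), ‖mulA A u (Y j u)‖ ≤ (Fintype.card n * M) * ‖Y j‖ :=
    fun j u => (norm_mulA_le hM0 hM u (Y j u)).trans
      (mul_le_mul_of_nonneg_left ((Y j).norm_coe_le_norm u) (by positivity))
  have hYi : ∀ j i, Continuous fun z => Y j z i := fun j i =>
    (continuous_apply i).comp (Y j).continuous
  refine ⟨fun i j z => (Real.exp (K / 2 * ‖z‖ ^ 2) : ℂ) * Y j z i, fun i j => ?_, ?_, ?_⟩
  · exact (by fun_prop : Continuous fun z : ℂ => (Real.exp (K / 2 * ‖z‖ ^ 2) : ℂ)).mul (hYi j i)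
  · -- weak equation
    intro i j φ hφ hφs
    set f : ℂ → ℂ := fun u => ∑ l, A i l u * ((Real.exp (K / 2 * ‖u‖ ^ 2) : ℂ) * Y j u l) with hf
    have hfe : ∀ u, f u = (Real.exp (K / 2 * ‖u‖ ^ 2) : ℂ) * mulA A u (Y j u) i := by
      intro u
      rw [hf, mulA, Finset.mul_sum]
      refine Finset.sum_congr rfl fun l _ => ?_
      ring
    have hfc : Continuous f := by
      refine continuous_finsetSum _ fun l _ => (hA i l).mul ?_
      exact (by fun_prop : Continuous fun z : ℂ => (Real.exp (K / 2 * ‖z‖ ^ 2) : ℂ)).mul (hYi j l)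
    have hfs : HasCompactSupport f := by
      refine HasCompactSupport.intro (K := ⋃ l, tsupport (A i l))
        (isCompact_iUnion fun l => (hs i l)) fun u hu => ?_
      rw [hf]
      refine Finset.sum_eq_zero fun l _ => ?_
      have : u ∉ tsupport (A i l) := fun h => hu (mem_iUnion.mpr ⟨l, h⟩)
      rw [image_eq_zero_of_notMem_tsupport this, zero_mul]
    -- representation
    have hX : ∀ z, (Real.exp (K / 2 * ‖z‖ ^ 2) : ℂ) * Y j z i = (if i = j then 1 else 0) +
        ∫ u, Complex.exp (K * ((z - u) * conj u)) * (2 * Real.pi * (z - u))⁻¹ * f u := by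
      intro z
      have h1 : (cv K (fun u => mulA A u (Y j u)) z) i =
          ∫ u, ker K z (z - u) * mulA A u (Y j u) i := by
        have hi := integrable_cv hK (continuous_mulA hA (Y j).continuous) (hbd j) z
        have h2 := (ContinuousLinearMap.proj (R := ℂ) (φ := fun _ : n => ℂ) i).integral_comp_comm hi
        have h3 : (cv K (fun u => mulA A u (Y j u)) z) i =
            ∫ w, ker K z w * mulA A (z - w) (Y j (z - w)) i := h2.symm
        rw [h3, ← integral_sub_left_eq_self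
          (fun w => ker K z w * mulA A (z - w) (Y j (z - w)) i) volume z]
        refine integral_congr_ae (Eventually.of_forall fun u => ?_)
        show ker K z (z - u) * mulA A (z - (z - u)) (Y j (z - (z - u))) i = _
        rw [sub_sub_cancel]
      have h4 := congrFun (hY j z) i
      rw [h4, Pi.add_apply, mul_add, hY0e, h1, ← integral_const_mul]
      congr 1
      · split_ifs
        · rw [← Complex.ofReal_mul, ← Real.exp_add]
          simp
        · simp
      · refine integral_congr_ae (Eventually.of_forall fun u => ?_)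
        show (Real.exp (K / 2 * ‖z‖ ^ 2) : ℂ) * (ker K z (z - u) * mulA A u (Y j u) i) =
          Complex.exp (K * ((z - u) * conj u)) * (2 * Real.pi * (z - u))⁻¹ * f u
        rw [hfe, ← mul_assoc, ker_eq]
        ring
    have hDc : Continuous (Dp (ContinuousLinearMap.id ℝ ℂ) φ) := by
      have h1 : ContDiff ℝ 1 φ := hφ.of_le (by simp)
      have hcont : ∀ v, Continuous fun z => fderiv ℝ φ z v := fun v =>
        (h1.continuous_fderiv one_ne_zero).clm_apply continuous_const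
      show Continuous fun z => fderiv ℝ φ z _ + Complex.I * fderiv ℝ φ z _
      exact (hcont _).add (continuous_const.mul (hcont _))
    have hDs : HasCompactSupport (Dp (ContinuousLinearMap.id ℝ ℂ) φ) := by
      have hsup : ∀ v, HasCompactSupport fun z => fderiv ℝ φ z v := fun v =>
        (hφs.fderiv ℝ).comp_left (g := fun L : ℂ →L[ℝ] ℂ => L v) (by simp)
      show HasCompactSupport fun z => fderiv ℝ φ z _ + Complex.I * fderiv ℝ φ z _
      exact (hsup _).add ((hsup _).mul_left)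
    set D := Dp (ContinuousLinearMap.id ℝ ℂ) φ with hD
    -- product integrability
    let H : ℂ × ℂ → ℂ := fun p => Complex.exp (K * ((p.1 - p.2) * conj p.2)) *
      (2 * Real.pi : ℂ)⁻¹ * f p.2 * D p.1
    have hHc : Continuous H := by
      have h1 : Continuous fun p : ℂ × ℂ => f p.2 := hfc.comp continuous_snd
      have h2 : Continuous fun p : ℂ × ℂ => D p.1 := hDc.comp continuous_fst
      have h3 : Continuous fun p : ℂ × ℂ => Complex.exp (K * ((p.1 - p.2) * conj p.2)) *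
        (2 * Real.pi : ℂ)⁻¹ := by fun_prop
      exact (h3.mul h1).mul h2
    have hHs : HasCompactSupport H := by
      refine HasCompactSupport.intro (K := tsupport D ×ˢ tsupport f)
        (IsCompact.prod hDs hfs) fun p hp => ?_
      rw [mem_prod, not_and_or] at hp
      show Complex.exp (K * ((p.1 - p.2) * conj p.2)) * (2 * Real.pi : ℂ)⁻¹ * f p.2 * D p.1 = 0
      rcases hp with hp | hp
      · rw [image_eq_zero_of_notMem_tsupport hp, mul_zero]
      · rw [image_eq_zero_of_notMem_tsupport hp, mul_zero, zero_mul]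
    have hint := integrable_prod_div hHc hHs
    have hint' : Integrable (Function.uncurry fun z u =>
        Complex.exp (K * ((z - u) * conj u)) * (2 * Real.pi * (z - u))⁻¹ * f u * D z)
        (volume.prod volume) := by
      refine hint.congr (Eventually.of_forall fun p => ?_)
      show Complex.exp (K * ((p.1 - p.2) * conj p.2)) * (2 * Real.pi : ℂ)⁻¹ * f p.2 * D p.1 *
        (p.1 - p.2)⁻¹ = Complex.exp (K * ((p.1 - p.2) * conj p.2)) *
          (2 * Real.pi * (p.1 - p.2))⁻¹ * f p.2 * D p.1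
      rw [mul_inv (2 * (Real.pi : ℂ)) (p.1 - p.2)]
      ring
    have hswap := integral_integral_swap hint'
    have e1 : ∀ z, (Real.exp (K / 2 * ‖z‖ ^ 2) : ℂ) * Y j z i * D z =
        (if i = j then 1 else 0) * D z + ∫ u, Complex.exp (K * ((z - u) * conj u)) *
          (2 * Real.pi * (z - u))⁻¹ * f u * D z := by
      intro z
      rw [hX z, add_mul, integral_mul_const]
    have hi1 : Integrable fun z => (if i = j then (1 : ℂ) else 0) * D z :=
      (hDc.integrable_of_hasCompactSupport hDs).const_mul _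
    have hi2 : Integrable fun z => ∫ u, Complex.exp (K * ((z - u) * conj u)) *
          (2 * Real.pi * (z - u))⁻¹ * f u * D z := hint'.integral_prod_left
    show -∫ z, (Real.exp (K / 2 * ‖z‖ ^ 2) : ℂ) * Y j z i * D z = ∫ z, f z * φ z
    rw [integral_congr_ae (Eventually.of_forall e1), integral_add hi1 hi2,
      integral_const_mul, hD, Pomp.integral_Dp_zero (hφ.of_le (by simp)) hφs, mul_zero, zero_add,
      ← hD]
    show -∫ z, ∫ u, Complex.exp (K * ((z - u) * conj u)) *
          (2 * Real.pi * (z - u))⁻¹ * f u * D z = _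
    rw [hswap, ← integral_neg]
    refine integral_congr_ae (Eventually.of_forall fun u => ?_)
    show -∫ z, Complex.exp (K * ((z - u) * conj u)) *
          (2 * Real.pi * (z - u))⁻¹ * f u * D z = f u * φ u
    have h5 : ∫ z, Complex.exp (K * ((z - u) * conj u)) *
          (2 * Real.pi * (z - u))⁻¹ * f u * D z = f u * ∫ z, Complex.exp (K * ((z - u) * conj u)) *
          (2 * Real.pi * (z - u))⁻¹ * D z := by
      rw [← integral_const_mul]
      refine integral_congr_ae (Eventually.of_forall fun z => ?_)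
      show _ = f u * (Complex.exp (K * ((z - u) * conj u)) * (2 * Real.pi * (z - u))⁻¹ * D z)
      ring
    rw [h5, kernel_adj K u hφ hφs]
    ring
  · -- determinant
    have h2q : 2 * q = 1 / (N + 1) := by rw [hqdef]; field_simp
    have hentry : ∀ i j, ‖(Real.exp (K / 2 * ‖(0 : ℂ)‖ ^ 2) : ℂ) * Y j 0 i -
        (if i = j then 1 else 0)‖ ≤ 1 / (N + 1) := by
      intro i j
      have h1 := (norm_le_pi_norm (Y j 0 - Y0 j 0) i).trans (hclose j 0)
      rw [Pi.sub_apply, hY0e, h2q] at h1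
      simpa using h1
    apply det_ne_zero_of_sum_row_lt_diag
    intro k
    simp only [Matrix.of_apply]
    have hoff : ∀ j ∈ Finset.univ.erase k, ‖(Real.exp (K / 2 * ‖(0 : ℂ)‖ ^ 2) : ℂ) * Y j 0 k‖ ≤
        1 / (N + 1) := by
      intro j hj
      have h1 := hentry k j
      rw [if_neg (fun h => (Finset.ne_of_mem_erase hj) h.symm), sub_zero] at h1
      exact h1
    have hdiag : 1 - 1 / (N + 1) ≤ ‖(Real.exp (K / 2 * ‖(0 : ℂ)‖ ^ 2) : ℂ) * Y k 0 k‖ := by
      have h1 := hentry k k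
      rw [if_pos rfl] at h1
      have h2 := norm_sub_norm_le (1 : ℂ) ((Real.exp (K / 2 * ‖(0 : ℂ)‖ ^ 2) : ℂ) * Y k 0 k)
      rw [norm_one, norm_sub_rev] at h2
      linarith
    refine lt_of_le_of_lt (Finset.sum_le_sum hoff) (lt_of_lt_of_le ?_ hdiag)
    rw [Finset.sum_const, nsmul_eq_mul, Finset.card_erase_of_mem (Finset.mem_univ k),
      Finset.card_univ]
    have hcard : 1 ≤ Fintype.card n := Fintype.card_pos_iff.mpr ⟨k⟩
    rw [Nat.cast_sub hcard, ← hN, Nat.cast_one]
    have hN1 : 0 < N + 1 := by positivity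
    rw [lt_sub_iff_add_lt, ← add_one_mul, sub_add_cancel, mul_one_div, div_lt_one hN1]
    linarith

end Ks

/-- T6a -/
theorem t_Ksol : StmtKsol := Ks.t_Ksol

end Crest.Agent.R080
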