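import Mathlib

/-!
Row 80: Young's inequality `L¹ * L² → L²` (lintegral form), mollifiers with scaling,
a.e. convergence, Fatou.
-/

set_option autoImplicit false

open MeasureTheory Filter ENNReal
open scoped ContDiff Topology Convolution

noncomputable section
namespace Crest.Agent.R080

/-! ### Young's inequality -/

theorem sq_lintegral_mul_le {α : Type*} [MeasurableSpace α] (μ : Measure α) {k g : α → ℝ≥0∞}
    (hk : AEMeasurable k μ) (hg : AEMeasurable g μ) :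
    (∫⁻ a, k a * g a ∂μ) ^ 2 ≤ (∫⁻ a, k a ∂μ) * ∫⁻ a, k a * g a ^ 2 ∂μ := by
  have h := ENNReal.lintegral_mul_le_Lp_mul_Lq μ Real.HolderConjugate.two_two
    (f := fun a => k a ^ (1 / 2 : ℝ)) (g := fun a => k a ^ (1 / 2 : ℝ) * g a)
    (hk.pow_const _) ((hk.pow_const _).mul hg)
  have e1 : ∀ a, k a ^ (1 / 2 : ℝ) * k a ^ (1 / 2 : ℝ) = k a := fun a => by
    rw [← ENNReal.rpow_add_of_nonneg _ _ (by norm_num) (by norm_num)]; norm_num
  have e2 : ∀ a, (k a ^ (1 / 2 : ℝ)) ^ (2 : ℝ) = k a := fun a => by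
    rw [← ENNReal.rpow_mul]; norm_num
  have e3 : ∀ a, (k a ^ (1 / 2 : ℝ) * g a) ^ (2 : ℝ) = k a * g a ^ 2 := fun a => by
    rw [ENNReal.mul_rpow_of_nonneg _ _ (by norm_num), e2]; norm_num
  have e4 : ∀ a, ((fun a => k a ^ (1 / 2 : ℝ)) * (fun a => k a ^ (1 / 2 : ℝ) * g a)) a
      = k a * g a := fun a => by
    simp only [Pi.mul_apply]; rw [← mul_assoc, e1]
  simp only [e2, e3, e4] at h
  calc (∫⁻ a, k a * g a ∂μ) ^ 2
      ≤ ((∫⁻ a, k a ∂μ) ^ (1 / 2 : ℝ) * (∫⁻ a, k a * g a ^ 2 ∂μ) ^ (1 / 2 : ℝ)) ^ 2 := by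
        gcongr
    _ = (∫⁻ a, k a ∂μ) * ∫⁻ a, k a * g a ^ 2 ∂μ := by
        rw [mul_pow, ← ENNReal.rpow_natCast, ← ENNReal.rpow_natCast, ← ENNReal.rpow_mul,
          ← ENNReal.rpow_mul]
        norm_num

/-- Young's inequality `L¹ * L² → L²`, kernel form -/
theorem young_lintegral {E : Type*} [AddCommGroup E] [MeasurableSpace E] [MeasurableAdd₂ E]
    [MeasurableNeg E] (μ : Measure E) [SFinite μ] [μ.IsAddLeftInvariant] [μ.IsNegInvariant]
    {k g : E → ℝ≥0∞} (hk : Measurable k) (hg : AEMeasurable g μ) :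
    ∫⁻ x, (∫⁻ y, k (x - y) * g y ∂μ) ^ 2 ∂μ ≤ (∫⁻ x, k x ∂μ) ^ 2 * ∫⁻ x, g x ^ 2 ∂μ := by
  have hm : ∀ x, Measurable fun y => k (x - y) := fun x =>
    hk.comp (measurable_const.sub measurable_id)
  have h1 : ∀ x, ∫⁻ y, k (x - y) ∂μ = ∫⁻ y, k y ∂μ := fun x =>
    lintegral_sub_left_eq_self k x
  calc ∫⁻ x, (∫⁻ y, k (x - y) * g y ∂μ) ^ 2 ∂μ
      ≤ ∫⁻ x, (∫⁻ y, k y ∂μ) * ∫⁻ y, k (x - y) * g y ^ 2 ∂μ ∂μ := by
        refine lintegral_mono fun x => ?_
        have := sq_lintegral_mul_le μ (hm x).aemeasurable hg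
        rwa [h1] at this
    _ = (∫⁻ y, k y ∂μ) * ∫⁻ x, ∫⁻ y, k (x - y) * g y ^ 2 ∂μ ∂μ := by
        refine lintegral_const_mul'' _ ?_
        have : AEMeasurable (fun p : E × E => k (p.1 - p.2) * g p.2 ^ 2) (μ.prod μ) :=
          (hk.comp measurable_sub).aemeasurable.mul
            ((hg.comp_quasiMeasurePreserving Measure.quasiMeasurePreserving_snd).pow_const 2)
        exact this.lintegral_prod_right'
    _ = (∫⁻ y, k y ∂μ) * ∫⁻ y, ∫⁻ x, k (x - y) * g y ^ 2 ∂μ ∂μ := by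
        congr 1
        refine lintegral_lintegral_swap ?_
        exact (hk.comp measurable_sub).aemeasurable.mul
            ((hg.comp_quasiMeasurePreserving Measure.quasiMeasurePreserving_snd).pow_const 2)
    _ = (∫⁻ y, k y ∂μ) * ∫⁻ y, (∫⁻ x, k x ∂μ) * g y ^ 2 ∂μ := by
        congr 1
        refine lintegral_congr fun y => ?_
        have hm' : Measurable fun x => k (x - y) := hk.comp (measurable_id.sub measurable_const)
        rw [lintegral_mul_const _ hm', lintegral_sub_right_eq_self k y]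
    _ = (∫⁻ x, k x ∂μ) ^ 2 * ∫⁻ x, g x ^ 2 ∂μ := by
        rw [lintegral_const_mul'' _ (hg.pow_const 2), sq, mul_assoc]

/-! ### mollifiers -/

section moll

variable (E : Type*) [NormedAddCommGroup E] [InnerProductSpace ℝ E] [FiniteDimensional ℝ E]
  [MeasurableSpace E] [BorelSpace E]

/-- the standard bump with radii `ε/2`, `ε` -/
def bmp {ε : ℝ} (hε : 0 < ε) : ContDiffBump (0 : E) := ⟨ε / 2, ε, half_pos hε, half_lt_self hε⟩

variable {E}

/-- mollifier at scale `ε` (a scaled copy of the one at scale `1`) -/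
def eta (ε : ℝ) (x : E) : ℝ :=
  (ε ^ Module.finrank ℝ E)⁻¹ * (bmp E one_pos).normed volume (ε⁻¹ • x)

theorem eta_eq_normed {ε : ℝ} (hε : 0 < ε) : (eta ε : E → ℝ) = (bmp E hε).normed volume := by
  have hsc : ∀ x : E, (bmp E hε) x = (bmp E one_pos) (ε⁻¹ • x) := fun x => by
    rw [ContDiffBump.apply, ContDiffBump.apply]
    simp only [bmp, sub_zero, smul_smul]
    have e1 : ε / (ε / 2) = 1 / (1 / 2) := by field_simp
    have e2 : (ε / 2)⁻¹ = (1 / 2)⁻¹ * ε⁻¹ := by field_simp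
    rw [e1, e2]
  have hint : ∫ x : E, (bmp E hε) x = ε ^ Module.finrank ℝ E * ∫ x : E, (bmp E one_pos) x := by
    simp_rw [hsc]
    rw [Measure.integral_comp_inv_smul_of_nonneg volume (bmp E one_pos : E → ℝ) hε.le, smul_eq_mul]
  funext x
  rw [eta, ContDiffBump.normed_def, ContDiffBump.normed_def, hint, hsc]
  rw [div_eq_mul_inv, div_eq_mul_inv, mul_inv]
  ring

theorem eta_contDiff (ε : ℝ) : ContDiff ℝ ∞ (eta ε : E → ℝ) :=
  contDiff_const.mul ((bmp E one_pos).contDiff_normed.comp (contDiff_const_smul _))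

theorem eta_nonneg {ε : ℝ} (hε : 0 < ε) (x : E) : 0 ≤ eta ε x := by
  rw [eta_eq_normed hε]; exact (bmp E hε).nonneg_normed x

theorem eta_eq_zero {ε : ℝ} (hε : 0 < ε) {x : E} (hx : ε ≤ ‖x‖) : eta ε x = 0 := by
  rw [eta_eq_normed hε]
  have : x ∉ Function.support ((bmp E hε).normed volume) := by
    rw [ContDiffBump.support_normed_eq]; simpa [bmp] using hx
  simpa using this

theorem eta_integral {ε : ℝ} (hε : 0 < ε) : ∫ x : E, eta ε x = 1 := by
  rw [eta_eq_normed hε]; exact (bmp E hε).integral_normed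

theorem eta_compact {ε : ℝ} (hε : 0 < ε) : HasCompactSupport (eta ε : E → ℝ) := by
  rw [eta_eq_normed hε]; exact (bmp E hε).hasCompactSupport_normed

theorem eta_integrable {ε : ℝ} (hε : 0 < ε) : Integrable (eta ε : E → ℝ) := by
  rw [eta_eq_normed hε]; exact (bmp E hε).integrable_normed

theorem lintegral_eta {ε : ℝ} (hε : 0 < ε) : ∫⁻ x : E, ENNReal.ofReal (eta ε x) = 1 := by
  rw [← ofReal_integral_eq_lintegral_ofReal (eta_integrable hε)
    (Eventually.of_forall (eta_nonneg hε)), eta_integral hε, ENNReal.ofReal_one]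

variable (E) in
/-- the scale invariant first moment of the gradient of the mollifier -/
def c1 : ℝ := ∫ z : E, ‖z‖ * ‖fderiv ℝ (eta 1 : E → ℝ) z‖

theorem c1_nonneg : 0 ≤ c1 E := integral_nonneg fun z => by positivity

theorem fderiv_eta (ε : ℝ) (x : E) : fderiv ℝ (eta ε : E → ℝ) x
    = ((ε ^ Module.finrank ℝ E)⁻¹ * ε⁻¹) • fderiv ℝ (eta 1 : E → ℝ) (ε⁻¹ • x) := by
  have hd : DifferentiableAt ℝ (eta 1 : E → ℝ) (ε⁻¹ • x) :=
    (eta_contDiff 1).differentiable (by simp) _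
  have h1 : HasFDerivAt (fun y : E => (eta 1 : E → ℝ) (ε⁻¹ • y))
      ((fderiv ℝ (eta 1 : E → ℝ) (ε⁻¹ • x)).comp (ε⁻¹ • ContinuousLinearMap.id ℝ E)) x :=
    hd.hasFDerivAt.comp x ((hasFDerivAt_id x).const_smul ε⁻¹)
  have h2 : HasFDerivAt (eta ε : E → ℝ)
      ((ε ^ Module.finrank ℝ E)⁻¹ • ((fderiv ℝ (eta 1 : E → ℝ) (ε⁻¹ • x)).comp
        (ε⁻¹ • ContinuousLinearMap.id ℝ E))) x := by
    have := h1.const_mul ((ε ^ Module.finrank ℝ E)⁻¹)
    refine this.congr_of_eventuallyEq (Eventually.of_forall fun y => ?_)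
    simp only [eta, one_pow, inv_one, one_mul, one_smul]
  rw [h2.fderiv]
  ext y
  simp [mul_assoc]

theorem integral_norm_fderiv_eta {ε : ℝ} (hε : 0 < ε) :
    ∫ z : E, ‖z‖ * ‖fderiv ℝ (eta ε : E → ℝ) z‖ = c1 E := by
  have hp : (0 : ℝ) < ε ^ Module.finrank ℝ E := pow_pos hε _
  have h : ∀ z : E, ‖z‖ * ‖fderiv ℝ (eta ε : E → ℝ) z‖
      = (ε ^ Module.finrank ℝ E)⁻¹ * (‖ε⁻¹ • z‖ * ‖fderiv ℝ (eta 1 : E → ℝ) (ε⁻¹ • z)‖) := by
    intro z
    rw [fderiv_eta, norm_smul, norm_smul, norm_mul, norm_inv, norm_inv, Real.norm_of_nonneg hε.le,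
      Real.norm_of_nonneg hp.le]
    ring
  simp_rw [h]
  rw [integral_const_mul, Measure.integral_comp_inv_smul_of_nonneg volume
    (fun z : E => ‖z‖ * ‖fderiv ℝ (eta 1 : E → ℝ) z‖) hε.le, smul_eq_mul, ← mul_assoc,
    inv_mul_cancel₀ hp.ne', one_mul, c1]

theorem integrable_norm_fderiv_eta {ε : ℝ} (hε : 0 < ε) :
    Integrable fun z : E => ‖z‖ * ‖fderiv ℝ (eta ε : E → ℝ) z‖ := by
  have hc : HasCompactSupport (fderiv ℝ (eta ε : E → ℝ)) := (eta_compact hε).fderiv ℝ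
  refine Continuous.integrable_of_hasCompactSupport ?_ ?_
  · exact continuous_norm.mul ((eta_contDiff ε).continuous_fderiv (by simp)).norm
  · exact hc.norm.mul_left

/-- convolution of a complex kernel and a complex function -/
def cv (ρ g : E → ℂ) (x : E) : ℂ := ∫ y, ρ (x - y) * g y

theorem cv_eq_convolution (ρ g : E → ℂ) :
    cv ρ g = (g ⋆[ContinuousLinearMap.mul ℝ ℂ, volume] ρ) := by
  funext x
  simp only [cv, convolution_def, ContinuousLinearMap.mul_apply']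
  exact integral_congr_ae (Eventually.of_forall fun y => mul_comm _ _)

theorem cv_contDiff {ρ g : E → ℂ} (hρ : ContDiff ℝ ∞ ρ) (hc : HasCompactSupport ρ)
    (hg : LocallyIntegrable g volume) : ContDiff ℝ ∞ (cv ρ g) := by
  rw [cv_eq_convolution]
  exact hc.contDiff_convolution_right (n := ⊤) _ hg hρ

theorem fderiv_cv {ρ g : E → ℂ} (hρ : ContDiff ℝ ∞ ρ) (hc : HasCompactSupport ρ)
    (hg : LocallyIntegrable g volume) (x e : E) :
    fderiv ℝ (cv ρ g) x e = cv (fun z => fderiv ℝ ρ z e) g x := by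
  have h1 : ContDiff ℝ 1 ρ := hρ.of_le (by norm_cast)
  have := hc.hasFDerivAt_convolution_right (ContinuousLinearMap.mul ℝ ℂ) hg h1 x
  rw [cv_eq_convolution, cv_eq_convolution, this.fderiv, convolution_precompR_apply
    (ContinuousLinearMap.mul ℝ ℂ) hg (hc.fderiv ℝ) (h1.continuous_fderiv one_ne_zero)]

/-- complexified mollifier -/
def etaC (ε : ℝ) (x : E) : ℂ := (eta ε x : ℂ)

theorem etaC_contDiff (ε : ℝ) : ContDiff ℝ ∞ (etaC ε : E → ℂ) :=
  Complex.ofRealCLM.contDiff.comp (eta_contDiff ε)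

theorem etaC_compact {ε : ℝ} (hε : 0 < ε) : HasCompactSupport (etaC ε : E → ℂ) :=
  (eta_compact hε).comp_left (g := fun t : ℝ => (t : ℂ)) (by simp)

theorem fderiv_etaC (ε : ℝ) (x e : E) :
    fderiv ℝ (etaC ε : E → ℂ) x e = ((fderiv ℝ (eta ε : E → ℝ) x e : ℝ) : ℂ) := by
  have hd : DifferentiableAt ℝ (eta ε : E → ℝ) x := (eta_contDiff ε).differentiable (by simp) _
  have h : HasFDerivAt (etaC ε : E → ℂ)
      (Complex.ofRealCLM.comp (fderiv ℝ (eta ε : E → ℝ) x)) x :=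
    Complex.ofRealCLM.hasFDerivAt.comp x hd.hasFDerivAt
  rw [h.fderiv]
  rfl

/-- the sequence of mollifications -/
theorem cv_etaC_ae_tendsto {g : E → ℂ} (hg : LocallyIntegrable g volume) {e : ℕ → ℝ}
    (he : ∀ n, 0 < e n) (he0 : Tendsto e atTop (𝓝 0)) :
    ∀ᵐ x, Tendsto (fun n => cv (etaC (e n)) g x) atTop (𝓝 (g x)) := by
  have h := ContDiffBump.ae_convolution_tendsto_right_of_locallyIntegrable (μ := volume)
    (φ := fun n => bmp E (he n)) (l := atTop) (K := 2) (by simpa [bmp] using he0)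
    (Eventually.of_forall fun n => by simp only [bmp]; linarith) hg
  filter_upwards [h] with x hx
  refine hx.congr fun n => ?_
  rw [convolution_eq_swap, cv]
  refine integral_congr_ae (Eventually.of_forall fun y => ?_)
  simp only [ContinuousLinearMap.lsmul_apply, Complex.real_smul, etaC, eta_eq_normed (he n)]

theorem lintegral_sq_le_of_cv {g : E → ℂ} (hg : LocallyIntegrable g volume) {e : ℕ → ℝ}
    (he : ∀ n, 0 < e n) (he0 : Tendsto e atTop (𝓝 0)) {K : ℝ≥0∞}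
    (hK : ∀ n, ∫⁻ x, ‖cv (etaC (e n)) g x‖ₑ ^ 2 ≤ K) : ∫⁻ x, ‖g x‖ₑ ^ 2 ≤ K := by
  have h := cv_etaC_ae_tendsto hg he he0
  calc ∫⁻ x, ‖g x‖ₑ ^ 2 = ∫⁻ x, liminf (fun n => ‖cv (etaC (e n)) g x‖ₑ ^ 2) atTop := by
        refine lintegral_congr_ae ?_
        filter_upwards [h] with x hx
        have : Tendsto (fun n => ‖cv (etaC (e n)) g x‖ₑ ^ 2) atTop (𝓝 (‖g x‖ₑ ^ 2)) :=
          ((ENNReal.continuous_pow 2).tendsto _).comp hx.enorm
        exact this.liminf_eq.symm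
    _ ≤ liminf (fun n => ∫⁻ x, ‖cv (etaC (e n)) g x‖ₑ ^ 2) atTop := by
        refine lintegral_liminf_le fun n => ?_
        have : Continuous (cv (etaC (e n)) g) :=
          (cv_contDiff (etaC_contDiff _) (etaC_compact (he n)) hg).continuous
        exact (this.enorm.measurable).pow_const 2
    _ ≤ K := by
        refine liminf_le_of_le (by isBoundedDefault) fun b hb => ?_
        obtain ⟨n, hn⟩ := hb.exists
        exact hn.trans (hK n)

theorem lintegral_cv_sq_le {ε : ℝ} (hε : 0 < ε) {g : E → ℂ} (hg : AEStronglyMeasurable g volume) :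
    ∫⁻ x, ‖cv (etaC ε) g x‖ₑ ^ 2 ≤ ∫⁻ x, ‖g x‖ₑ ^ 2 := by
  have hk : Measurable fun x : E => ENNReal.ofReal (eta ε x) :=
    (eta_contDiff ε).continuous.measurable.ennreal_ofReal
  have := young_lintegral (E := E) volume hk hg.enorm
  rw [lintegral_eta hε, one_pow, one_mul] at this
  refine le_trans (lintegral_mono fun x => ?_) this
  gcongr
  refine (enorm_integral_le_lintegral_enorm _).trans (lintegral_mono fun y => ?_)
  rw [enorm_mul, etaC]
  gcongr
  rw [← ofReal_norm, Complex.norm_real, Real.norm_of_nonneg (eta_nonneg hε _)]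

end moll

end Crest.Agent.R080
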