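import Crest.Agent.R080.Stmts2
import Crest.Agent.R080.Mollify

/-!
Row 80, T9: kernel identities for the transposed operator.
-/

set_option autoImplicit false

open MeasureTheory Filter
open scoped ContDiff Topology
open Crest.AnalysisR.VecCalc3 Crest.AnalysisR.PDE.Elasticity

noncomputable section
namespace Crest.Agent.R080

/-! ### calculus of `pd` -/

theorem pd_contDiff {f : R3 → ℂ} (hf : ContDiff ℝ ∞ f) (j : Fin 3) : ContDiff ℝ ∞ (pd j f) := by
  unfold pd
  exact (hf.fderiv_right (m := ∞) (by simp)).clm_apply contDiff_const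

theorem pd_compact {f : R3 → ℂ} (hf : HasCompactSupport f) (j : Fin 3) :
    HasCompactSupport (pd j f) := by
  have := hf.fderiv ℝ
  exact this.comp_left (g := fun L : R3 →L[ℝ] ℂ => L (ee j)) (by simp)

theorem pd_add {f g : R3 → ℂ} (hf : ContDiff ℝ ∞ f) (hg : ContDiff ℝ ∞ g) (j : Fin 3) (x : R3) :
    pd j (fun y => f y + g y) x = pd j f x + pd j g x := by
  unfold pd
  rw [fderiv_fun_add (hf.differentiable (by simp) x) (hg.differentiable (by simp) x)]
  rfl

theorem pd_const_mul {f : R3 → ℂ} (hf : ContDiff ℝ ∞ f) (c : ℂ) (j : Fin 3) (x : R3) :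
    pd j (fun y => c * f y) x = c * pd j f x := by
  unfold pd
  rw [fderiv_const_mul (hf.differentiable (by simp) x)]
  rfl

theorem pd_comp_sub {ρ : R3 → ℂ} (hρ : ContDiff ℝ ∞ ρ) (j : Fin 3) (x y : R3) :
    pd j (fun y => ρ (x - y)) y = -pd j ρ (x - y) := by
  unfold pd
  have h1 : HasFDerivAt (fun y : R3 => x - y) (-ContinuousLinearMap.id ℝ R3) y := by
    simpa using (hasFDerivAt_id y).const_sub x
  have h2 := ((hρ.differentiable (by simp) (x - y)).hasFDerivAt).comp y h1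
  have h3 : fderiv ℝ (fun y => ρ (x - y)) y
      = (fderiv ℝ ρ (x - y)).comp (-ContinuousLinearMap.id ℝ R3) := h2.fderiv
  rw [h3]
  simp

theorem pd_zero (j : Fin 3) (x : R3) : pd j (fun _ => (0 : ℂ)) x = 0 := by
  unfold pd; simp

theorem Lap_contDiff {f : R3 → ℂ} (hf : ContDiff ℝ ∞ f) : ContDiff ℝ ∞ (Lap f) := by
  unfold Lap
  exact ContDiff.sum fun j _ => pd_contDiff (pd_contDiff hf j) j

theorem DD_contDiff {f : R3 → ℂ} (hf : ContDiff ℝ ∞ f) (θ : Fin 3 → ℂ) :
    ContDiff ℝ ∞ (DD θ f) := by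
  unfold DD
  exact ContDiff.sum fun j _ => contDiff_const.mul (pd_contDiff hf j)

theorem Lap_comp_sub {ρ : R3 → ℂ} (hρ : ContDiff ℝ ∞ ρ) (x y : R3) :
    Lap (fun y => ρ (x - y)) y = Lap ρ (x - y) := by
  unfold Lap
  refine Finset.sum_congr rfl fun j _ => ?_
  have h : pd j (fun y => ρ (x - y)) = fun y => (-1 : ℂ) * (fun y => pd j ρ (x - y)) y := by
    funext y; rw [pd_comp_sub hρ]; ring
  rw [h, pd_const_mul, pd_comp_sub (pd_contDiff hρ j)]
  · ring
  · exact (pd_contDiff hρ j).comp (contDiff_const.sub contDiff_id)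

theorem Lap_compact {f : R3 → ℂ} (hf : HasCompactSupport f) : HasCompactSupport (Lap f) := by
  unfold Lap
  simp only [Fin.sum_univ_three]
  exact ((pd_compact (pd_compact hf 0) 0).add (pd_compact (pd_compact hf 1) 1)).add
    (pd_compact (pd_compact hf 2) 2)

/-- transposed coefficients -/
def At {ι : Type} (A : Fin 3 → ι → ι → R3 → ℂ) (j : Fin 3) (l i : ι) (x : R3) : ℂ := -A j i l x

def Bt {ι : Type} (A : Fin 3 → ι → ι → R3 → ℂ) (B : ι → ι → R3 → ℂ) (l i : ι) (x : R3) : ℂ :=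
  B i l x - ∑ j, pd j (A j i l) x

set_option linter.unusedSectionVars false

variable {ι : Type} [Fintype ι] [DecidableEq ι]

/-- the test field `y ↦ ρ (x - y) e_l` -/
def tf (ρ : R3 → ℂ) (l : ι) (x : R3) (i : ι) (y : R3) : ℂ := if i = l then ρ (x - y) else 0

/-- kernel of the operator applied to the test field -/
def Tk (θ : Fin 3 → ℂ) (A : Fin 3 → ι → ι → R3 → ℂ) (B : ι → ι → R3 → ℂ) (τ : ℝ) (ρ : R3 → ℂ)
    (l i : ι) (x y : R3) : ℂ :=
  (if i = l then Lap ρ (x - y) + (-2 * τ) * DD θ ρ (x - y) else 0)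
    + ∑ j, (-A j i l y) * pd j ρ (x - y) + (B i l y + τ * ∑ j, A j i l y * θ j) * ρ (x - y)

/-- kernel of the transposed operator applied to a mollified field -/
def Sk (θ : Fin 3 → ℂ) (A : Fin 3 → ι → ι → R3 → ℂ) (B : ι → ι → R3 → ℂ) (τ : ℝ) (ρ : R3 → ℂ)
    (l i : ι) (x y : R3) : ℂ :=
  (if i = l then Lap ρ (x - y) + (-2 * τ) * DD θ ρ (x - y) else 0)
    + ∑ j, (-A j i l x) * pd j ρ (x - y)
    + (B i l x - (∑ j, pd j (A j i l) x) + τ * ∑ j, A j i l x * θ j) * ρ (x - y)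

theorem tf_contDiff {ρ : R3 → ℂ} (hρ : ContDiff ℝ ∞ ρ) (l : ι) (x : R3) (i : ι) :
    ContDiff ℝ ∞ (tf ρ l x i) := by
  unfold tf
  by_cases h : i = l
  · simp only [h, if_true]; exact hρ.comp (contDiff_const.sub contDiff_id)
  · simp only [h, if_false]; exact contDiff_const

theorem pd_tf {ρ : R3 → ℂ} (hρ : ContDiff ℝ ∞ ρ) (l : ι) (x : R3) (i : ι) (j : Fin 3) (y : R3) :
    pd j (tf ρ l x i) y = if i = l then -pd j ρ (x - y) else 0 := by
  by_cases h : i = l
  · rw [if_pos h]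
    have : tf ρ l x i = fun y => ρ (x - y) := by funext y; simp [tf, h]
    rw [this, pd_comp_sub hρ]
  · rw [if_neg h]
    have : tf ρ l x i = fun y => 0 := by funext y; simp [tf, h]
    rw [this, pd_zero]

theorem Lap_tf {ρ : R3 → ℂ} (hρ : ContDiff ℝ ∞ ρ) (l : ι) (x : R3) (i : ι) (y : R3) :
    Lap (tf ρ l x i) y = if i = l then Lap ρ (x - y) else 0 := by
  by_cases h : i = l
  · rw [if_pos h]
    have : tf ρ l x i = fun y => ρ (x - y) := by funext y; simp [tf, h]
    rw [this, Lap_comp_sub hρ]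
  · rw [if_neg h]
    have : tf ρ l x i = fun y => 0 := by funext y; simp [tf, h]
    rw [this]
    unfold Lap
    refine Finset.sum_eq_zero fun j _ => ?_
    have h2 : pd j (fun _ : R3 => (0 : ℂ)) = fun _ => 0 := by funext y; exact pd_zero j y
    rw [h2, pd_zero]

theorem op_tf {ρ : R3 → ℂ} (hρ : ContDiff ℝ ∞ ρ) (θ : Fin 3 → ℂ) (A : Fin 3 → ι → ι → R3 → ℂ)
    (B : ι → ι → R3 → ℂ) (τ : ℝ) (l i : ι) (x y : R3) :
    P0 A B (tf ρ l x) i y + τ * M0 θ A (tf ρ l x) i y = Tk θ A B τ ρ l i x y := by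
  have hd : DD θ (tf ρ l x i) y = if i = l then -DD θ ρ (x - y) else 0 := by
    unfold DD
    simp only [pd_tf hρ]
    by_cases h : i = l
    · simp only [h, if_true, mul_neg, Finset.sum_neg_distrib]
    · simp [h]
  have h1 : ∀ j, ∑ l', A j i l' y * pd j (tf ρ l x l') y = -A j i l y * pd j ρ (x - y) := by
    intro j
    simp only [pd_tf hρ, mul_ite, mul_zero, Finset.sum_ite_eq', Finset.mem_univ, if_true]
    ring
  have h2 : ∑ l', B i l' y * tf ρ l x l' y = B i l y * ρ (x - y) := by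
    simp [tf, mul_ite]
  have h3 : ∀ j, ∑ l', A j i l' y * θ j * tf ρ l x l' y = A j i l y * θ j * ρ (x - y) := by
    intro j; simp [tf, mul_ite]
  unfold P0 M0 Tk
  rw [hd, Lap_tf hρ, h2]
  simp only [h1, h3]
  rw [← Finset.sum_mul]
  by_cases h : i = l
  · simp only [h, if_true]; ring
  · simp only [h, if_false]; ring

/-! ### linearity of `cv` in the kernel -/

theorem integrable_kernel {k g : R3 → ℂ} (hk : Continuous k) (hc : HasCompactSupport k)
    (hg : LocallyIntegrable g volume) : Integrable fun y => k y * g y :=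
  hg.integrable_smul_left_of_hasCompactSupport hk hc

theorem integrable_cv {ρ g : R3 → ℂ} (hρ : Continuous ρ) (hc : HasCompactSupport ρ)
    (hg : LocallyIntegrable g volume) (x : R3) : Integrable fun y => ρ (x - y) * g y := by
  refine integrable_kernel (hρ.comp (continuous_const.sub continuous_id)) ?_ hg
  exact hc.comp_homeomorph (Homeomorph.subLeft x)

theorem pd_cv {ρ g : R3 → ℂ} (hρ : ContDiff ℝ ∞ ρ) (hc : HasCompactSupport ρ)
    (hg : LocallyIntegrable g volume) (j : Fin 3) (x : R3) :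
    pd j (cv ρ g) x = cv (pd j ρ) g x := fderiv_cv hρ hc hg x _

theorem Lap_cv {ρ g : R3 → ℂ} (hρ : ContDiff ℝ ∞ ρ) (hc : HasCompactSupport ρ)
    (hg : LocallyIntegrable g volume) (x : R3) :
    Lap (cv ρ g) x = cv (Lap ρ) g x := by
  unfold Lap
  have h1 : ∀ j, pd j (cv ρ g) = cv (pd j ρ) g := fun j => by
    funext y; exact pd_cv hρ hc hg j y
  simp only [h1]
  have h2 : ∀ j, pd j (cv (pd j ρ) g) x = cv (pd j (pd j ρ)) g x := fun j =>
    pd_cv (pd_contDiff hρ j) (pd_compact hc j) hg j x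
  simp only [h2]
  unfold cv
  rw [← integral_finsetSum]
  · refine integral_congr_ae (Eventually.of_forall fun y => ?_)
    simp only [Finset.sum_mul]
  · intro j _
    exact integrable_cv (pd_contDiff (pd_contDiff hρ j) j).continuous
      (pd_compact (pd_compact hc j) j) hg x

/-- `F` is integrable with integral `c` -/
structure HI (F : R3 → ℂ) (c : ℂ) : Prop where
  int : Integrable F
  eq : ∫ y, F y = c

namespace HI
variable {F G : R3 → ℂ} {a b : ℂ}

theorem add (h1 : HI F a) (h2 : HI G b) : HI (fun y => F y + G y) (a + b) :=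
  ⟨h1.int.add h2.int, by rw [integral_add h1.int h2.int, h1.eq, h2.eq]⟩

theorem mul (h1 : HI F a) (c : ℂ) : HI (fun y => c * F y) (c * a) :=
  ⟨h1.int.const_mul c, by rw [integral_const_mul, h1.eq]⟩

theorem sum {κ : Type*} {s : Finset κ} {F : κ → R3 → ℂ} {a : κ → ℂ}
    (h : ∀ k ∈ s, HI (F k) (a k)) : HI (fun y => ∑ k ∈ s, F k y) (∑ k ∈ s, a k) :=
  ⟨integrable_finsetSum _ fun k hk => (h k hk).int, by
    rw [integral_finsetSum _ fun k hk => (h k hk).int]
    exact Finset.sum_congr rfl fun k hk => (h k hk).eq⟩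

theorem congr (h : HI F a) (h1 : ∀ y, G y = F y) (h2 : b = a) : HI G b := by
  have : G = F := funext h1
  rw [this, h2]; exact h

end HI

theorem hi_cv {ρ g : R3 → ℂ} (hρ : Continuous ρ) (hc : HasCompactSupport ρ)
    (hg : LocallyIntegrable g volume) (x : R3) : HI (fun y => ρ (x - y) * g y) (cv ρ g x) :=
  ⟨integrable_cv hρ hc hg x, rfl⟩

theorem hi_Sk {ρ : R3 → ℂ} (hρ : ContDiff ℝ ∞ ρ) (hc : HasCompactSupport ρ) (θ : Fin 3 → ℂ)
    (A : Fin 3 → ι → ι → R3 → ℂ) (B : ι → ι → R3 → ℂ) (τ : ℝ) (V : ι → R3 → ℂ)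
    (hV : ∀ i, LocallyIntegrable (V i) volume) (l : ι) (x : R3) (i : ι) :
    HI (fun y => Sk θ A B τ ρ l i x y * V i y)
      ((if i = l then cv (Lap ρ) (V i) x + (-2 * τ) * ∑ j, θ j * cv (pd j ρ) (V i) x else 0)
        + ∑ j, (-A j i l x) * cv (pd j ρ) (V i) x
        + (B i l x - (∑ j, pd j (A j i l) x) + τ * ∑ j, A j i l x * θ j) * cv ρ (V i) x) := by
  have I0 := hi_cv hρ.continuous hc (hV i) x
  have I1 := fun j => hi_cv (pd_contDiff hρ j).continuous (pd_compact hc j) (hV i) x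
  have I2 := hi_cv (Lap_contDiff hρ).continuous (Lap_compact hc) (hV i) x
  refine ((((I2.mul (if i = l then 1 else 0)).add
    ((HI.sum (s := Finset.univ) fun j _ => (I1 j).mul (θ j)).mul
      (if i = l then (-2 * (τ : ℂ)) else 0))).add
    (HI.sum (s := Finset.univ) fun j _ => (I1 j).mul (-A j i l x))).add
    (I0.mul (B i l x - (∑ j, pd j (A j i l) x) + τ * ∑ j, A j i l x * θ j))).congr
    (fun y => ?_) ?_
  · unfold Sk DD
    by_cases h : i = l
    · simp only [h, if_true, Fin.sum_univ_three]; ring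
    · simp only [h, if_false, Fin.sum_univ_three]; ring
  · by_cases h : i = l
    · simp only [h, if_true]; ring
    · simp only [h, if_false]; ring

/-- the transposed operator applied to a mollified field -/
theorem op_cv {ρ : R3 → ℂ} (hρ : ContDiff ℝ ∞ ρ) (hc : HasCompactSupport ρ) (θ : Fin 3 → ℂ)
    (A : Fin 3 → ι → ι → R3 → ℂ) (B : ι → ι → R3 → ℂ) (τ : ℝ) (V : ι → R3 → ℂ)
    (hV : ∀ i, LocallyIntegrable (V i) volume) (l : ι) (x : R3) :
    P0 (At A) (Bt A B) (fun i => cv ρ (V i)) l x + τ * M0 (-θ) (At A) (fun i => cv ρ (V i)) l x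
      = ∑ i, ∫ y, Sk θ A B τ ρ l i x y * V i y := by
  simp only [(hi_Sk hρ hc θ A B τ V hV l x _).eq]
  unfold P0 M0
  rw [Lap_cv hρ hc (hV l)]
  simp only [pd_cv hρ hc (hV _), DD, At, Bt, Pi.neg_apply]
  simp only [Finset.sum_add_distrib, Finset.sum_ite_eq', Finset.mem_univ, if_true,
    Fin.sum_univ_three, Finset.mul_sum, add_mul, sub_mul, mul_add, Finset.sum_sub_distrib]
  have e : ∀ f g : ι → ℂ, (∀ i, f i = g i) → ∑ i, f i = ∑ i, g i := fun f g h =>
    Finset.sum_congr rfl fun i _ => h i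
  simp only [neg_mul, mul_neg, neg_neg, Finset.sum_neg_distrib, mul_assoc]
  ring

end Crest.Agent.R080
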