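import Crest.Agent.R080.L2A

/-!
Row 80, T9: the dual estimate for compactly supported `L²` weak solutions.
-/

set_option autoImplicit false

open MeasureTheory Filter
open scoped ContDiff Topology ENNReal
open Crest.AnalysisR.VecCalc3 Crest.AnalysisR.PDE.Elasticity

noncomputable section
namespace Crest.Agent.R080

theorem unif_bound {κ : Type*} [Finite κ] {F : Type*} [NormedAddCommGroup F] (f : κ → R3 → F)
    (hf : ∀ k, Continuous (f k)) (K : Set R3) (hK : IsCompact K) :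
    ∃ M : ℝ, 0 ≤ M ∧ ∀ k, ∀ x ∈ K, ‖f k x‖ ≤ M := by
  have : Fintype κ := Fintype.ofFinite κ
  have h : Continuous fun x => fun k => f k x := continuous_pi hf
  obtain ⟨M, hM⟩ := hK.exists_bound_of_continuousOn h.continuousOn
  refine ⟨max M 0, le_max_right _ _, fun k x hx => ?_⟩
  exact (norm_le_pi_norm (fun k => f k x) k).trans ((hM x hx).trans (le_max_left _ _))

set_option linter.unusedSectionVars false
variable {ι : Type} [Fintype ι] [DecidableEq ι]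

/-- uniform bounds for the coefficients on a ball -/
structure CoefBd (θ : Fin 3 → ℂ) (A : Fin 3 → ι → ι → R3 → ℂ) (B : ι → ι → R3 → ℂ) (R Λ Θ : ℝ) :
    Prop where
  nn : 0 ≤ Λ
  nnθ : 0 ≤ Θ
  lip : ∀ j i l, ∀ x y : R3, ‖x‖ ≤ R → ‖y‖ ≤ R → ‖A j i l y - A j i l x‖ ≤ Λ * ‖x - y‖
  der : ∀ j i l, ∀ x : R3, ‖x‖ ≤ R → ‖pd j (A j i l) x‖ ≤ Λ
  bdB : ∀ i l, ∀ x : R3, ‖x‖ ≤ R → ‖B i l x‖ ≤ Λ
  bdθ : ∀ j, ‖θ j‖ ≤ Θ

theorem exists_coefBd (θ : Fin 3 → ℂ) {A : Fin 3 → ι → ι → R3 → ℂ} {B : ι → ι → R3 → ℂ}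
    (hA : ∀ j i l, ContDiff ℝ ∞ (A j i l)) (hB : ∀ i l, ContDiff ℝ ∞ (B i l)) (R : ℝ) :
    ∃ Λ Θ : ℝ, CoefBd θ A B R Λ Θ := by
  have hK : IsCompact (Metric.closedBall (0 : R3) R) := isCompact_closedBall _ _
  obtain ⟨M, hM0, hM⟩ := unif_bound (κ := Fin 3 × ι × ι)
    (fun k => fderiv ℝ (A k.1 k.2.1 k.2.2))
    (fun k => (hA k.1 k.2.1 k.2.2).continuous_fderiv (by simp)) _ hK
  obtain ⟨N, hN0, hN⟩ := unif_bound (κ := ι × ι) (fun k => B k.1 k.2)
    (fun k => (hB k.1 k.2).continuous) _ hK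
  refine ⟨max M N, ∑ j, ‖θ j‖, le_max_of_le_left hM0, Finset.sum_nonneg fun _ _ => norm_nonneg _,
    ?_, ?_, ?_, ?_⟩
  · intro j i l x y hx hy
    have := (convex_closedBall (0 : R3) R).norm_image_sub_le_of_norm_fderiv_le (𝕜 := ℝ)
      (f := A j i l) (C := M) (fun z _ => (hA j i l).differentiable (by simp) z)
      (fun z hz => hM (j, i, l) z hz) (x := x) (y := y) (by simpa using hx) (by simpa using hy)
    rw [norm_sub_rev y x] at this
    exact this.trans (by gcongr; exact le_max_left _ _)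
  · intro j i l x hx
    have h1 := hM (j, i, l) x (by simpa using hx)
    have h2 : ‖pd j (A j i l) x‖ ≤ ‖fderiv ℝ (A j i l) x‖ * ‖ee j‖ :=
      (fderiv ℝ (A j i l) x).le_opNorm _
    have h3 : ‖ee j‖ = 1 := by simp [ee]
    rw [h3, mul_one] at h2
    exact h2.trans (h1.trans (le_max_left _ _))
  · intro i l x hx
    exact (hN (i, l) x (by simpa using hx)).trans (le_max_right _ _)
  · intro j
    exact Finset.single_le_sum (f := fun j => ‖θ j‖) (fun _ _ => norm_nonneg _) (Finset.mem_univ j)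

/-- majorant of the commutator kernel -/
def kap' (Λ Θ ε : ℝ) (z : R3) : ℝ :=
  3 * Λ * (‖z‖ * ‖fderiv ℝ (eta ε : R3 → ℝ) z‖) + (5 * Λ + 3 * Λ * Θ) * eta ε z

theorem kap'_nonneg {Λ Θ ε : ℝ} (hΛ : 0 ≤ Λ) (hΘ : 0 ≤ Θ) (hε : 0 < ε) (z : R3) :
    0 ≤ kap' Λ Θ ε z := by
  have := eta_nonneg hε z
  unfold kap'; positivity

theorem kap'_integral {Λ Θ ε : ℝ} (hε : 0 < ε) :
    ∫ z, kap' Λ Θ ε z = 3 * Λ * c1 R3 + (5 * Λ + 3 * Λ * Θ) := by
  unfold kap'
  rw [integral_add ((integrable_norm_fderiv_eta hε).const_mul _)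
    ((eta_integrable hε).const_mul _), integral_const_mul, integral_const_mul,
    integral_norm_fderiv_eta hε, eta_integral hε, mul_one]

theorem kap'_integrable {Λ Θ ε : ℝ} (hε : 0 < ε) : Integrable (kap' Λ Θ ε) :=
  ((integrable_norm_fderiv_eta hε).const_mul _).add ((eta_integrable hε).const_mul _)

theorem kap'_continuous {Λ Θ ε : ℝ} : Continuous (kap' Λ Θ ε) := by
  unfold kap'
  have h1 : Continuous (eta ε : R3 → ℝ) := (eta_contDiff ε).continuous
  have h2 : Continuous (fderiv ℝ (eta ε : R3 → ℝ)) :=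
    (eta_contDiff ε).continuous_fderiv (by simp)
  fun_prop

theorem Sk_sub_Tk (θ : Fin 3 → ℂ) (A : Fin 3 → ι → ι → R3 → ℂ) (B : ι → ι → R3 → ℂ) (τ : ℝ)
    (ρ : R3 → ℂ) (l i : ι) (x y : R3) :
    Sk θ A B τ ρ l i x y - Tk θ A B τ ρ l i x y
      = ∑ j, (A j i l y - A j i l x) * pd j ρ (x - y)
        + ((B i l x - B i l y) - (∑ j, pd j (A j i l) x)
          + τ * ∑ j, (A j i l x - A j i l y) * θ j) * ρ (x - y) := by
  unfold Sk Tk
  simp only [Fin.sum_univ_three]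
  ring

theorem fderiv_eta_eq_zero {ε : ℝ} (hε : 0 < ε) {z : R3} (hz : ε < ‖z‖) :
    fderiv ℝ (eta ε : R3 → ℝ) z = 0 := by
  have : (eta ε : R3 → ℝ) =ᶠ[𝓝 z] fun _ => 0 := by
    have hopen : IsOpen {w : R3 | ε < ‖w‖} := isOpen_lt continuous_const continuous_norm
    filter_upwards [hopen.mem_nhds hz] with w hw
    exact eta_eq_zero hε (le_of_lt hw)
  rw [this.fderiv_eq]; simp

theorem norm_pd_etaC_le (ε : ℝ) (j : Fin 3) (z : R3) :
    ‖pd j (etaC ε) z‖ ≤ ‖fderiv ℝ (eta ε : R3 → ℝ) z‖ := by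
  unfold pd
  rw [fderiv_etaC, Complex.norm_real]
  have h2 := (fderiv ℝ (eta ε : R3 → ℝ) z).le_opNorm (ee j)
  have h3 : ‖ee j‖ = 1 := by simp [ee]
  rwa [h3, mul_one] at h2

theorem kernel_bound {θ : Fin 3 → ℂ} {A : Fin 3 → ι → ι → R3 → ℂ} {B : ι → ι → R3 → ℂ}
    {R Λ Θ : ℝ} (hb : CoefBd θ A B (R + 1) Λ Θ) {τ ε : ℝ} (hε : 0 < ε) (hε1 : ε ≤ 1) (hτ : 0 ≤ τ)
    (hτε : τ * ε ≤ 1) (l i : ι) (x y : R3) (hy : ‖y‖ ≤ R) :
    ‖Sk θ A B τ (etaC ε) l i x y - Tk θ A B τ (etaC ε) l i x y‖ ≤ kap' Λ Θ ε (x - y) := by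
  rcases lt_or_ge ε ‖x - y‖ with h | h
  · rw [Sk_sub_Tk]
    have h1 : etaC ε (x - y) = 0 := by simp [etaC, eta_eq_zero hε h.le]
    have h2 : ∀ j, pd j (etaC ε) (x - y) = 0 := fun j => by
      have := norm_pd_etaC_le ε j (x - y)
      rw [fderiv_eta_eq_zero hε h, norm_zero] at this
      exact norm_le_zero_iff.1 this
    simp only [h1, h2, mul_zero, Finset.sum_const_zero, add_zero, norm_zero]
    exact kap'_nonneg hb.nn hb.nnθ hε _
  · have hx : ‖x‖ ≤ R + 1 := by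
      calc ‖x‖ = ‖y + (x - y)‖ := by congr 1; abel
        _ ≤ ‖y‖ + ‖x - y‖ := norm_add_le _ _
        _ ≤ R + 1 := by linarith
    have hy' : ‖y‖ ≤ R + 1 := by linarith
    rw [Sk_sub_Tk]
    have hη0 := eta_nonneg (E := R3) hε (x - y)
    have hη : ‖etaC ε (x - y)‖ = eta ε (x - y) := by
      rw [etaC, Complex.norm_real, Real.norm_of_nonneg hη0]
    have n1 : ‖∑ j, (A j i l y - A j i l x) * pd j (etaC ε) (x - y)‖
        ≤ 3 * Λ * (‖x - y‖ * ‖fderiv ℝ (eta ε : R3 → ℝ) (x - y)‖) := by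
      calc ‖∑ j, (A j i l y - A j i l x) * pd j (etaC ε) (x - y)‖
          ≤ ∑ j : Fin 3, ‖(A j i l y - A j i l x) * pd j (etaC ε) (x - y)‖ := norm_sum_le _ _
        _ ≤ ∑ j : Fin 3, (Λ * ‖x - y‖) * ‖fderiv ℝ (eta ε : R3 → ℝ) (x - y)‖ := by
            refine Finset.sum_le_sum fun j _ => ?_
            rw [norm_mul]
            have := hb.lip j i l x y hx hy'
            have := norm_pd_etaC_le ε j (x - y)
            have := mul_nonneg hb.nn (norm_nonneg (x - y))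
            gcongr
        _ = 3 * Λ * (‖x - y‖ * ‖fderiv ℝ (eta ε : R3 → ℝ) (x - y)‖) := by
            simp only [Finset.sum_const, Finset.card_univ, Fintype.card_fin, nsmul_eq_mul]
            push_cast; ring
    have n2 : ‖∑ j, pd j (A j i l) x‖ ≤ 3 * Λ := by
      calc ‖∑ j, pd j (A j i l) x‖ ≤ ∑ j : Fin 3, ‖pd j (A j i l) x‖ := norm_sum_le _ _
        _ ≤ ∑ j : Fin 3, Λ := Finset.sum_le_sum fun j _ => hb.der j i l x hx
        _ = 3 * Λ := by simp
    have n3 : ‖(τ : ℂ) * ∑ j, (A j i l x - A j i l y) * θ j‖ ≤ 3 * Λ * Θ := by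
      have : ‖∑ j, (A j i l x - A j i l y) * θ j‖ ≤ 3 * (Λ * ε * Θ) := by
        calc ‖∑ j, (A j i l x - A j i l y) * θ j‖
            ≤ ∑ j : Fin 3, ‖(A j i l x - A j i l y) * θ j‖ := norm_sum_le _ _
          _ ≤ ∑ j : Fin 3, (Λ * ε) * Θ := by
              refine Finset.sum_le_sum fun j _ => ?_
              rw [norm_mul]
              have h5 := hb.lip j i l x y hx hy'
              rw [norm_sub_rev] at h5
              have h6 := hb.bdθ j
              have h7 := hb.nn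
              have h8 := hb.nnθ
              have h9 : Λ * ‖x - y‖ ≤ Λ * ε := by gcongr
              have h10 := h5.trans h9
              gcongr
          _ = 3 * (Λ * ε * Θ) := by simp
      rw [norm_mul, Complex.norm_real, Real.norm_of_nonneg hτ]
      calc τ * ‖∑ j, (A j i l x - A j i l y) * θ j‖ ≤ τ * (3 * (Λ * ε * Θ)) := by gcongr
        _ = (τ * ε) * (3 * Λ * Θ) := by ring
        _ ≤ 1 * (3 * Λ * Θ) := by
            have := mul_nonneg hb.nn hb.nnθ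
            gcongr
            nlinarith
        _ = 3 * Λ * Θ := one_mul _
    have n4 : ‖B i l x - B i l y‖ ≤ 2 * Λ := by
      calc ‖B i l x - B i l y‖ ≤ ‖B i l x‖ + ‖B i l y‖ := norm_sub_le _ _
        _ ≤ Λ + Λ := add_le_add (hb.bdB i l x hx) (hb.bdB i l y hy')
        _ = 2 * Λ := by ring
    have n5 : ‖(B i l x - B i l y) - (∑ j, pd j (A j i l) x)
          + τ * ∑ j, (A j i l x - A j i l y) * θ j‖ ≤ 5 * Λ + 3 * Λ * Θ := by
      calc _ ≤ ‖(B i l x - B i l y) - (∑ j, pd j (A j i l) x)‖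
          + ‖(τ : ℂ) * ∑ j, (A j i l x - A j i l y) * θ j‖ := norm_add_le _ _
        _ ≤ (‖B i l x - B i l y‖ + ‖∑ j, pd j (A j i l) x‖) + 3 * Λ * Θ :=
            add_le_add (norm_sub_le _ _) n3
        _ ≤ 5 * Λ + 3 * Λ * Θ := by linarith
    refine (norm_add_le _ _).trans ?_
    unfold kap'
    refine add_le_add n1 ?_
    rw [norm_mul, hη]
    gcongr

end Crest.Agent.R080
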