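import Crest.Agent.R080.L2B

/-!
Row 80, T9: the dual estimate for compactly supported `L²` weak solutions.
-/

set_option autoImplicit false

open MeasureTheory Filter
open scoped ContDiff Topology ENNReal
open Crest.AnalysisR.VecCalc3 Crest.AnalysisR.PDE.Elasticity

noncomputable section
namespace Crest.Agent.R080

set_option linter.unusedSectionVars false
variable {ι : Type} [Fintype ι] [DecidableEq ι]

/-- real and extended integrals of squares -/
theorem ofReal_integral_sq {μ : Measure R3} {F : ι → R3 → ℂ} (hF : ∀ i, MemLp (F i) 2 μ) :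
    ENNReal.ofReal (∫ x, ∑ i, ‖F i x‖ ^ 2 ∂μ) = ∑ i, ∫⁻ x, ‖F i x‖ₑ ^ 2 ∂μ := by
  have hi : ∀ i, Integrable (fun x => ‖F i x‖ ^ 2) μ := fun i =>
    (memLp_two_iff_integrable_sq_norm (hF i).1).1 (hF i)
  rw [integral_finsetSum _ fun i _ => hi i, ENNReal.ofReal_sum_of_nonneg
    fun i _ => integral_nonneg fun x => by positivity]
  refine Finset.sum_congr rfl fun i _ => ?_
  rw [ofReal_integral_eq_lintegral_ofReal (hi i) (Eventually.of_forall fun x => by positivity)]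
  refine lintegral_congr fun x => ?_
  rw [ENNReal.ofReal_pow (norm_nonneg _), ofReal_norm]

theorem Tk_cont {ρ : R3 → ℂ} (hρ : ContDiff ℝ ∞ ρ) (θ : Fin 3 → ℂ)
    {A : Fin 3 → ι → ι → R3 → ℂ} {B : ι → ι → R3 → ℂ} (hA : ∀ j i l, ContDiff ℝ ∞ (A j i l))
    (hB : ∀ i l, ContDiff ℝ ∞ (B i l)) (τ : ℝ) (l i : ι) (x : R3) :
    Continuous (Tk θ A B τ ρ l i x) := by
  have h1 : Continuous (Lap ρ) := (Lap_contDiff hρ).continuous
  have h2 : Continuous (DD θ ρ) := (DD_contDiff hρ θ).continuous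
  have h3 : ∀ j, Continuous (pd j ρ) := fun j => (pd_contDiff hρ j).continuous
  have h4 := hρ.continuous
  have h5 : ∀ j i l, Continuous (A j i l) := fun j i l => (hA j i l).continuous
  have h6 : ∀ i l, Continuous (B i l) := fun i l => (hB i l).continuous
  unfold Tk
  by_cases h : i = l
  · simp only [h, if_true]; fun_prop
  · simp only [h, if_false]; fun_prop

theorem DD_compact {f : R3 → ℂ} (hf : HasCompactSupport f) (θ : Fin 3 → ℂ) :
    HasCompactSupport (DD θ f) := by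
  unfold DD
  simp only [Fin.sum_univ_three]
  exact (((pd_compact hf 0).mul_left).add ((pd_compact hf 1).mul_left)).add
    ((pd_compact hf 2).mul_left)

theorem Tk_compact {ρ : R3 → ℂ} (hc : HasCompactSupport ρ) (θ : Fin 3 → ℂ)
    (A : Fin 3 → ι → ι → R3 → ℂ) (B : ι → ι → R3 → ℂ) (τ : ℝ) (l i : ι) (x : R3) :
    HasCompactSupport (Tk θ A B τ ρ l i x) := by
  have key : ∀ {k : R3 → ℂ}, HasCompactSupport k → HasCompactSupport fun y => k (x - y) :=
    fun h => h.comp_homeomorph (Homeomorph.subLeft x)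
  have h1 := key (Lap_compact hc)
  have h2 := key (DD_compact hc θ)
  have h3 := fun j => key (pd_compact hc j)
  have h4 := key hc
  unfold Tk
  simp only [Fin.sum_univ_three]
  refine HasCompactSupport.add (HasCompactSupport.add ?_ ?_) h4.mul_left
  · by_cases h : i = l
    · simp only [h, if_true]
      exact h1.add h2.mul_left
    · simp only [h, if_false]
      exact HasCompactSupport.zero
  · exact ((h3 0).mul_left.add (h3 1).mul_left).add (h3 2).mul_left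

/-- the transposed equation for the mollified weak solution, up to the commutator -/
theorem moll_eq {ρ : R3 → ℂ} (hρ : ContDiff ℝ ∞ ρ) (hc : HasCompactSupport ρ) (θ : Fin 3 → ℂ)
    {A : Fin 3 → ι → ι → R3 → ℂ} {B : ι → ι → R3 → ℂ} (hA : ∀ j i l, ContDiff ℝ ∞ (A j i l))
    (hB : ∀ i l, ContDiff ℝ ∞ (B i l)) (τ : ℝ) (V W : ι → R3 → ℂ)
    (hV : ∀ i, LocallyIntegrable (V i) volume)
    (hVW : ∀ r : ι → R3 → ℂ, (∀ i, ContDiff ℝ ∞ (r i)) →
      ∫ x, ∑ i, V i x * (P0 A B r i x + τ * M0 θ A r i x) = ∫ x, ∑ i, W i x * r i x)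
    (l : ι) (x : R3) :
    P0 (At A) (Bt A B) (fun i => cv ρ (V i)) l x + τ * M0 (-θ) (At A) (fun i => cv ρ (V i)) l x
      = cv ρ (W l) x
        + ∑ i, ∫ y, (Sk θ A B τ ρ l i x y - Tk θ A B τ ρ l i x y) * V i y := by
  have hT : ∀ i, Integrable fun y => Tk θ A B τ ρ l i x y * V i y := fun i =>
    integrable_kernel (Tk_cont hρ θ hA hB τ l i x) (Tk_compact hc θ A B τ l i x) (hV i)
  have h1 : cv ρ (W l) x = ∑ i, ∫ y, Tk θ A B τ ρ l i x y * V i y := by
    have h := hVW (tf ρ l x) (tf_contDiff hρ l x)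
    simp only [op_tf hρ] at h
    rw [← integral_finsetSum _ fun i _ => hT i]
    have e1 : ∫ y, ∑ i, W i y * tf ρ l x i y = cv ρ (W l) x := by
      unfold cv tf
      refine integral_congr_ae (Eventually.of_forall fun y => ?_)
      simp only [mul_ite, mul_zero, Finset.sum_ite_eq', Finset.mem_univ, if_true, mul_comm]
    rw [← e1, ← h]
    refine integral_congr_ae (Eventually.of_forall fun y => ?_)
    exact Finset.sum_congr rfl fun i _ => mul_comm _ _
  rw [op_cv hρ hc θ A B τ V hV, h1, ← Finset.sum_add_distrib]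
  refine Finset.sum_congr rfl fun i _ => ?_
  have hS := hi_Sk hρ hc θ A B τ V hV l x i
  have e : ∫ y, (Sk θ A B τ ρ l i x y - Tk θ A B τ ρ l i x y) * V i y
      = (∫ y, Sk θ A B τ ρ l i x y * V i y) - ∫ y, Tk θ A B τ ρ l i x y * V i y := by
    rw [← integral_sub hS.int (hT i)]
    simp only [sub_mul]
  rw [e]; ring

theorem cv_zero {ε R : ℝ} (hε : 0 < ε) {g : R3 → ℂ} (hg : ∀ x : R3, R ≤ ‖x‖ → g x = 0)
    {x : R3} (hx : R + ε ≤ ‖x‖) : cv (etaC ε) g x = 0 := by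
  unfold cv
  rw [integral_eq_zero_of_ae]
  refine Eventually.of_forall fun y => ?_
  rcases lt_or_ge ‖y‖ R with h | h
  · have : ε ≤ ‖x - y‖ := by
      have := norm_sub_norm_le x y
      linarith
    simp [etaC, eta_eq_zero hε this]
  · simp [hg y h]

theorem ennreal_add_sq_le (a b : ℝ≥0∞) : (a + b) ^ 2 ≤ 2 * (a ^ 2 + b ^ 2) := by
  have := ENNReal.rpow_add_le_mul_rpow_add_rpow a b (p := 2) (by norm_num)
  norm_num at this
  exact this

theorem dual_est_step {θ : Fin 3 → ℂ} {A : Fin 3 → ι → ι → R3 → ℂ} {B : ι → ι → R3 → ℂ}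
    (hA : ∀ j i l, ContDiff ℝ ∞ (A j i l)) (hB : ∀ i l, ContDiff ℝ ∞ (B i l))
    {R Λ Θ : ℝ} (hb : CoefBd θ A B (R + 1) Λ Θ) {τ ε : ℝ} (hε : 0 < ε) (hε1 : ε ≤ 1) (hτ : 0 ≤ τ)
    (hτε : τ * ε ≤ 1) {V W : ι → R3 → ℂ} (hV : ∀ i, MemLp (V i) 2 volume)
    (hW : ∀ i, MemLp (W i) 2 volume) (hV0 : ∀ i (x : R3), R ≤ ‖x‖ → V i x = 0)
    (hVW : ∀ r : ι → R3 → ℂ, (∀ i, ContDiff ℝ ∞ (r i)) →
      ∫ x, ∑ i, V i x * (P0 A B r i x + τ * M0 θ A r i x) = ∫ x, ∑ i, W i x * r i x) (l : ι) :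
    ∫⁻ x, ‖P0 (At A) (Bt A B) (fun i => cv (etaC ε) (V i)) l x
        + τ * M0 (-θ) (At A) (fun i => cv (etaC ε) (V i)) l x‖ₑ ^ 2
      ≤ 2 * (∫⁻ x, ‖W l x‖ₑ ^ 2) + 2 * (Fintype.card ι * ∑ i,
        ENNReal.ofReal (3 * Λ * c1 R3 + (5 * Λ + 3 * Λ * Θ)) ^ 2 * ∫⁻ x, ‖V i x‖ₑ ^ 2) := by
  have hVl : ∀ i, LocallyIntegrable (V i) volume := fun i =>
    (hV i).locallyIntegrable (by norm_num)
  have hρ := etaC_contDiff (E := R3) ε
  have hc := etaC_compact (E := R3) hε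
  let k : R3 → ℝ≥0∞ := fun z => ENNReal.ofReal (kap' Λ Θ ε z)
  have hk : Measurable k := (kap'_continuous.measurable).ennreal_ofReal
  have hkint : ∫⁻ z, k z = ENNReal.ofReal (3 * Λ * c1 R3 + (5 * Λ + 3 * Λ * Θ)) := by
    rw [← ofReal_integral_eq_lintegral_ofReal (kap'_integrable hε)
      (Eventually.of_forall (kap'_nonneg hb.nn hb.nnθ hε)), kap'_integral hε]
  have hpt : ∀ x, ‖P0 (At A) (Bt A B) (fun i => cv (etaC ε) (V i)) l x
        + τ * M0 (-θ) (At A) (fun i => cv (etaC ε) (V i)) l x‖ₑ ^ 2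
      ≤ 2 * ‖cv (etaC ε) (W l) x‖ₑ ^ 2
        + 2 * (Fintype.card ι * ∑ i, (∫⁻ y, k (x - y) * ‖V i y‖ₑ) ^ 2) := by
    intro x
    rw [moll_eq hρ hc θ hA hB τ V W hVl hVW l x]
    have h1 : ‖∑ i, ∫ y, (Sk θ A B τ (etaC ε) l i x y - Tk θ A B τ (etaC ε) l i x y) * V i y‖ₑ
        ≤ ∑ i, ∫⁻ y, k (x - y) * ‖V i y‖ₑ := by
      refine (enorm_sum_le _ _).trans (Finset.sum_le_sum fun i _ => ?_)
      refine (enorm_integral_le_lintegral_enorm _).trans (lintegral_mono fun y => ?_)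
      rw [enorm_mul]
      rcases lt_or_ge ‖y‖ R with h | h
      · gcongr
        rw [← ofReal_norm]
        exact ENNReal.ofReal_le_ofReal (kernel_bound hb hε hε1 hτ hτε l i x y h.le)
      · simp [hV0 i y h]
    have h2 : (∑ i, ∫⁻ y, k (x - y) * ‖V i y‖ₑ) ^ 2
        ≤ Fintype.card ι * ∑ i, (∫⁻ y, k (x - y) * ‖V i y‖ₑ) ^ 2 := by
      have := ENNReal.rpow_sum_le_const_mul_sum_rpow (s := (Finset.univ : Finset ι))
        (f := fun i => ∫⁻ y, k (x - y) * ‖V i y‖ₑ) (p := 2) (by norm_num)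
      norm_num at this
      simpa using this
    calc _ ≤ (‖cv (etaC ε) (W l) x‖ₑ + ∑ i, ∫⁻ y, k (x - y) * ‖V i y‖ₑ) ^ 2 := by
          gcongr
          exact (enorm_add_le _ _).trans (by gcongr)
      _ ≤ 2 * (‖cv (etaC ε) (W l) x‖ₑ ^ 2
          + (∑ i, ∫⁻ y, k (x - y) * ‖V i y‖ₑ) ^ 2) := ennreal_add_sq_le _ _
      _ ≤ _ := by
          rw [mul_add]
          gcongr
  refine (lintegral_mono hpt).trans ?_
  have hcm : Measurable fun x => ‖cv (etaC ε) (W l) x‖ₑ ^ 2 := by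
    have : Continuous (cv (etaC ε) (W l)) :=
      (cv_contDiff hρ hc ((hW l).locallyIntegrable (by norm_num))).continuous
    exact (this.enorm.measurable).pow_const 2
  have hqm : ∀ i, AEMeasurable (fun x => (∫⁻ y, k (x - y) * ‖V i y‖ₑ) ^ 2) volume := fun i => by
    have : AEMeasurable (fun p : R3 × R3 => k (p.1 - p.2) * ‖V i p.2‖ₑ)
        ((volume : Measure R3).prod volume) :=
      (hk.comp measurable_sub).aemeasurable.mul
        (((hV i).1.enorm).comp_quasiMeasurePreserving Measure.quasiMeasurePreserving_snd)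
    exact this.lintegral_prod_right'.pow_const 2
  rw [lintegral_add_left (hcm.const_mul 2), lintegral_const_mul _ hcm,
    lintegral_const_mul' _ _ (by norm_num), lintegral_const_mul' _ _ (by simp),
    lintegral_finsetSum' _ fun i _ => hqm i]
  refine add_le_add (mul_le_mul_right (lintegral_cv_sq_le hε (hW l).1) _)
    (mul_le_mul_right (mul_le_mul_right (Finset.sum_le_sum fun i _ => ?_) _) _)
  have := young_lintegral (E := R3) volume hk (hV i).1.enorm
  rwa [hkint] at this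

/-- the dual a priori estimate for weak `L²` solutions of the transposed equation -/
theorem dual_est (hC : StmtCarleman) {θ : Fin 3 → ℂ} (hθ : IsNull θ)
    {A : Fin 3 → ι → ι → R3 → ℂ} {B : ι → ι → R3 → ℂ}
    (hA : ∀ j i l, ContDiff ℝ ∞ (A j i l)) (hB : ∀ i l, ContDiff ℝ ∞ (B i l)) (R : ℝ) :
    ∃ C τ₀ : ℝ, 0 < C ∧ 0 < τ₀ ∧ ∀ τ : ℝ, τ₀ ≤ τ → ∀ V W : ι → R3 → ℂ,
      (∀ i, MemLp (V i) 2 volume) → (∀ i, MemLp (W i) 2 volume) →
      (∀ i (x : R3), R ≤ ‖x‖ → V i x = 0) →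
      (∀ r : ι → R3 → ℂ, (∀ i, ContDiff ℝ ∞ (r i)) →
        ∫ x, ∑ i, V i x * (P0 A B r i x + τ * M0 θ A r i x) = ∫ x, ∑ i, W i x * r i x) →
      τ ^ 2 * ∫ x, ∑ i, ‖V i x‖ ^ 2 ≤ C * ∫ x, ∑ i, ‖W i x‖ ^ 2 := by
  obtain ⟨Λ, Θ, hb⟩ := exists_coefBd θ hA hB (R + 1)
  have hθ' : IsNull (-θ) := ⟨neg_ne_zero.2 hθ.1, by simpa using hθ.2⟩
  have hA' : ∀ j i l, ContDiff ℝ ∞ (At A j i l) := fun j i l => (hA j l i).neg
  have hB' : ∀ i l, ContDiff ℝ ∞ (Bt A B i l) := fun i l =>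
    (hB l i).sub (ContDiff.sum fun j _ => pd_contDiff (hA j l i) j)
  obtain ⟨C₁, τ₁, hC₁, hτ₁, hcar⟩ := hC ι (-θ) hθ' (At A) (Bt A B) hA' hB' (R + 1)
  set n : ℝ := (Fintype.card ι : ℝ) with hn
  set c₂ : ℝ := 3 * Λ * c1 R3 + (5 * Λ + 3 * Λ * Θ) with hc₂
  have hn0 : 0 ≤ n := Nat.cast_nonneg _
  have hc₂0 : 0 ≤ c₂ := by
    have := hb.nn; have := hb.nnθ; have := c1_nonneg (E := R3)
    positivity
  refine ⟨4 * n * C₁ + 1, max τ₁ (2 * n * c₂ * Real.sqrt (n * C₁) + 1), by positivity,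
    lt_max_of_lt_left hτ₁, ?_⟩
  intro τ hτ V W hV hW hV0 hVW
  have hτ1 : τ₁ ≤ τ := (le_max_left _ _).trans hτ
  have hτpos : 0 < τ := hτ₁.trans_le hτ1
  have hτ2 : 2 * n * c₂ * Real.sqrt (n * C₁) ≤ τ := by
    have := (le_max_right _ _).trans hτ; linarith
  have hτ3 : 4 * n ^ 3 * C₁ * c₂ ^ 2 ≤ τ ^ 2 := by
    have h1 : (2 * n * c₂ * Real.sqrt (n * C₁)) ^ 2 = 4 * n ^ 3 * C₁ * c₂ ^ 2 := by
      rw [mul_pow, Real.sq_sqrt (by positivity)]; ring
    rw [← h1]
    gcongr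
  -- extended quantities
  set v : ℝ≥0∞ := ∑ i, ∫⁻ x, ‖V i x‖ₑ ^ 2 with hv
  set w : ℝ≥0∞ := ∑ i, ∫⁻ x, ‖W i x‖ₑ ^ 2 with hw
  have hVv := ofReal_integral_sq hV
  have hWw := ofReal_integral_sq hW
  rw [← hv] at hVv
  rw [← hw] at hWw
  have hvr : 0 ≤ ∫ x, ∑ i, ‖V i x‖ ^ 2 := integral_nonneg fun x => by positivity
  have hwr : 0 ≤ ∫ x, ∑ i, ‖W i x‖ ^ 2 := integral_nonneg fun x => by positivity
  -- the bound for every small `ε`
  have hstep : ∀ ε : ℝ, 0 < ε → ε ≤ 1 → τ * ε ≤ 1 → ∀ l,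
      ENNReal.ofReal (τ ^ 2) * ∫⁻ x, ‖cv (etaC ε) (V l) x‖ₑ ^ 2
        ≤ ENNReal.ofReal C₁ * (2 * w + 2 * (n.toNNReal * (n.toNNReal *
            (ENNReal.ofReal c₂ ^ 2 * v)))) := by
    intro ε hε hε1 hτε l
    have hVl : ∀ i, LocallyIntegrable (V i) volume := fun i =>
      (hV i).locallyIntegrable (by norm_num)
    have hu : ∀ i, ContDiff ℝ ∞ (cv (etaC ε) (V i)) := fun i =>
      cv_contDiff (etaC_contDiff ε) (etaC_compact hε) (hVl i)
    have hu0 : ∀ i (x : R3), R + 1 ≤ ‖x‖ → cv (etaC ε) (V i) x = 0 := fun i x hx =>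
      cv_zero hε (hV0 i) (by linarith)
    have hcar' := hcar τ hτ1 (fun i => cv (etaC ε) (V i)) hu hu0
    have hsupp : ∀ {f : R3 → ℂ}, (∀ x : R3, R + 1 ≤ ‖x‖ → f x = 0) → HasCompactSupport f :=
      fun {f} hf => HasCompactSupport.intro (isCompact_closedBall (0 : R3) (R + 1)) fun x hx => by
        refine hf x ?_
        simp only [Metric.mem_closedBall, dist_zero_right, not_le] at hx
        exact hx.le
    have hus : ∀ i, HasCompactSupport (cv (etaC ε) (V i)) := fun i => hsupp (hu0 i)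
    have hu2 : ∀ i, MemLp (cv (etaC ε) (V i)) 2 volume := fun i =>
      (hu i).continuous.memLp_of_hasCompactSupport (hus i)
    set L : ι → R3 → ℂ := fun i x => P0 (At A) (Bt A B) (fun i => cv (etaC ε) (V i)) i x
      + τ * M0 (-θ) (At A) (fun i => cv (etaC ε) (V i)) i x with hL
    have hLc : ∀ i, Continuous (L i) := fun i => by
      have h1 : ∀ i, Continuous (cv (etaC ε) (V i)) := fun i => (hu i).continuous
      have h2 : ∀ j i, Continuous (pd j (cv (etaC ε) (V i))) := fun j i =>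
        (pd_contDiff (hu i) j).continuous
      have h3 : ∀ i, Continuous (Lap (cv (etaC ε) (V i))) := fun i =>
        (Lap_contDiff (hu i)).continuous
      have h4 : ∀ j i l, Continuous (At A j i l) := fun j i l => (hA' j i l).continuous
      have h5 : ∀ i l, Continuous (Bt A B i l) := fun i l => (hB' i l).continuous
      have h6 : ∀ i, Continuous (DD (-θ) (cv (etaC ε) (V i))) := fun i =>
        (DD_contDiff (hu i) (-θ)).continuous
      simp only [hL]
      unfold P0 M0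
      fun_prop
    have hLs : ∀ i, HasCompactSupport (L i) := fun i => by
      have k1 : ∀ i (x : R3), x ∉ Metric.closedBall (0 : R3) (R + 1) →
          cv (etaC ε) (V i) =ᶠ[𝓝 x] fun _ => 0 := fun i x hx => by
        have : IsOpen (Metric.closedBall (0 : R3) (R + 1))ᶜ := Metric.isClosed_closedBall.isOpen_compl
        filter_upwards [this.mem_nhds hx] with y hy
        refine hu0 i y ?_
        simp only [Set.mem_compl_iff, Metric.mem_closedBall, dist_zero_right, not_le] at hy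
        exact hy.le
      have k2 : ∀ i j (x : R3), x ∉ Metric.closedBall (0 : R3) (R + 1) →
          pd j (cv (etaC ε) (V i)) =ᶠ[𝓝 x] fun _ => 0 := fun i j x hx => by
        have := (k1 i x hx).fderiv (𝕜 := ℝ)
        filter_upwards [this] with y hy
        unfold pd
        rw [hy]; simp
      refine HasCompactSupport.intro (isCompact_closedBall (0 : R3) (R + 1)) fun x hx => ?_
      have e1 : ∀ i, cv (etaC ε) (V i) x = 0 := fun i => (k1 i x hx).self_of_nhds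
      have e2 : ∀ i j, pd j (cv (etaC ε) (V i)) x = 0 := fun i j => (k2 i j x hx).self_of_nhds
      have e3 : ∀ i j, pd j (pd j (cv (etaC ε) (V i))) x = 0 := fun i j => by
        unfold pd
        have := (k2 i j x hx).fderiv_eq (𝕜 := ℝ)
        unfold pd at this
        rw [this]; simp
      simp [hL, P0, M0, Lap, DD, e1, e2, e3]
    have hL2 : ∀ i, MemLp (L i) 2 volume := fun i =>
      (hLc i).memLp_of_hasCompactSupport (hLs i)
    have h1 : τ ^ 2 * (∫ x, ∑ i, ‖cv (etaC ε) (V i) x‖ ^ 2) ≤ C₁ * ∫ x, ∑ i, ‖L i x‖ ^ 2 := by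
      refine le_trans ?_ hcar'
      have : 0 ≤ ∫ x, ∑ i, ∑ j, ‖pd j (cv (etaC ε) (V i)) x‖ ^ 2 :=
        integral_nonneg fun x => by positivity
      linarith
    have h2 := ENNReal.ofReal_le_ofReal h1
    rw [ENNReal.ofReal_mul (by positivity), ENNReal.ofReal_mul hC₁.le, ofReal_integral_sq hu2,
      ofReal_integral_sq hL2] at h2
    have h3 : ∀ l, ∫⁻ x, ‖L l x‖ₑ ^ 2 ≤ 2 * (∫⁻ x, ‖W l x‖ₑ ^ 2)
        + 2 * (n.toNNReal * (ENNReal.ofReal c₂ ^ 2 * v)) := fun l => by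
      have := dual_est_step hA hB hb hε hε1 hτpos.le hτε hV hW hV0 hVW l
      rw [← Finset.mul_sum] at this
      convert this using 4
      simp [hn]
    calc ENNReal.ofReal (τ ^ 2) * ∫⁻ x, ‖cv (etaC ε) (V l) x‖ₑ ^ 2
        ≤ ENNReal.ofReal (τ ^ 2) * ∑ i, ∫⁻ x, ‖cv (etaC ε) (V i) x‖ₑ ^ 2 := by
          gcongr
          exact Finset.single_le_sum (f := fun i => ∫⁻ x, ‖cv (etaC ε) (V i) x‖ₑ ^ 2)
            (fun _ _ => by simp) (Finset.mem_univ l)
      _ ≤ ENNReal.ofReal C₁ * ∑ i, ∫⁻ x, ‖L i x‖ₑ ^ 2 := h2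
      _ ≤ ENNReal.ofReal C₁ * ∑ i, (2 * (∫⁻ x, ‖W i x‖ₑ ^ 2)
        + 2 * (n.toNNReal * (ENNReal.ofReal c₂ ^ 2 * v))) := by
          gcongr with i
          exact h3 i
      _ = _ := by
          rw [Finset.sum_add_distrib, ← Finset.mul_sum, Finset.sum_const, Finset.card_univ,
            nsmul_eq_mul, hw]
          have : ((Fintype.card ι : ℕ) : ℝ≥0∞) = (n.toNNReal : ℝ≥0∞) := by simp [hn]
          rw [this]
          ring
  -- pass to the limit
  have hlim : ENNReal.ofReal (τ ^ 2) * v ≤ n.toNNReal * (ENNReal.ofReal C₁ * (2 * w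
      + 2 * (n.toNNReal * (n.toNNReal * (ENNReal.ofReal c₂ ^ 2 * v))))) := by
    set K := ENNReal.ofReal C₁ * (2 * w
      + 2 * (n.toNNReal * (n.toNNReal * (ENNReal.ofReal c₂ ^ 2 * v)))) with hK
    have hT0 : ENNReal.ofReal (τ ^ 2) ≠ 0 := by simpa using hτpos.ne'
    have hTt : ENNReal.ofReal (τ ^ 2) ≠ ⊤ := ENNReal.ofReal_ne_top
    have h1 : ∀ l, ∫⁻ x, ‖V l x‖ₑ ^ 2 ≤ K / ENNReal.ofReal (τ ^ 2) := fun l => by
      refine lintegral_sq_le_of_cv ((hV l).locallyIntegrable (by norm_num))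
        (e := fun m : ℕ => (1 / (max 1 τ)) * (1 / ((m : ℝ) + 1))) (fun m => by positivity) ?_
        fun m => ?_
      · have := (tendsto_one_div_add_atTop_nhds_zero_nat (𝕜 := ℝ)).const_mul (1 / max 1 τ)
        simpa using this
      · have hm1 : 1 / ((m : ℝ) + 1) ≤ 1 := by
          rw [div_le_one (by positivity)]; linarith [Nat.cast_nonneg (α := ℝ) m]
        have hmax : (0 : ℝ) < max 1 τ := lt_max_of_lt_left one_pos
        have hm2 : 1 / max 1 τ ≤ 1 := by rw [div_le_one hmax]; exact le_max_left _ _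
        have hpos : 0 < (1 / (max 1 τ)) * (1 / ((m : ℝ) + 1)) := by positivity
        have h := hstep ((1 / (max 1 τ)) * (1 / ((m : ℝ) + 1))) hpos
          (by
            calc (1 / (max 1 τ)) * (1 / ((m : ℝ) + 1)) ≤ 1 * 1 := by gcongr
              _ = 1 := one_mul 1)
          (by
            calc τ * ((1 / (max 1 τ)) * (1 / ((m : ℝ) + 1)))
                ≤ max 1 τ * ((1 / (max 1 τ)) * 1) := by gcongr; exact le_max_right _ _
              _ = 1 := by field_simp) l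
        rw [ENNReal.le_div_iff_mul_le (Or.inl hT0) (Or.inl hTt), mul_comm]
        exact h
    calc ENNReal.ofReal (τ ^ 2) * v
        ≤ ENNReal.ofReal (τ ^ 2) * ∑ _i : ι, K / ENNReal.ofReal (τ ^ 2) := by
          refine mul_le_mul_right ?_ _
          rw [hv]
          exact Finset.sum_le_sum fun i _ => h1 i
      _ = n.toNNReal * K := by
          rw [Finset.sum_const, Finset.card_univ, nsmul_eq_mul]
          have : ((Fintype.card ι : ℕ) : ℝ≥0∞) = (n.toNNReal : ℝ≥0∞) := by simp [hn]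
          rw [this, mul_left_comm, ENNReal.mul_div_cancel hT0 hTt]
  -- back to real numbers
  generalize (∫ x, ∑ i, ‖V i x‖ ^ 2) = x at hVv hvr ⊢
  generalize (∫ x, ∑ i, ‖W i x‖ ^ 2) = y at hWw hwr ⊢
  have hreal : τ ^ 2 * x ≤ n * (C₁ * (2 * y + 2 * (n * (n * (c₂ ^ 2 * x))))) := by
    rw [← hVv, ← hWw] at hlim
    have hnn : (n.toNNReal : ℝ≥0∞) = ENNReal.ofReal n := rfl
    rw [hnn, ← ENNReal.ofReal_pow hc₂0, ← ENNReal.ofReal_mul (by positivity),
      ← ENNReal.ofReal_mul (by positivity), ← ENNReal.ofReal_mul hn0, ← ENNReal.ofReal_mul hn0,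
      show (2 : ℝ≥0∞) = ENNReal.ofReal 2 by norm_num, ← ENNReal.ofReal_mul (by norm_num),
      ← ENNReal.ofReal_mul (by norm_num), ← ENNReal.ofReal_add (by positivity) (by positivity),
      ← ENNReal.ofReal_mul hC₁.le, ← ENNReal.ofReal_mul hn0,
      ENNReal.ofReal_le_ofReal_iff (by positivity)] at hlim
    exact hlim
  have h5 : (4 * n ^ 3 * C₁ * c₂ ^ 2) * x ≤ τ ^ 2 * x := by gcongr
  nlinarith

end Crest.Agent.R080
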