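import Crest.Agent.R080.L2C
import Crest.Agent.R080.DualSolve

/-!
Row 80, T9: `StmtL2Solve` from `StmtCarleman`.
-/

set_option autoImplicit false

open MeasureTheory Filter
open scoped ContDiff Topology ENNReal
open Crest.AnalysisR.VecCalc3 Crest.AnalysisR.PDE.Elasticity

noncomputable section
namespace Crest.Agent.R080

set_option linter.unusedSectionVars false
variable {ι : Type} [Fintype ι] [DecidableEq ι]

/-- the Hilbert space -/
abbrev HB (ι : Type) [Fintype ι] (R : ℝ) : Type :=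
  Lp (EuclideanSpace ℂ ι) 2 ((volume : Measure R3).restrict (Metric.ball (0 : R3) R))

theorem HB_norm_sq {R : ℝ} (v : HB ι R) :
    ‖v‖ ^ 2 = ∫ x in Metric.ball (0 : R3) R, ∑ i, ‖v x i‖ ^ 2 := by
  have h1 : (inner ℂ v v : ℂ) = ((‖v‖ : ℂ)) ^ 2 := inner_self_eq_norm_sq_to_K v
  rw [L2.inner_def] at h1
  have h2 : ∀ x, (inner ℂ (v x) (v x) : ℂ) = ((∑ i, ‖v x i‖ ^ 2 : ℝ) : ℂ) := fun x => by
    rw [inner_self_eq_norm_sq_to_K, ← EuclideanSpace.norm_sq_eq]
    simp
  simp only [h2] at h1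
  rw [integral_complex_ofReal] at h1
  have h3 : (∫ x in Metric.ball (0 : R3) R, ∑ i, ‖v x i‖ ^ 2) = ‖v‖ ^ 2 := by
    have := congrArg Complex.re h1
    rw [Complex.ofReal_re, ← Complex.ofReal_pow, Complex.ofReal_re] at this
    exact this
  exact h3.symm

/-- smooth vector functions -/
def Sm (ι : Type) : Submodule ℂ (ι → R3 → ℂ) where
  carrier := {r | ∀ i, ContDiff ℝ ∞ (r i)}
  zero_mem' := fun _ => contDiff_const
  add_mem' := fun ha hb i => (ha i).add (hb i)
  smul_mem' := fun _ _ ha i => contDiff_const.mul (ha i)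

/-- a continuous vector function as a function with values in Euclidean space -/
def asE (F : ι → R3 → ℂ) (x : R3) : EuclideanSpace ℂ ι := WithLp.toLp 2 fun i => F i x

theorem asE_memLp {F : ι → R3 → ℂ} (hF : ∀ i, Continuous (F i)) (R : ℝ) :
    MemLp (asE F) 2 ((volume : Measure R3).restrict (Metric.ball (0 : R3) R)) := by
  have hc : Continuous (asE F) := (PiLp.continuous_toLp 2 _).comp (continuous_pi hF)
  obtain ⟨M, hM⟩ := (isCompact_closedBall (0 : R3) R).exists_bound_of_continuousOn hc.continuousOn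
  have : IsFiniteMeasure ((volume : Measure R3).restrict (Metric.ball (0 : R3) R)) :=
    ⟨by simpa using measure_ball_lt_top (μ := (volume : Measure R3)) (x := (0 : R3)) (r := R)⟩
  refine MemLp.of_bound hc.aestronglyMeasurable M ?_
  filter_upwards [ae_restrict_mem measurableSet_ball] with x hx
  exact hM x (Metric.ball_subset_closedBall hx)

/-- operators with continuous values as maps into the Hilbert space -/
def toH (R : ℝ) (D : Sm ι →ₗ[ℂ] (ι → R3 → ℂ)) (hD : ∀ r i, Continuous (D r i)) :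
    Sm ι →ₗ[ℂ] HB ι R where
  toFun r := (asE_memLp (hD r) R).toLp _
  map_add' r s := by
    rw [← MemLp.toLp_add]
    refine MemLp.toLp_congr _ _ (Eventually.of_forall fun x => ?_)
    ext i
    simp [asE]
  map_smul' c r := by
    rw [RingHom.id_apply, ← MemLp.toLp_const_smul]
    refine MemLp.toLp_congr _ _ (Eventually.of_forall fun x => ?_)
    ext i
    simp [asE]

theorem toH_ae (R : ℝ) (D : Sm ι →ₗ[ℂ] (ι → R3 → ℂ)) (hD : ∀ r i, Continuous (D r i)) (r : Sm ι) :
    ∀ᵐ x ∂((volume : Measure R3).restrict (Metric.ball (0 : R3) R)),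
      ∀ i, (toH R D hD r : HB ι R) x i = D r i x := by
  filter_upwards [(asE_memLp (hD r) R).coeFn_toLp] with x hx i
  change (((asE_memLp (hD r) R).toLp _ : HB ι R) x) i = _
  rw [hx]
  rfl

theorem Lap_add' {f g : R3 → ℂ} (hf : ContDiff ℝ ∞ f) (hg : ContDiff ℝ ∞ g) (x : R3) :
    Lap (fun y => f y + g y) x = Lap f x + Lap g x := by
  unfold Lap
  rw [← Finset.sum_add_distrib]
  refine Finset.sum_congr rfl fun j _ => ?_
  have : pd j (fun y => f y + g y) = fun y => pd j f y + pd j g y := by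
    funext y; exact pd_add hf hg j y
  rw [this, pd_add (pd_contDiff hf j) (pd_contDiff hg j)]

theorem Lap_const_mul' {f : R3 → ℂ} (hf : ContDiff ℝ ∞ f) (c : ℂ) (x : R3) :
    Lap (fun y => c * f y) x = c * Lap f x := by
  unfold Lap
  rw [Finset.mul_sum]
  refine Finset.sum_congr rfl fun j _ => ?_
  have : pd j (fun y => c * f y) = fun y => c * pd j f y := by
    funext y; exact pd_const_mul hf c j y
  rw [this, pd_const_mul (pd_contDiff hf j)]

/-- the conjugated operator as a linear map -/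
def opL (θ : Fin 3 → ℂ) (A : Fin 3 → ι → ι → R3 → ℂ) (B : ι → ι → R3 → ℂ) (τ : ℝ) :
    Sm ι →ₗ[ℂ] (ι → R3 → ℂ) where
  toFun r i x := P0 A B r.1 i x + τ * M0 θ A r.1 i x
  map_add' r s := by
    funext i x
    have h1 : ∀ i, (r + s).1 i = fun y => r.1 i y + s.1 i y := fun i => rfl
    have h2 : ∀ i j y, pd j ((r + s).1 i) y = pd j (r.1 i) y + pd j (s.1 i) y := fun i j y => by
      rw [h1, pd_add (r.2 i) (s.2 i)]
    have h3 : Lap ((r + s).1 i) x = Lap (r.1 i) x + Lap (s.1 i) x := by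
      rw [h1, Lap_add' (r.2 i) (s.2 i)]
    simp only [P0, M0, DD, h2, h3, Pi.add_apply]
    have h4 : ∀ i, (r + s).1 i x = r.1 i x + s.1 i x := fun i => rfl
    simp only [h4, mul_add, Finset.sum_add_distrib]
    ring
  map_smul' c r := by
    funext i x
    have h1 : ∀ i, (c • r).1 i = fun y => c * r.1 i y := fun i => rfl
    have h2 : ∀ i j y, pd j ((c • r).1 i) y = c * pd j (r.1 i) y := fun i j y => by
      rw [h1, pd_const_mul (r.2 i)]
    have h3 : Lap ((c • r).1 i) x = c * Lap (r.1 i) x := by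
      rw [h1, Lap_const_mul' (r.2 i)]
    simp only [P0, M0, DD, h2, h3, RingHom.id_apply, Pi.smul_apply, smul_eq_mul]
    have h4 : ∀ i, (c • r).1 i x = c * r.1 i x := fun i => rfl
    simp only [h4, mul_add, Finset.mul_sum]
    congr 1
    · congr 1
      · congr 1
        refine Finset.sum_congr rfl fun j _ => Finset.sum_congr rfl fun l _ => by ring
      · refine Finset.sum_congr rfl fun l _ => by ring
    · congr 1
      · refine Finset.sum_congr rfl fun l _ => by ring
      · refine Finset.sum_congr rfl fun j _ => Finset.sum_congr rfl fun l _ => by ring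

theorem opL_cont (θ : Fin 3 → ℂ) {A : Fin 3 → ι → ι → R3 → ℂ} {B : ι → ι → R3 → ℂ}
    (hA : ∀ j i l, ContDiff ℝ ∞ (A j i l)) (hB : ∀ i l, ContDiff ℝ ∞ (B i l)) (τ : ℝ) (r : Sm ι)
    (i : ι) : Continuous (opL θ A B τ r i) := by
  have h1 : ∀ i, Continuous (r.1 i) := fun i => (r.2 i).continuous
  have h2 : ∀ j i, Continuous (pd j (r.1 i)) := fun j i => (pd_contDiff (r.2 i) j).continuous
  have h3 : ∀ i, Continuous (Lap (r.1 i)) := fun i => (Lap_contDiff (r.2 i)).continuous
  have h4 : ∀ j i l, Continuous (A j i l) := fun j i l => (hA j i l).continuous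
  have h5 : ∀ i l, Continuous (B i l) := fun i l => (hB i l).continuous
  have h6 : ∀ i, Continuous (DD θ (r.1 i)) := fun i => (DD_contDiff (r.2 i) θ).continuous
  change Continuous fun x => P0 A B r.1 i x + τ * M0 θ A r.1 i x
  unfold P0 M0
  fun_prop

/-- conjugated extension by zero of the components of an element of the Hilbert space -/
def ext0 {R : ℝ} (v : HB ι R) (i : ι) : R3 → ℂ :=
  (Metric.ball (0 : R3) R).indicator fun x => starRingEnd ℂ (v x i)

theorem ext0_memLp {R : ℝ} (v : HB ι R) (i : ι) : MemLp (ext0 v i) 2 volume := by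
  unfold ext0
  rw [memLp_indicator_iff_restrict measurableSet_ball]
  have h1 : MemLp (fun x => v x i) 2
      ((volume : Measure R3).restrict (Metric.ball (0 : R3) R)) := by
    have := (Lp.memLp v)
    exact (ContinuousLinearMap.comp_memLp' (EuclideanSpace.proj i : EuclideanSpace ℂ ι →L[ℂ] ℂ)
      this)
  exact h1.star

theorem ext0_zero {R : ℝ} (v : HB ι R) (i : ι) (x : R3) (hx : R ≤ ‖x‖) : ext0 v i x = 0 := by
  unfold ext0
  refine Set.indicator_of_notMem ?_ _
  simpa using hx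

theorem ext0_norm {R : ℝ} (v : HB ι R) : ∫ x, ∑ i, ‖ext0 v i x‖ ^ 2 = ‖v‖ ^ 2 := by
  rw [HB_norm_sq, ← integral_indicator measurableSet_ball]
  refine integral_congr_ae (Eventually.of_forall fun x => ?_)
  by_cases hx : x ∈ Metric.ball (0 : R3) R
  · simp [ext0, hx]
  · simp [ext0, hx]

theorem ext0_inner {R : ℝ} (v : HB ι R) (D : Sm ι →ₗ[ℂ] (ι → R3 → ℂ))
    (hD : ∀ r i, Continuous (D r i)) (r : Sm ι) :
    (inner ℂ v (toH R D hD r) : ℂ) = ∫ x, ∑ i, ext0 v i x * D r i x := by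
  rw [L2.inner_def]
  have h1 : ∫ x in Metric.ball (0 : R3) R, (inner ℂ (v x) ((toH R D hD r : HB ι R) x) : ℂ)
      = ∫ x in Metric.ball (0 : R3) R, ∑ i, starRingEnd ℂ (v x i) * D r i x := by
    refine integral_congr_ae ?_
    filter_upwards [toH_ae R D hD r] with x hx
    rw [PiLp.inner_apply]
    refine Finset.sum_congr rfl fun i _ => ?_
    rw [hx i]
    simp [RCLike.inner_apply, mul_comm]
  rw [h1, ← integral_indicator measurableSet_ball]
  refine integral_congr_ae (Eventually.of_forall fun x => ?_)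
  by_cases hx : x ∈ Metric.ball (0 : R3) R
  · simp [ext0, hx]
  · simp [ext0, hx]

theorem t_L2Solve (hC : StmtCarleman) : StmtL2Solve := by
  intro ι _ _ θ hθ A B hA hB R
  obtain ⟨C, τ₀, hCpos, hτ₀, hest⟩ := dual_est hC hθ hA hB R
  refine ⟨2 * Real.sqrt C, τ₀, by positivity, hτ₀, ?_⟩
  intro τ hτ f hf hfc ε hε
  have hτpos : 0 < τ := hτ₀.trans_le hτ
  -- the operators
  let D : Sm ι →ₗ[ℂ] (ι → R3 → ℂ) := opL θ A B τ
  let D1 : Sm ι →ₗ[ℂ] (ι → R3 → ℂ) := (Sm ι).subtype
  have hD : ∀ r i, Continuous (D r i) := fun r i => opL_cont θ hA hB τ r i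
  have hD1 : ∀ r i, Continuous (D1 r i) := fun r i => (r.2 i).continuous
  let T := toH R D hD
  let J := toH R D1 hD1
  let fS : Sm ι := ⟨f, hf⟩
  let fH : HB ι R := J fS
  have hM : 0 < Real.sqrt C / τ := by positivity
  have hdual : ∀ v w : HB ι R, (∀ r, inner ℂ v (T r) = inner ℂ w (J r)) →
      ‖v‖ ≤ Real.sqrt C / τ * ‖w‖ := by
    intro v w h
    have h1 := hest τ hτ (ext0 v) (ext0 w) (ext0_memLp v) (ext0_memLp w) (ext0_zero v)
      (fun r hr => by
        have := h ⟨r, hr⟩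
        rw [ext0_inner, ext0_inner] at this
        exact this)
    rw [ext0_norm, ext0_norm] at h1
    have h2 : (τ * ‖v‖) ^ 2 ≤ (Real.sqrt C * ‖w‖) ^ 2 := by
      rw [mul_pow, mul_pow, Real.sq_sqrt hCpos.le]; exact h1
    have h3 := (sq_le_sq₀ (by positivity) (by positivity)).1 h2
    rw [div_mul_eq_mul_div, le_div_iff₀ hτpos]
    linarith
  -- norms on the Hilbert space
  have hnorm : ∀ (E : Sm ι →ₗ[ℂ] (ι → R3 → ℂ)) (hE : ∀ r i, Continuous (E r i)) (r : Sm ι),
      ‖toH R E hE r‖ ^ 2 = ∫ x in Metric.ball (0 : R3) R, ∑ i, ‖E r i x‖ ^ 2 := by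
    intro E hE r
    rw [HB_norm_sq]
    refine integral_congr_ae ?_
    filter_upwards [toH_ae R E hE r] with x hx
    simp only [hx]
  have hTf : ∀ r : Sm ι, ‖T r - fH‖ ^ 2
      = ∫ x in Metric.ball (0 : R3) R,
        ∑ i, ‖P0 A B r.1 i x + τ * M0 θ A r.1 i x - f i x‖ ^ 2 := by
    intro r
    rw [HB_norm_sq]
    refine integral_congr_ae ?_
    filter_upwards [toH_ae R D hD r, toH_ae R D1 hD1 fS, Lp.coeFn_sub (T r) fH] with x h1 h2 h3
    simp only [h3]
    refine Finset.sum_congr rfl fun i _ => ?_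
    have e1 : ((⇑(T r) - ⇑fH) x) i = (T r : HB ι R) x i - (fH : HB ι R) x i := rfl
    rw [e1, h1 i, h2 i]
    rfl
  have hfn : ‖fH‖ ^ 2 ≤ ∫ x, ∑ i, ‖f i x‖ ^ 2 := by
    rw [hnorm D1 hD1 fS]
    refine setIntegral_le_integral ?_ (Eventually.of_forall fun x => by positivity)
    refine integrable_finsetSum _ fun i _ => ?_
    have : MemLp (f i) 2 volume := (hf i).continuous.memLp_of_hasCompactSupport (hfc i)
    exact (memLp_two_iff_integrable_sq_norm this.1).1 this
  by_cases h0 : fH = 0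
  · refine ⟨fun _ _ => 0, fun _ => contDiff_const, ?_, ?_⟩
    · have h1 := hTf 0
      rw [map_zero, h0, sub_zero, norm_zero] at h1
      have h2 : (0 : Sm ι).1 = fun _ _ => 0 := rfl
      rw [h2] at h1
      rw [← h1]
      simpa using hε.le
    · simp only [norm_zero, ne_eq, OfNat.ofNat_ne_zero, not_false_eq_true, zero_pow,
        Finset.sum_const_zero, integral_zero]
      have : 0 ≤ ∫ x, ∑ i, ‖f i x‖ ^ 2 := integral_nonneg fun x => by positivity
      positivity
  obtain ⟨r, hr1, hr2⟩ := dual_solve T J _ hM hdual fH h0 (Real.sqrt ε) (Real.sqrt_pos.2 hε)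
  refine ⟨r.1, r.2, ?_, ?_⟩
  · rw [← hTf r]
    calc ‖T r - fH‖ ^ 2 ≤ Real.sqrt ε ^ 2 := by gcongr
      _ = ε := Real.sq_sqrt hε.le
  · have h1 := hnorm D1 hD1 r
    have h2 : ∀ i x, D1 r i x = r.1 i x := fun i x => rfl
    simp only [h2] at h1
    rw [← h1]
    calc ‖J r‖ ^ 2 ≤ (2 * (Real.sqrt C / τ) * ‖fH‖) ^ 2 := by gcongr
      _ = (2 * Real.sqrt C / τ) ^ 2 * ‖fH‖ ^ 2 := by ring
      _ ≤ (2 * Real.sqrt C / τ) ^ 2 * ∫ x, ∑ i, ‖f i x‖ ^ 2 := by gcongr

end Crest.Agent.R080
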