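import Crest.Agent.R080.Bilin

/-!
Row 80 (S0107), T11a: the weak form of the Lamé operator on the potential representation.
-/

set_option autoImplicit false

open MeasureTheory Filter
open scoped ContDiff Topology
open Crest.AnalysisR.VecCalc3 Crest.AnalysisR.PDE.Elasticity

noncomputable section
namespace Crest.Agent.R080

namespace La

/-- stress tensor -/
def sig (P : Moduli) (u : Fin 3 → R3 → ℂ) (i j : Fin 3) (x : R3) : ℂ :=
  (if i = j then (P.lam x : ℂ) * divg u x else 0) + 2 * (P.mu x : ℂ) * strain u i j x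

theorem cf_mul (f : R3 → ℝ) (x : R3) : cf f x = (f x : ℂ) := rfl

/-- the representation field `w + m ∇g - g ∇m` is `dispU` with `τ = 0` -/
theorem uU_eq (P : Moduli) (θ : Fin 3 → ℂ) (τ : ℂ) (U : Option (Fin 3) → R3 → ℂ)
    (hU : ∀ i, ContDiff ℝ ∞ (U i)) (i : Fin 3) (x : R3) :
    uU P θ τ U i x = expo θ τ x * U (some i) x
      + (P.m x : ℂ) * pd i (fun y => expo θ τ y * U none y) x
      - expo θ τ x * U none x * pd i (cf P.m) x := by
  rw [pd_expo_mul θ τ _ i x (diffAt_of (hU none) x)]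
  unfold uU dispU
  ring

/-- pointwise form of the Lamé operator -/
theorem div_sig (P : Moduli) (W : Fin 3 → R3 → ℂ) (g : R3 → ℂ) (hW : ∀ i, ContDiff ℝ ∞ (W i))
    (hg : ContDiff ℝ ∞ g) (u : Fin 3 → R3 → ℂ)
    (hu : ∀ i, u i = fun x => W i x + (P.m x : ℂ) * pd i g x - g x * pd i (cf P.m) x)
    (U : Option (Fin 3) → R3 → ℂ) (hUs : ∀ i, U (some i) = W i) (hUn : U none = g)
    (i : Fin 3) (x : R3) :
    ContDiff ℝ ∞ (fun y => ((P.cc y : ℂ))⁻¹ * P0 (A4 P) (B4 P) U none y) ∧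
    ContDiff ℝ ∞ (P0 (A4 P) (B4 P) U (some i)) ∧
    ∑ j, pd j (sig P u i j) x = (P.mu x : ℂ) * P0 (A4 P) (B4 P) U (some i) x
      + pd i (fun y => ((P.cc y : ℂ))⁻¹ * P0 (A4 P) (B4 P) U none y) x := by
  -- elements of `Sm`
  have hlaS : ContDiff ℝ ∞ (cf P.lam) := contDiff_cf P.smooth_lam
  have hmuS : ContDiff ℝ ∞ (cf P.mu) := contDiff_cf P.smooth_mu
  have hmS : ContDiff ℝ ∞ (cf P.m) := contDiff_cf (smooth_m P)
  let la : Sm := ⟨cf P.lam, hlaS⟩
  let mu : Sm := ⟨cf P.mu, hmuS⟩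
  let m : Sm := ⟨cf P.m, hmS⟩
  let Ws : Fin 3 → Sm := fun i => ⟨W i, hW i⟩
  let gs : Sm := ⟨g, hg⟩
  let us : Fin 3 → Sm := fun j => Ws j + m * Sm.d j gs - gs * Sm.d j m
  have hus : ∀ j, ((us j : Sm) : R3 → ℂ) = u j := fun j => by rw [hu j]; rfl
  have hm : m * mu = 1 := Subtype.ext (funext fun y => by
    change (P.m y : ℂ) * (P.mu y : ℂ) = 1
    rw [← Complex.ofReal_mul, m_mul_mu]; simp)
  have key := lame_alg la mu m hm Ws gs i us fun j => rfl
  have hmx : (P.m x : ℂ) * (P.mu x : ℂ) = 1 := by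
    rw [← Complex.ofReal_mul, m_mul_mu]; simp
  -- the stress
  let Sg : Fin 3 → Sm := fun j =>
    (if i = j then la * (Sm.d 0 (us 0) + Sm.d 1 (us 1) + Sm.d 2 (us 2)) else 0)
      + mu * (Sm.d i (us j) + Sm.d j (us i))
  have hpu : ∀ a b y, ((Sm.d a (us b) : Sm) : R3 → ℂ) y = pd a (u b) y := fun a b y => by
    rw [Sm.d_apply, hus]
  have hSg : ∀ j, ((Sg j : Sm) : R3 → ℂ) = sig P u i j := by
    intro j
    funext y
    by_cases hij : i = j
    · simp only [Sg, if_pos hij, Sm.add_apply, Sm.mul_apply]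
      change (P.lam y : ℂ) * (((Sm.d 0 (us 0) : Sm) : R3 → ℂ) y + ((Sm.d 1 (us 1) : Sm) : R3 → ℂ) y
        + ((Sm.d 2 (us 2) : Sm) : R3 → ℂ) y) + (P.mu y : ℂ) * (((Sm.d i (us j) : Sm) : R3 → ℂ) y
        + ((Sm.d j (us i) : Sm) : R3 → ℂ) y) = _
      simp only [hpu, sig, if_pos hij, divg, strain, Fin.sum_univ_three]
      ring
    · simp only [Sg, if_neg hij, zero_add, Sm.mul_apply, Sm.add_apply]
      change (P.mu y : ℂ) * (((Sm.d i (us j) : Sm) : R3 → ℂ) y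
        + ((Sm.d j (us i) : Sm) : R3 → ℂ) y) = _
      simp only [hpu, sig, if_neg hij, strain]
      ring
  have hL : ∑ j, pd j (sig P u i j) x = ((∑ j, Sm.d j (Sg j) : Sm) : R3 → ℂ) x := by
    simp only [Fin.sum_univ_three, Sm.add_apply]
    simp only [← hSg]
    rfl
  have hL2 : ∑ j, Sm.d j (Sg j) = Sm.d i (la * (Sm.d 0 (us 0) + Sm.d 1 (us 1) + Sm.d 2 (us 2)))
      + Sm.d 0 (mu * (Sm.d i (us 0) + Sm.d 0 (us i)))
      + Sm.d 1 (mu * (Sm.d i (us 1) + Sm.d 1 (us i)))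
      + Sm.d 2 (mu * (Sm.d i (us 2) + Sm.d 2 (us i))) := by
    simp only [Fin.sum_univ_three, Sg]
    fin_cases i <;> simp <;> abel
  let Gs : Sm := (la * m + 2) * (Sm.d 0 (Sm.d 0 gs) + Sm.d 1 (Sm.d 1 gs) + Sm.d 2 (Sm.d 2 gs))
        + (la + mu) * (Sm.d 0 (Ws 0) + Sm.d 1 (Ws 1) + Sm.d 2 (Ws 2))
        + (Sm.d 0 mu * Ws 0 + Sm.d 1 mu * Ws 1 + Sm.d 2 mu * Ws 2)
        - la * (Sm.d 0 (Sm.d 0 m) + Sm.d 1 (Sm.d 1 m) + Sm.d 2 (Sm.d 2 m)) * gs
  have hG : ((Gs : Sm) : R3 → ℂ) = fun y => ((P.cc y : ℂ))⁻¹ * P0 (A4 P) (B4 P) U none y := by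
    funext y
    have hc : ((P.cc y : ℂ))⁻¹ = (P.lam y : ℂ) * (P.m y : ℂ) + 2 := by
      rw [← Complex.ofReal_inv, inv_cc]; push_cast; ring
    have hc2 : ((P.cc y : ℂ))⁻¹ * (P.cc y : ℂ) = 1 :=
      inv_mul_cancel₀ (by exact_mod_cast (cc_pos P y).ne')
    change ((P.lam y : ℂ) * (P.m y : ℂ) + 2) * (pd 0 (pd 0 g) y + pd 1 (pd 1 g) y
        + pd 2 (pd 2 g) y) + ((P.lam y : ℂ) + (P.mu y : ℂ)) * (pd 0 (W 0) y + pd 1 (W 1) y
        + pd 2 (W 2) y) + (pd 0 (cf P.mu) y * W 0 y + pd 1 (cf P.mu) y * W 1 y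
        + pd 2 (cf P.mu) y * W 2 y) - (P.lam y : ℂ) * (pd 0 (pd 0 (cf P.m)) y
        + pd 1 (pd 1 (cf P.m)) y + pd 2 (pd 2 (cf P.m)) y) * g y = _
    unfold P0 Lap
    simp only [Fintype.sum_option, Fin.sum_univ_three, hUs, hUn, A4, B4]
    simp only [Fin.reduceEq, if_true, if_false, Lap, Fin.sum_univ_three]
    linear_combination (-(pd 0 (pd 0 g) y + pd 1 (pd 1 g) y + pd 2 (pd 2 g) y)) * hc
      - (((P.lam y : ℂ) + (P.mu y : ℂ)) * (pd 0 (W 0) y + pd 1 (W 1) y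
        + pd 2 (W 2) y) + (pd 0 (cf P.mu) y * W 0 y + pd 1 (cf P.mu) y * W 1 y
        + pd 2 (cf P.mu) y * W 2 y) - (P.lam y : ℂ) * (pd 0 (pd 0 (cf P.m)) y
        + pd 1 (pd 1 (cf P.m)) y + pd 2 (pd 2 (cf P.m)) y) * g y) * hc2
  have hLapS : ∀ {f : R3 → ℂ}, ContDiff ℝ ∞ f → ContDiff ℝ ∞ (Lap f) := fun hf =>
    ContDiff.sum fun j _ => contDiff_pd_infty (contDiff_pd_infty hf j) j
  refine ⟨hG ▸ Gs.2, ?_, ?_⟩
  · unfold P0
    have hUS : ∀ o, ContDiff ℝ ∞ (U o) := by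
      intro o; cases o with
      | none => rw [hUn]; exact hg
      | some a => rw [hUs]; exact hW a
    have hA : ∀ j l, ContDiff ℝ ∞ (A4 P j (some i) l) := by
      intro j l
      cases l with
      | none =>
        exact contDiff_const.mul (contDiff_pd_infty (contDiff_pd_infty hmS _) _)
      | some l =>
        have h1 : ContDiff ℝ ∞ (fun x => if i = l then pd j (cf P.mu) x else 0) := by
          split_ifs
          · exact contDiff_pd_infty hmuS _
          · exact contDiff_const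
        have h2 : ContDiff ℝ ∞ (fun x => if j = l then pd i (cf P.mu) x else 0) := by
          split_ifs
          · exact contDiff_pd_infty hmuS _
          · exact contDiff_const
        exact hmS.mul (h1.sub h2)
    have hB : ∀ l, ContDiff ℝ ∞ (B4 P (some i) l) := by
      intro l
      cases l with
      | none =>
        refine ContDiff.sub (ContDiff.mul (contDiff_const.mul hmS) ?_) ?_
        · exact ContDiff.sum fun j _ => (contDiff_pd_infty (contDiff_pd_infty hmS _) _).mul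
            (contDiff_pd_infty hmuS _)
        · exact contDiff_const.mul (contDiff_pd_infty (hLapS hmS) _)
      | some l =>
        exact hmS.neg.mul (contDiff_pd_infty (contDiff_pd_infty hmuS _) _)
    refine ((hLapS (hUS _)).add ?_).add ?_
    · exact ContDiff.sum fun j _ => ContDiff.sum fun l _ =>
        (hA j l).mul (contDiff_pd_infty (hUS l) j)
    · exact ContDiff.sum fun l _ => (hB l).mul (hUS l)
  rw [hL, hL2, key, ← hG]
  change _ + pd i (Gs : R3 → ℂ) x = _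
  congr 1
  change (P.mu x : ℂ) * (pd 0 (pd 0 (W i)) x + pd 1 (pd 1 (W i)) x + pd 2 (pd 2 (W i)) x)
        + (pd 0 (cf P.mu) x * pd 0 (W i) x + pd 1 (cf P.mu) x * pd 1 (W i) x
          + pd 2 (cf P.mu) x * pd 2 (W i) x)
        - pd i (cf P.mu) x * (pd 0 (W 0) x + pd 1 (W 1) x + pd 2 (W 2) x)
        - (pd i (pd 0 (cf P.mu)) x * W 0 x + pd i (pd 1 (cf P.mu)) x * W 1 x
          + pd i (pd 2 (cf P.mu)) x * W 2 x)
        - 2 * (P.mu x : ℂ) * (pd i (pd 0 (cf P.m)) x * pd 0 g x + pd i (pd 1 (cf P.m)) x * pd 1 g x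
          + pd i (pd 2 (cf P.m)) x * pd 2 g x)
        - 2 * g x * (pd i (pd 0 (cf P.m)) x * pd 0 (cf P.mu) x
          + pd i (pd 1 (cf P.m)) x * pd 1 (cf P.mu) x
          + pd i (pd 2 (cf P.m)) x * pd 2 (cf P.mu) x)
        - 2 * (P.mu x : ℂ) * g x * pd i ((Sm.d 0 (Sm.d 0 m) + Sm.d 1 (Sm.d 1 m)
          + Sm.d 2 (Sm.d 2 m) : Sm) : R3 → ℂ) x = _
  have hLm : ((Sm.d 0 (Sm.d 0 m) + Sm.d 1 (Sm.d 1 m) + Sm.d 2 (Sm.d 2 m) : Sm) : R3 → ℂ)
      = Lap (cf P.m) := by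
    funext y
    unfold Lap
    rw [Fin.sum_univ_three]; rfl
  rw [hLm]
  have hLW : Lap (W i) x = pd 0 (pd 0 (W i)) x + pd 1 (pd 1 (W i)) x + pd 2 (pd 2 (W i)) x := by
    unfold Lap; rw [Fin.sum_univ_three]
  unfold P0
  simp only [Fintype.sum_option, Fin.sum_univ_three, hUs, hUn, A4, B4, hLW]
  clear hL hL2 key hSg hLm
  clear Sg
  fin_cases i
  · simp only [Fin.zero_eta, Fin.reduceEq, if_true, if_false]
    linear_combination (-((pd 0 (cf P.mu) x * pd 0 (W 0) x + pd 1 (cf P.mu) x * pd 1 (W 0) x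
          + pd 2 (cf P.mu) x * pd 2 (W 0) x)
        - pd 0 (cf P.mu) x * (pd 0 (W 0) x + pd 1 (W 1) x + pd 2 (W 2) x)
        - (pd 0 (pd 0 (cf P.mu)) x * W 0 x + pd 0 (pd 1 (cf P.mu)) x * W 1 x
          + pd 0 (pd 2 (cf P.mu)) x * W 2 x)
        - 2 * g x * (pd 0 (pd 0 (cf P.m)) x * pd 0 (cf P.mu) x
          + pd 0 (pd 1 (cf P.m)) x * pd 1 (cf P.mu) x
          + pd 0 (pd 2 (cf P.m)) x * pd 2 (cf P.mu) x))) * hmx
  · simp only [Fin.mk_one, Fin.reduceEq, if_true, if_false]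
    linear_combination (-((pd 0 (cf P.mu) x * pd 0 (W 1) x + pd 1 (cf P.mu) x * pd 1 (W 1) x
          + pd 2 (cf P.mu) x * pd 2 (W 1) x)
        - pd 1 (cf P.mu) x * (pd 0 (W 0) x + pd 1 (W 1) x + pd 2 (W 2) x)
        - (pd 1 (pd 0 (cf P.mu)) x * W 0 x + pd 1 (pd 1 (cf P.mu)) x * W 1 x
          + pd 1 (pd 2 (cf P.mu)) x * W 2 x)
        - 2 * g x * (pd 1 (pd 0 (cf P.m)) x * pd 0 (cf P.mu) x
          + pd 1 (pd 1 (cf P.m)) x * pd 1 (cf P.mu) x
          + pd 1 (pd 2 (cf P.m)) x * pd 2 (cf P.mu) x))) * hmx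
  · simp only [Fin.reduceFinMk, Fin.reduceEq, if_true, if_false]
    linear_combination (-((pd 0 (cf P.mu) x * pd 0 (W 2) x + pd 1 (cf P.mu) x * pd 1 (W 2) x
          + pd 2 (cf P.mu) x * pd 2 (W 2) x)
        - pd 2 (cf P.mu) x * (pd 0 (W 0) x + pd 1 (W 1) x + pd 2 (W 2) x)
        - (pd 2 (pd 0 (cf P.mu)) x * W 0 x + pd 2 (pd 1 (cf P.mu)) x * W 1 x
          + pd 2 (pd 2 (cf P.mu)) x * W 2 x)
        - 2 * g x * (pd 2 (pd 0 (cf P.m)) x * pd 0 (cf P.mu) x
          + pd 2 (pd 1 (cf P.m)) x * pd 1 (cf P.mu) x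
          + pd 2 (pd 2 (cf P.m)) x * pd 2 (cf P.mu) x))) * hmx

theorem contDiff_strain {n : WithTop ℕ∞} {u : Fin 3 → R3 → ℂ}
    (hu : ∀ i, ContDiff ℝ (n + 1) (u i)) (i j : Fin 3) : ContDiff ℝ n (strain u i j) :=
  ((contDiff_pd (hu j) i).add (contDiff_pd (hu i) j)).div_const 2

theorem contDiff_divg {n : WithTop ℕ∞} {u : Fin 3 → R3 → ℂ}
    (hu : ∀ i, ContDiff ℝ (n + 1) (u i)) : ContDiff ℝ n (divg u) :=
  ContDiff.sum fun i _ => contDiff_pd (hu i) i

theorem contDiff_sig (P : Moduli) {u : Fin 3 → R3 → ℂ}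
    (hu : ∀ i, ContDiff ℝ ∞ (u i)) (i j : Fin 3) : ContDiff ℝ ∞ (sig P u i j) := by
  have h1 : ContDiff ℝ ∞ (fun x => if i = j then (P.lam x : ℂ) * divg u x else 0) := by
    split_ifs
    · exact (contDiff_cf P.smooth_lam).mul (contDiff_divg (by simpa using hu))
    · exact contDiff_const
  exact h1.add ((contDiff_const.mul (contDiff_cf P.smooth_mu)).mul
    (contDiff_strain (by simpa using hu) i j))

/-- the energy density as `σ : ∇w` -/
theorem energy_eq (P : Moduli) (u w : Fin 3 → R3 → ℂ) (x : R3) :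
    (P.lam x : ℂ) * divg u x * divg w x
      + 2 * (P.mu x : ℂ) * ∑ i, ∑ j, strain u i j x * strain w i j x
    = ∑ j, ∑ i, sig P u i j x * pd j (w i) x := by
  simp only [sig, strain, divg, Fin.sum_univ_three, Fin.reduceEq, if_true, if_false]
  ring

end La

/-- T11a -/
theorem t_Lame (hZ : StmtZ) : StmtLame := by
  intro G P θ hθ τ U hU w hw hw0
  set u := uU P θ τ U with hudef
  let U' : Option (Fin 3) → R3 → ℂ := fun i y => expo θ τ y * U i y
  have hU' : ∀ i, ContDiff ℝ ∞ (U' i) := fun i => (La.smooth_expo θ τ).mul (hU i)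
  have husm : ∀ i, ContDiff ℝ ∞ (u i) := fun i => La.contDiff_uU P θ τ U hU i
  have hP : ∀ i x, P0 (A4 P) (B4 P) U' i x
      = expo θ τ x * (P0 (A4 P) (B4 P) U i x + τ * M0 θ (A4 P) U i x) := fun i x =>
    La.P0_expo θ hθ.2 τ (A4 P) (B4 P) U hU i x
  let H : R3 → ℂ := fun y => ((P.cc y : ℂ))⁻¹ * P0 (A4 P) (B4 P) U' none y
  have hdiv := fun i x => La.div_sig P (fun i => U' (some i)) (U' none) (fun i => hU' _) (hU' _) u
    (fun i => funext fun x => La.uU_eq P θ τ U hU i x) U' (fun _ => rfl) rfl i x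
  have hH : ContDiff ℝ ∞ H := (hdiv 0 0).1
  have hPs : ∀ i, ContDiff ℝ ∞ (P0 (A4 P) (B4 P) U' (some i)) := fun i => (hdiv i 0).2.1
  have hsig : ∀ i j, ContDiff ℝ ∞ (La.sig P u i j) := fun i j => La.contDiff_sig P husm i j
  have hwd : ∀ i x, DifferentiableAt ℝ (w i) x := fun i x => (hw i).differentiable one_ne_zero x
  let F : Fin 3 → R3 → ℂ := fun j x => (∑ i, La.sig P u i j x * w i x) - H x * w j x
  have hF1 : ∀ j, ContDiff ℝ 1 (F j) := by
    intro j
    refine ContDiff.sub (ContDiff.sum fun i _ => ?_) ?_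
    · exact ((hsig i j).of_le (by norm_cast)).mul (hw i)
    · exact (hH.of_le (by norm_cast)).mul (hw j)
  have hF0 : ∀ j, ∀ x ∈ frontier G.Ω, F j x = 0 := by
    intro j x hx
    simp only [F, hw0 x hx, mul_zero, Finset.sum_const_zero, sub_zero]
  have hFint : ∀ j, ∫ x in G.Ω, pd j (F j) x = 0 := fun j => hZ G (F j) (hF1 j) (hF0 j) j
  have hpdF : ∀ j x, pd j (F j) x = (∑ i, (pd j (La.sig P u i j) x * w i x
      + La.sig P u i j x * pd j (w i) x)) - (pd j H x * w j x + H x * pd j (w j) x) := by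
    intro j x
    have h1 : ∀ i, DifferentiableAt ℝ (fun y => La.sig P u i j y * w i y) x := fun i =>
      (La.diffAt_of (hsig i j) x).mul (hwd i x)
    have h2 : DifferentiableAt ℝ (fun y => H y * w j y) x :=
      (La.diffAt_of hH x).mul (hwd j x)
    have h3 : DifferentiableAt ℝ (fun y => ∑ i, La.sig P u i j y * w i y) x :=
      DifferentiableAt.fun_sum fun i _ => h1 i
    change pd j (fun y => (∑ i, La.sig P u i j y * w i y) - H y * w j y) x = _
    rw [La.pd_sub h3 h2, La.pd_sum _ _ fun i _ => h1 i, La.pd_mul (La.diffAt_of hH x) (hwd j x)]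
    congr 1
    exact Finset.sum_congr rfl fun i _ => La.pd_mul (La.diffAt_of (hsig i j) x) (hwd i x)
  have hpt : ∀ x, (P.lam x : ℂ) * divg u x * divg w x
      + 2 * (P.mu x : ℂ) * ∑ i, ∑ j, strain u i j x * strain w i j x
      = (∑ j, pd j (F j) x) + (-(expo θ τ x * (P.mu x : ℂ) *
          ∑ i, (P0 (A4 P) (B4 P) U (some i) x + τ * M0 θ (A4 P) U (some i) x) * w i x)
        + expo θ τ x * ((P.cc x : ℂ))⁻¹ *
          (P0 (A4 P) (B4 P) U none x + τ * M0 θ (A4 P) U none x) * divg w x) := by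
    intro x
    rw [La.energy_eq]
    have h0 := fun i => (hdiv i x).2.2
    have hHx : H x = ((P.cc x : ℂ))⁻¹ * (expo θ τ x *
        (P0 (A4 P) (B4 P) U none x + τ * M0 θ (A4 P) U none x)) := by
      simp only [H, hP]
    have h1 : ∀ i, P0 (A4 P) (B4 P) U' (some i) x * w i x = expo θ τ x *
        ((P0 (A4 P) (B4 P) U (some i) x + τ * M0 θ (A4 P) U (some i) x) * w i x) := by
      intro i; rw [hP]; ring
    have h2 : ∑ i, (∑ j, pd j (La.sig P u i j) x) * w i x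
        = ∑ i, ((P.mu x : ℂ) * P0 (A4 P) (B4 P) U' (some i) x + pd i H x) * w i x :=
      Finset.sum_congr rfl fun i _ => by rw [h0 i]
    simp only [hpdF]
    have h3 : divg w x = ∑ j, pd j (w j) x := rfl
    have h4 : expo θ τ x * (P.mu x : ℂ) *
          ∑ i, (P0 (A4 P) (B4 P) U (some i) x + τ * M0 θ (A4 P) U (some i) x) * w i x
        = (P.mu x : ℂ) * ∑ i, P0 (A4 P) (B4 P) U' (some i) x * w i x := by
      simp only [h1, ← Finset.mul_sum]; ring
    have h5 : expo θ τ x * ((P.cc x : ℂ))⁻¹ *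
          (P0 (A4 P) (B4 P) U none x + τ * M0 θ (A4 P) U none x) * divg w x
        = H x * ∑ j, pd j (w j) x := by
      rw [hHx, h3]; ring
    rw [h4, h5]
    simp only [Fin.sum_univ_three] at h2 ⊢
    linear_combination -h2
  have hR1 : ∀ x, expo θ τ x * (P.mu x : ℂ) *
          ∑ i, (P0 (A4 P) (B4 P) U (some i) x + τ * M0 θ (A4 P) U (some i) x) * w i x
        = (P.mu x : ℂ) * ∑ i, P0 (A4 P) (B4 P) U' (some i) x * w i x := by
    intro x
    simp only [hP, Finset.mul_sum]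
    exact Finset.sum_congr rfl fun i _ => by ring
  have hR2 : ∀ x, expo θ τ x * ((P.cc x : ℂ))⁻¹ *
          (P0 (A4 P) (B4 P) U none x + τ * M0 θ (A4 P) U none x) * divg w x
        = H x * divg w x := by
    intro x; simp only [H, hP]; ring
  have hI1 : IntegrableOn (fun x => expo θ τ x * (P.mu x : ℂ) *
          ∑ i, (P0 (A4 P) (B4 P) U (some i) x + τ * M0 θ (A4 P) U (some i) x) * w i x) G.Ω := by
    simp only [hR1]
    refine DB.integrableOn' G ?_
    exact (La.contDiff_cf P.smooth_mu).continuous.mul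
      (continuous_finsetSum _ fun i _ => (hPs i).continuous.mul (hw i).continuous)
  have hI2 : IntegrableOn (fun x => expo θ τ x * ((P.cc x : ℂ))⁻¹ *
          (P0 (A4 P) (B4 P) U none x + τ * M0 θ (A4 P) U none x) * divg w x) G.Ω := by
    simp only [hR2]
    exact DB.integrableOn' G (hH.continuous.mul (La.continuous_divg hw))
  have hIF : ∀ j, IntegrableOn (fun x => pd j (F j) x) G.Ω := fun j =>
    DB.integrableOn' G (La.continuous_pd (hF1 j) j)
  let a : R3 → ℂ := fun x => expo θ τ x * (P.mu x : ℂ) *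
          ∑ i, (P0 (A4 P) (B4 P) U (some i) x + τ * M0 θ (A4 P) U (some i) x) * w i x
  let b : R3 → ℂ := fun x => expo θ τ x * ((P.cc x : ℂ))⁻¹ *
          (P0 (A4 P) (B4 P) U none x + τ * M0 θ (A4 P) U none x) * divg w x
  have hS : IntegrableOn (fun x => ∑ j, pd j (F j) x) G.Ω :=
    integrable_finsetSum _ fun j _ => hIF j
  have hN : IntegrableOn (fun x => -(a x)) G.Ω := Integrable.neg hI1
  have hab : IntegrableOn (fun x => -(a x) + b x) G.Ω := Integrable.add hN hI2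
  unfold BE
  simp only [hpt]
  change ∫ x in G.Ω, ((∑ j, pd j (F j) x) + (-(a x) + b x))
    = -(∫ x in G.Ω, a x) + ∫ x in G.Ω, b x
  rw [integral_add hS hab, integral_finsetSum _ fun j _ => hIF j, integral_add hN hI2,
    integral_neg]
  simp only [hFint, Finset.sum_const_zero, zero_add]
  rfl

end Crest.Agent.R080
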