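import Crest.Agent.R080.PdCalc

/-!
Row 80 (S0107), T11a: the pointwise algebra of the Lamé operator on `u = w + m ∇g - g ∇m`.
-/

set_option autoImplicit false

open MeasureTheory Filter
open scoped ContDiff Topology
open Crest.AnalysisR.VecCalc3 Crest.AnalysisR.PDE.Elasticity

noncomputable section
namespace Crest.Agent.R080.La

open Sm

/-- `L u` for `u = w + m ∇g - g ∇m`, `m μ = 1` -/
theorem lame_alg (la mu m : Sm) (hm : m * mu = 1) (W : Fin 3 → Sm) (g : Sm) (i : Fin 3)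
    (u : Fin 3 → Sm) (hu : ∀ j, u j = W j + m * d j g - g * d j m) :
    d i (la * (d 0 (u 0) + d 1 (u 1) + d 2 (u 2)))
      + d 0 (mu * (d i (u 0) + d 0 (u i))) + d 1 (mu * (d i (u 1) + d 1 (u i)))
      + d 2 (mu * (d i (u 2) + d 2 (u i)))
    = (mu * (d 0 (d 0 (W i)) + d 1 (d 1 (W i)) + d 2 (d 2 (W i)))
        + (d 0 mu * d 0 (W i) + d 1 mu * d 1 (W i) + d 2 mu * d 2 (W i))
        - d i mu * (d 0 (W 0) + d 1 (W 1) + d 2 (W 2))
        - (d i (d 0 mu) * W 0 + d i (d 1 mu) * W 1 + d i (d 2 mu) * W 2)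
        - 2 * mu * (d i (d 0 m) * d 0 g + d i (d 1 m) * d 1 g + d i (d 2 m) * d 2 g)
        - 2 * g * (d i (d 0 m) * d 0 mu + d i (d 1 m) * d 1 mu + d i (d 2 m) * d 2 mu)
        - 2 * mu * g * d i (d 0 (d 0 m) + d 1 (d 1 m) + d 2 (d 2 m)))
      + d i ((la * m + 2) * (d 0 (d 0 g) + d 1 (d 1 g) + d 2 (d 2 g))
        + (la + mu) * (d 0 (W 0) + d 1 (W 1) + d 2 (W 2))
        + (d 0 mu * W 0 + d 1 mu * W 1 + d 2 mu * W 2)
        - la * (d 0 (d 0 m) + d 1 (d 1 m) + d 2 (d 2 m)) * g) := by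
  have hd : ∀ j, d j m * mu + m * d j mu = 0 := fun j => by
    rw [← d_mul, hm]; exact Derivation.map_one_eq_zero _
  have c10 : ∀ f : Sm, d 1 (d 0 f) = d 0 (d 1 f) := fun f => d_comm 1 0 f
  have c20 : ∀ f : Sm, d 2 (d 0 f) = d 0 (d 2 f) := fun f => d_comm 2 0 f
  have c21 : ∀ f : Sm, d 2 (d 1 f) = d 1 (d 2 f) := fun f => d_comm 2 1 f
  fin_cases i
  · simp only [Fin.zero_eta, hu, map_add, map_sub, d_mul, d_two, c10, c20]
    linear_combination 2 * d 0 (d 0 g) * hd 0 + 2 * d 0 (d 1 g) * hd 1 + 2 * d 0 (d 2 g) * hd 2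
      + 2 * (d 0 (d 0 (d 0 g)) + d 0 (d 1 (d 1 g)) + d 0 (d 2 (d 2 g))) * hm
  · simp only [Fin.mk_one, hu, map_add, map_sub, d_mul, d_two, c10, c21]
    linear_combination 2 * d 0 (d 1 g) * hd 0 + 2 * d 1 (d 1 g) * hd 1 + 2 * d 1 (d 2 g) * hd 2
      + 2 * (d 0 (d 0 (d 1 g)) + d 1 (d 1 (d 1 g)) + d 1 (d 2 (d 2 g))) * hm
  · simp only [Fin.reduceFinMk, hu, map_add, map_sub, d_mul, d_two, c20, c21]
    linear_combination 2 * d 0 (d 2 g) * hd 0 + 2 * d 1 (d 2 g) * hd 1 + 2 * d 2 (d 2 g) * hd 2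
      + 2 * (d 0 (d 0 (d 2 g)) + d 1 (d 1 (d 2 g)) + d 2 (d 2 (d 2 g))) * hm

/-! ### conjugation by `e^{τθ·x}` -/

theorem pd_expo_mul (θ : Fin 3 → ℂ) (τ : ℂ) (f : R3 → ℂ) (j : Fin 3) (x : R3)
    (hf : DifferentiableAt ℝ f x) :
    pd j (fun y => expo θ τ y * f y) x = expo θ τ x * (pd j f x + τ * θ j * f x) := by
  rw [pd_mul (((smooth_expo θ τ).differentiable (by simp)) x) hf, pd_expo]; ring

theorem pd_pd_expo_mul (θ : Fin 3 → ℂ) (τ : ℂ) (f : R3 → ℂ) (hf : ContDiff ℝ ∞ f) (i j : Fin 3)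
    (x : R3) :
    pd i (pd j (fun y => expo θ τ y * f y)) x = expo θ τ x *
      (pd i (pd j f) x + τ * θ j * pd i f x + τ * θ i * pd j f x + τ ^ 2 * θ i * θ j * f x) := by
  have hfd : ∀ y, DifferentiableAt ℝ f y := fun y => (hf.differentiable (by simp)) y
  have hpd : ∀ y, DifferentiableAt ℝ (pd j f) y := fun y =>
    ((contDiff_pd_infty hf j).differentiable (by simp)) y
  have e : pd j (fun y => expo θ τ y * f y)
      = fun y => expo θ τ y * (pd j f y + τ * θ j * f y) :=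
    funext fun y => pd_expo_mul θ τ f j y (hfd y)
  have h3 : DifferentiableAt ℝ (fun y => τ * θ j * f y) x := (hfd x).const_mul _
  have h4 : DifferentiableAt ℝ (fun y => pd j f y + τ * θ j * f y) x := (hpd x).add h3
  rw [e, pd_expo_mul θ τ _ i x h4, pd_add (hpd x) h3, pd_const_mul _ (hfd x)]
  ring

theorem Lap_expo_mul (θ : Fin 3 → ℂ) (hθ : ∑ j, θ j ^ 2 = 0) (τ : ℂ) (f : R3 → ℂ)
    (hf : ContDiff ℝ ∞ f) (x : R3) :
    Lap (fun y => expo θ τ y * f y) x = expo θ τ x * (Lap f x + 2 * τ * DD θ f x) := by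
  unfold Lap DD
  simp only [pd_pd_expo_mul θ τ f hf, Fin.sum_univ_three] at hθ ⊢
  linear_combination expo θ τ x * τ ^ 2 * f x * hθ

theorem P0_expo {ι : Type} [Fintype ι] (θ : Fin 3 → ℂ) (hθ : ∑ j, θ j ^ 2 = 0) (τ : ℂ)
    (A : Fin 3 → ι → ι → R3 → ℂ) (B : ι → ι → R3 → ℂ) (r : ι → R3 → ℂ)
    (hr : ∀ i, ContDiff ℝ ∞ (r i)) (i : ι) (x : R3) :
    P0 A B (fun i y => expo θ τ y * r i y) i x
      = expo θ τ x * (P0 A B r i x + τ * M0 θ A r i x) := by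
  unfold P0 M0
  rw [Lap_expo_mul θ hθ τ _ (hr i)]
  have h1 : ∀ j l, A j i l x * pd j (fun y => expo θ τ y * r l y) x
      = expo θ τ x * (A j i l x * pd j (r l) x) + expo θ τ x * τ * (A j i l x * θ j * r l x) := by
    intro j l
    rw [pd_expo_mul θ τ _ j x (((hr l).differentiable (by simp)) x)]; ring
  have h2 : ∀ l, B i l x * (expo θ τ x * r l x) = expo θ τ x * (B i l x * r l x) := by
    intro l; ring
  simp only [h1, h2, Finset.sum_add_distrib, ← Finset.mul_sum]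
  ring

end Crest.Agent.R080.La
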