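import Crest.Agent.R080.Stmts

/-!
Row 80 (S0107): the theorem from the extension lemma, the relations and the final step.
-/

set_option autoImplicit false

open MeasureTheory Filter
open scoped ContDiff Topology
open Crest.AnalysisR.VecCalc3 Crest.AnalysisR.PDE.Elasticity

namespace Crest.Agent.R080

theorem energy_congr (Ω : Set R3) (hΩ : MeasurableSet Ω) (lam mu lam' mu' : R3 → ℝ)
    (h : ∀ x ∈ Ω, lam x = lam' x ∧ mu x = mu' x) (u : R3 → R3) :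
    elasticEnergy Ω lam mu u = elasticEnergy Ω lam' mu' u := by
  unfold elasticEnergy
  refine setIntegral_congr_fun hΩ fun x hx => ?_
  simp only [energyDensity, (h x hx).1, (h x hx).2]

theorem main (hE : StmtExtend) (hR : StmtRelations) (hF : StmtFinal)
    (Ω : Set R3) (hopen : IsOpen Ω) (hbdd : Bornology.IsBounded Ω) (hconn : IsConnected Ω)
    (hbdry : Crest.AnalysisR.PDE.HasSmoothBoundary Ω)
    (lam₁ mu₁ lam₂ mu₂ : R3 → ℝ)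
    (hl₁ : ContDiffOn ℝ ∞ lam₁ (closure Ω)) (hm₁ : ContDiffOn ℝ ∞ mu₁ (closure Ω))
    (hl₂ : ContDiffOn ℝ ∞ lam₂ (closure Ω)) (hm₂ : ContDiffOn ℝ ∞ mu₂ (closure Ω))
    (hpos : ∀ x ∈ closure Ω, 0 < mu₁ x ∧ 0 < 3 * lam₁ x + 2 * mu₁ x ∧ 0 < mu₂ x ∧
      0 < 3 * lam₂ x + 2 * mu₂ x)
    (hdata : SameBoundaryData Ω lam₁ mu₁ lam₂ mu₂) :
    ∀ x ∈ Ω, lam₁ x = lam₂ x ∧ mu₁ x = mu₂ x := by
  obtain ⟨ρ, hρ, hΩ, hreg⟩ := hbdry
  let G : Dom := ⟨Ω, ρ, hρ, hΩ, hreg, hbdd, hconn⟩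
  obtain ⟨P₁, hP₁⟩ := hE G lam₁ mu₁ hl₁ hm₁ fun x hx => ⟨(hpos x hx).1, (hpos x hx).2.1⟩
  obtain ⟨P₂, hP₂⟩ := hE G lam₂ mu₂ hl₂ hm₂ fun x hx => ⟨(hpos x hx).2.2.1, (hpos x hx).2.2.2⟩
  have e₁ : ∀ u, elasticEnergy Ω lam₁ mu₁ u = elasticEnergy Ω P₁.lam P₁.mu u := fun u =>
    energy_congr Ω hopen.measurableSet _ _ _ _
      (fun x hx => ⟨(hP₁ x (subset_closure hx)).1.symm, (hP₁ x (subset_closure hx)).2.symm⟩) u
  have e₂ : ∀ u, elasticEnergy Ω lam₂ mu₂ u = elasticEnergy Ω P₂.lam P₂.mu u := fun u =>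
    energy_congr Ω hopen.measurableSet _ _ _ _
      (fun x hx => ⟨(hP₂ x (subset_closure hx)).1.symm, (hP₂ x (subset_closure hx)).2.symm⟩) u
  have hd : SameData G P₁ P₂ := by
    intro φ hφ
    obtain ⟨h1, h2⟩ := hdata φ hφ
    simp only [e₁, e₂] at h1 h2
    exact ⟨h1, h2⟩
  intro x hx
  have := hF G P₁ P₂ (hR G P₁ P₂ hd) x hx
  have h1 := hP₁ x (subset_closure hx)
  have h2 := hP₂ x (subset_closure hx)
  exact ⟨by rw [← h1.1, ← h2.1]; exact this.1, by rw [← h1.2, ← h2.2]; exact this.2⟩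

end Crest.Agent.R080
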