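import Crest.Agent.R080.DbarBasic

/-!
Row 80 (S0107), task T6b, part 3: matrix valued functions on `ℂ`: determinant, inverse, Jacobi's
formula, local fundamental matrices.
-/

set_option autoImplicit false

open MeasureTheory Filter Set
open scoped ContDiff Topology

noncomputable section
namespace Crest.Agent.R080.DbarBasic

variable {n : Type} [Fintype n] [DecidableEq n]

/-- determinant of a matrix field -/
def detF (M : n → n → ℂ → ℂ) (z : ℂ) : ℂ := (Matrix.of fun i j => M i j z).det

/-- entries of the inverse of a matrix field -/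
def invF (M : n → n → ℂ → ℂ) (i j : n) (z : ℂ) : ℂ := (Matrix.of fun i j => M i j z)⁻¹ i j

theorem detF_eq (M : n → n → ℂ → ℂ) (z : ℂ) :
    detF M z = ∑ σ : Equiv.Perm n, ((Equiv.Perm.sign σ : ℤ) : ℂ) * ∏ i, M i (σ i) z := by
  rw [detF, ← Matrix.det_transpose, Matrix.det_apply']
  rfl

theorem contDiffAt_detF {M : n → n → ℂ → ℂ} {z : ℂ} (h : ∀ i j, ContDiffAt ℝ ∞ (M i j) z) :
    ContDiffAt ℝ ∞ (detF M) z := by
  have e : detF M = fun z => ∑ σ : Equiv.Perm n, ((Equiv.Perm.sign σ : ℤ) : ℂ) *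
      ∏ i, M i (σ i) z := funext (detF_eq M)
  rw [e]
  refine ContDiffAt.sum fun σ _ => ?_
  refine contDiffAt_const.mul ?_
  exact contDiffAt_prod fun i _ => h i (σ i)

theorem continuous_detF {M : n → n → ℂ → ℂ} (h : ∀ i j, Continuous (M i j)) :
    Continuous (detF M) := by
  have e : detF M = fun z => ∑ σ : Equiv.Perm n, ((Equiv.Perm.sign σ : ℤ) : ℂ) *
      ∏ i, M i (σ i) z := funext (detF_eq M)
  rw [e]
  exact continuous_finsetSum _ fun σ _ => continuous_const.mul
    (continuous_finsetProd _ fun i _ => h i (σ i))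

theorem invF_eq {M : n → n → ℂ → ℂ} {z : ℂ} (i j : n) :
    invF M i j z = (detF M z)⁻¹ *
      detF (fun a b w => if a = j then (Pi.single i (1 : ℂ) : n → ℂ) b else M a b w) z := by
  rw [invF, Matrix.inv_def, Matrix.smul_apply, Ring.inverse_eq_inv', smul_eq_mul,
    Matrix.adjugate_apply]
  congr 1
  rw [detF]
  congr 1
  ext a b
  simp only [Matrix.updateRow_apply, Matrix.of_apply]

theorem contDiffAt_invF {M : n → n → ℂ → ℂ} {z : ℂ} (h : ∀ i j, ContDiffAt ℝ ∞ (M i j) z)
    (hd : detF M z ≠ 0) (i j : n) : ContDiffAt ℝ ∞ (invF M i j) z := by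
  have e : invF M i j = fun z => (detF M z)⁻¹ *
      detF (fun a b w => if a = j then (Pi.single i (1 : ℂ) : n → ℂ) b else M a b w) z :=
    funext fun z => invF_eq i j
  rw [e]
  refine ((contDiffAt_detF h).inv hd).mul (contDiffAt_detF fun a b => ?_)
  by_cases ha : a = j
  · simp only [ha, if_true]; exact contDiffAt_const
  · simp only [ha, if_false]; exact h a b

theorem mul_invF {M : n → n → ℂ → ℂ} {z : ℂ} (hd : detF M z ≠ 0) (i j : n) :
    ∑ l, M i l z * invF M l j z = if i = j then 1 else 0 := by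
  have h1 := Matrix.mul_nonsing_inv (Matrix.of fun i j => M i j z) (isUnit_iff_ne_zero.2 hd)
  have h2 := congrFun (congrFun h1 i) j
  rw [Matrix.mul_apply, Matrix.one_apply] at h2
  exact h2

theorem invF_mul {M : n → n → ℂ → ℂ} {z : ℂ} (hd : detF M z ≠ 0) (i j : n) :
    ∑ l, invF M i l z * M l j z = if i = j then 1 else 0 := by
  have h1 := Matrix.nonsing_inv_mul (Matrix.of fun i j => M i j z) (isUnit_iff_ne_zero.2 hd)
  have h2 := congrFun (congrFun h1 i) j
  rw [Matrix.mul_apply, Matrix.one_apply] at h2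
  exact h2

omit [Fintype n] in
theorem D1_prod {s : Finset n} {f : n → ℂ → ℂ} {z : ℂ} (hf : ∀ i, DifferentiableAt ℝ (f i) z) :
    D1 (fun w => ∏ i ∈ s, f i w) z = ∑ k ∈ s, (∏ i ∈ s.erase k, f i z) * D1 (f k) z := by
  have h := HasFDerivAt.finsetProd (u := s) (g := f) (x := z)
    (fun i _ => (hf i).hasFDerivAt)
  have h' : D1 (fun w => ∏ i ∈ s, f i w) z = _ := D1_of_hasFDerivAt h
  rw [h']
  simp only [_root_.sum_apply, _root_.smul_apply, smul_eq_mul, D1_def, Finset.mul_sum,
    ← Finset.sum_add_distrib]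
  refine Finset.sum_congr rfl fun k _ => ?_
  ring

theorem det_updateRow_eq (X : Matrix n n ℂ) (k : n) (v : n → ℂ) :
    (X.updateRow k v).det = ∑ σ : Equiv.Perm n, ((Equiv.Perm.sign σ : ℤ) : ℂ) *
      ((∏ i ∈ Finset.univ.erase k, X i (σ i)) * v (σ k)) := by
  rw [← Matrix.det_transpose, Matrix.det_apply']
  refine Finset.sum_congr rfl fun σ _ => ?_
  congr 1
  rw [← Finset.mul_prod_erase _ _ (Finset.mem_univ k), mul_comm]
  congr 1
  · refine Finset.prod_congr rfl fun i hi => ?_
    rw [Matrix.transpose_apply, Matrix.updateRow_ne (Finset.ne_of_mem_erase hi)]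
  · rw [Matrix.transpose_apply, Matrix.updateRow_self]

theorem D1_detF {M : n → n → ℂ → ℂ} {z : ℂ} (h : ∀ i j, DifferentiableAt ℝ (M i j) z) :
    D1 (detF M) z = ∑ k, ((Matrix.of fun i j => M i j z).updateRow k
      (fun j => D1 (M k j) z)).det := by
  have e : detF M = fun z => ∑ σ : Equiv.Perm n, ((Equiv.Perm.sign σ : ℤ) : ℂ) *
      ∏ i, M i (σ i) z := funext (detF_eq M)
  have hp : ∀ σ : Equiv.Perm n, DifferentiableAt ℝ (fun w => ∏ i, M i (σ i) w) z := fun σ =>
    (HasFDerivAt.finsetProd (u := Finset.univ) (g := fun i => M i (σ i)) (x := z)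
      (fun i _ => (h i (σ i)).hasFDerivAt)).differentiableAt
  rw [e, D1_sum _ fun σ _ => (hp σ).const_mul _]
  simp only [det_updateRow_eq]
  rw [Finset.sum_comm]
  refine Finset.sum_congr rfl fun σ _ => ?_
  rw [D1_mul (differentiableAt_const _) (hp σ), D1_const, zero_mul, zero_add,
    D1_prod fun i => h i (σ i), Finset.mul_sum]
  rfl

/-- Jacobi's formula -/
theorem D1_detF_of_sol {M : n → n → ℂ → ℂ} {z : ℂ} {a : n → n → ℂ}
    (h : ∀ i j, DifferentiableAt ℝ (M i j) z)
    (hM : ∀ i j, D1 (M i j) z = ∑ l, a i l * M l j z) :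
    D1 (detF M) z = (∑ i, a i i) * detF M z := by
  rw [D1_detF h, Finset.sum_mul]
  refine Finset.sum_congr rfl fun k _ => ?_
  have h1 := Matrix.det_updateRow_sum (Matrix.of fun i j => M i j z) k (a k)
  rw [smul_eq_mul] at h1
  rw [detF, ← h1]
  congr 2
  funext j
  rw [hM k j, Finset.sum_apply]
  rfl

/-- matrices close to the identity are invertible -/
theorem exists_det_ne_zero (n : Type) [Fintype n] [DecidableEq n] :
    ∃ e : ℝ, 0 < e ∧ ∀ M : n → n → ℂ, (∀ i j, ‖M i j - if i = j then 1 else 0‖ ≤ e) →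
      (Matrix.of M).det ≠ 0 := by
  have hc : Continuous fun M : n → n → ℂ => (Matrix.of M).det := by
    have : Continuous fun M : n → n → ℂ => (Matrix.of M : Matrix n n ℂ) := continuous_id
    exact this.matrix_det
  let I : n → n → ℂ := fun i j => if i = j then 1 else 0
  have hI : (Matrix.of I).det = 1 := by
    have : (Matrix.of I) = (1 : Matrix n n ℂ) := by
      ext i j; simp [I, Matrix.one_apply]
    rw [this, Matrix.det_one]
  have hopen : IsOpen {M : n → n → ℂ | (Matrix.of M).det ≠ 0} := isOpen_ne.preimage hc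
  obtain ⟨e, he, hball⟩ := Metric.isOpen_iff.1 hopen I (by
    show (Matrix.of I).det ≠ 0
    rw [hI]; exact one_ne_zero)
  refine ⟨e / 2, by positivity, fun M hM => ?_⟩
  refine hball (show M ∈ Metric.ball I e from ?_)
  rw [Metric.mem_ball]
  have : dist M I ≤ e / 2 := by
    rw [dist_pi_le_iff (by positivity)]
    intro i
    rw [dist_pi_le_iff (by positivity)]
    intro j
    rw [dist_eq_norm]
    exact hM i j
  linarith

end Crest.Agent.R080.DbarBasic
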