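import Crest.Agent.R080.Stmts2

/-!
Row 80 (S0107), T14: orthogonality for matrix solutions.
-/

set_option autoImplicit false

open MeasureTheory Filter
open scoped ContDiff Topology
open Crest.AnalysisR.VecCalc3 Crest.AnalysisR.PDE.Elasticity

noncomputable section
namespace Crest.Agent.R080
namespace Orth

/-! ### calculus of `DD` -/

lemma pd_mul {f g : R3 → ℂ} {x : R3} (j : Fin 3) (hf : DifferentiableAt ℝ f x)
    (hg : DifferentiableAt ℝ g x) :
    pd j (fun y => f y * g y) x = pd j f x * g x + f x * pd j g x := by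
  unfold pd
  rw [fderiv_fun_mul hf hg]
  simp only [_root_.add_apply, _root_.smul_apply, smul_eq_mul]
  ring

lemma pd_sum {ι : Type*} (s : Finset ι) {f : ι → R3 → ℂ} {x : R3} (j : Fin 3)
    (hf : ∀ i ∈ s, DifferentiableAt ℝ (f i) x) :
    pd j (fun y => ∑ i ∈ s, f i y) x = ∑ i ∈ s, pd j (f i) x := by
  unfold pd
  rw [fderiv_fun_sum hf]
  simp only [_root_.sum_apply]

lemma DD_mul {θ : Fin 3 → ℂ} {f g : R3 → ℂ} {x : R3} (hf : DifferentiableAt ℝ f x)
    (hg : DifferentiableAt ℝ g x) :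
    DD θ (fun y => f y * g y) x = DD θ f x * g x + f x * DD θ g x := by
  unfold DD
  simp only [pd_mul _ hf hg, mul_add, Finset.sum_add_distrib, Finset.sum_mul, Finset.mul_sum]
  congr 1
  · exact Finset.sum_congr rfl fun j _ => by ring
  · exact Finset.sum_congr rfl fun j _ => by ring

lemma DD_sum {ι : Type*} (s : Finset ι) {θ : Fin 3 → ℂ} {f : ι → R3 → ℂ} {x : R3}
    (hf : ∀ i ∈ s, DifferentiableAt ℝ (f i) x) :
    DD θ (fun y => ∑ i ∈ s, f i y) x = ∑ i ∈ s, DD θ (f i) x := by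
  unfold DD
  simp only [pd_sum s _ hf, Finset.mul_sum]
  rw [Finset.sum_comm]

/-- spinor null vectors are null -/
lemma isNull_th {s : Fin 2 → ℂ} (hs : s ≠ 0) : IsNull (th s) := by
  have hI : Complex.I ^ 2 = -1 := Complex.I_sq
  constructor
  · intro h
    apply hs
    have h0 : s 0 ^ 2 - s 1 ^ 2 = 0 := by simpa [th] using congrFun h 0
    have h1 : s 0 ^ 2 + s 1 ^ 2 = 0 := by simpa [th] using congrFun h 1
    have h00 : s 0 ^ 2 = 0 := by linear_combination (h0 + h1) / 2
    have h11 : s 1 ^ 2 = 0 := by linear_combination (h1 - h0) / 2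
    funext i
    fin_cases i
    · simpa using h00
    · simpa using h11
  · have e2 : th s 2 = 2 * s 0 * s 1 := rfl
    have e1 : th s 1 = Complex.I * (s 0 ^ 2 + s 1 ^ 2) := rfl
    have e0 : th s 0 = s 0 ^ 2 - s 1 ^ 2 := rfl
    rw [Fin.sum_univ_three, e0, e1, e2]
    linear_combination (s 0 ^ 2 + s 1 ^ 2) ^ 2 * hI

/-! ### smoothness of the coefficients -/

lemma contDiff_cf {f : R3 → ℝ} {n : WithTop ℕ∞} (hf : ContDiff ℝ n f) : ContDiff ℝ n (cf f) :=
  Complex.ofRealCLM.contDiff.comp hf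

lemma contDiff_pd {f : R3 → ℂ} (j : Fin 3) (hf : ContDiff ℝ ∞ f) : ContDiff ℝ ∞ (pd j f) := by
  unfold pd
  exact (hf.fderiv_right (m := ∞) (by simp)).clm_apply contDiff_const

lemma contDiff_DD {f : R3 → ℂ} (θ : Fin 3 → ℂ) (hf : ContDiff ℝ ∞ f) :
    ContDiff ℝ ∞ (DD θ f) := by
  unfold DD
  exact ContDiff.sum fun j _ => contDiff_const.mul (contDiff_pd j hf)

section moduli
variable (P : Moduli)

lemma lam_add_two_mu_pos (x : R3) : 0 < P.lam x + 2 * P.mu x := by
  have h1 := P.mu_pos x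
  have h2 := P.bulk_pos x
  linarith

lemma m_pos (x : R3) : 0 < P.m x := inv_pos.mpr (P.mu_pos x)

lemma sm_pos (x : R3) : 0 < P.sm x := Real.sqrt_pos.mpr (m_pos P x)

lemma contDiff_m : ContDiff ℝ ∞ P.m :=
  P.smooth_mu.inv fun x => (P.mu_pos x).ne'

lemma contDiff_sm : ContDiff ℝ ∞ P.sm :=
  (contDiff_m P).sqrt fun x => (m_pos P x).ne'

lemma contDiff_kap : ContDiff ℝ ∞ P.kap := by
  unfold Moduli.kap
  refine ((P.smooth_lam.add P.smooth_mu).mul P.smooth_mu).div
    (contDiff_const.mul (P.smooth_lam.add (contDiff_const.mul P.smooth_mu))) fun x => ?_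
  have := lam_add_two_mu_pos P x
  positivity

lemma contDiff_Amat (s : Fin 2 → ℂ) (a b : Option (Fin 2)) : ContDiff ℝ ∞ (Amat P s a b) := by
  have hm := contDiff_cf (contDiff_m P)
  have hk := contDiff_cf (contDiff_kap P)
  have hs := contDiff_cf (contDiff_sm P)
  have hm0 : ∀ x, (P.m x : ℂ) ≠ 0 := fun x => by exact_mod_cast (m_pos P x).ne'
  have hs0 : ∀ x, (P.sm x : ℂ) ≠ 0 := fun x => by exact_mod_cast (sm_pos P x).ne'
  match a, b with
  | none, none => exact hk.neg.mul (contDiff_DD _ hm)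
  | none, some j => exact (hk.neg.mul hs).mul contDiff_const
  | some i, none =>
    simp only [Amat, div_eq_mul_inv]
    exact ((hk.mul (ContDiff.inv hs hs0)).mul (contDiff_DD _ hm)).mul (contDiff_DD _ hm)
  | some i, some j =>
    simp only [Amat, div_eq_mul_inv]
    refine ((hk.sub (contDiff_const.mul (ContDiff.inv (contDiff_const.mul hm) fun x => ?_))).mul
      contDiff_const).mul (contDiff_DD _ hm)
    exact mul_ne_zero two_ne_zero (hm0 x)

end moduli

lemma isOpen_dom (G : Dom) : IsOpen G.Ω := by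
  rw [G.eq]
  exact isOpen_lt G.smooth.continuous continuous_const

lemma isCompact_closure_dom (G : Dom) : IsCompact (closure G.Ω) := G.bdd.isCompact_closure

lemma integrableOn_dom (G : Dom) {f : R3 → ℂ} (hf : Continuous f) :
    IntegrableOn f G.Ω := by
  exact (hf.continuousOn.integrableOn_compact (isCompact_closure_dom G)).mono_set subset_closure

section slab

variable {θ : Fin 3 → ℂ} {A₁ A₂ ψ : Option (Fin 2) → Option (Fin 2) → R3 → ℂ}
  {h g : R3 → ℂ} {C Ci : Option (Fin 2) → Option (Fin 2) → R3 → ℂ}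

lemma slab_X (hg : ContDiff ℝ ∞ g) (hgD : ∀ x, DD θ g x = 0)
    (hC : ∀ i j, ContDiff ℝ ∞ (C i j)) {x : R3}
    (hCD : x ∈ tsupport g → ∀ i j, DD θ (C i j) x = ∑ l, A₁ i l x * C l j x)
    (b : Option (Fin 2)) :
    DSys θ A₁ (fun i y => g y * C i b y) x := by
  intro i
  rw [DD_mul (hg.differentiable (by simp) x) ((hC i b).differentiable (by simp) x), hgD]
  by_cases hx : x ∈ tsupport g
  · rw [hCD hx]
    simp only [zero_mul, zero_add, Finset.mul_sum]
    exact Finset.sum_congr rfl fun l _ => by ring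
  · have : g x = 0 := by
      by_contra hne
      exact hx (subset_tsupport g hne)
    simp [this]

lemma slab_Y (hh : ContDiff ℝ ∞ h) (hhD : ∀ x, DD θ h x = 0)
    (hψ : ∀ i j, ContDiff ℝ ∞ (ψ i j)) (hCi : ∀ i j, ContDiff ℝ ∞ (Ci i j)) {x : R3}
    (hCD : h x ≠ 0 → ∀ i j, DD θ (Ci i j) x = -∑ l, Ci i l x * A₁ l j x)
    (hψD : ∀ a b, DD θ (ψ a b) x = - ∑ c, A₂ c a x * ψ c b x + ∑ c, ψ a c x * A₁ b c x)
    (b : Option (Fin 2)) :
    DAdj θ A₂ (fun i y => h y * ∑ c, ψ i c y * Ci b c y) x := by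
  intro i
  have hd : ∀ c, DifferentiableAt ℝ (fun y => ψ i c y * Ci b c y) x := fun c =>
    ((hψ i c).differentiable (by simp) x).mul ((hCi b c).differentiable (by simp) x)
  rw [DD_mul (hh.differentiable (by simp) x) (DifferentiableAt.fun_sum fun c _ => hd c), hhD,
    DD_sum _ fun c _ => hd c]
  by_cases hx : h x = 0
  · simp [hx]
  · have e : ∀ c, DD θ (fun y => ψ i c y * Ci b c y) x
        = (- ∑ d, A₂ d i x * ψ d c x + ∑ d, ψ i d x * A₁ c d x) * Ci b c x
          + ψ i c x * (-∑ l, Ci b l x * A₁ l c x) := fun c => by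
      rw [DD_mul ((hψ i c).differentiable (by simp) x) ((hCi b c).differentiable (by simp) x),
        hψD, hCD hx]
    simp only [e, Finset.sum_add_distrib, add_mul, Finset.sum_mul, Finset.mul_sum, neg_mul,
      mul_neg, Finset.sum_neg_distrib, zero_mul, mul_add, Finset.sum_const_zero]
    have e1 : ∑ c, ∑ d, h x * (A₂ d i x * ψ d c x * Ci b c x)
        = ∑ d, ∑ c, A₂ d i x * (h x * (ψ d c x * Ci b c x)) := by
      rw [Finset.sum_comm]
      exact Finset.sum_congr rfl fun d _ => Finset.sum_congr rfl fun c _ => by ring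
    have e2 : ∑ c, ∑ d, h x * (ψ i d x * A₁ c d x * Ci b c x)
        = ∑ d, ∑ c, h x * (ψ i d x * (Ci b c x * A₁ c d x)) := by
      rw [Finset.sum_comm]
      exact Finset.sum_congr rfl fun d _ => Finset.sum_congr rfl fun c _ => by ring
    rw [e1, e2]
    ring

lemma slab_sum {x : R3} (hhg : h x ≠ 0 → g x = 1)
    (hinv : h x ≠ 0 → ∀ i j, ∑ l, C i l x * Ci l j x = if i = j then 1 else 0)
    (i j : Option (Fin 2)) :
    ∑ b, (h x * ∑ c, ψ i c x * Ci b c x) * (g x * C j b x) = h x * ψ i j x := by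
  by_cases hx : h x = 0
  · simp [hx]
  · rw [hhg hx]
    have e : ∀ b, (h x * ∑ c, ψ i c x * Ci b c x) * (1 * C j b x)
        = ∑ c, h x * ψ i c x * (C j b x * Ci b c x) := fun b => by
      rw [Finset.mul_sum, Finset.sum_mul]
      exact Finset.sum_congr rfl fun c _ => by ring
    simp only [e]
    rw [Finset.sum_comm]
    simp only [← Finset.mul_sum, hinv hx]
    simp

lemma DD_pair {X Y : Option (Fin 2) → R3 → ℂ} {x : R3}
    (hX : ∀ i, ContDiff ℝ ∞ (X i)) (hY : ∀ i, ContDiff ℝ ∞ (Y i))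
    (hX' : DSys θ A₁ X x) (hY' : DAdj θ A₂ Y x) :
    DD θ (fun y => ∑ a, Y a y * X a y) x
      = -∑ a, ∑ b, (A₂ a b x - A₁ a b x) * (Y a x * X b x) := by
  have hd : ∀ a, DifferentiableAt ℝ (fun y => Y a y * X a y) x := fun a =>
    ((hY a).differentiable (by simp) x).mul ((hX a).differentiable (by simp) x)
  rw [DD_sum _ fun a _ => hd a]
  have e : ∀ a, DD θ (fun y => Y a y * X a y) x
      = (-∑ b, A₂ b a x * Y b x) * X a x + Y a x * ∑ b, A₁ a b x * X b x := fun a => by
    rw [DD_mul ((hY a).differentiable (by simp) x) ((hX a).differentiable (by simp) x),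
      hX' a, hY' a]
  simp only [e, Finset.sum_add_distrib, sub_mul, Finset.sum_sub_distrib, neg_mul, Finset.sum_mul,
    Finset.mul_sum, Finset.sum_neg_distrib]
  rw [Finset.sum_comm]
  have e1 : ∑ y, ∑ x_1, A₂ y x_1 x * Y y x * X x_1 x
      = ∑ y, ∑ x_1, A₂ y x_1 x * (Y y x * X x_1 x) :=
    Finset.sum_congr rfl fun d _ => Finset.sum_congr rfl fun c _ => by ring
  have e2 : ∑ y, ∑ x_1, Y y x * (A₁ y x_1 x * X x_1 x)
      = ∑ y, ∑ x_1, A₁ y x_1 x * (Y y x * X x_1 x) :=
    Finset.sum_congr rfl fun d _ => Finset.sum_congr rfl fun c _ => by ring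
  rw [e1, e2]
  ring

end slab

end Orth

open Orth in
theorem t_Orth (h1 : StmtW1) (hFM : StmtFM) : StmtOrth := by
  intro G P₁ P₂ hS s hs ψ hψ hD
  obtain ⟨R, hR⟩ : ∃ R, closure G.Ω ⊆ Metric.ball (0 : R3) R :=
    (isCompact_closure_dom G).isBounded.subset_ball 0
  obtain ⟨N, h, g, C, Ci, hh, hg, hhD, hgD, hsum, hhg, hC, hCi, hF⟩ :=
    hFM (Option (Fin 2)) (th s) (isNull_th hs) (Amat P₁ s) (contDiff_Amat P₁ s) R
  have hball : ∀ᶠ x : R3 in 𝓝ˢ (closure G.Ω), ‖x‖ < R := by
    filter_upwards [Metric.isOpen_ball.mem_nhdsSet.mpr hR] with x hx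
    simpa using hx
  have hts : ∀ k x, h k x ≠ 0 → x ∈ tsupport (g k) := fun k x hx =>
    subset_tsupport _ (by
      rw [Function.mem_support, hhg k x hx]
      exact one_ne_zero)
  have hDψ : ∀ x, (∀ a b, Dstar P₁ P₂ s ψ a b x = 0) → ∀ a b,
      DD (th s) (ψ a b) x
        = - ∑ c, Amat P₂ s c a x * ψ c b x + ∑ c, ψ a c x * Amat P₁ s b c x := by
    intro x hx a b
    have := hx a b
    unfold Dstar at this
    linear_combination -this
  -- the pairs of solutions
  let X : Fin N → Option (Fin 2) → Option (Fin 2) → R3 → ℂ := fun k b i y => g k y * C k i b y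
  let Y : Fin N → Option (Fin 2) → Option (Fin 2) → R3 → ℂ := fun k b i y =>
    h k y * ∑ c, ψ i c y * Ci k b c y
  have hXs : ∀ k b i, ContDiff ℝ ∞ (X k b i) := fun k b i => (hg k).mul (hC k i b)
  have hYs : ∀ k b i, ContDiff ℝ ∞ (Y k b i) := fun k b i =>
    (hh k).mul (ContDiff.sum fun c _ => (hψ i c).mul (hCi k b c))
  have hX : ∀ k b (x : R3), ‖x‖ < R → DSys (th s) (Amat P₁ s) (X k b) x := fun k b x hx =>
    slab_X (hg k) (hgD k) (hC k) (fun hx' => (hF k x hx' hx).1) b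
  have hY : ∀ k b (x : R3), ‖x‖ < R → (∀ a b, Dstar P₁ P₂ s ψ a b x = 0) →
      DAdj (th s) (Amat P₂ s) (Y k b) x := fun k b x hx hx' =>
    slab_Y (hh k) (hhD k) hψ (hCi k) (fun hne => (hF k x (hts k x hne) hx).2.1) (hDψ x hx') b
  have hint : ∀ k b, ∫ x in G.Ω, DD (th s) (fun y => ∑ a, Y k b a y * X k b a y) x = 0 := by
    intro k b
    refine h1 G P₁ P₂ hS s hs (X k b) (Y k b) (hXs k b) (hYs k b) ?_ ?_
    · filter_upwards [hball] with x hx using hX k b x hx
    · filter_upwards [hball, hD] with x hx hx' using hY k b x hx hx'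
  have hsmooth : ∀ k b, Continuous (DD (th s) (fun y => ∑ a, Y k b a y * X k b a y)) :=
    fun k b => (contDiff_DD _ (ContDiff.sum fun a _ => (hYs k b a).mul (hXs k b a))).continuous
  have hpt : ∀ x ∈ G.Ω, ∑ k, ∑ b, DD (th s) (fun y => ∑ a, Y k b a y * X k b a y) x
      = -∑ a, ∑ b, (Amat P₂ s a b x - Amat P₁ s a b x) * ψ a b x := by
    intro x hx
    have hxR : ‖x‖ < R := by simpa using hR (subset_closure hx)
    have hx' : ∀ a b, Dstar P₁ P₂ s ψ a b x = 0 := hD.self_of_nhdsSet x (subset_closure hx)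
    have e : ∀ k b, DD (th s) (fun y => ∑ a, Y k b a y * X k b a y) x
        = -∑ i, ∑ j, (Amat P₂ s i j x - Amat P₁ s i j x) * (Y k b i x * X k b j x) :=
      fun k b => DD_pair (hXs k b) (hYs k b) (hX k b x hxR) (hY k b x hxR hx')
    simp only [e, Finset.sum_neg_distrib]
    congr 1
    have e2 : ∀ k, ∑ b, ∑ i, ∑ j, (Amat P₂ s i j x - Amat P₁ s i j x) * (Y k b i x * X k b j x)
        = ∑ i, ∑ j, h k x * ((Amat P₂ s i j x - Amat P₁ s i j x) * ψ i j x) := by
      intro k
      rw [Finset.sum_comm]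
      refine Finset.sum_congr rfl fun i _ => ?_
      rw [Finset.sum_comm]
      refine Finset.sum_congr rfl fun j _ => ?_
      rw [← Finset.mul_sum]
      have := slab_sum (h := h k) (g := g k) (C := C k) (Ci := Ci k) (ψ := ψ) (hhg k x)
        (fun hne => (hF k x (hts k x hne) hxR).2.2.1) i j
      rw [show ∑ b, Y k b i x * X k b j x = h k x * ψ i j x from this]
      ring
    simp only [e2]
    rw [Finset.sum_comm]
    refine Finset.sum_congr rfl fun i _ => ?_
    rw [Finset.sum_comm]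
    refine Finset.sum_congr rfl fun j _ => ?_
    rw [← Finset.sum_mul, hsum x hxR, one_mul]
  have h0 : ∫ x in G.Ω, ∑ k, ∑ b, DD (th s) (fun y => ∑ a, Y k b a y * X k b a y) x = 0 := by
    rw [integral_finsetSum _ fun k _ => integrable_finsetSum _ fun b _ =>
      integrableOn_dom G (hsmooth k b)]
    refine Finset.sum_eq_zero fun k _ => ?_
    rw [integral_finsetSum _ fun b _ => integrableOn_dom G (hsmooth k b)]
    exact Finset.sum_eq_zero fun b _ => hint k b
  rw [setIntegral_congr_fun (isOpen_dom G).measurableSet hpt, integral_neg, neg_eq_zero] at h0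
  exact h0

end Crest.Agent.R080
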