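import Crest.Agent.R080.Stmts2

/-!
Row 80 (S0107): basic calculus for `pd`, `DD`, `Lap`, `P0`, `M0` and smoothness of the coefficient
functions of a set of moduli (helper777).
-/

set_option autoImplicit false

open MeasureTheory Filter
open scoped ContDiff Topology
open Crest.AnalysisR.VecCalc3 Crest.AnalysisR.PDE.Elasticity

noncomputable section
namespace Crest.Agent.R080.PdBasic

/-! ### partial derivatives -/

section pd
variable {f g : R3 → ℂ} {x : R3}

theorem sm_diffAt (hf : ContDiff ℝ ∞ f) : DifferentiableAt ℝ f x :=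
  (hf.differentiable (by simp)).differentiableAt

theorem contDiff_pd (hf : ContDiff ℝ ∞ f) (j : Fin 3) : ContDiff ℝ ∞ (pd j f) := by
  unfold pd
  exact (hf.fderiv_right (m := ∞) (by simp)).clm_apply contDiff_const

theorem continuous_pd_of_C1 (hf : ContDiff ℝ 1 f) (j : Fin 3) : Continuous (pd j f) := by
  unfold pd
  exact (hf.continuous_fderiv (by simp)).clm_apply continuous_const

theorem pd_congr {j : Fin 3} (h : f =ᶠ[𝓝 x] g) : pd j f x = pd j g x := by
  unfold pd; rw [h.fderiv_eq]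

theorem pd_add (hf : DifferentiableAt ℝ f x) (hg : DifferentiableAt ℝ g x) (j : Fin 3) :
    pd j (fun y => f y + g y) x = pd j f x + pd j g x := by
  unfold pd
  rw [fderiv_fun_add hf hg]; rfl

theorem pd_sub (hf : DifferentiableAt ℝ f x) (hg : DifferentiableAt ℝ g x) (j : Fin 3) :
    pd j (fun y => f y - g y) x = pd j f x - pd j g x := by
  unfold pd
  rw [fderiv_fun_sub hf hg]; rfl

theorem pd_neg (j : Fin 3) : pd j (fun y => - f y) x = - pd j f x := by
  unfold pd
  rw [fderiv_fun_neg]; rfl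

theorem pd_const (c : ℂ) (j : Fin 3) : pd j (fun _ => c) x = 0 := by
  unfold pd; simp

theorem pd_zero (j : Fin 3) : pd j (0 : R3 → ℂ) x = 0 := by
  unfold pd
  rw [fderiv_zero]; rfl

theorem pd_mul (hf : DifferentiableAt ℝ f x) (hg : DifferentiableAt ℝ g x) (j : Fin 3) :
    pd j (fun y => f y * g y) x = f x * pd j g x + pd j f x * g x := by
  unfold pd
  rw [fderiv_fun_mul hf hg]
  simp [smul_eq_mul, mul_comm]

theorem pd_const_mul (hf : DifferentiableAt ℝ f x) (c : ℂ) (j : Fin 3) :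
    pd j (fun y => c * f y) x = c * pd j f x := by
  rw [pd_mul (differentiableAt_const c) hf, pd_const, zero_mul, add_zero]

theorem pd_sum {ι : Type*} (s : Finset ι) (F : ι → R3 → ℂ)
    (hF : ∀ i ∈ s, DifferentiableAt ℝ (F i) x) (j : Fin 3) :
    pd j (fun y => ∑ i ∈ s, F i y) x = ∑ i ∈ s, pd j (F i) x := by
  unfold pd
  rw [fderiv_fun_sum hF]
  simp

/-- function versions for smooth functions -/
theorem pd_add' (hf : ContDiff ℝ ∞ f) (hg : ContDiff ℝ ∞ g) (j : Fin 3) :
    pd j (fun y => f y + g y) = fun x => pd j f x + pd j g x :=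
  funext fun _ => pd_add (sm_diffAt hf) (sm_diffAt hg) j

theorem pd_sub' (hf : ContDiff ℝ ∞ f) (hg : ContDiff ℝ ∞ g) (j : Fin 3) :
    pd j (fun y => f y - g y) = fun x => pd j f x - pd j g x :=
  funext fun _ => pd_sub (sm_diffAt hf) (sm_diffAt hg) j

theorem pd_mul' (hf : ContDiff ℝ ∞ f) (hg : ContDiff ℝ ∞ g) (j : Fin 3) :
    pd j (fun y => f y * g y) = fun x => f x * pd j g x + pd j f x * g x :=
  funext fun _ => pd_mul (sm_diffAt hf) (sm_diffAt hg) j

theorem pd_const_mul' (hf : ContDiff ℝ ∞ f) (c : ℂ) (j : Fin 3) :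
    pd j (fun y => c * f y) = fun x => c * pd j f x :=
  funext fun _ => pd_const_mul (sm_diffAt hf) c j

theorem pd_const' (c : ℂ) (j : Fin 3) : pd j (fun _ => c) = fun _ => 0 :=
  funext fun _ => pd_const c j

/-- symmetry of second derivatives -/
theorem pd_comm (hf : ContDiff ℝ ∞ f) (i j : Fin 3) : pd i (pd j f) x = pd j (pd i f) x := by
  have h2 : ContDiff ℝ 2 f := hf.of_le (WithTop.coe_le_coe.mpr (le_top (a := (2 : ℕ∞))))
  have hsymm : IsSymmSndFDerivAt ℝ f x := h2.contDiffAt.isSymmSndFDerivAt (by simp)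
  have h3 : DifferentiableAt ℝ (fderiv ℝ f) x :=
    ((h2.fderiv_right (m := 1) (by norm_num)).differentiable (by simp)).differentiableAt
  have key : ∀ a b : Fin 3, pd a (pd b f) x = fderiv ℝ (fderiv ℝ f) x (ee a) (ee b) := by
    intro a b
    unfold pd
    rw [fderiv_clm_apply h3 (differentiableAt_const _)]
    simp
  rw [key, key]
  exact hsymm _ _

theorem contDiff_DD (θ : Fin 3 → ℂ) (hf : ContDiff ℝ ∞ f) : ContDiff ℝ ∞ (DD θ f) := by
  unfold DD
  exact ContDiff.sum fun j _ => contDiff_const.mul (contDiff_pd hf j)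

theorem contDiff_Lap (hf : ContDiff ℝ ∞ f) : ContDiff ℝ ∞ (Lap f) := by
  unfold Lap
  exact ContDiff.sum fun j _ => contDiff_pd (contDiff_pd hf j) j

theorem DD_congr {θ : Fin 3 → ℂ} (h : f =ᶠ[𝓝 x] g) : DD θ f x = DD θ g x := by
  unfold DD
  exact Finset.sum_congr rfl fun j _ => by rw [pd_congr h]

theorem DD_add (θ : Fin 3 → ℂ) (hf : DifferentiableAt ℝ f x) (hg : DifferentiableAt ℝ g x) :
    DD θ (fun y => f y + g y) x = DD θ f x + DD θ g x := by
  unfold DD
  simp only [pd_add hf hg, mul_add, Finset.sum_add_distrib]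

theorem DD_sub (θ : Fin 3 → ℂ) (hf : DifferentiableAt ℝ f x) (hg : DifferentiableAt ℝ g x) :
    DD θ (fun y => f y - g y) x = DD θ f x - DD θ g x := by
  unfold DD
  simp only [pd_sub hf hg, mul_sub, Finset.sum_sub_distrib]

theorem DD_const (θ : Fin 3 → ℂ) (c : ℂ) : DD θ (fun _ => c) x = 0 := by
  unfold DD
  simp [pd_const]

theorem DD_mul (θ : Fin 3 → ℂ) (hf : DifferentiableAt ℝ f x) (hg : DifferentiableAt ℝ g x) :
    DD θ (fun y => f y * g y) x = f x * DD θ g x + DD θ f x * g x := by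
  unfold DD
  simp only [pd_mul hf hg, Finset.mul_sum, Finset.sum_mul, ← Finset.sum_add_distrib]
  exact Finset.sum_congr rfl fun j _ => by ring

theorem DD_const_mul (θ : Fin 3 → ℂ) (hf : DifferentiableAt ℝ f x) (c : ℂ) :
    DD θ (fun y => c * f y) x = c * DD θ f x := by
  rw [DD_mul θ (differentiableAt_const c) hf, DD_const, zero_mul, add_zero]

theorem DD_sum {ι : Type*} (θ : Fin 3 → ℂ) (s : Finset ι) (F : ι → R3 → ℂ)
    (hF : ∀ i ∈ s, DifferentiableAt ℝ (F i) x) :
    DD θ (fun y => ∑ i ∈ s, F i y) x = ∑ i ∈ s, DD θ (F i) x := by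
  unfold DD
  simp only [pd_sum s F hF, Finset.mul_sum]
  exact Finset.sum_comm

theorem DD_neg_theta (θ : Fin 3 → ℂ) (f : R3 → ℂ) (x : R3) :
    DD (fun j => - θ j) f x = - DD θ f x := by
  unfold DD
  simp [Finset.sum_neg_distrib]

theorem Lap_add (hf : ContDiff ℝ ∞ f) (hg : ContDiff ℝ ∞ g) :
    Lap (fun y => f y + g y) x = Lap f x + Lap g x := by
  unfold Lap
  rw [← Finset.sum_add_distrib]
  refine Finset.sum_congr rfl fun j _ => ?_
  rw [pd_add' hf hg, pd_add (sm_diffAt (contDiff_pd hf j)) (sm_diffAt (contDiff_pd hg j))]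

theorem Lap_const_mul (hf : ContDiff ℝ ∞ f) (c : ℂ) :
    Lap (fun y => c * f y) x = c * Lap f x := by
  unfold Lap
  rw [Finset.mul_sum]
  refine Finset.sum_congr rfl fun j _ => ?_
  rw [pd_const_mul' hf, pd_const_mul (sm_diffAt (contDiff_pd hf j))]

theorem Lap_congr (h : f =ᶠ[𝓝 x] g) : Lap f x = Lap g x := by
  unfold Lap
  refine Finset.sum_congr rfl fun j _ => pd_congr ?_
  filter_upwards [eventually_eventually_nhds.mpr h] with y hy
  exact pd_congr hy

end pd

/-! ### `P0` and `M0` -/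

section PM
variable {ι : Type} [Fintype ι] {A : Fin 3 → ι → ι → R3 → ℂ} {B : ι → ι → R3 → ℂ}
  {θ : Fin 3 → ℂ} {r s : ι → R3 → ℂ}

theorem contDiff_P0 (hA : ∀ j i l, ContDiff ℝ ∞ (A j i l)) (hB : ∀ i l, ContDiff ℝ ∞ (B i l))
    (hr : ∀ i, ContDiff ℝ ∞ (r i)) (i : ι) : ContDiff ℝ ∞ (P0 A B r i) := by
  unfold P0
  exact ((contDiff_Lap (hr i)).add (ContDiff.sum fun j _ => ContDiff.sum fun l _ =>
    (hA j i l).mul (contDiff_pd (hr l) j))).add (ContDiff.sum fun l _ => (hB i l).mul (hr l))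

theorem contDiff_M0 (hA : ∀ j i l, ContDiff ℝ ∞ (A j i l))
    (hr : ∀ i, ContDiff ℝ ∞ (r i)) (i : ι) : ContDiff ℝ ∞ (M0 θ A r i) := by
  unfold M0
  exact (contDiff_const.mul (contDiff_DD θ (hr i))).add
    (ContDiff.sum fun j _ => ContDiff.sum fun l _ =>
      ((hA j i l).mul contDiff_const).mul (hr l))

theorem P0_add (hr : ∀ i, ContDiff ℝ ∞ (r i)) (hs : ∀ i, ContDiff ℝ ∞ (s i)) (i : ι) (x : R3) :
    P0 A B (fun i y => r i y + s i y) i x = P0 A B r i x + P0 A B s i x := by
  unfold P0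
  rw [Lap_add (hr i) (hs i)]
  have h : ∀ (j : Fin 3) (l : ι), pd j (fun y => r l y + s l y) x = pd j (r l) x + pd j (s l) x :=
    fun j l => pd_add (sm_diffAt (hr l)) (sm_diffAt (hs l)) j
  simp only [h, mul_add, Finset.sum_add_distrib]
  ring

theorem P0_const_mul (hr : ∀ i, ContDiff ℝ ∞ (r i)) (c : ℂ) (i : ι) (x : R3) :
    P0 A B (fun i y => c * r i y) i x = c * P0 A B r i x := by
  unfold P0
  rw [Lap_const_mul (hr i)]
  have h : ∀ (j : Fin 3) (l : ι), pd j (fun y => c * r l y) x = c * pd j (r l) x :=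
    fun j l => pd_const_mul (sm_diffAt (hr l)) c j
  simp only [h, mul_add, Finset.mul_sum]
  congr 1
  · congr 1
    exact Finset.sum_congr rfl fun j _ => Finset.sum_congr rfl fun l _ => by ring
  · exact Finset.sum_congr rfl fun l _ => by ring

theorem M0_add (hr : ∀ i, ContDiff ℝ ∞ (r i)) (hs : ∀ i, ContDiff ℝ ∞ (s i)) (i : ι) (x : R3) :
    M0 θ A (fun i y => r i y + s i y) i x = M0 θ A r i x + M0 θ A s i x := by
  unfold M0
  rw [DD_add θ (sm_diffAt (hr i)) (sm_diffAt (hs i))]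
  simp only [mul_add, Finset.sum_add_distrib]
  ring

theorem M0_const_mul (hr : ∀ i, ContDiff ℝ ∞ (r i)) (c : ℂ) (i : ι) (x : R3) :
    M0 θ A (fun i y => c * r i y) i x = c * M0 θ A r i x := by
  unfold M0
  rw [DD_const_mul θ (sm_diffAt (hr i))]
  simp only [mul_add, Finset.mul_sum]
  congr 1
  · ring
  · exact Finset.sum_congr rfl fun j _ => Finset.sum_congr rfl fun l _ => by ring

theorem M0_neg_theta (i : ι) (x : R3) :
    M0 (fun j => - θ j) A r i x = - M0 θ A r i x := by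
  unfold M0
  rw [DD_neg_theta, neg_add, ← Finset.sum_neg_distrib]
  congr 1
  · ring
  · refine Finset.sum_congr rfl fun j _ => ?_
    rw [← Finset.sum_neg_distrib]
    exact Finset.sum_congr rfl fun l _ => by ring

end PM

theorem IsNull.neg {θ : Fin 3 → ℂ} (h : IsNull θ) : IsNull (fun j => - θ j) := by
  refine ⟨fun h0 => h.1 ?_, by simpa using h.2⟩
  funext j
  have := congrFun h0 j
  simpa using this

/-! ### moduli -/

theorem contDiff_cf {f : R3 → ℝ} (hf : ContDiff ℝ ∞ f) : ContDiff ℝ ∞ (cf f) :=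
  Complex.ofRealCLM.contDiff.comp hf

theorem pd_cf {f : R3 → ℝ} {x : R3} (hf : DifferentiableAt ℝ f x) (j : Fin 3) :
    pd j (cf f) x = (pderiv f j x : ℂ) := by
  unfold pd cf pderiv
  have h : fderiv ℝ (fun y => ((f y : ℝ) : ℂ)) x = Complex.ofRealCLM.comp (fderiv ℝ f x) :=
    (Complex.ofRealCLM.hasFDerivAt.comp x hf.hasFDerivAt).fderiv
  rw [h]
  simp

namespace Moduli
variable (P : Moduli)

theorem smooth_m : ContDiff ℝ ∞ P.m := P.smooth_mu.inv fun x => (P.mu_pos x).ne'

theorem m_pos (x : R3) : 0 < P.m x := inv_pos.mpr (P.mu_pos x)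

theorem lam_two_mu_pos (x : R3) : 0 < P.lam x + 2 * P.mu x := by
  have h1 := P.mu_pos x
  have h2 := P.bulk_pos x
  linarith

theorem lam_mu_pos (x : R3) : 0 < P.lam x + P.mu x := by
  have h1 := P.mu_pos x
  have h2 := P.bulk_pos x
  linarith

theorem cc_pos (x : R3) : 0 < P.cc x := div_pos (P.mu_pos x) ((Moduli.lam_two_mu_pos P) x)

theorem kap_pos (x : R3) : 0 < P.kap x :=
  div_pos (mul_pos ((Moduli.lam_mu_pos P) x) (P.mu_pos x)) (mul_pos two_pos ((Moduli.lam_two_mu_pos P) x))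

theorem sm_pos (x : R3) : 0 < P.sm x := Real.sqrt_pos.mpr ((Moduli.m_pos P) x)

theorem sm_sq (x : R3) : P.sm x * P.sm x = P.m x := Real.mul_self_sqrt ((Moduli.m_pos P) x).le

theorem smooth_sm : ContDiff ℝ ∞ P.sm := (Moduli.smooth_m P).sqrt fun x => ((Moduli.m_pos P) x).ne'

theorem smooth_cc : ContDiff ℝ ∞ P.cc :=
  P.smooth_mu.div (P.smooth_lam.add (contDiff_const.mul P.smooth_mu))
    fun x => ((Moduli.lam_two_mu_pos P) x).ne'

theorem smooth_kap : ContDiff ℝ ∞ P.kap :=
  ((P.smooth_lam.add P.smooth_mu).mul P.smooth_mu).div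
    (contDiff_const.mul (P.smooth_lam.add (contDiff_const.mul P.smooth_mu)))
    fun x => (mul_pos two_pos ((Moduli.lam_two_mu_pos P) x)).ne'

theorem smooth_cf_m : ContDiff ℝ ∞ (cf P.m) := contDiff_cf (Moduli.smooth_m P)
theorem smooth_cf_mu : ContDiff ℝ ∞ (cf P.mu) := contDiff_cf P.smooth_mu
theorem smooth_cf_lam : ContDiff ℝ ∞ (cf P.lam) := contDiff_cf P.smooth_lam
theorem smooth_cf_cc : ContDiff ℝ ∞ (cf P.cc) := contDiff_cf (Moduli.smooth_cc P)
theorem smooth_cf_kap : ContDiff ℝ ∞ (cf P.kap) := contDiff_cf (Moduli.smooth_kap P)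
theorem smooth_cf_sm : ContDiff ℝ ∞ (cf P.sm) := contDiff_cf (Moduli.smooth_sm P)

end Moduli

theorem contDiff_A4 (P : Moduli) (j : Fin 3) (i l : Option (Fin 3)) :
    ContDiff ℝ ∞ (A4 P j i l) := by
  have hm := (Moduli.smooth_cf_m P)
  have hmu := (Moduli.smooth_cf_mu P)
  have hlam := (Moduli.smooth_cf_lam P)
  have hcc := (Moduli.smooth_cf_cc P)
  rcases i with _ | i <;> rcases l with _ | l
  · exact contDiff_const
  · unfold A4
    by_cases h : j = l
    · simp only [h, if_true]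
      exact hcc.mul (hlam.add hmu)
    · simp only [h, if_false]
      exact contDiff_const
  · exact contDiff_const.mul (contDiff_pd (contDiff_pd hm j) i)
  · unfold A4
    refine hm.mul (ContDiff.sub ?_ ?_)
    · by_cases h : i = l
      · simp only [h, if_true]; exact contDiff_pd hmu j
      · simp only [h, if_false]; exact contDiff_const
    · by_cases h : j = l
      · simp only [h, if_true]; exact contDiff_pd hmu i
      · simp only [h, if_false]; exact contDiff_const

theorem contDiff_B4 (P : Moduli) (i l : Option (Fin 3)) : ContDiff ℝ ∞ (B4 P i l) := by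
  have hm := (Moduli.smooth_cf_m P)
  have hmu := (Moduli.smooth_cf_mu P)
  have hlam := (Moduli.smooth_cf_lam P)
  have hcc := (Moduli.smooth_cf_cc P)
  rcases i with _ | i <;> rcases l with _ | l
  · exact ((hcc.neg).mul hlam).mul (contDiff_Lap hm)
  · exact hcc.mul (contDiff_pd hmu l)
  · exact ((contDiff_const.mul hm).mul (ContDiff.sum fun j _ =>
      (contDiff_pd (contDiff_pd hm j) i).mul (contDiff_pd hmu j))).sub
      (contDiff_const.mul (contDiff_pd (contDiff_Lap hm) i))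
  · exact (hm.neg).mul (contDiff_pd (contDiff_pd hmu l) i)

/-! ### the domain -/

theorem Dom.isOpen (G : Dom) : IsOpen G.Ω := by
  rw [G.eq]
  exact isOpen_lt G.smooth.continuous continuous_const

theorem Dom.measurableSet (G : Dom) : MeasurableSet G.Ω := (Dom.isOpen G).measurableSet

theorem Dom.isCompact_closure (G : Dom) : IsCompact (closure G.Ω) := G.bdd.isCompact_closure

theorem Dom.integrableOn (G : Dom) {E : Type*} [NormedAddCommGroup E] {f : R3 → E}
    (hf : Continuous f) : IntegrableOn f G.Ω :=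
  (hf.continuousOn.integrableOn_compact (Dom.isCompact_closure G)).mono_set subset_closure

theorem Dom.exists_bound (G : Dom) {E : Type*} [NormedAddCommGroup E] {f : R3 → E}
    (hf : Continuous f) : ∃ C : ℝ, 0 ≤ C ∧ ∀ x ∈ closure G.Ω, ‖f x‖ ≤ C := by
  obtain ⟨C, hC⟩ := (Dom.isCompact_closure G).exists_bound_of_continuousOn hf.continuousOn
  exact ⟨max C 0, le_max_right _ _, fun x hx => (hC x hx).trans (le_max_left _ _)⟩

theorem Dom.exists_ball (G : Dom) : ∃ R : ℝ, 0 < R ∧ closure G.Ω ⊆ Metric.ball (0 : R3) R := by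
  obtain ⟨R, hR⟩ := (Dom.isCompact_closure G).isBounded.subset_ball (0 : R3)
  exact ⟨max R 1, by positivity, hR.trans (Metric.ball_subset_ball (le_max_left _ _))⟩

end Crest.Agent.R080.PdBasic
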