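import Crest.Agent.R080.MatField
import Crest.Agent.R080.EntireFactor

/-!
Row 80 (S0107), task T6b: fundamental matrices on discs of the plane (zero removal).
-/

set_option autoImplicit false

open MeasureTheory Filter Set
open scoped ContDiff Topology

noncomputable section
namespace Crest.Agent.R080.DbarBasic

variable {n : Type} [Fintype n] [DecidableEq n]

theorem exists_localFM (hS : StmtSmallFM) (A : n → n → ℂ → ℂ)
    (hA : ∀ i j, ContDiff ℝ ∞ (A i j)) (hAc : ∀ i j, HasCompactSupport (A i j)) (z0 : ℂ) :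
    ∃ (r : ℝ) (C : n → n → ℂ → ℂ), 0 < r ∧ (∀ i j, ContDiff ℝ ∞ (C i j)) ∧
      (∀ z, detF C z ≠ 0) ∧
      ∀ z ∈ Metric.ball z0 r, ∀ i j, D1 (C i j) z = ∑ l, A i l z * C l j z := by
  obtain ⟨e, he, hdet⟩ := exists_det_ne_zero n
  obtain ⟨δ, hδ, hSδ⟩ := hS ℂ n 1 1 e one_pos one_pos he
  -- bound on A
  have hb : ∀ i j, ∃ c : ℝ, ∀ z, ‖A i j z‖ ≤ c := fun i j =>
    (hAc i j).exists_bound_of_continuous (hA i j).continuous
  choose c hc using hb
  let B : ℝ := (∑ i, ∑ j, |c i j|) + 1
  have hB : ∀ i j z, ‖A i j z‖ ≤ B := by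
    intro i j z
    have h1 : |c i j| ≤ ∑ j, |c i j| :=
      Finset.single_le_sum (f := fun j => |c i j|) (fun _ _ => abs_nonneg _) (Finset.mem_univ j)
    have h2 : (∑ j, |c i j|) ≤ ∑ i, ∑ j, |c i j| :=
      Finset.single_le_sum (f := fun i => ∑ j, |c i j|)
        (fun _ _ => Finset.sum_nonneg fun _ _ => abs_nonneg _) (Finset.mem_univ i)
    have h3 := hc i j z
    have h4 := le_abs_self (c i j)
    simp only [B]
    linarith
  have hBpos : 0 < B := by
    have : 0 ≤ ∑ i, ∑ j, |c i j| :=
      Finset.sum_nonneg fun _ _ => Finset.sum_nonneg fun _ _ => abs_nonneg _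
    simp only [B]; linarith
  let ε : ℝ := δ / B
  have hε : 0 < ε := div_pos hδ hBpos
  have hεB : ε * B = δ := div_mul_cancel₀ _ hBpos.ne'
  let ψ : ContDiffBump (0 : ℂ) :=
    { rIn := 1 / 2, rOut := 1, rIn_pos := by norm_num, rIn_lt_rOut := by norm_num }
  let A' : n → n → ℂ → ℂ := fun i j w => ((ε * ψ w : ℝ) : ℂ) * A i j (z0 + ε • w)
  have hA'1 : ∀ i j, ContDiff ℝ ∞ (A' i j) := by
    intro i j
    refine ContDiff.mul ?_ ?_
    · exact Complex.ofRealCLM.contDiff.comp (contDiff_const.mul ψ.contDiff)
    · exact (hA i j).comp (contDiff_const.add (contDiff_const_smul ε))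
  have hA'2 : ∀ i j w, 1 ≤ ‖w‖ → A' i j w = 0 := by
    intro i j w hw
    have : ψ w = 0 := ψ.zero_of_le_dist (by rw [dist_zero_right]; exact hw)
    simp [A', this]
  have hA'3 : ∀ i j w, ‖A' i j w‖ ≤ δ := by
    intro i j w
    simp only [A', norm_mul, Complex.norm_real, Real.norm_eq_abs]
    rw [abs_of_pos hε, abs_of_nonneg ψ.nonneg, ← hεB]
    have h1 := hB i j (z0 + ε • w)
    have h2 : ψ w ≤ 1 := ψ.le_one
    have h3 : 0 ≤ ψ w := ψ.nonneg
    have h4 := norm_nonneg (A i j (z0 + ε • w))
    calc ε * ψ w * ‖A i j (z0 + ε • w)‖ ≤ ε * 1 * B := by gcongr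
      _ = ε * B := by ring
  obtain ⟨C', hC'1, hC'2, hC'3⟩ := hSδ (ContinuousLinearMap.id ℝ ℂ) (fun z => by simp) A'
    hA'1 hA'2 hA'3
  let C : n → n → ℂ → ℂ := fun i j z => C' i j ((ε⁻¹ : ℝ) • (z - z0))
  refine ⟨ε / 2, C, by positivity, fun i j => ?_, fun z => ?_, fun z hz i j => ?_⟩
  · exact (hC'1 i j).comp ((contDiff_const_smul _).comp (contDiff_id.sub contDiff_const))
  · exact hdet (fun i j => C i j z) fun i j => hC'3 i j _
  · have hd : DifferentiableAt ℝ (C' i j) ((ε⁻¹ : ℝ) • (z - z0)) :=
      ((hC'1 i j).differentiable (by simp)).differentiableAt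
    have h1 : D1 (C i j) z = (ε⁻¹ : ℝ) * D1 (C' i j) ((ε⁻¹ : ℝ) • (z - z0)) :=
      D1_comp_affine z0 z hd
    rw [h1]
    have h2 : D1 (C' i j) ((ε⁻¹ : ℝ) • (z - z0)) = _ := hC'2 i j ((ε⁻¹ : ℝ) • (z - z0))
    rw [h2]
    have h3 : z0 + ε • ((ε⁻¹ : ℝ) • (z - z0)) = z := by
      rw [smul_smul, mul_inv_cancel₀ hε.ne', one_smul]; ring
    have h4 : ψ ((ε⁻¹ : ℝ) • (z - z0)) = 1 := by
      apply ψ.one_of_mem_closedBall
      rw [mem_closedBall_zero_iff, norm_smul, norm_inv, Real.norm_eq_abs, abs_of_pos hε]
      rw [Metric.mem_ball, dist_eq_norm] at hz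
      show ε⁻¹ * ‖z - z0‖ ≤ 1 / 2
      rw [inv_mul_le_iff₀ hε]
      linarith
    rw [Finset.mul_sum]
    refine Finset.sum_congr rfl fun l _ => ?_
    simp only [A', h3, h4, C]
    push_cast
    have : (ε : ℂ) ≠ 0 := by exact_mod_cast hε.ne'
    field_simp

/-- derivative of the inverse of a local fundamental matrix -/
theorem D1_invF {A C : n → n → ℂ → ℂ} {z : ℂ} (hC : ∀ i j, ContDiff ℝ ∞ (C i j))
    (hdet : ∀ z, detF C z ≠ 0)
    (hz : ∀ i j, D1 (C i j) z = ∑ l, A i l z * C l j z) (i j : n) :
    D1 (invF C i j) z = -∑ l, invF C i l z * A l j z := by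
  have hCd : ∀ i j, DifferentiableAt ℝ (C i j) z := fun i j =>
    ((hC i j).differentiable (by simp)).differentiableAt
  have hCid : ∀ i j, DifferentiableAt ℝ (invF C i j) z := fun i j =>
    (contDiffAt_invF (fun a b => (hC a b).contDiffAt) (hdet z) i j).differentiableAt (by simp)
  let Cm : Matrix n n ℂ := Matrix.of fun i j => C i j z
  let Ci : Matrix n n ℂ := Matrix.of fun i j => invF C i j z
  let Am : Matrix n n ℂ := Matrix.of fun i j => A i j z
  let Di : Matrix n n ℂ := Matrix.of fun i j => D1 (invF C i j) z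
  have e1 : Ci * Cm = 1 := by
    ext a b; rw [Matrix.mul_apply, Matrix.one_apply]; exact invF_mul (hdet z) a b
  have e2 : Cm * Ci = 1 := by
    ext a b; rw [Matrix.mul_apply, Matrix.one_apply]; exact mul_invF (hdet z) a b
  have e3 : Am * Cm * Ci + Cm * Di = 0 := by
    ext a b
    have h1 : D1 (fun w => ∑ l, C a l w * invF C l b w) z = 0 := by
      have : (fun w => ∑ l, C a l w * invF C l b w) = fun _ => if a = b then 1 else 0 :=
        funext fun w => mul_invF (hdet w) a b
      rw [this, D1_const]
    rw [D1_sum _ fun l _ => (hCd a l).fun_mul (hCid l b)] at h1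
    simp only [D1_mul (hCd a _) (hCid _ b), hz, Finset.sum_add_distrib] at h1
    rw [Matrix.add_apply, Matrix.mul_apply, Matrix.mul_apply]
    simp only [Matrix.mul_apply]
    exact h1
  have e4 : Di = -(Ci * Am) := by
    have h5 : Ci * (Am * Cm * Ci + Cm * Di) = 0 := by rw [e3, mul_zero]
    have h6 : Ci * (Am * Cm * Ci + Cm * Di) = Ci * Am * (Cm * Ci) + Ci * Cm * Di := by
      simp only [mul_add, Matrix.mul_assoc]
    rw [h6, e1, e2, Matrix.mul_one, Matrix.one_mul] at h5
    exact eq_neg_of_add_eq_zero_right h5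
  have := congrFun (congrFun e4 i) j
  rw [Matrix.neg_apply, Matrix.mul_apply] at this
  exact this

/-- strong smooth vector solutions -/
def VSol (A : n → n → ℂ → ℂ) (x : n → ℂ → ℂ) : Prop :=
  (∀ i, ContDiff ℝ ∞ (x i)) ∧ ∀ i z, D1 (x i) z = ∑ l, A i l z * x l z

theorem contDiffAt_of_differentiableOn {H : ℂ → ℂ} {U : Set ℂ} (hU : IsOpen U)
    (hH : DifferentiableOn ℂ H U) {z : ℂ} (hz : z ∈ U) : ContDiffAt ℝ ∞ H z :=
  ((hH.contDiffOn hU).contDiffAt (hU.mem_nhds hz)).restrict_scalars ℝ

/-- reconstruction from the local holomorphic factor -/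
theorem eq_sum_of_H {C : n → n → ℂ → ℂ} (hdet : ∀ z, detF C z ≠ 0) (x : n → ℂ → ℂ) (i : n)
    (z : ℂ) : x i z = ∑ l, C i l z * ∑ m, invF C l m z * x m z := by
  have h : ∀ m, ∑ l, C i l z * invF C l m z = if i = m then 1 else 0 := fun m =>
    mul_invF (hdet z) i m
  calc x i z = ∑ m, (if i = m then 1 else 0) * x m z := by simp
    _ = ∑ m, (∑ l, C i l z * invF C l m z) * x m z := by simp only [h]
    _ = ∑ l, C i l z * ∑ m, invF C l m z * x m z := by
      simp only [Finset.sum_mul, Finset.mul_sum]
      rw [Finset.sum_comm]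
      simp only [mul_assoc]

theorem vsol_of_weak (hS : StmtSmallFM) (A : n → n → ℂ → ℂ)
    (hA : ∀ i j, ContDiff ℝ ∞ (A i j)) (hAc : ∀ i j, HasCompactSupport (A i j))
    (x : n → ℂ → ℂ) (hx : ∀ i, Continuous (x i))
    (hw : ∀ i, ∀ φ : ℂ → ℂ, ContDiff ℝ ∞ φ → HasCompactSupport φ →
      -∫ z, x i z * D1 φ z = ∫ z, (∑ l, A i l z * x l z) * φ z) : VSol A x := by
  have main : ∀ z0, (∀ i, ContDiffAt ℝ ∞ (x i) z0) ∧
      ∀ i, D1 (x i) z0 = ∑ l, A i l z0 * x l z0 := by
    intro z0
    obtain ⟨r, C, hr, hC, hdet, hCA⟩ := exists_localFM hS A hA hAc z0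
    let H : n → ℂ → ℂ := fun i z => ∑ l, invF C i l z * x l z
    have hCi : ∀ i j, ContDiff ℝ ∞ (invF C i j) := fun i j => contDiff_iff_contDiffAt.2 fun z =>
      contDiffAt_invF (fun a b => (hC a b).contDiffAt) (hdet z) i j
    have hHc : ∀ i, Continuous (H i) := fun i =>
      continuous_finsetSum _ fun l _ => (hCi i l).continuous.mul (hx l)
    have hHd : ∀ i, DifferentiableOn ℂ (H i) (Metric.ball z0 r) := by
      intro i
      refine weyl_D1 (hHc i) Metric.isOpen_ball fun φ hφ hφc hφs => ?_
      have hφl : ∀ l, ContDiff ℝ ∞ (fun z => invF C i l z * φ z) := fun l => (hCi i l).mul hφ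
      have hφlc : ∀ l, HasCompactSupport (fun z => invF C i l z * φ z) := fun l => hφc.mul_left
      have h1 : ∀ l, ∫ z, x l z * D1 (fun z => invF C i l z * φ z) z =
          -∫ z, (∑ m, A l m z * x m z) * (invF C i l z * φ z) := by
        intro l
        have := hw l _ (hφl l) (hφlc l)
        rw [← this, neg_neg]
      have hD1c : ∀ l, Continuous (D1 (fun z => invF C i l z * φ z)) := fun l =>
        (contDiff_D1 (hφl l)).continuous
      have hD1s : ∀ l, HasCompactSupport (D1 (fun z => invF C i l z * φ z)) := by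
        intro l
        refine HasCompactSupport.intro (hφlc l) fun z hz => ?_
        exact D1_eq_zero_of_notMem_tsupport hz
      have hint1 : ∀ l, Integrable (fun z => x l z * D1 (fun z => invF C i l z * φ z) z) :=
        fun l => ((hx l).mul (hD1c l)).integrable_of_hasCompactSupport (hD1s l).mul_left
      have hint2 : ∀ l, Integrable
          (fun z => (∑ m, A l m z * x m z) * (invF C i l z * φ z)) := fun l =>
        ((continuous_finsetSum _ fun m _ => (hA l m).continuous.mul (hx m)).mul
          (hφl l).continuous).integrable_of_hasCompactSupport (hφlc l).mul_left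
      have h2 : ∫ z, ((∑ l, x l z * D1 (fun z => invF C i l z * φ z) z)
          + ∑ l, (∑ m, A l m z * x m z) * (invF C i l z * φ z)) = 0 := by
        rw [integral_add (integrable_finsetSum _ fun l _ => hint1 l)
          (integrable_finsetSum _ fun l _ => hint2 l),
          integral_finsetSum _ fun l _ => hint1 l, integral_finsetSum _ fun l _ => hint2 l,
          ← Finset.sum_add_distrib]
        refine Finset.sum_eq_zero fun l _ => ?_
        rw [h1 l, neg_add_cancel]
      rw [← h2]
      refine integral_congr_ae (Filter.Eventually.of_forall fun z => ?_)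
      have hCd : ∀ l, DifferentiableAt ℝ (invF C i l) z := fun l =>
        ((hCi i l).differentiable (by simp)).differentiableAt
      have hφd : DifferentiableAt ℝ φ z := (hφ.differentiable (by simp)).differentiableAt
      simp only [D1_mul (hCd _) hφd]
      by_cases hz : z ∈ Metric.ball z0 r
      · simp only [D1_invF hC hdet (hCA z hz)]
        simp only [H]
        have e1 : ∑ l, x l z * (-(∑ m, invF C i m z * A m l z) * φ z + invF C i l z * D1 φ z)
            = (∑ l, invF C i l z * x l z) * D1 φ z
              - ∑ l, ∑ m, (invF C i m z * A m l z * x l z) * φ z := by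
          rw [Finset.sum_mul, ← Finset.sum_sub_distrib]
          refine Finset.sum_congr rfl fun l _ => ?_
          rw [← Finset.sum_mul, ← Finset.sum_mul]
          ring
        have e2 : ∑ l, (∑ m, A l m z * x m z) * (invF C i l z * φ z)
            = ∑ l, ∑ m, (invF C i m z * A m l z * x l z) * φ z := by
          rw [Finset.sum_comm]
          refine Finset.sum_congr rfl fun l _ => ?_
          rw [Finset.sum_mul]
          refine Finset.sum_congr rfl fun m _ => ?_
          ring
        rw [e1, e2]; ring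
      · have hφ0 : φ z = 0 := by
          by_contra h0
          exact hz (hφs (subset_tsupport _ h0))
        have hφ1 : D1 φ z = 0 := D1_eq_zero_of_notMem_tsupport fun h => hz (hφs h)
        simp [hφ0, hφ1]
    have hxH : ∀ i, x i = fun z => ∑ l, C i l z * H l z := fun i => funext fun z =>
      eq_sum_of_H hdet x i z
    have hz0 : z0 ∈ Metric.ball z0 r := Metric.mem_ball_self hr
    have hHs : ∀ l, ContDiffAt ℝ ∞ (H l) z0 := fun l =>
      contDiffAt_of_differentiableOn Metric.isOpen_ball (hHd l) hz0
    refine ⟨fun i => ?_, fun i => ?_⟩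
    · rw [hxH i]
      exact ContDiffAt.sum fun l _ => (hC i l).contDiffAt.mul (hHs l)
    · have hCd : ∀ l, DifferentiableAt ℝ (C i l) z0 := fun l =>
        ((hC i l).differentiable (by simp)).differentiableAt
      have hHd' : ∀ l, DifferentiableAt ℝ (H l) z0 := fun l =>
        (hHs l).differentiableAt (by simp)
      have hH0 : ∀ l, D1 (H l) z0 = 0 := fun l =>
        D1_of_complex ((hHd l).differentiableAt (Metric.isOpen_ball.mem_nhds hz0))
      calc D1 (x i) z0 = D1 (fun z => ∑ l, C i l z * H l z) z0 := by rw [← hxH i]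
        _ = ∑ l, (∑ m, A i m z0 * C m l z0) * H l z0 := by
          rw [D1_sum _ fun l _ => (hCd l).fun_mul (hHd' l)]
          refine Finset.sum_congr rfl fun l _ => ?_
          rw [D1_mul (hCd l) (hHd' l), hH0, mul_zero, add_zero, hCA z0 hz0]
        _ = ∑ m, A i m z0 * x m z0 := by
          simp only [Finset.sum_mul]
          rw [Finset.sum_comm]
          refine Finset.sum_congr rfl fun m _ => ?_
          rw [hxH m, Finset.mul_sum]
          simp only [mul_assoc]
  exact ⟨fun i => contDiff_iff_contDiffAt.2 fun z => (main z).1 i, fun i z => (main z).2 i⟩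

/-- division of a vector solution vanishing at a point -/
theorem vsol_div (hS : StmtSmallFM) (A : n → n → ℂ → ℂ)
    (hA : ∀ i j, ContDiff ℝ ∞ (A i j)) (hAc : ∀ i j, HasCompactSupport (A i j))
    {x : n → ℂ → ℂ} (hx : VSol A x) {a : ℂ} (ha : ∀ i, x i a = 0) :
    ∃ y : n → ℂ → ℂ, VSol A y ∧ ∀ i z, x i z = (z - a) * y i z := by
  obtain ⟨r, C, hr, hC, hdet, hCA⟩ := exists_localFM hS A hA hAc a
  let H : n → ℂ → ℂ := fun i z => ∑ l, invF C i l z * x l z
  have hCi : ∀ i j, ContDiff ℝ ∞ (invF C i j) := fun i j => contDiff_iff_contDiffAt.2 fun z =>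
    contDiffAt_invF (fun a b => (hC a b).contDiffAt) (hdet z) i j
  have hHd : ∀ i, DifferentiableOn ℂ (H i) (Metric.ball a r) := by
    intro i z hz
    refine DifferentiableAt.differentiableWithinAt ?_
    have hCd : ∀ l, DifferentiableAt ℝ (invF C i l) z := fun l =>
      ((hCi i l).differentiable (by simp)).differentiableAt
    have hxd : ∀ l, DifferentiableAt ℝ (x l) z := fun l =>
      ((hx.1 l).differentiable (by simp)).differentiableAt
    refine complex_of_D1 ?_ ?_
    · exact DifferentiableAt.fun_sum fun l _ => (hCd l).mul (hxd l)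
    · have e0 : D1 (H i) z = ∑ l, D1 (fun z => invF C i l z * x l z) z :=
        D1_sum _ fun l _ => (hCd l).mul (hxd l)
      rw [e0]
      simp only [D1_mul (hCd _) (hxd _), D1_invF hC hdet (hCA z hz), hx.2,
        Finset.sum_add_distrib]
      have e1 : ∑ l, (-∑ m, invF C i m z * A m l z) * x l z
          = -∑ l, ∑ m, invF C i m z * A m l z * x l z := by
        rw [← Finset.sum_neg_distrib]
        refine Finset.sum_congr rfl fun l _ => ?_
        rw [neg_mul, Finset.sum_mul]
      have e2 : ∑ l, invF C i l z * ∑ m, A l m z * x m z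
          = ∑ l, ∑ m, invF C i m z * A m l z * x l z := by
        rw [Finset.sum_comm]
        refine Finset.sum_congr rfl fun l _ => ?_
        rw [Finset.mul_sum]
        refine Finset.sum_congr rfl fun m _ => ?_
        ring
      rw [e1, e2, neg_add_cancel]
  have hHa : ∀ i, H i a = 0 := by
    intro i
    simp only [H, ha, mul_zero, Finset.sum_const_zero]
  let K : n → ℂ → ℂ := fun i => dslope (H i) a
  have hball : Metric.ball a r ∈ 𝓝 a := Metric.ball_mem_nhds a hr
  have hKd : ∀ i, DifferentiableOn ℂ (K i) (Metric.ball a r) := fun i =>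
    (Complex.differentiableOn_dslope hball).2 (hHd i)
  have hHK : ∀ i z, H i z = (z - a) * K i z := by
    intro i z
    have := sub_smul_dslope (H i) a z
    rw [hHa, sub_zero, smul_eq_mul] at this
    exact this.symm
  let y : n → ℂ → ℂ := fun i z => if z = a then ∑ l, C i l a * K l a else x i z / (z - a)
  have hxy : ∀ i z, x i z = (z - a) * y i z := by
    intro i z
    by_cases hz : z = a
    · subst hz; simp [ha i]
    · simp only [y, if_neg hz]
      rw [mul_div_cancel₀]
      exact sub_ne_zero.2 hz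
  have hyC : ∀ i z, y i z = ∑ l, C i l z * K l z := by
    intro i z
    by_cases hz : z = a
    · subst hz; simp only [y, if_true]
    · have hza : z - a ≠ 0 := sub_ne_zero.2 hz
      apply mul_left_cancel₀ hza
      rw [← hxy i z, eq_sum_of_H hdet x i z, Finset.mul_sum]
      refine Finset.sum_congr rfl fun l _ => ?_
      have : ∑ m, invF C l m z * x m z = (z - a) * K l z := hHK l z
      rw [this]; ring
  have hys : ∀ i, ContDiff ℝ ∞ (y i) := by
    intro i
    rw [contDiff_iff_contDiffAt]
    intro z
    by_cases hz : z = a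
    · subst hz
      have : y i = fun w => ∑ l, C i l w * K l w := funext (hyC i)
      rw [this]
      exact ContDiffAt.sum fun l _ => (hC i l).contDiffAt.mul
        (contDiffAt_of_differentiableOn Metric.isOpen_ball (hKd l) (Metric.mem_ball_self hr))
    · have hev : y i =ᶠ[𝓝 z] fun w => x i w / (w - a) := by
        filter_upwards [isOpen_ne.mem_nhds hz] with w hw
        simp only [y]; exact if_neg hw
      refine ContDiffAt.congr_of_eventuallyEq ?_ hev
      simp only [div_eq_mul_inv]
      exact (hx.1 i).contDiffAt.mul ((contDiffAt_id.sub contDiffAt_const).inv (sub_ne_zero.2 hz))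
  refine ⟨y, ⟨hys, fun i => ?_⟩, hxy⟩
  -- the equation
  have hc1 : Continuous (D1 (y i)) := (contDiff_D1 (hys i)).continuous
  have hc2 : Continuous fun z => ∑ l, A i l z * y l z :=
    continuous_finsetSum _ fun l _ => (hA i l).continuous.mul (hys l).continuous
  have heq : EqOn (D1 (y i)) (fun z => ∑ l, A i l z * y l z) ({a}ᶜ : Set ℂ) := by
    intro z hz
    have hza : z - a ≠ 0 := sub_ne_zero.2 hz
    apply mul_left_cancel₀ hza
    have hyd : DifferentiableAt ℝ (y i) z := ((hys i).differentiable (by simp)).differentiableAt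
    have hid : DifferentiableAt ℂ (fun w : ℂ => w - a) z := by fun_prop
    have h1 : D1 (x i) z = (z - a) * D1 (y i) z := by
      have : x i = fun w => (w - a) * y i w := funext (hxy i)
      rw [this, D1_mul (hid.restrictScalars ℝ) hyd, D1_of_complex hid, zero_mul, zero_add]
    show (z - a) * D1 (y i) z = (z - a) * ∑ l, A i l z * y l z
    rw [← h1, hx.2 i z, Finset.mul_sum]
    refine Finset.sum_congr rfl fun l _ => ?_
    rw [hxy l z]; ring
  have := Continuous.ext_on (dense_compl_singleton a) hc1 hc2 heq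
  exact fun z => congrFun this z

/-- smooth matrix solutions -/
def MSol (A X : n → n → ℂ → ℂ) : Prop := ∀ j, VSol A (fun i => X i j)

theorem remove_zeros (hS : StmtSmallFM) (A : n → n → ℂ → ℂ)
    (hA : ∀ i j, ContDiff ℝ ∞ (A i j)) (hAc : ∀ i j, HasCompactSupport (A i j)) (R : ℝ)
    (l : List ℂ) : ∀ (X : n → n → ℂ → ℂ) (k : ℂ → ℂ), MSol A X → Continuous k →
    (∀ z, detF X z = (l.map (fun a => z - a)).prod * k z) → (∀ z, ‖z‖ ≤ R → k z ≠ 0) →
    ∃ Y : n → n → ℂ → ℂ, MSol A Y ∧ ∀ z, ‖z‖ ≤ R → detF Y z ≠ 0 := by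
  induction l with
  | nil =>
    intro X k hX _ hd hk0
    refine ⟨X, hX, fun z hz => ?_⟩
    rw [hd z]; simpa using hk0 z hz
  | cons a l ih =>
    intro X k hX hk hd hk0
    have hXa : (Matrix.of fun i j => X i j a).det = 0 := by
      have := hd a
      simp only [List.map_cons, List.prod_cons, sub_self, zero_mul] at this
      exact this
    obtain ⟨v, hv, hv0⟩ := Matrix.exists_mulVec_eq_zero_iff.2 hXa
    obtain ⟨j0, hj0⟩ : ∃ j, v j ≠ 0 := by
      by_contra h
      push Not at h
      exact hv (funext h)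
    -- the vanishing combination
    let x : n → ℂ → ℂ := fun i z => ∑ j, v j * X i j z
    have hXd : ∀ i j z, DifferentiableAt ℝ (X i j) z := fun i j z =>
      (((hX j).1 i).differentiable (by simp)).differentiableAt
    have hx : VSol A x := by
      refine ⟨fun i => ContDiff.sum fun j _ => contDiff_const.mul ((hX j).1 i), fun i z => ?_⟩
      have e0 : D1 (x i) z = ∑ j, D1 (fun z => v j * X i j z) z :=
        D1_sum _ fun j _ => (hXd i j z).const_mul _
      rw [e0]
      have e1 : ∀ j, D1 (fun z => v j * X i j z) z = v j * ∑ l, A i l z * X l j z := by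
        intro j
        rw [D1_mul (differentiableAt_const _) (hXd i j z), D1_const, zero_mul, zero_add]
        congr 1
        exact (hX j).2 i z
      simp only [e1, x, Finset.mul_sum]
      rw [Finset.sum_comm]
      refine Finset.sum_congr rfl fun m _ => Finset.sum_congr rfl fun j _ => ?_
      ring
    have hxa : ∀ i, x i a = 0 := by
      intro i
      have := congrFun hv0 i
      rw [Matrix.mulVec_eq_sum] at this
      simp only [x]
      simpa [mul_comm] using this
    obtain ⟨y, hy, hxy⟩ := vsol_div hS A hA hAc hx hxa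
    let Y : n → n → ℂ → ℂ := fun i j => if j = j0 then y i else X i j
    have hY : MSol A Y := by
      intro j
      by_cases hj : j = j0
      · have : (fun i => Y i j) = y := by funext i; simp [Y, hj]
        rw [this]; exact hy
      · have : (fun i => Y i j) = fun i => X i j := by funext i; simp [Y, hj]
        rw [this]; exact hX j
    have hdet : ∀ z, (z - a) * detF Y z = v j0 * detF X z := by
      intro z
      let M : Matrix n n ℂ := Matrix.of fun i j => X i j z
      have h1 : (Matrix.of fun i j => Y i j z) = M.updateCol j0 (fun i => y i z) := by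
        ext i j
        by_cases hj : j = j0
        · subst hj; simp [Y, M]
        · rw [Matrix.updateCol_ne hj]; simp [Y, M, hj]
      have h2 : (z - a) * (M.updateCol j0 (fun i => y i z)).det
          = (M.updateCol j0 ((z - a) • fun i => y i z)).det := by
        rw [Matrix.det_updateCol_smul]
      have h3 : ((z - a) • fun i => y i z) = fun i => ∑ j, v j • M i j := by
        funext i
        rw [Pi.smul_apply, smul_eq_mul, ← hxy i z]
        rfl
      rw [detF, h1, h2, h3, Matrix.det_updateCol_sum, smul_eq_mul, detF]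
    have hdY : ∀ z, detF Y z = (l.map (fun a => z - a)).prod * (v j0 * k z) := by
      have hc1 : Continuous (detF Y) := continuous_detF fun i j => ((hY j).1 i).continuous
      have hc2 : Continuous fun z : ℂ => (l.map (fun a => z - a)).prod * (v j0 * k z) := by
        refine Continuous.mul ?_ (continuous_const.mul hk)
        exact continuous_list_prod _ fun b _ => by fun_prop
      have heq : EqOn (detF Y) (fun z => (l.map (fun a => z - a)).prod * (v j0 * k z))
          ({a}ᶜ : Set ℂ) := by
        intro z hz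
        have hza : z - a ≠ 0 := sub_ne_zero.2 hz
        apply mul_left_cancel₀ hza
        rw [hdet z, hd z, List.map_cons, List.prod_cons]
        ring
      have := Continuous.ext_on (dense_compl_singleton a) hc1 hc2 heq
      exact fun z => congrFun this z
    exact ih Y (fun z => v j0 * k z) hY (continuous_const.mul hk) hdY
      fun z hz => mul_ne_zero hj0 (hk0 z hz)

end Crest.Agent.R080.DbarBasic

namespace Crest.Agent.R080
open DbarBasic

theorem t_PlaneFM (hC : StmtCauchy) (hS : StmtSmallFM) (hK : StmtKsol) : StmtPlaneFM := by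
  intro n _ _ A hA R
  -- cutoff of the coefficient
  let ρ : ℝ := max R 0 + 1
  have hρ : 0 < ρ := by
    have := le_max_right R 0
    simp only [ρ]; linarith
  have hRρ : R < ρ := by
    have := le_max_left R 0
    simp only [ρ]; linarith
  let χ : ContDiffBump (0 : ℂ) :=
    { rIn := ρ, rOut := ρ + 1, rIn_pos := hρ, rIn_lt_rOut := by linarith }
  let A' : n → n → ℂ → ℂ := fun i j z => ((χ z : ℝ) : ℂ) * A i j z
  have hχ : ContDiff ℝ ∞ fun z => ((χ z : ℝ) : ℂ) := Complex.ofRealCLM.contDiff.comp χ.contDiff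
  have hA' : ∀ i j, ContDiff ℝ ∞ (A' i j) := fun i j => hχ.mul (hA i j)
  have hχc : HasCompactSupport fun z => ((χ z : ℝ) : ℂ) :=
    χ.hasCompactSupport.comp_left (g := fun r : ℝ => (r : ℂ)) (by simp)
  have hA'c : ∀ i j, HasCompactSupport (A' i j) := fun i j => hχc.mul_right
  have hAA : ∀ i j z, ‖z‖ ≤ ρ → A' i j z = A i j z := by
    intro i j z hz
    have : χ z = 1 := χ.one_of_mem_closedBall (by rw [mem_closedBall_zero_iff]; exact hz)
    simp [A', this]
  -- the solution
  obtain ⟨X, hXc, hXw, hX0⟩ := hK n A' (fun i j => (hA' i j).continuous) hA'c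
  have hX : MSol A' X := fun j => vsol_of_weak hS A' hA' hA'c (fun i => X i j)
    (fun i => hXc i j) (fun i φ hφ hφc => hXw i j φ hφ hφc)
  have hXs : ∀ i j, ContDiff ℝ ∞ (X i j) := fun i j => (hX j).1 i
  have hXd : ∀ i j z, DifferentiableAt ℝ (X i j) z := fun i j z =>
    ((hXs i j).differentiable (by simp)).differentiableAt
  -- the exponential factor
  let t : ℂ → ℂ := fun z => ∑ i, A' i i z
  have ht : ContDiff ℝ ∞ t := ContDiff.sum fun i _ => hA' i i
  have ht0 : ∀ z, ρ + 1 ≤ ‖z‖ → t z = 0 := by
    intro z hz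
    have : χ z = 0 := χ.zero_of_le_dist (by rw [dist_zero_right]; exact hz)
    simp [t, A', this]
  have htc : HasCompactSupport t := HasCompactSupport.intro (isCompact_closedBall (0 : ℂ) (ρ + 1))
    fun z hz => ht0 z (by rw [mem_closedBall_zero_iff, not_le] at hz; exact hz.le)
  obtain ⟨b, hb⟩ := htc.exists_bound_of_continuous ht.continuous
  obtain ⟨M, -, hM⟩ := hC ℂ 1 (ρ + 1) one_pos (by linarith)
  obtain ⟨u, hu, hDu, -⟩ := hM (ContinuousLinearMap.id ℝ ℂ) (fun z => by simp) t ht ht0 b hb
  have hDu' : ∀ z, D1 u z = t z := hDu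
  have hud : ∀ z, DifferentiableAt ℝ u z := fun z => (hu.differentiable (by simp)).differentiableAt
  let h : ℂ → ℂ := fun z => Complex.exp (-u z) * detF X z
  have hdXs : ∀ z, ContDiffAt ℝ ∞ (detF X) z := fun z =>
    contDiffAt_detF fun i j => (hXs i j).contDiffAt
  have hh : Differentiable ℂ h := by
    intro z
    have hdX : DifferentiableAt ℝ (detF X) z := (hdXs z).differentiableAt (by simp)
    have hexpd : DifferentiableAt ℝ (fun z => Complex.exp (-u z)) z := (hud z).neg.cexp
    refine complex_of_D1 (hexpd.mul hdX) ?_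
    have e1 : D1 h z = D1 (fun z => Complex.exp (-u z)) z * detF X z
        + Complex.exp (-u z) * D1 (detF X) z := D1_mul hexpd hdX
    have e2 : D1 (fun z => Complex.exp (-u z)) z = -(Complex.exp (-u z) * t z) := by
      have h1 := D1_comp_complex (f := Complex.exp) (g := fun z => -u z) (z := z)
        Complex.differentiable_exp.differentiableAt (hud z).neg
      have h2 : D1 (fun z => -u z) z = -t z := by
        have : (fun z => -u z) = fun z => (-1) * u z := by funext w; ring
        rw [this, D1_mul (differentiableAt_const _) (hud z), D1_const, hDu']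
        ring
      rw [h1, h2, Complex.deriv_exp]; ring
    have e3 : D1 (detF X) z = t z * detF X z :=
      D1_detF_of_sol (a := fun i j => A' i j z) (fun i j => hXd i j z)
        (fun i j => (hX j).2 i z)
    rw [e1, e2, e3]; ring
  have hh0 : h 0 ≠ 0 := mul_ne_zero (Complex.exp_ne_zero _) hX0
  obtain ⟨l, g, hg, hg0, hl⟩ := entire_factor hh hh0 ρ
  let k : ℂ → ℂ := fun z => Complex.exp (u z) * g z
  have hk : Continuous k := (Complex.continuous_exp.comp hu.continuous).mul hg.continuous
  have hdk : ∀ z, detF X z = (l.map (fun a => z - a)).prod * k z := by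
    intro z
    have h1 : detF X z = Complex.exp (u z) * h z := by
      simp only [h]
      rw [← mul_assoc, ← Complex.exp_add, add_neg_cancel, Complex.exp_zero, one_mul]
    rw [h1, hl z]
    simp only [k]; ring
  obtain ⟨Y, hY, hY0⟩ := remove_zeros hS A' hA' hA'c ρ l X k hX hk hdk
    fun z hz => mul_ne_zero (Complex.exp_ne_zero _) (hg0 z hz)
  have hYs : ∀ i j, ContDiff ℝ ∞ (Y i j) := fun i j => (hY j).1 i
  -- cutoff of the inverse
  have hR2 : max R 0 + 1 / 2 < ρ := by simp only [ρ]; linarith
  let χ2 : ContDiffBump (0 : ℂ) :=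
    { rIn := max R 0 + 1 / 4, rOut := max R 0 + 1 / 2,
      rIn_pos := by have := le_max_right R 0; linarith, rIn_lt_rOut := by linarith }
  have hχ2 : ContDiff ℝ ∞ fun z => ((χ2 z : ℝ) : ℂ) :=
    Complex.ofRealCLM.contDiff.comp χ2.contDiff
  refine ⟨Y, fun i j z => ((χ2 z : ℝ) : ℂ) * invF Y i j z, hYs, fun i j => ?_, fun z hz => ?_⟩
  · rw [contDiff_iff_contDiffAt]
    intro z
    by_cases hz : ‖z‖ ≤ ρ
    · exact hχ2.contDiffAt.mul (contDiffAt_invF (fun a b => (hYs a b).contDiffAt) (hY0 z hz) i j)
    · push Not at hz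
      have hev : (fun z => ((χ2 z : ℝ) : ℂ) * invF Y i j z) =ᶠ[𝓝 z] fun _ => 0 := by
        have hopen : IsOpen {w : ℂ | ρ < ‖w‖} := isOpen_lt continuous_const continuous_norm
        filter_upwards [hopen.mem_nhds hz] with w hw
        have hw' : ρ < ‖w‖ := hw
        have : χ2 w = 0 := χ2.zero_of_le_dist (by
          rw [dist_zero_right]
          show max R 0 + 1 / 2 ≤ ‖w‖
          linarith)
        simp [this]
      exact contDiffAt_const.congr_of_eventuallyEq hev
  · have hzρ : ‖z‖ ≤ ρ := by linarith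
    have h1 : χ2 z = 1 := χ2.one_of_mem_closedBall (by
      rw [mem_closedBall_zero_iff]
      show ‖z‖ ≤ max R 0 + 1 / 4
      have := le_max_left R 0
      linarith)
    refine ⟨fun i j => ?_, fun i j => ?_⟩
    · have h2 := (hY j).2 i z
      have h3 : D1 (Y i j) z = ∑ l, A' i l z * Y l j z := h2
      simp only [hAA _ _ z hzρ] at h3
      exact h3
    · have := mul_invF (hY0 z hzρ) i j
      simpa [h1] using this

end Crest.Agent.R080
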