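import Mathlib

/-!
Row 80, T3: abstract polarization lemma.
-/

set_option autoImplicit false

namespace Crest.Agent.R080.Polar

variable {E : Type*} [AddCommGroup E] [Module ℝ E]

/-- the infimum of the quadratic form over a coset -/
noncomputable def Q (V : Submodule ℝ E) (b : E →ₗ[ℝ] E →ₗ[ℝ] ℝ) (φ : E) : ℝ :=
  ⨅ w : V, b (φ + w) (φ + w)

variable {V : Submodule ℝ E} {b : E →ₗ[ℝ] E →ₗ[ℝ] ℝ}

theorem bddBelow_Q (hp : ∀ v, 0 ≤ b v v) (φ : E) :
    BddBelow (Set.range fun w : V => b (φ + w) (φ + w)) :=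
  ⟨0, by rintro _ ⟨w, rfl⟩; exact hp _⟩

theorem Q_le (hp : ∀ v, 0 ≤ b v v) (φ : E) {w : E} (hw : w ∈ V) :
    Q V b φ ≤ b (φ + w) (φ + w) :=
  ciInf_le (bddBelow_Q hp φ) ⟨w, hw⟩

theorem exists_lt_Q_add (φ : E) {e : ℝ} (he : 0 < e) :
    ∃ w ∈ V, b (φ + w) (φ + w) < Q V b φ + e := by
  obtain ⟨w, hw⟩ := exists_lt_of_ciInf_lt (f := fun w : V => b (φ + w) (φ + w))
    (show (⨅ w : V, b (φ + w) (φ + w)) < Q V b φ + e by unfold Q; linarith)
  exact ⟨w, w.2, hw⟩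

theorem le_Q (φ : E) {a : ℝ} (h : ∀ w ∈ V, a ≤ b (φ + w) (φ + w)) : a ≤ Q V b φ :=
  le_ciInf fun w => h w w.2

theorem Q_neg (φ : E) : Q V b (-φ) = Q V b φ := by
  unfold Q
  have h : ∀ w : V, b (-φ + w) (-φ + w) = b (φ + ((-w : V) : E)) (φ + ((-w : V) : E)) := by
    intro w
    have : (-φ + (w : E)) = -(φ + ((-w : V) : E)) := by push_cast; abel
    rw [this]; simp only [map_neg, LinearMap.neg_apply, neg_neg]
  simp_rw [h]
  exact (Equiv.neg V).iInf_congr (fun w => by simp)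

theorem expand (hs : ∀ u v, b u v = b v u) (u v w : E) (s : ℝ) (hs2 : s ^ 2 = 1) :
    b (u + s • v + s • w) (u + s • v + s • w)
      = b u u + 2 * s * b u v + 2 * s * b u w + b (v + w) (v + w) := by
  simp only [map_add, map_smul, LinearMap.add_apply, LinearMap.smul_apply, smul_eq_mul]
  rw [hs v u, hs w u, hs w v]
  have : s * s = 1 := by rw [← sq]; exact hs2
  linear_combination (b v v + 2 * b v w + b w w) * this

theorem para (hs : ∀ u v, b u v = b v u) (hp : ∀ v, 0 ≤ b v v) (v w : E) :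
    b w w ≤ 2 * b (v + w) (v + w) + 2 * b v v := by
  have h := hp (2 • v + w)
  simp only [map_add, map_nsmul, LinearMap.add_apply, LinearMap.smul_apply, smul_eq_mul,
    nsmul_eq_mul] at h ⊢
  rw [hs w v] at h ⊢
  push_cast at h
  linarith

variable {N : E → ℝ} {c C : ℝ}

/-- the constant `A` -/
noncomputable def cA (c C : ℝ) : ℝ := 1 + (4 + 4 * C) / c

set_option maxHeartbeats 2000000 in
theorem Q_est (hs : ∀ u v, b u v = b v u) (hp : ∀ v, 0 ≤ b v v) (hN : ∀ v, 0 ≤ N v)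
    (hc : 0 < c) (hC : 0 < C) (hco : ∀ w ∈ V, c * N w ^ 2 ≤ b w w)
    (hup : ∀ v, b v v ≤ C * N v ^ 2) (u v : E) (ε : ℝ) (hε : 0 ≤ ε)
    (h : ∀ w ∈ V, |b u w| ≤ ε * N w) (s : ℝ) (hs2 : s ^ 2 = 1) :
    |Q V b (u + s • v) - (b u u + 2 * s * b u v + Q V b v)|
      ≤ 2 * cA c C * (ε ^ 2 + ε * N v) := by
  have hs1 : |s| = 1 := by
    have := sq_abs s
    rw [hs2] at this
    nlinarith [abs_nonneg s, this, sq_nonneg (|s| - 1)]
  have hss : s * s = 1 := by rw [← sq]; exact hs2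
  have hsu : ∀ w ∈ V, |s * b u w| ≤ ε * N w := fun w hw => by
    rw [abs_mul, hs1, one_mul]; exact h w hw
  have hA1 : 1 ≤ cA c C := by
    unfold cA; have : 0 ≤ (4 + 4 * C) / c := by positivity
    linarith
  have hA2 : 4 + 4 * C ≤ c * cA c C := by
    unfold cA; rw [mul_add, mul_div_cancel₀ _ hc.ne']; linarith
  set A := cA c C with hA
  have hA0 : 0 < A := by linarith
  rw [abs_le]
  constructor
  · -- lower bound
    suffices H : b u u + 2 * s * b u v + Q V b v - 2 * A * (ε ^ 2 + ε * N v) ≤ Q V b (u + s • v) by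
      linarith
    refine le_Q _ fun w hw => ?_
    have hw' : s • w ∈ V := V.smul_mem s hw
    have e1 : u + s • v + w = u + s • v + s • (s • w) := by rw [smul_smul, hss, one_smul]
    rw [e1, expand hs u v (s • w) s hs2]
    set w' := s • w with hw'def
    have h1 := (abs_le.mp (hsu w' hw')).1
    have hX := hN w'
    have hv := hN v
    have hQ1 : Q V b v ≤ b (v + w') (v + w') := Q_le hp v hw'
    have hQ2 : Q V b v ≤ b v v := by
      have := Q_le hp v V.zero_mem (b := b); simpa using this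
    have hpara := para hs hp v w'
    have hcow := hco w' hw'
    have hupv := hup v
    by_cases hcase : N w' ≤ A * (N v + ε)
    · have : ε * N w' ≤ ε * (A * (N v + ε)) := mul_le_mul_of_nonneg_left hcase hε
      nlinarith
    · push Not at hcase
      have hXε : A * ε ≤ N w' := by nlinarith
      have hXv : A * N v ≤ N w' := by nlinarith
      -- A * (2 ε X) ≤ 2 X²
      have k1 : A * (ε * N w') ≤ N w' ^ 2 := by nlinarith
      have k2 : A ^ 2 * N v ^ 2 ≤ N w' ^ 2 := by nlinarith [mul_nonneg hA0.le hv]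
      have k2' : A * (C * N v ^ 2) ≤ C * N w' ^ 2 := by
        have : A * N v ^ 2 ≤ A ^ 2 * N v ^ 2 := by
          have : A ≤ A ^ 2 := by nlinarith
          exact mul_le_mul_of_nonneg_right this (sq_nonneg _)
        nlinarith
      have k3 : (4 + 4 * C) * N w' ^ 2 ≤ A * (c * N w' ^ 2) := by nlinarith [sq_nonneg (N w')]
      -- goal after multiplying by A
      have k4 : 0 ≤ A * (b (v + w') (v + w') - 2 * (ε * N w') - Q V b v) := by nlinarith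
      have k5 : 0 ≤ b (v + w') (v + w') - 2 * (ε * N w') - Q V b v :=
        nonneg_of_mul_nonneg_right k4 hA0
      have k6 : 0 ≤ 2 * A * (ε ^ 2 + ε * N v) := by positivity
      nlinarith
  · -- upper bound
    suffices H : Q V b (u + s • v) ≤ b u u + 2 * s * b u v + Q V b v + 2 * A * (ε ^ 2 + ε * N v) by
      linarith
    refine le_of_forall_pos_le_add fun e he => ?_
    obtain ⟨η, hη0, hη1, hηe⟩ : ∃ η : ℝ, 0 < η ∧ η ≤ 1 ∧ (2 * ε + c / 2) * η ≤ e := by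
      refine ⟨min 1 (e / (2 * ε + c / 2)), by positivity, min_le_left _ _, ?_⟩
      calc (2 * ε + c / 2) * min 1 (e / (2 * ε + c / 2))
          ≤ (2 * ε + c / 2) * (e / (2 * ε + c / 2)) :=
            mul_le_mul_of_nonneg_left (min_le_right _ _) (by positivity)
        _ = e := by field_simp
    obtain ⟨w, hw, hwlt⟩ := exists_lt_Q_add (V := V) (b := b) v (e := c * η ^ 2 / 2) (by positivity)
    have h0 := Q_le hp (u + s • v) (V.smul_mem s hw)
    rw [expand hs u v w s hs2] at h0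
    have h1 := (abs_le.mp (hsu w hw)).2
    have hQ2 : Q V b v ≤ b v v := by
      have := Q_le hp v V.zero_mem (b := b); simpa using this
    have hpara := para hs hp v w
    have hcow := hco w hw
    have hupv := hup v
    have hv := hN v
    have hX := hN w
    have h2 : c * N w ^ 2 ≤ 4 * C * N v ^ 2 + c * η ^ 2 := by linarith
    have h3 : N w ≤ A * N v + η := by
      have h4 : c * N w ^ 2 ≤ c * (A * N v + η) ^ 2 := by
        have : 4 * C * N v ^ 2 ≤ c * A ^ 2 * N v ^ 2 := by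
          have : 4 * C ≤ c * A ^ 2 := by nlinarith
          exact mul_le_mul_of_nonneg_right this (sq_nonneg _)
        nlinarith [mul_nonneg (mul_nonneg hc.le hA0.le) (mul_nonneg hv hη0.le)]
      have h5 : N w ^ 2 ≤ (A * N v + η) ^ 2 := le_of_mul_le_mul_left h4 hc
      exact (abs_le_of_sq_le_sq' h5 (by positivity)).2
    have h6 : ε * N w ≤ ε * (A * N v + η) := mul_le_mul_of_nonneg_left h3 hε
    have h7' : η ^ 2 ≤ η := by
      calc η ^ 2 = η * η := sq η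
        _ ≤ 1 * η := mul_le_mul_of_nonneg_right hη1 hη0.le
        _ = η := one_mul η
    have h7 : c * η ^ 2 ≤ c * η := mul_le_mul_of_nonneg_left h7' hc.le
    have h8 : 0 ≤ A * ε ^ 2 := mul_nonneg hA0.le (sq_nonneg ε)
    have h9 : ε * (A * N v + η) = A * (ε * N v) + ε * η := by ring
    have h10 : (2 * ε + c / 2) * η = 2 * (ε * η) + c * η / 2 := by ring
    have h11 : 2 * A * (ε ^ 2 + ε * N v) = 2 * (A * ε ^ 2) + 2 * (A * (ε * N v)) := by ring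
    have h12 : 2 * s * b u w = 2 * (s * b u w) := by ring
    rw [h11]
    rw [h12] at h0
    rw [h10] at hηe
    rw [h9] at h6
    linarith

theorem Q_congr {b₁ b₂ : E →ₗ[ℝ] E →ₗ[ℝ] ℝ} (hp₁ : ∀ v, 0 ≤ b₁ v v) (φ : E)
    (h : ∀ w ∈ V, ∀ ε : ℝ, 0 < ε → ∃ w' ∈ V, b₁ (φ + w') (φ + w') < b₂ (φ + w) (φ + w) + ε) :
    Q V b₁ φ ≤ Q V b₂ φ := by
  refine le_Q _ fun w hw => le_of_forall_pos_le_add fun ε hε => ?_
  obtain ⟨w', hw', hlt⟩ := h w hw ε hε
  exact (Q_le hp₁ φ hw').trans hlt.le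

theorem abstract_polar {b₁ b₂ : E →ₗ[ℝ] E →ₗ[ℝ] ℝ}
    (hs₁ : ∀ u v, b₁ u v = b₁ v u) (hs₂ : ∀ u v, b₂ u v = b₂ v u)
    (hp₁ : ∀ v, 0 ≤ b₁ v v) (hp₂ : ∀ v, 0 ≤ b₂ v v) (hN : ∀ v, 0 ≤ N v)
    (hc : 0 < c) (hC : 0 < C)
    (hco₁ : ∀ w ∈ V, c * N w ^ 2 ≤ b₁ w w) (hco₂ : ∀ w ∈ V, c * N w ^ 2 ≤ b₂ w w)
    (hup₁ : ∀ v, b₁ v v ≤ C * N v ^ 2) (hup₂ : ∀ v, b₂ v v ≤ C * N v ^ 2)
    (h12 : ∀ φ, ∀ w ∈ V, ∀ ε : ℝ, 0 < ε →
      ∃ w' ∈ V, b₂ (φ + w') (φ + w') < b₁ (φ + w) (φ + w) + ε)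
    (h21 : ∀ φ, ∀ w ∈ V, ∀ ε : ℝ, 0 < ε →
      ∃ w' ∈ V, b₁ (φ + w') (φ + w') < b₂ (φ + w) (φ + w) + ε)
    (u v : E) (ε₁ ε₂ : ℝ) (hε₁ : 0 ≤ ε₁) (hε₂ : 0 ≤ ε₂)
    (h₁ : ∀ w ∈ V, |b₁ u w| ≤ ε₁ * N w) (h₂ : ∀ w ∈ V, |b₂ v w| ≤ ε₂ * N w) :
    |b₁ u v - b₂ u v| ≤ cA c C * (ε₁ ^ 2 + ε₂ ^ 2 + ε₁ * N v + ε₂ * N u) := by
  have hQ : ∀ φ, Q V b₁ φ = Q V b₂ φ := fun φ =>
    le_antisymm (Q_congr hp₁ φ (h21 φ)) (Q_congr hp₂ φ (h12 φ))
  have a1 := Q_est hs₁ hp₁ hN hc hC hco₁ hup₁ u v ε₁ hε₁ h₁ 1 (by norm_num)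
  have a2 := Q_est hs₁ hp₁ hN hc hC hco₁ hup₁ u v ε₁ hε₁ h₁ (-1) (by norm_num)
  have a3 := Q_est hs₂ hp₂ hN hc hC hco₂ hup₂ v u ε₂ hε₂ h₂ 1 (by norm_num)
  have a4 := Q_est hs₂ hp₂ hN hc hC hco₂ hup₂ v u ε₂ hε₂ h₂ (-1) (by norm_num)
  have e1 : Q V b₁ (u + (1 : ℝ) • v) = Q V b₂ (v + (1 : ℝ) • u) := by
    rw [hQ, one_smul, one_smul, add_comm]
  have e2 : Q V b₁ (u + (-1 : ℝ) • v) = Q V b₂ (v + (-1 : ℝ) • u) := by
    rw [hQ, ← Q_neg (V := V) (b := b₂) (v + (-1 : ℝ) • u)]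
    congr 1
    simp only [neg_smul, one_smul]
    abel
  rw [e1] at a1
  rw [e2] at a2
  have a1l := (abs_le.mp a1).1
  have a1r := (abs_le.mp a1).2
  have a2l := (abs_le.mp a2).1
  have a2r := (abs_le.mp a2).2
  have a3l := (abs_le.mp a3).1
  have a3r := (abs_le.mp a3).2
  have a4l := (abs_le.mp a4).1
  have a4r := (abs_le.mp a4).2
  rw [hs₂ v u] at a3l a3r a4l a4r
  rw [abs_le]
  constructor <;> linarith

end Crest.Agent.R080.Polar
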