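import Crest.Agent.R080.Stmts2
import Crest.Agent.R080.PolarAbs

/-!
Row 80, T3: polarization of the boundary data hypothesis.
-/

set_option autoImplicit false

open MeasureTheory Filter
open scoped ContDiff Topology
open Crest.AnalysisR.VecCalc3 Crest.AnalysisR.PDE.Elasticity

noncomputable section
namespace Crest.Agent.R080.Polar

/-! ### basic calculus facts -/

theorem pderiv_add {f g : R3 → ℝ} (hf : ContDiff ℝ 1 f) (hg : ContDiff ℝ 1 g) (i : Fin 3) (x : R3) :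
    pderiv (f + g) i x = pderiv f i x + pderiv g i x := by
  unfold pderiv
  rw [fderiv_add ((hf.differentiable one_ne_zero) x) ((hg.differentiable one_ne_zero) x)]
  rfl

theorem pderiv_smul {f : R3 → ℝ} (hf : ContDiff ℝ 1 f) (c : ℝ) (i : Fin 3) (x : R3) :
    pderiv (c • f) i x = c * pderiv f i x := by
  unfold pderiv
  rw [fderiv_const_smul ((hf.differentiable one_ne_zero) x)]
  rfl

theorem pderiv_cont {f : R3 → ℝ} (hf : ContDiff ℝ 1 f) (i : Fin 3) : Continuous (pderiv f i) :=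
  (hf.continuous_fderiv one_ne_zero).clm_apply continuous_const

theorem pd_cont {f : R3 → ℂ} (hf : ContDiff ℝ 1 f) (i : Fin 3) : Continuous (pd i f) :=
  (hf.continuous_fderiv one_ne_zero).clm_apply continuous_const

theorem pd_ofReal {f : R3 → ℝ} (hf : ContDiff ℝ 1 f) (i : Fin 3) (x : R3) :
    pd i (fun y => (f y : ℂ)) x = (pderiv f i x : ℂ) := by
  unfold pd pderiv
  have h := (Complex.ofRealCLM.hasFDerivAt (x := f x)).comp x
    ((hf.differentiable one_ne_zero) x).hasFDerivAt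
  have h' : HasFDerivAt (fun y => (f y : ℂ)) (Complex.ofRealCLM.comp (fderiv ℝ f x)) x := h
  rw [h'.fderiv]
  rfl

theorem pd_re_im {u : R3 → ℂ} (hu : ContDiff ℝ 1 u) (i : Fin 3) (x : R3) :
    pd i u x = (pderiv (fun y => (u y).re) i x : ℂ) + (pderiv (fun y => (u y).im) i x : ℂ)
      * Complex.I := by
  have hd := ((hu.differentiable one_ne_zero) x).hasFDerivAt
  have h1 : HasFDerivAt (fun y => (u y).re) (Complex.reCLM.comp (fderiv ℝ u x)) x :=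
    (Complex.reCLM.hasFDerivAt (x := u x)).comp x hd
  have h2 : HasFDerivAt (fun y => (u y).im) (Complex.imCLM.comp (fderiv ℝ u x)) x :=
    (Complex.imCLM.hasFDerivAt (x := u x)).comp x hd
  unfold pd pderiv
  rw [h1.fderiv, h2.fderiv]
  exact (Complex.re_add_im _).symm

/-! ### real fields -/

/-- strain of a real field -/
def strR (f : Fin 3 → R3 → ℝ) (i j : Fin 3) (x : R3) : ℝ :=
  (pderiv (f j) i x + pderiv (f i) j x) / 2

/-- divergence of a real field -/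
def dvR (f : Fin 3 → R3 → ℝ) (x : R3) : ℝ := ∑ i, pderiv (f i) i x

/-- density of the bilinear form -/
def dens (P : Moduli) (f g : Fin 3 → R3 → ℝ) (x : R3) : ℝ :=
  P.lam x * dvR f x * dvR g x + 2 * P.mu x * ∑ i, ∑ j, strR f i j x * strR g i j x

/-- real bilinear form -/
def bR (Ω : Set R3) (P : Moduli) (f g : Fin 3 → R3 → ℝ) : ℝ := ∫ x in Ω, dens P f g x

/-- squared gradient norm -/
def gR (Ω : Set R3) (f : Fin 3 → R3 → ℝ) : ℝ := ∫ x in Ω, ∑ i, ∑ j, pderiv (f i) j x ^ 2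

theorem measG (G : Dom) : MeasurableSet G.Ω := by
  rw [G.eq]
  exact (isOpen_lt G.smooth.continuous continuous_const).measurableSet

theorem intG (G : Dom) {E : Type*} [NormedAddCommGroup E] {f : R3 → E} (hf : Continuous f) :
    IntegrableOn f G.Ω :=
  (hf.continuousOn.integrableOn_compact G.bdd.isCompact_closure).mono_set subset_closure

/-- `C¹` real fields -/
def EC : Submodule ℝ (Fin 3 → R3 → ℝ) where
  carrier := {f | ∀ i, ContDiff ℝ 1 (f i)}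
  add_mem' := fun hf hg i => (hf i).add (hg i)
  zero_mem' := fun _ => contDiff_const
  smul_mem' := fun c _ hf i => (hf i).const_smul c

/-- fields vanishing on the boundary -/
def V0 (G : Dom) : Submodule ℝ EC where
  carrier := {f | ∀ x ∈ frontier G.Ω, ∀ i, (f : Fin 3 → R3 → ℝ) i x = 0}
  add_mem' := by
    intro f g hf hg x hx i
    have h1 := hf x hx i
    have h2 := hg x hx i
    show (f : Fin 3 → R3 → ℝ) i x + (g : Fin 3 → R3 → ℝ) i x = 0
    rw [h1, h2, add_zero]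
  zero_mem' := fun _ _ _ => rfl
  smul_mem' := by
    intro c f hf x hx i
    show c * (f : Fin 3 → R3 → ℝ) i x = 0
    rw [hf x hx i, mul_zero]

theorem strR_cont {f : Fin 3 → R3 → ℝ} (hf : ∀ i, ContDiff ℝ 1 (f i)) (i j : Fin 3) :
    Continuous (strR f i j) :=
  ((pderiv_cont (hf j) i).add (pderiv_cont (hf i) j)).div_const 2

theorem dvR_cont {f : Fin 3 → R3 → ℝ} (hf : ∀ i, ContDiff ℝ 1 (f i)) : Continuous (dvR f) :=
  continuous_finsetSum _ fun i _ => pderiv_cont (hf i) i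

theorem dens_cont (P : Moduli) {f g : Fin 3 → R3 → ℝ} (hf : ∀ i, ContDiff ℝ 1 (f i))
    (hg : ∀ i, ContDiff ℝ 1 (g i)) : Continuous (dens P f g) := by
  unfold dens
  have h1 := P.smooth_lam.continuous
  have h2 := P.smooth_mu.continuous
  have h3 := dvR_cont hf
  have h4 := dvR_cont hg
  refine ((h1.mul h3).mul h4).add ((continuous_const.mul h2).mul ?_)
  exact continuous_finsetSum _ fun i _ => continuous_finsetSum _ fun j _ =>
    (strR_cont hf i j).mul (strR_cont hg i j)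

theorem strR_add {f g : Fin 3 → R3 → ℝ} (hf : ∀ i, ContDiff ℝ 1 (f i))
    (hg : ∀ i, ContDiff ℝ 1 (g i)) (i j : Fin 3) (x : R3) :
    strR (f + g) i j x = strR f i j x + strR g i j x := by
  unfold strR
  rw [Pi.add_apply, Pi.add_apply, pderiv_add (hf j) (hg j), pderiv_add (hf i) (hg i)]
  ring

theorem strR_smul {f : Fin 3 → R3 → ℝ} (hf : ∀ i, ContDiff ℝ 1 (f i)) (c : ℝ) (i j : Fin 3)
    (x : R3) : strR (c • f) i j x = c * strR f i j x := by
  unfold strR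
  rw [Pi.smul_apply, Pi.smul_apply, pderiv_smul (hf j), pderiv_smul (hf i)]
  ring

theorem dvR_add {f g : Fin 3 → R3 → ℝ} (hf : ∀ i, ContDiff ℝ 1 (f i))
    (hg : ∀ i, ContDiff ℝ 1 (g i)) (x : R3) : dvR (f + g) x = dvR f x + dvR g x := by
  unfold dvR
  rw [← Finset.sum_add_distrib]
  exact Finset.sum_congr rfl fun i _ => by rw [Pi.add_apply, pderiv_add (hf i) (hg i)]

theorem dvR_smul {f : Fin 3 → R3 → ℝ} (hf : ∀ i, ContDiff ℝ 1 (f i)) (c : ℝ)
    (x : R3) : dvR (c • f) x = c * dvR f x := by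
  unfold dvR
  rw [Finset.mul_sum]
  exact Finset.sum_congr rfl fun i _ => by rw [Pi.smul_apply, pderiv_smul (hf i)]

theorem dens_symm (P : Moduli) (f g : Fin 3 → R3 → ℝ) (x : R3) : dens P f g x = dens P g f x := by
  unfold dens
  have : (∑ i, ∑ j, strR f i j x * strR g i j x) = ∑ i, ∑ j, strR g i j x * strR f i j x :=
    Finset.sum_congr rfl fun i _ => Finset.sum_congr rfl fun j _ => mul_comm _ _
  rw [this]; ring

theorem dens_add_left (P : Moduli) {f g h : Fin 3 → R3 → ℝ} (hf : ∀ i, ContDiff ℝ 1 (f i))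
    (hg : ∀ i, ContDiff ℝ 1 (g i)) (x : R3) :
    dens P (f + g) h x = dens P f h x + dens P g h x := by
  unfold dens
  simp only [dvR_add hf hg, strR_add hf hg, add_mul, Finset.sum_add_distrib]
  ring

theorem dens_smul_left (P : Moduli) {f h : Fin 3 → R3 → ℝ} (hf : ∀ i, ContDiff ℝ 1 (f i))
    (c : ℝ) (x : R3) : dens P (c • f) h x = c * dens P f h x := by
  unfold dens
  simp only [dvR_smul hf, strR_smul hf, mul_assoc, ← Finset.mul_sum]
  ring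

theorem bR_symm (Ω : Set R3) (P : Moduli) (f g : Fin 3 → R3 → ℝ) : bR Ω P f g = bR Ω P g f := by
  unfold bR; simp_rw [dens_symm P f g]

theorem bR_add_left (G : Dom) (P : Moduli) {f g h : Fin 3 → R3 → ℝ}
    (hf : ∀ i, ContDiff ℝ 1 (f i)) (hg : ∀ i, ContDiff ℝ 1 (g i)) (hh : ∀ i, ContDiff ℝ 1 (h i)) :
    bR G.Ω P (f + g) h = bR G.Ω P f h + bR G.Ω P g h := by
  unfold bR
  simp_rw [dens_add_left P hf hg]
  exact integral_add (intG G (dens_cont P hf hh)) (intG G (dens_cont P hg hh))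

theorem bR_smul_left (G : Dom) (P : Moduli) {f h : Fin 3 → R3 → ℝ}
    (hf : ∀ i, ContDiff ℝ 1 (f i)) (c : ℝ) :
    bR G.Ω P (c • f) h = c * bR G.Ω P f h := by
  unfold bR
  simp_rw [dens_smul_left P hf]
  exact integral_const_mul _ _

/-- the bilinear form as a bilinear map -/
def bL (G : Dom) (P : Moduli) : EC →ₗ[ℝ] EC →ₗ[ℝ] ℝ :=
  LinearMap.mk₂ ℝ (fun f g => bR G.Ω P f g)
    (fun f g h => bR_add_left G P f.2 g.2 h.2)
    (fun c f h => bR_smul_left G P f.2 c)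
    (fun f g h => by
      show bR G.Ω P f (g + h) = _
      rw [bR_symm G.Ω P f, bR_add_left G P g.2 h.2 f.2, bR_symm G.Ω P g, bR_symm G.Ω P h])
    (fun c f h => by
      show bR G.Ω P f (c • (h : Fin 3 → R3 → ℝ)) = _
      rw [bR_symm G.Ω P f, bR_smul_left G P h.2, bR_symm G.Ω P h]; rfl)

theorem bL_apply (G : Dom) (P : Moduli) (f g : EC) : bL G P f g = bR G.Ω P f g := rfl

/-! ### coercivity and boundedness -/

theorem trace_sq_le (e : Fin 3 → Fin 3 → ℝ) :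
    (∑ i, e i i) ^ 2 ≤ 3 * ∑ i, ∑ j, e i j ^ 2 := by
  simp only [Fin.sum_univ_three]
  nlinarith [sq_nonneg (e 0 0 - e 1 1), sq_nonneg (e 0 0 - e 2 2), sq_nonneg (e 1 1 - e 2 2),
    sq_nonneg (e 0 1), sq_nonneg (e 0 2), sq_nonneg (e 1 0), sq_nonneg (e 1 2), sq_nonneg (e 2 0),
    sq_nonneg (e 2 1)]

theorem sym_sq_le (d : Fin 3 → Fin 3 → ℝ) :
    ∑ i, ∑ j, ((d i j + d j i) / 2) ^ 2 ≤ ∑ i, ∑ j, d i j ^ 2 := by
  simp only [Fin.sum_univ_three]
  nlinarith [sq_nonneg (d 0 1 - d 1 0), sq_nonneg (d 0 2 - d 2 0), sq_nonneg (d 1 2 - d 2 1)]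

theorem dens_lower (P : Moduli) (f : Fin 3 → R3 → ℝ) (x : R3) (c : ℝ) (h1 : c ≤ 2 * P.mu x)
    (h2 : c ≤ 3 * P.lam x + 2 * P.mu x) :
    c * ∑ i, ∑ j, strR f i j x ^ 2 ≤ dens P f f x := by
  have hd : dvR f x = ∑ i, strR f i i x := by
    unfold dvR strR; exact Finset.sum_congr rfl fun i _ => by ring
  have ht := trace_sq_le fun i j => strR f i j x
  have hS : 0 ≤ ∑ i, ∑ j, strR f i j x ^ 2 :=
    Finset.sum_nonneg fun i _ => Finset.sum_nonneg fun j _ => sq_nonneg _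
  unfold dens
  rw [hd]
  simp only [← sq]
  set S := ∑ i, ∑ j, strR f i j x ^ 2
  set T := ∑ i, strR f i i x
  have hT := sq_nonneg T
  have : P.lam x * T * T = P.lam x * T ^ 2 := by ring
  rw [this]
  by_cases hl : 0 ≤ P.lam x
  · nlinarith [mul_nonneg hl hT]
  · push Not at hl
    nlinarith

theorem dens_upper (P : Moduli) (f : Fin 3 → R3 → ℝ) (x : R3) (C : ℝ)
    (h1 : 3 * |P.lam x| + 2 * P.mu x ≤ C) :
    dens P f f x ≤ C * ∑ i, ∑ j, pderiv (f i) j x ^ 2 := by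
  have ht : dvR f x ^ 2 ≤ 3 * ∑ i, ∑ j, pderiv (f i) j x ^ 2 :=
    trace_sq_le fun i j => pderiv (f i) j x
  have hs : ∑ i, ∑ j, strR f i j x ^ 2 ≤ ∑ i, ∑ j, pderiv (f i) j x ^ 2 := by
    have h := sym_sq_le fun i j => pderiv (f i) j x
    refine le_trans (le_of_eq ?_) h
    refine Finset.sum_congr rfl fun i _ => Finset.sum_congr rfl fun j _ => ?_
    unfold strR; ring
  have hS : 0 ≤ ∑ i, ∑ j, strR f i j x ^ 2 :=
    Finset.sum_nonneg fun i _ => Finset.sum_nonneg fun j _ => sq_nonneg _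
  unfold dens
  simp only [← sq]
  set D := ∑ i, ∑ j, pderiv (f i) j x ^ 2
  set S := ∑ i, ∑ j, strR f i j x ^ 2
  have hT := sq_nonneg (dvR f x)
  have hmu := P.mu_pos x
  have e1 : P.lam x * dvR f x * dvR f x ≤ |P.lam x| * (3 * D) := by
    calc P.lam x * dvR f x * dvR f x = P.lam x * dvR f x ^ 2 := by ring
      _ ≤ |P.lam x| * dvR f x ^ 2 := mul_le_mul_of_nonneg_right (le_abs_self _) hT
      _ ≤ |P.lam x| * (3 * D) := mul_le_mul_of_nonneg_left ht (abs_nonneg _)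
  have e2 : 2 * P.mu x * S ≤ 2 * P.mu x * D := mul_le_mul_of_nonneg_left hs (by linarith)
  have hD : 0 ≤ D := hS.trans hs
  have e3 : (3 * |P.lam x| + 2 * P.mu x) * D ≤ C * D := mul_le_mul_of_nonneg_right h1 hD
  nlinarith

theorem exists_lower (G : Dom) (P : Moduli) : ∃ c : ℝ, 0 < c ∧ ∀ x ∈ G.Ω,
    c ≤ 2 * P.mu x ∧ c ≤ 3 * P.lam x + 2 * P.mu x := by
  have hK : IsCompact (closure G.Ω) := G.bdd.isCompact_closure
  have hne : (closure G.Ω).Nonempty := G.conn.nonempty.closure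
  have hc : Continuous fun x => min (2 * P.mu x) (3 * P.lam x + 2 * P.mu x) := by
    have h1 := P.smooth_lam.continuous
    have h2 := P.smooth_mu.continuous
    fun_prop
  obtain ⟨x0, _, hx0⟩ := hK.exists_isMinOn hne hc.continuousOn
  refine ⟨min (2 * P.mu x0) (3 * P.lam x0 + 2 * P.mu x0), ?_, fun x hx => ?_⟩
  · exact lt_min (by linarith [P.mu_pos x0]) (P.bulk_pos x0)
  · have := hx0 (subset_closure hx)
    simp only [Set.mem_ofPred_eq] at this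
    exact ⟨this.trans (min_le_left _ _), this.trans (min_le_right _ _)⟩

theorem exists_upper (G : Dom) (P : Moduli) : ∃ C : ℝ, 0 < C ∧ ∀ x ∈ G.Ω,
    3 * |P.lam x| + 2 * P.mu x ≤ C := by
  have hK : IsCompact (closure G.Ω) := G.bdd.isCompact_closure
  have hne : (closure G.Ω).Nonempty := G.conn.nonempty.closure
  have hc : Continuous fun x => 3 * |P.lam x| + 2 * P.mu x := by
    have h1 := P.smooth_lam.continuous
    have h2 := P.smooth_mu.continuous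
    fun_prop
  obtain ⟨x0, _, hx0⟩ := hK.exists_isMaxOn hne hc.continuousOn
  refine ⟨3 * |P.lam x0| + 2 * P.mu x0, ?_, fun x hx => hx0 (subset_closure hx)⟩
  have := P.mu_pos x0
  positivity

theorem gR_nonneg (Ω : Set R3) (f : Fin 3 → R3 → ℝ) : 0 ≤ gR Ω f :=
  integral_nonneg fun _ => Finset.sum_nonneg fun _ _ => Finset.sum_nonneg fun _ _ => sq_nonneg _

theorem gR_integrable (G : Dom) {f : Fin 3 → R3 → ℝ} (hf : ∀ i, ContDiff ℝ 1 (f i)) :
    IntegrableOn (fun x => ∑ i, ∑ j, pderiv (f i) j x ^ 2) G.Ω :=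
  intG G (continuous_finsetSum _ fun i _ => continuous_finsetSum _ fun j _ =>
    (pderiv_cont (hf i) j).pow 2)

theorem str_integrable (G : Dom) {f : Fin 3 → R3 → ℝ} (hf : ∀ i, ContDiff ℝ 1 (f i)) :
    IntegrableOn (fun x => ∑ i, ∑ j, strR f i j x ^ 2) G.Ω :=
  intG G (continuous_finsetSum _ fun i _ => continuous_finsetSum _ fun j _ =>
    (strR_cont hf i j).pow 2)

theorem bR_upper (G : Dom) (P : Moduli) {C : ℝ}
    (hC : ∀ x ∈ G.Ω, 3 * |P.lam x| + 2 * P.mu x ≤ C) {f : Fin 3 → R3 → ℝ}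
    (hf : ∀ i, ContDiff ℝ 1 (f i)) : bR G.Ω P f f ≤ C * gR G.Ω f := by
  unfold bR gR
  rw [← integral_const_mul]
  exact setIntegral_mono_on (intG G (dens_cont P hf hf)) ((gR_integrable G hf).const_mul C)
    (measG G) fun x hx => dens_upper P f x C (hC x hx)

theorem bR_lower (G : Dom) (P : Moduli) {c : ℝ}
    (hc : ∀ x ∈ G.Ω, c ≤ 2 * P.mu x ∧ c ≤ 3 * P.lam x + 2 * P.mu x) {f : Fin 3 → R3 → ℝ}
    (hf : ∀ i, ContDiff ℝ 1 (f i)) :
    c * ∫ x in G.Ω, ∑ i, ∑ j, strR f i j x ^ 2 ≤ bR G.Ω P f f := by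
  unfold bR
  rw [← integral_const_mul]
  exact setIntegral_mono_on ((str_integrable G hf).const_mul c) (intG G (dens_cont P hf hf))
    (measG G) fun x hx => dens_lower P f x c (hc x hx).1 (hc x hx).2

/-! ### complexification -/

theorem strain_ofReal {f : Fin 3 → R3 → ℝ} (hf : ∀ i, ContDiff ℝ 1 (f i)) (i j : Fin 3) (x : R3) :
    strain (fun k y => (f k y : ℂ)) i j x = (strR f i j x : ℂ) := by
  unfold strain strR
  rw [pd_ofReal (hf j), pd_ofReal (hf i)]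
  push_cast; ring

theorem korn_real (G : Dom) {C : ℝ} (hC : ∀ v : Fin 3 → R3 → ℂ, (∀ i, ContDiff ℝ 1 (v i)) →
    (∀ x ∈ frontier G.Ω, ∀ i, v i x = 0) →
      (∫ x in G.Ω, ∑ i, ‖v i x‖ ^ 2 ≤ C * gradSq G.Ω v) ∧
      (gradSq G.Ω v ≤ C * ∫ x in G.Ω, ∑ i, ∑ j, ‖strain v i j x‖ ^ 2))
    {f : Fin 3 → R3 → ℝ} (hf : ∀ i, ContDiff ℝ 1 (f i))
    (h0 : ∀ x ∈ frontier G.Ω, ∀ i, f i x = 0) :
    gR G.Ω f ≤ C * ∫ x in G.Ω, ∑ i, ∑ j, strR f i j x ^ 2 := by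
  have h := (hC (fun k y => (f k y : ℂ)) (fun i => Complex.ofRealCLM.contDiff.comp (hf i))
    (fun x hx i => by simp [h0 x hx i])).2
  have e1 : gradSq G.Ω (fun k y => (f k y : ℂ)) = gR G.Ω f := by
    unfold gradSq gR
    congr 1; ext x
    refine Finset.sum_congr rfl fun i _ => Finset.sum_congr rfl fun j _ => ?_
    rw [pd_ofReal (hf i), Complex.norm_real, Real.norm_eq_abs, sq_abs]
  have e2 : (∫ x in G.Ω, ∑ i, ∑ j, ‖strain (fun k y => (f k y : ℂ)) i j x‖ ^ 2)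
      = ∫ x in G.Ω, ∑ i, ∑ j, strR f i j x ^ 2 := by
    congr 1; ext x
    refine Finset.sum_congr rfl fun i _ => Finset.sum_congr rfl fun j _ => ?_
    rw [strain_ofReal hf, Complex.norm_real, Real.norm_eq_abs, sq_abs]
  rwa [e1, e2] at h

/-- real part of a field -/
def rp (u : Fin 3 → R3 → ℂ) : Fin 3 → R3 → ℝ := fun i x => (u i x).re
/-- imaginary part of a field -/
def ip (u : Fin 3 → R3 → ℂ) : Fin 3 → R3 → ℝ := fun i x => (u i x).im

theorem rp_smooth {u : Fin 3 → R3 → ℂ} (hu : ∀ i, ContDiff ℝ 1 (u i)) (i : Fin 3) :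
    ContDiff ℝ 1 (rp u i) := Complex.reCLM.contDiff.comp (hu i)

theorem ip_smooth {u : Fin 3 → R3 → ℂ} (hu : ∀ i, ContDiff ℝ 1 (u i)) (i : Fin 3) :
    ContDiff ℝ 1 (ip u i) := Complex.imCLM.contDiff.comp (hu i)

theorem pd_decomp {u : Fin 3 → R3 → ℂ} (hu : ∀ i, ContDiff ℝ 1 (u i)) (i j : Fin 3) (x : R3) :
    pd j (u i) x = (pderiv (rp u i) j x : ℂ) + (pderiv (ip u i) j x : ℂ) * Complex.I :=
  pd_re_im (hu i) j x

theorem strain_decomp {u : Fin 3 → R3 → ℂ} (hu : ∀ i, ContDiff ℝ 1 (u i)) (i j : Fin 3) (x : R3) :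
    strain u i j x = (strR (rp u) i j x : ℂ) + (strR (ip u) i j x : ℂ) * Complex.I := by
  unfold strain strR
  rw [pd_decomp hu, pd_decomp hu]
  push_cast; ring

theorem divg_decomp {u : Fin 3 → R3 → ℂ} (hu : ∀ i, ContDiff ℝ 1 (u i)) (x : R3) :
    divg u x = (dvR (rp u) x : ℂ) + (dvR (ip u) x : ℂ) * Complex.I := by
  unfold divg dvR
  simp only [pd_decomp hu]
  push_cast
  rw [Finset.sum_add_distrib, ← Finset.sum_mul]

theorem BE_decomp (G : Dom) (P : Moduli) {u v : Fin 3 → R3 → ℂ} (hu : ∀ i, ContDiff ℝ 1 (u i))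
    (hv : ∀ i, ContDiff ℝ 1 (v i)) :
    BE G.Ω P u v = ((bR G.Ω P (rp u) (rp v) - bR G.Ω P (ip u) (ip v) : ℝ) : ℂ)
      + ((bR G.Ω P (rp u) (ip v) + bR G.Ω P (ip u) (rp v) : ℝ) : ℂ) * Complex.I := by
  have hru := rp_smooth hu
  have hiu := ip_smooth hu
  have hrv := rp_smooth hv
  have hiv := ip_smooth hv
  have key : ∀ x, (P.lam x : ℂ) * divg u x * divg v x
      + 2 * (P.mu x : ℂ) * ∑ i, ∑ j, strain u i j x * strain v i j x
      = ((dens P (rp u) (rp v) x - dens P (ip u) (ip v) x : ℝ) : ℂ)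
      + ((dens P (rp u) (ip v) x + dens P (ip u) (rp v) x : ℝ) : ℂ) * Complex.I := by
    intro x
    have hs : (∑ i, ∑ j, strain u i j x * strain v i j x)
        = ((∑ i, ∑ j, strR (rp u) i j x * strR (rp v) i j x
            - ∑ i, ∑ j, strR (ip u) i j x * strR (ip v) i j x : ℝ) : ℂ)
          + ((∑ i, ∑ j, strR (rp u) i j x * strR (ip v) i j x
            + ∑ i, ∑ j, strR (ip u) i j x * strR (rp v) i j x : ℝ) : ℂ) * Complex.I := by
      push_cast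
      simp only [← Finset.sum_sub_distrib, ← Finset.sum_add_distrib, Finset.sum_mul]
      refine Finset.sum_congr rfl fun i _ => Finset.sum_congr rfl fun j _ => ?_
      rw [strain_decomp hu, strain_decomp hv]
      linear_combination (strR (ip u) i j x : ℂ) * (strR (ip v) i j x : ℂ) * Complex.I_mul_I
    rw [hs, divg_decomp hu, divg_decomp hv]
    unfold dens
    push_cast
    linear_combination (P.lam x : ℂ) * (dvR (ip u) x : ℂ) * (dvR (ip v) x : ℂ) * Complex.I_mul_I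
  have i1 := intG G (dens_cont P hru hrv)
  have i2 := intG G (dens_cont P hiu hiv)
  have i3 := intG G (dens_cont P hru hiv)
  have i4 := intG G (dens_cont P hiu hrv)
  unfold BE bR
  simp_rw [key]
  rw [integral_add, integral_mul_const, integral_complex_ofReal, integral_complex_ofReal,
    integral_sub i1 i2, integral_add i3 i4]
  · exact (i1.sub i2).ofReal
  · exact ((i3.add i4).ofReal).mul_const _

theorem gradSq_decomp (G : Dom) {u : Fin 3 → R3 → ℂ} (hu : ∀ i, ContDiff ℝ 1 (u i)) :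
    gradSq G.Ω u = gR G.Ω (rp u) + gR G.Ω (ip u) := by
  unfold gradSq gR
  rw [← integral_add (gR_integrable G (rp_smooth hu)) (gR_integrable G (ip_smooth hu))]
  congr 1; ext x
  simp only [← Finset.sum_add_distrib]
  refine Finset.sum_congr rfl fun i _ => Finset.sum_congr rfl fun j _ => ?_
  rw [pd_decomp hu, ← Complex.normSq_eq_norm_sq, Complex.normSq_add_mul_I]

/-! ### the hypothesis for real fields -/

/-- a family of components as an `R3`-valued field -/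
def toF (f : Fin 3 → R3 → ℝ) (x : R3) : R3 := WithLp.toLp 2 fun i => f i x

theorem toF_apply (f : Fin 3 → R3 → ℝ) (x : R3) (i : Fin 3) : toF f x i = f i x := rfl

theorem toF_smooth {f : Fin 3 → R3 → ℝ} (hf : ∀ i, ContDiff ℝ 1 (f i)) : ContDiff ℝ 1 (toF f) :=
  contDiff_euclidean.2 fun i => hf i

theorem energy_toF (Ω : Set R3) (P : Moduli) (f : Fin 3 → R3 → ℝ) :
    elasticEnergy Ω P.lam P.mu (toF f) = bR Ω P f f := by
  unfold elasticEnergy bR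
  congr 1; ext x
  unfold energyDensity dens div3 symGrad dvR strR
  simp only [toF_apply, sq]
  ring

theorem hyp_real (G : Dom) (P₁ P₂ : Moduli)
    (h : ∀ φ : R3 → R3, ContDiff ℝ 1 φ → ∀ u, IsCompetitor G.Ω φ u → ∀ ε : ℝ, 0 < ε →
      ∃ w, IsCompetitor G.Ω φ w ∧
        elasticEnergy G.Ω P₂.lam P₂.mu w < elasticEnergy G.Ω P₁.lam P₁.mu u + ε)
    (φ w : EC) (hw : w ∈ V0 G) (ε : ℝ) (hε : 0 < ε) :
    ∃ w' ∈ V0 G, bL G P₂ (φ + w') (φ + w') < bL G P₁ (φ + w) (φ + w) + ε := by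
  obtain ⟨g, ⟨hg1, hg2⟩, hg3⟩ := h (toF φ) (toF_smooth φ.2) (toF ((φ + w : EC) : Fin 3 → R3 → ℝ))
    ⟨toF_smooth (φ + w).2, fun x hx => by
      ext i
      rw [toF_apply, toF_apply]
      show (φ : Fin 3 → R3 → ℝ) i x + (w : Fin 3 → R3 → ℝ) i x = _
      rw [hw x hx i, add_zero]⟩ ε hε
  have hgc : ∀ i, ContDiff ℝ 1 fun x => g x i := fun i => contDiff_euclidean.1 hg1 i
  let g' : EC := ⟨fun i x => g x i, hgc⟩
  have hgg : g = toF (g' : Fin 3 → R3 → ℝ) := by ext x i; rfl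
  refine ⟨g' - φ, fun x hx i => ?_, ?_⟩
  · show (g' : Fin 3 → R3 → ℝ) i x - (φ : Fin 3 → R3 → ℝ) i x = 0
    have := congrArg (fun y : R3 => y i) (hg2 x hx)
    simp only [toF_apply] at this
    show g x i - (φ : Fin 3 → R3 → ℝ) i x = 0
    rw [this, sub_self]
  · rw [add_sub_cancel, bL_apply, bL_apply, ← energy_toF, ← energy_toF, ← hgg]
    exact hg3

theorem polar_real (hK : StmtKorn) (G : Dom) (P₁ P₂ : Moduli) (h : SameData G P₁ P₂) :
    ∃ C : ℝ, 0 < C ∧ ∀ (u v : EC) (ε₁ ε₂ : ℝ), 0 ≤ ε₁ → 0 ≤ ε₂ →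
      (∀ w ∈ V0 G, |bL G P₁ u w| ≤ ε₁ * Real.sqrt (gR G.Ω w)) →
      (∀ w ∈ V0 G, |bL G P₂ v w| ≤ ε₂ * Real.sqrt (gR G.Ω w)) →
      |bL G P₁ u v - bL G P₂ u v| ≤ C * (ε₁ ^ 2 + ε₂ ^ 2 + ε₁ * Real.sqrt (gR G.Ω v)
        + ε₂ * Real.sqrt (gR G.Ω u)) := by
  obtain ⟨CK, hCK, hKorn⟩ := hK G
  obtain ⟨c₁, hc₁, hl₁⟩ := exists_lower G P₁
  obtain ⟨c₂, hc₂, hl₂⟩ := exists_lower G P₂
  obtain ⟨C₁, hC₁, hu₁⟩ := exists_upper G P₁
  obtain ⟨C₂, hC₂, hu₂⟩ := exists_upper G P₂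
  have hsq : ∀ f : EC, Real.sqrt (gR G.Ω f) ^ 2 = gR G.Ω f := fun f =>
    Real.sq_sqrt (gR_nonneg _ _)
  have hstr : ∀ f : EC, 0 ≤ ∫ x in G.Ω, ∑ i, ∑ j, strR f i j x ^ 2 := fun f =>
    integral_nonneg fun _ => Finset.sum_nonneg fun _ _ => Finset.sum_nonneg fun _ _ => sq_nonneg _
  set c := min c₁ c₂ / CK with hc
  have hmin : 0 < min c₁ c₂ := lt_min hc₁ hc₂
  have hc0 : 0 < c := div_pos hmin hCK
  have hco : ∀ (P : Moduli) (cP : ℝ), min c₁ c₂ ≤ cP →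
      (∀ x ∈ G.Ω, cP ≤ 2 * P.mu x ∧ cP ≤ 3 * P.lam x + 2 * P.mu x) →
      ∀ w ∈ V0 G, c * Real.sqrt (gR G.Ω w) ^ 2 ≤ bL G P w w := by
    intro P cP hcP hl w hw
    rw [hsq, bL_apply]
    have h1 := korn_real G hKorn w.2 hw
    have h2 := bR_lower G P hl w.2
    have h3 := hstr w
    calc c * gR G.Ω w ≤ c * (CK * ∫ x in G.Ω, ∑ i, ∑ j, strR w i j x ^ 2) :=
          mul_le_mul_of_nonneg_left h1 hc0.le
      _ = min c₁ c₂ * ∫ x in G.Ω, ∑ i, ∑ j, strR w i j x ^ 2 := by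
          rw [hc]; field_simp
      _ ≤ cP * ∫ x in G.Ω, ∑ i, ∑ j, strR w i j x ^ 2 := mul_le_mul_of_nonneg_right hcP h3
      _ ≤ _ := h2
  have hnn : ∀ (P : Moduli) (cP : ℝ), 0 < cP →
      (∀ x ∈ G.Ω, cP ≤ 2 * P.mu x ∧ cP ≤ 3 * P.lam x + 2 * P.mu x) →
      ∀ w, 0 ≤ bL G P w w := by
    intro P cP hcP hl w
    exact le_trans (mul_nonneg hcP.le (hstr w)) (bR_lower G P hl w.2)
  have hup : ∀ (P : Moduli) (CP : ℝ), CP ≤ max C₁ C₂ →
      (∀ x ∈ G.Ω, 3 * |P.lam x| + 2 * P.mu x ≤ CP) →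
      ∀ v, bL G P v v ≤ max C₁ C₂ * Real.sqrt (gR G.Ω v) ^ 2 := by
    intro P CP hCP hu v
    rw [hsq, bL_apply]
    exact (bR_upper G P hu v.2).trans (mul_le_mul_of_nonneg_right hCP (gR_nonneg _ _))
  have hCm : 0 < max C₁ C₂ := lt_max_of_lt_left hC₁
  refine ⟨cA c (max C₁ C₂), ?_, fun u v ε₁ ε₂ hε₁ hε₂ h₁ h₂ => ?_⟩
  · unfold cA; positivity
  · exact abstract_polar (V := V0 G) (N := fun f : EC => Real.sqrt (gR G.Ω f))
      (fun u v => bR_symm _ _ _ _) (fun u v => bR_symm _ _ _ _)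
      (hnn P₁ c₁ hc₁ hl₁) (hnn P₂ c₂ hc₂ hl₂) (fun _ => Real.sqrt_nonneg _) hc0 hCm
      (hco P₁ c₁ (min_le_left _ _) hl₁) (hco P₂ c₂ (min_le_right _ _) hl₂)
      (hup P₁ C₁ (le_max_left _ _) hu₁) (hup P₂ C₂ (le_max_right _ _) hu₂)
      (fun φ w hw ε hε => hyp_real G P₁ P₂ (fun φ hφ => (h φ hφ).1) φ w hw ε hε)
      (fun φ w hw ε hε => hyp_real G P₂ P₁ (fun φ hφ => (h φ hφ).2) φ w hw ε hε)
      u v ε₁ ε₂ hε₁ hε₂ h₁ h₂

/-- weak residual bounds pass to real and imaginary parts -/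
theorem weakRes_real (G : Dom) (P : Moduli) {u : Fin 3 → R3 → ℂ} (hu : ∀ i, ContDiff ℝ 1 (u i))
    {ε : ℝ} (h : WeakRes G P u ε) (w : EC) (hw : w ∈ V0 G) :
    |bR G.Ω P (rp u) w| ≤ ε * Real.sqrt (gR G.Ω w) ∧
    |bR G.Ω P (ip u) w| ≤ ε * Real.sqrt (gR G.Ω w) := by
  have hwc : ∀ i, ContDiff ℝ 1 fun x => ((w : Fin 3 → R3 → ℝ) i x : ℂ) := fun i =>
    Complex.ofRealCLM.contDiff.comp (w.2 i)
  have h1 := h (fun i x => ((w : Fin 3 → R3 → ℝ) i x : ℂ)) hwc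
    (fun x hx i => by simp [hw x hx i])
  have er : rp (fun i x => ((w : Fin 3 → R3 → ℝ) i x : ℂ)) = w := by
    ext i x; simp [rp]
  have ei : ip (fun i x => ((w : Fin 3 → R3 → ℝ) i x : ℂ)) = 0 := by
    ext i x; simp [ip]
  have hz : ∀ f : Fin 3 → R3 → ℝ, bR G.Ω P f 0 = 0 := by
    intro f
    have h0 : (0 : Fin 3 → R3 → ℝ) = (0 : ℝ) • (0 : Fin 3 → R3 → ℝ) := by simp
    rw [bR_symm, h0, bR_smul_left G P (f := (0 : Fin 3 → R3 → ℝ)) (h := f)
      (fun i => (contDiff_const : ContDiff ℝ 1 fun _ : R3 => (0 : ℝ))) 0, zero_mul]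
  have hgz : gR G.Ω (0 : Fin 3 → R3 → ℝ) = 0 := by
    unfold gR
    have : ∀ x, (∑ i, ∑ j, pderiv ((0 : Fin 3 → R3 → ℝ) i) j x ^ 2) = 0 := by
      intro x
      refine Finset.sum_eq_zero fun i _ => Finset.sum_eq_zero fun j _ => ?_
      have : pderiv ((0 : Fin 3 → R3 → ℝ) i) j x = 0 := by
        unfold pderiv
        have : fderiv ℝ ((0 : Fin 3 → R3 → ℝ) i) x = 0 := fderiv_const_apply (0 : ℝ)
        rw [this]; rfl
      rw [this]; simp
    simp_rw [this]; simp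
  rw [BE_decomp G P hu hwc, gradSq_decomp G hwc, er, ei, hz, hz, hgz, add_zero, sub_zero,
    zero_add] at h1
  constructor
  · refine le_trans ?_ h1
    have := Complex.abs_re_le_norm (((bR G.Ω P (rp u) w : ℝ) : ℂ)
      + ((bR G.Ω P (ip u) w : ℝ) : ℂ) * Complex.I)
    simpa using this
  · refine le_trans ?_ h1
    have := Complex.abs_im_le_norm (((bR G.Ω P (rp u) w : ℝ) : ℂ)
      + ((bR G.Ω P (ip u) w : ℝ) : ℂ) * Complex.I)
    simpa using this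

end Crest.Agent.R080.Polar

namespace Crest.Agent.R080
open Polar

theorem t_Polar (hK : StmtKorn) : StmtPolar := by
  intro G P₁ P₂ hdata
  obtain ⟨C, hC, hmain⟩ := polar_real hK G P₁ P₂ hdata
  refine ⟨4 * C, by positivity, ?_⟩
  intro u v hu hv ε₁ ε₂ hε₁ hε₂ hwu hwv
  have hru := rp_smooth hu
  have hiu := ip_smooth hu
  have hrv := rp_smooth hv
  have hiv := ip_smooth hv
  have su : Real.sqrt (gR G.Ω (rp u)) ≤ Real.sqrt (gradSq G.Ω u) := by
    rw [gradSq_decomp G hu]; exact Real.sqrt_le_sqrt (by linarith [gR_nonneg G.Ω (ip u)])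
  have su' : Real.sqrt (gR G.Ω (ip u)) ≤ Real.sqrt (gradSq G.Ω u) := by
    rw [gradSq_decomp G hu]; exact Real.sqrt_le_sqrt (by linarith [gR_nonneg G.Ω (rp u)])
  have sv : Real.sqrt (gR G.Ω (rp v)) ≤ Real.sqrt (gradSq G.Ω v) := by
    rw [gradSq_decomp G hv]; exact Real.sqrt_le_sqrt (by linarith [gR_nonneg G.Ω (ip v)])
  have sv' : Real.sqrt (gR G.Ω (ip v)) ≤ Real.sqrt (gradSq G.Ω v) := by
    rw [gradSq_decomp G hv]; exact Real.sqrt_le_sqrt (by linarith [gR_nonneg G.Ω (rp v)])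
  set X := ε₁ ^ 2 + ε₂ ^ 2 + ε₁ * Real.sqrt (gradSq G.Ω v) + ε₂ * Real.sqrt (gradSq G.Ω u)
  have bound : ∀ f g : EC, Real.sqrt (gR G.Ω f) ≤ Real.sqrt (gradSq G.Ω u) →
      Real.sqrt (gR G.Ω g) ≤ Real.sqrt (gradSq G.Ω v) →
      (∀ w ∈ V0 G, |bL G P₁ f w| ≤ ε₁ * Real.sqrt (gR G.Ω w)) →
      (∀ w ∈ V0 G, |bL G P₂ g w| ≤ ε₂ * Real.sqrt (gR G.Ω w)) →
      |bR G.Ω P₁ f g - bR G.Ω P₂ f g| ≤ C * X := by
    intro f g h1 h2 h3 h4
    refine (hmain f g ε₁ ε₂ hε₁ hε₂ h3 h4).trans (mul_le_mul_of_nonneg_left ?_ hC.le)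
    have := mul_le_mul_of_nonneg_left h2 hε₁
    have := mul_le_mul_of_nonneg_left h1 hε₂
    simp only [X]; linarith
  have w1 := fun w hw => (weakRes_real G P₁ hu hwu w hw).1
  have w2 := fun w hw => (weakRes_real G P₁ hu hwu w hw).2
  have w3 := fun w hw => (weakRes_real G P₂ hv hwv w hw).1
  have w4 := fun w hw => (weakRes_real G P₂ hv hwv w hw).2
  have b1 := bound ⟨rp u, hru⟩ ⟨rp v, hrv⟩ su sv w1 w3
  have b2 := bound ⟨ip u, hiu⟩ ⟨ip v, hiv⟩ su' sv' w2 w4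
  have b3 := bound ⟨rp u, hru⟩ ⟨ip v, hiv⟩ su sv' w1 w4
  have b4 := bound ⟨ip u, hiu⟩ ⟨rp v, hrv⟩ su' sv w2 w3
  simp only at b1 b2 b3 b4
  rw [BE_decomp G P₁ hu hv, BE_decomp G P₂ hu hv]
  set r1 := bR G.Ω P₁ (rp u) (rp v) - bR G.Ω P₂ (rp u) (rp v)
  set r2 := bR G.Ω P₁ (ip u) (ip v) - bR G.Ω P₂ (ip u) (ip v)
  set r3 := bR G.Ω P₁ (rp u) (ip v) - bR G.Ω P₂ (rp u) (ip v)
  set r4 := bR G.Ω P₁ (ip u) (rp v) - bR G.Ω P₂ (ip u) (rp v)
  have e : (((bR G.Ω P₁ (rp u) (rp v) - bR G.Ω P₁ (ip u) (ip v) : ℝ) : ℂ)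
      + ((bR G.Ω P₁ (rp u) (ip v) + bR G.Ω P₁ (ip u) (rp v) : ℝ) : ℂ) * Complex.I)
      - (((bR G.Ω P₂ (rp u) (rp v) - bR G.Ω P₂ (ip u) (ip v) : ℝ) : ℂ)
      + ((bR G.Ω P₂ (rp u) (ip v) + bR G.Ω P₂ (ip u) (rp v) : ℝ) : ℂ) * Complex.I)
      = ((r1 - r2 : ℝ) : ℂ) + ((r3 + r4 : ℝ) : ℂ) * Complex.I := by
    simp only [r1, r2, r3, r4]; push_cast; ring
  rw [e]
  calc ‖((r1 - r2 : ℝ) : ℂ) + ((r3 + r4 : ℝ) : ℂ) * Complex.I‖
      ≤ ‖((r1 - r2 : ℝ) : ℂ)‖ + ‖((r3 + r4 : ℝ) : ℂ) * Complex.I‖ := norm_add_le _ _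
    _ = |r1 - r2| + |r3 + r4| := by
        rw [norm_mul, Complex.norm_I, mul_one, Complex.norm_real, Complex.norm_real,
          Real.norm_eq_abs, Real.norm_eq_abs]
    _ ≤ (|r1| + |r2|) + (|r3| + |r4|) := add_le_add (abs_sub _ _) (abs_add_le _ _)
    _ ≤ 4 * C * X := by linarith

end Crest.Agent.R080
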