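import Crest.Agent.R080.Stmts2

/-!
Row 80: Cauchy-Pompeiu formula on `ℂ` for compactly supported `C¹` functions, and integrability of
`g(z)/(z-u)` and of `exp(-K|z|²/2)/|z|`.
-/

set_option autoImplicit false

open MeasureTheory Filter Set
open scoped ContDiff Topology ComplexConjugate

noncomputable section
namespace Crest.Agent.R080
namespace Pomp

/-- radial integrability on `ℂ` -/
theorem integrable_radial {f : ℝ → ℝ} (hf : IntegrableOn (fun y => y * f y) (Ioi 0)) :
    Integrable (fun z : ℂ => f ‖z‖) := by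
  rw [integrable_fun_norm_addHaar volume]
  simpa [Complex.finrank_real_complex] using hf

theorem integral_radial (f : ℝ → ℝ) :
    ∫ z : ℂ, f ‖z‖ = 2 * Real.pi * ∫ y in Ioi (0:ℝ), y * f y := by
  rw [integral_fun_norm_addHaar volume]
  have h : (volume : Measure ℂ).real (Metric.ball 0 1) = Real.pi := by
    simp [Measure.real, Complex.volume_ball]
  rw [h, Complex.finrank_real_complex]
  simp [mul_assoc]

/-- the Gaussian kernel -/
theorem integrable_gauss {K : ℝ} (hK : 0 < K) :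
    Integrable (fun z : ℂ => Real.exp (-(K / 2) * ‖z‖ ^ 2) * ‖z‖⁻¹) := by
  apply integrable_radial (f := fun r => Real.exp (-(K / 2) * r ^ 2) * r⁻¹)
  have h := (integrable_exp_neg_mul_sq (b := K / 2) (by positivity)).integrableOn (s := Ioi 0)
  refine h.congr_fun (fun y hy => ?_) measurableSet_Ioi
  have hy : y ≠ 0 := ne_of_gt hy
  field_simp

theorem integral_gauss {K : ℝ} (hK : 0 < K) :
    ∫ z : ℂ, Real.exp (-(K / 2) * ‖z‖ ^ 2) * ‖z‖⁻¹ = Real.pi * Real.sqrt (2 * Real.pi / K) := by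
  rw [integral_radial (f := fun r => Real.exp (-(K / 2) * r ^ 2) * r⁻¹)]
  have : ∫ y in Ioi (0:ℝ), y * (Real.exp (-(K / 2) * y ^ 2) * y⁻¹) =
      ∫ y in Ioi (0:ℝ), Real.exp (-(K / 2) * y ^ 2) := by
    refine setIntegral_congr_fun measurableSet_Ioi fun y hy => ?_
    have hy : y ≠ 0 := ne_of_gt hy
    field_simp
  rw [this, integral_gaussian_Ioi]
  have : Real.pi / (K / 2) = 2 * Real.pi / K := by field_simp
  rw [this]
  ring

/-- complex Gaussian kernel -/
theorem integrable_gauss_inv {K : ℝ} (hK : 0 < K) :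
    Integrable (fun z : ℂ => (Real.exp (-(K / 2) * ‖z‖ ^ 2) : ℂ) * z⁻¹) := by
  refine (integrable_gauss hK).mono' ?_ (Eventually.of_forall fun z => ?_)
  · apply Measurable.aestronglyMeasurable
    fun_prop
  · rw [norm_mul, norm_inv, Complex.norm_real, Real.norm_of_nonneg (Real.exp_pos _).le]

/-- `g(z)/z` is integrable for `g` continuous with compact support -/
theorem integrable_div {g : ℂ → ℂ} (hg : Continuous g) (hs : HasCompactSupport g) :
    Integrable (fun z => g z * z⁻¹) := by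
  have h1 : Continuous fun z : ℂ => g z * (Real.exp ((1 / 2) * ‖z‖ ^ 2) : ℂ) := by fun_prop
  have h2 : HasCompactSupport fun z : ℂ => g z * (Real.exp ((1 / 2) * ‖z‖ ^ 2) : ℂ) := hs.mul_right
  obtain ⟨C, hC⟩ := h1.bounded_above_of_compact_support h2
  have h3 := (integrable_gauss_inv (K := 1) one_pos).bdd_mul (c := C)
    (f := fun z : ℂ => g z * (Real.exp ((1 / 2) * ‖z‖ ^ 2) : ℂ)) h1.aestronglyMeasurable
    (Eventually.of_forall hC)
  refine h3.congr (Eventually.of_forall fun z => ?_)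
  show g z * (Real.exp ((1 / 2) * ‖z‖ ^ 2) : ℂ) * ((Real.exp (-(1 / 2) * ‖z‖ ^ 2) : ℂ) * z⁻¹) = _
  have h4 : (Real.exp ((1 / 2) * ‖z‖ ^ 2) : ℂ) * (Real.exp (-(1 / 2) * ‖z‖ ^ 2) : ℂ) = 1 := by
    rw [← Complex.ofReal_mul, ← Real.exp_add]
    simp
  calc _ = g z * ((Real.exp ((1 / 2) * ‖z‖ ^ 2) : ℂ) * (Real.exp (-(1 / 2) * ‖z‖ ^ 2) : ℂ)) * z⁻¹ := by
        ring
    _ = _ := by rw [h4, mul_one]

theorem integrable_div_sub {g : ℂ → ℂ} (hg : Continuous g) (hs : HasCompactSupport g) (u : ℂ) :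
    Integrable (fun z => g z * (z - u)⁻¹) := by
  have h := integrable_div (g := fun z => g (z + u)) (by fun_prop)
    (hs.comp_homeomorph (Homeomorph.addRight u))
  have := h.comp_sub_right u
  simpa using this

/-- radial weight -/
def wt (z : ℂ) : ℝ := 2 / (‖z‖ ^ 2 + 1) ^ 2

theorem aux_deriv (y : ℝ) :
    HasDerivAt (fun y : ℝ => -(y ^ 2 + 1)⁻¹) (y * (2 / (y ^ 2 + 1) ^ 2)) y := by
  have h1 : HasDerivAt (fun y : ℝ => y ^ 2 + 1) (2 * y) y := by
    simpa using (hasDerivAt_pow 2 y).add_const 1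
  have h2 := (h1.inv (by positivity)).neg
  have h3 : y * (2 / (y ^ 2 + 1) ^ 2) = -(-(2 * y) / (y ^ 2 + 1) ^ 2) := by ring
  rw [h3]
  exact h2

theorem aux_tendsto : Tendsto (fun y : ℝ => -(y ^ 2 + 1)⁻¹) atTop (𝓝 0) := by
  have h : Tendsto (fun y : ℝ => y ^ 2 + 1) atTop atTop :=
    tendsto_atTop_add_const_right _ _ (tendsto_pow_atTop two_ne_zero)
  simpa using h.inv_tendsto_atTop.neg

theorem integrable_wt : Integrable wt := by
  apply integrable_radial (f := fun r => 2 / (r ^ 2 + 1) ^ 2)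
  exact integrableOn_Ioi_deriv_of_nonneg' (fun x _ => aux_deriv x)
    (fun x hx => by
      have : (0:ℝ) < x := hx
      positivity) aux_tendsto

theorem integral_wt : ∫ z, wt z = 2 * Real.pi := by
  refine (integral_radial (fun r : ℝ => 2 / (r ^ 2 + 1) ^ 2)).trans ?_
  rw [integral_Ioi_of_hasDerivAt_of_nonneg' (fun x _ => aux_deriv x)
    (fun x hx => by
      have : (0:ℝ) < x := hx
      positivity) aux_tendsto]
  simp

/-- regularized kernel -/
def Fk (t : ℝ) (z : ℂ) : ℂ := conj z * (z * conj z + (t : ℂ) ^ 2)⁻¹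

theorem q_eq (t : ℝ) (z : ℂ) : z * conj z + (t : ℂ) ^ 2 = ((‖z‖ ^ 2 + t ^ 2 : ℝ) : ℂ) := by
  rw [Complex.mul_conj, Complex.normSq_eq_norm_sq]
  push_cast
  rfl

theorem q_ne {t : ℝ} (ht : 0 < t) (z : ℂ) : z * conj z + (t : ℂ) ^ 2 ≠ 0 := by
  rw [q_eq]
  have : 0 < ‖z‖ ^ 2 + t ^ 2 := by positivity
  exact_mod_cast this.ne'

theorem hasFDerivAt_Fk {t : ℝ} (ht : 0 < t) (z : ℂ) :
    HasFDerivAt (Fk t) (fderiv ℝ (Fk t) z) z ∧ ∀ v, fderiv ℝ (Fk t) z v =
      conj v * (z * conj z + (t : ℂ) ^ 2)⁻¹ -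
        conj z * (z * conj v + v * conj z) * ((z * conj z + (t : ℂ) ^ 2) ^ 2)⁻¹ := by
  have hc : HasFDerivAt (fun z : ℂ => conj z) (Complex.conjCLE : ℂ →L[ℝ] ℂ) z :=
    Complex.conjCLE.hasFDerivAt
  have hid : HasFDerivAt (fun z : ℂ => z) (ContinuousLinearMap.id ℝ ℂ) z := hasFDerivAt_id z
  have hq := (hid.mul hc).add_const ((t : ℂ) ^ 2)
  have hinv : HasFDerivAt (fun w : ℂ => w⁻¹) _ (z * conj z + (t : ℂ) ^ 2) :=
    (hasFDerivAt_inv (𝕜 := ℂ) (q_ne ht z)).restrictScalars ℝ
  have hq' := hinv.comp z hq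
  have h := hc.mul hq'
  have h' : HasFDerivAt (Fk t) _ z := h
  refine ⟨h'.differentiableAt.hasFDerivAt, fun v => ?_⟩
  rw [h'.fderiv]
  simp
  ring

/-- `D F_t` -/
theorem D_Fk {t : ℝ} (ht : 0 < t) (z : ℂ) :
    fderiv ℝ (Fk t) z 1 + Complex.I * fderiv ℝ (Fk t) z Complex.I =
      ((2 * t ^ 2 / (‖z‖ ^ 2 + t ^ 2) ^ 2 : ℝ) : ℂ) := by
  rw [(hasFDerivAt_Fk ht z).2, (hasFDerivAt_Fk ht z).2]
  have hq := q_ne ht z
  have e : ((2 * t ^ 2 / (‖z‖ ^ 2 + t ^ 2) ^ 2 : ℝ) : ℂ) =
      2 * (t : ℂ) ^ 2 * ((z * conj z + (t : ℂ) ^ 2) ^ 2)⁻¹ := by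
    rw [q_eq]
    push_cast
    rw [div_eq_mul_inv]
  rw [e]
  simp only [map_one, Complex.conj_I, mul_one, one_mul]
  have hI : Complex.I * -Complex.I = 1 := by simp
  set q := z * conj z + (t : ℂ) ^ 2 with hqdef
  have ht2 : (t : ℂ) ^ 2 = q - z * conj z := by rw [hqdef]; ring
  rw [ht2]
  field_simp
  ring_nf
  simp only [Complex.I_sq]
  ring

theorem norm_Fk_le {t : ℝ} (ht : 0 < t) (z : ℂ) : ‖Fk t z‖ ≤ ‖z‖⁻¹ := by
  rw [Fk, q_eq, norm_mul, norm_inv, Complex.norm_real, RCLike.norm_conj,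
    Real.norm_of_nonneg (by positivity)]
  rcases eq_or_ne z 0 with rfl | hz
  · simp
  · have hz' : 0 < ‖z‖ := norm_pos_iff.mpr hz
    rw [← div_eq_mul_inv, div_le_iff₀ (by positivity)]
    rw [inv_mul_eq_div, le_div_iff₀ hz']
    nlinarith [sq_nonneg t]

theorem continuous_Fk {t : ℝ} (ht : 0 < t) : Continuous (Fk t) :=
  continuous_iff_continuousAt.mpr fun z => (hasFDerivAt_Fk ht z).1.continuousAt

theorem tendsto_Fk (z : ℂ) : Tendsto (fun t : ℝ => Fk t z) (𝓝[>] 0) (𝓝 (z⁻¹)) := by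
  rcases eq_or_ne z 0 with rfl | hz
  · simp only [Fk, map_zero, zero_mul, inv_zero]
    exact tendsto_const_nhds
  · have h0 : z * conj z ≠ 0 := mul_ne_zero hz ((map_ne_zero _).mpr hz)
    have h1 : Tendsto (fun t : ℝ => z * conj z + (t : ℂ) ^ 2) (𝓝[>] 0) (𝓝 (z * conj z)) := by
      have : Continuous fun t : ℝ => z * conj z + (t : ℂ) ^ 2 := by fun_prop
      have h := (this.tendsto 0).mono_left (nhdsWithin_le_nhds (s := Ioi 0))
      simpa using h
    have h2 := (h1.inv₀ h0).const_mul (conj z)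
    have h3 : conj z * (z * conj z)⁻¹ = z⁻¹ := by
      have hc : conj z ≠ 0 := (map_ne_zero _).mpr hz
      field_simp
    rw [h3] at h2
    exact h2

/-- Cauchy-Pompeiu at `0` -/
theorem pompeiu_zero {f : ℂ → ℂ} (hf : ContDiff ℝ 1 f) (hs : HasCompactSupport f) :
    ∫ z, Dp (ContinuousLinearMap.id ℝ ℂ) f z * z⁻¹ = -(2 * Real.pi * f 0) := by
  have hcont : ∀ v, Continuous fun z => fderiv ℝ f z v := fun v =>
    (hf.continuous_fderiv one_ne_zero).clm_apply continuous_const
  have hsup : ∀ v, HasCompactSupport fun z => fderiv ℝ f z v := fun v => by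
    exact (hs.fderiv ℝ).comp_left (g := fun L : ℂ →L[ℝ] ℂ => L v) (by simp)
  have hDc : Continuous (Dp (ContinuousLinearMap.id ℝ ℂ) f) := by
    show Continuous fun z => fderiv ℝ f z _ + Complex.I * fderiv ℝ f z _
    exact (hcont _).add (continuous_const.mul (hcont _))
  have hDs : HasCompactSupport (Dp (ContinuousLinearMap.id ℝ ℂ) f) := by
    show HasCompactSupport fun z => fderiv ℝ f z _ + Complex.I * fderiv ℝ f z _
    exact (hsup _).add ((hsup _).mul_left)
  -- integration by parts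
  have key : ∀ t : ℝ, 0 < t → ∫ z, Dp (ContinuousLinearMap.id ℝ ℂ) f z * Fk t z =
      -∫ z, ((2 * t ^ 2 / (‖z‖ ^ 2 + t ^ 2) ^ 2 : ℝ) : ℂ) * f z := by
    intro t ht
    have hF := continuous_Fk ht
    have hFd : Differentiable ℝ (Fk t) := fun z => (hasFDerivAt_Fk ht z).1.differentiableAt
    have hFc : ∀ v, Continuous fun z => fderiv ℝ (Fk t) z v := by
      intro v
      have : (fun z => fderiv ℝ (Fk t) z v) = fun z =>
          conj v * (z * conj z + (t : ℂ) ^ 2)⁻¹ -
        conj z * (z * conj v + v * conj z) * ((z * conj z + (t : ℂ) ^ 2) ^ 2)⁻¹ :=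
        funext fun z => (hasFDerivAt_Fk ht z).2 v
      rw [this]
      have hq : Continuous fun z : ℂ => z * conj z + (t : ℂ) ^ 2 := by fun_prop
      have hq1 := hq.inv₀ (q_ne ht)
      have hq2 := (hq.pow 2).inv₀ (fun z => pow_ne_zero 2 (q_ne ht z))
      have h3 : Continuous fun z : ℂ => conj z * (z * conj v + v * conj z) := by fun_prop
      exact (continuous_const.mul hq1).sub (h3.mul hq2)
    have hibp : ∀ v, ∫ z, Fk t z * fderiv ℝ f z v = -∫ z, fderiv ℝ (Fk t) z v * f z := by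
      intro v
      refine integral_mul_fderiv_eq_neg_fderiv_mul_of_integrable ?_ ?_ ?_
        (fun z _ => hFd z) (fun z _ => hf.differentiable one_ne_zero z)
      · exact ((hFc v).mul hf.continuous).integrable_of_hasCompactSupport hs.mul_left
      · exact (hF.mul (hcont v)).integrable_of_hasCompactSupport (hsup v).mul_left
      · exact (hF.mul hf.continuous).integrable_of_hasCompactSupport hs.mul_left
    have hi1 : ∀ v, Integrable fun z => Fk t z * fderiv ℝ f z v := fun v =>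
      (hF.mul (hcont v)).integrable_of_hasCompactSupport (hsup v).mul_left
    have hi2 : ∀ v, Integrable fun z => fderiv ℝ (Fk t) z v * f z := fun v =>
      ((hFc v).mul hf.continuous).integrable_of_hasCompactSupport hs.mul_left
    calc ∫ z, Dp (ContinuousLinearMap.id ℝ ℂ) f z * Fk t z
        = ∫ z, (Fk t z * fderiv ℝ f z 1 + Complex.I * (Fk t z * fderiv ℝ f z Complex.I)) := by
          refine integral_congr_ae (Eventually.of_forall fun z => ?_)
          show (fderiv ℝ f z 1 + Complex.I * fderiv ℝ f z Complex.I) * Fk t z = _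
          ring
      _ = -(∫ z, fderiv ℝ (Fk t) z 1 * f z) +
            Complex.I * -(∫ z, fderiv ℝ (Fk t) z Complex.I * f z) := by
          rw [integral_add (hi1 1) ((hi1 Complex.I).const_mul _), integral_const_mul, hibp, hibp]
      _ = -∫ z, (fderiv ℝ (Fk t) z 1 * f z + Complex.I * (fderiv ℝ (Fk t) z Complex.I * f z)) := by
          rw [integral_add (hi2 1) ((hi2 Complex.I).const_mul _), integral_const_mul]
          ring
      _ = _ := by
          congr 1
          refine integral_congr_ae (Eventually.of_forall fun z => ?_)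
          show fderiv ℝ (Fk t) z 1 * f z + Complex.I * (fderiv ℝ (Fk t) z Complex.I * f z) =
            ((2 * t ^ 2 / (‖z‖ ^ 2 + t ^ 2) ^ 2 : ℝ) : ℂ) * f z
          rw [← D_Fk ht z]
          ring
  -- scaling
  have hscale : ∀ t : ℝ, 0 < t → ∫ z, ((2 * t ^ 2 / (‖z‖ ^ 2 + t ^ 2) ^ 2 : ℝ) : ℂ) * f z =
      ∫ w : ℂ, ((wt w : ℝ) : ℂ) * f (t • w) := by
    intro t ht
    have h := Measure.integral_comp_smul (volume : Measure ℂ)
      (fun z => ((2 * t ^ 2 / (‖z‖ ^ 2 + t ^ 2) ^ 2 : ℝ) : ℂ) * f z) t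
    rw [Complex.finrank_real_complex, abs_of_pos (by positivity)] at h
    have h2 : ∫ z, ((2 * t ^ 2 / (‖z‖ ^ 2 + t ^ 2) ^ 2 : ℝ) : ℂ) * f z =
        (t ^ 2 : ℝ) • ∫ w : ℂ, ((2 * t ^ 2 / (‖t • w‖ ^ 2 + t ^ 2) ^ 2 : ℝ) : ℂ) * f (t • w) := by
      rw [h, smul_smul, mul_inv_cancel₀ (by positivity), one_smul]
    rw [h2, ← integral_smul]
    refine integral_congr_ae (Eventually.of_forall fun w => ?_)
    show (t ^ 2 : ℝ) • (((2 * t ^ 2 / (‖t • w‖ ^ 2 + t ^ 2) ^ 2 : ℝ) : ℂ) * f (t • w)) = _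
    rw [Complex.real_smul, ← mul_assoc, ← Complex.ofReal_mul]
    congr 2
    rw [wt, norm_smul, Real.norm_of_nonneg ht.le]
    field_simp
  -- limits
  have L1 : Tendsto (fun t : ℝ => ∫ z, Dp (ContinuousLinearMap.id ℝ ℂ) f z * Fk t z) (𝓝[>] 0)
      (𝓝 (∫ z, Dp (ContinuousLinearMap.id ℝ ℂ) f z * z⁻¹)) := by
    refine tendsto_integral_filter_of_dominated_convergence
      (fun z => ‖Dp (ContinuousLinearMap.id ℝ ℂ) f z * z⁻¹‖) ?_ ?_
      (integrable_div hDc hDs).norm ?_
    · filter_upwards [self_mem_nhdsWithin] with t ht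
      exact (hDc.mul (continuous_Fk ht)).aestronglyMeasurable
    · filter_upwards [self_mem_nhdsWithin] with t ht
      refine Eventually.of_forall fun z => ?_
      rw [norm_mul, norm_mul, norm_inv]
      exact mul_le_mul_of_nonneg_left (norm_Fk_le ht z) (norm_nonneg _)
    · exact Eventually.of_forall fun z => (tendsto_Fk z).const_mul _
  obtain ⟨C, hC⟩ := hf.continuous.bounded_above_of_compact_support hs
  have L2 : Tendsto (fun t : ℝ => ∫ w : ℂ, ((wt w : ℝ) : ℂ) * f (t • w)) (𝓝[>] 0)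
      (𝓝 (∫ w : ℂ, ((wt w : ℝ) : ℂ) * f 0)) := by
    have hwc : Continuous wt := by
      unfold wt
      exact continuous_const.div (by fun_prop) (fun z => by positivity)
    refine tendsto_integral_filter_of_dominated_convergence (fun w => ‖wt w‖ * C) ?_ ?_
      (integrable_wt.norm.mul_const C) ?_
    · refine Eventually.of_forall fun t => Continuous.aestronglyMeasurable ?_
      have := hf.continuous
      fun_prop
    · refine Eventually.of_forall fun t => Eventually.of_forall fun w => ?_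
      rw [norm_mul, Complex.norm_real]
      exact mul_le_mul_of_nonneg_left (hC _) (norm_nonneg _)
    · refine Eventually.of_forall fun w => ?_
      have : Continuous fun t : ℝ => ((wt w : ℝ) : ℂ) * f (t • w) := by
        have := hf.continuous
        fun_prop
      have h := (this.tendsto 0).mono_left (nhdsWithin_le_nhds (s := Ioi 0))
      simpa using h
  have L3 : Tendsto (fun t : ℝ => ∫ z, Dp (ContinuousLinearMap.id ℝ ℂ) f z * Fk t z) (𝓝[>] 0)
      (𝓝 (-∫ w : ℂ, ((wt w : ℝ) : ℂ) * f 0)) := by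
    refine L2.neg.congr' ?_
    filter_upwards [self_mem_nhdsWithin] with t ht
    rw [key t ht, hscale t ht]
  rw [tendsto_nhds_unique L1 L3, integral_mul_const, integral_complex_ofReal, integral_wt]
  push_cast
  ring

/-- Cauchy-Pompeiu formula -/
theorem pompeiu {f : ℂ → ℂ} (hf : ContDiff ℝ 1 f) (hs : HasCompactSupport f) (u : ℂ) :
    ∫ z, Dp (ContinuousLinearMap.id ℝ ℂ) f z * (z - u)⁻¹ = -(2 * Real.pi * f u) := by
  have h := pompeiu_zero (f := fun z => f (z + u)) (by fun_prop)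
    (hs.comp_homeomorph (Homeomorph.addRight u))
  rw [zero_add] at h
  rw [← h, ← integral_add_right_eq_self (fun z => Dp (ContinuousLinearMap.id ℝ ℂ) f z * (z - u)⁻¹) u]
  refine integral_congr_ae (Eventually.of_forall fun z => ?_)
  show Dp (ContinuousLinearMap.id ℝ ℂ) f (z + u) * (z + u - u)⁻¹ = _
  rw [add_sub_cancel_right]
  congr 1
  show fderiv ℝ f (z + u) _ + Complex.I * fderiv ℝ f (z + u) _ =
    fderiv ℝ (fun z => f (z + u)) z _ + Complex.I * fderiv ℝ (fun z => f (z + u)) z _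
  rw [fderiv_comp_add_right]

/-- the integral of a derivative vanishes -/
theorem integral_Dp_zero {f : ℂ → ℂ} (hf : ContDiff ℝ 1 f) (hs : HasCompactSupport f) :
    ∫ z, Dp (ContinuousLinearMap.id ℝ ℂ) f z = 0 := by
  have hcont : ∀ v, Continuous fun z => fderiv ℝ f z v := fun v =>
    (hf.continuous_fderiv one_ne_zero).clm_apply continuous_const
  have hsup : ∀ v, HasCompactSupport fun z => fderiv ℝ f z v := fun v => by
    exact (hs.fderiv ℝ).comp_left (g := fun L : ℂ →L[ℝ] ℂ => L v) (by simp)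
  have hi : ∀ v, Integrable fun z => fderiv ℝ f z v := fun v =>
    (hcont v).integrable_of_hasCompactSupport (hsup v)
  have h0 : ∀ v, ∫ z, fderiv ℝ f z v = 0 := by
    intro v
    have h := integral_mul_fderiv_eq_neg_fderiv_mul_of_integrable (f := fun _ : ℂ => (1 : ℂ))
      (g := f) (v := v) (μ := volume) (by simp) (by simpa using hi v)
      (by simpa using hf.continuous.integrable_of_hasCompactSupport hs)
      (fun _ _ => differentiableAt_const _) (fun z _ => hf.differentiable one_ne_zero z)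
    simpa using h
  show ∫ z, (fderiv ℝ f z _ + Complex.I * fderiv ℝ f z _) = 0
  rw [integral_add (hi _) ((hi _).const_mul _), integral_const_mul, h0, h0]
  simp

end Pomp
end Crest.Agent.R080
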