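import Crest.Agent.R080.Stmts2

/-!
Row 80 (S0107), T7: geometry of null vectors and the interface `StmtLocU` (helper631).
-/

set_option autoImplicit false

open MeasureTheory Filter
open scoped ContDiff Topology
open Crest.AnalysisR.VecCalc3 Crest.AnalysisR.PDE.Elasticity

noncomputable section
namespace Crest.Agent.R080
namespace Slab

local notation "⟪" x ", " y "⟫" => inner ℝ x y

/-- real part of a complex vector -/
def reV (θ : Fin 3 → ℂ) : R3 := WithLp.toLp 2 fun j => (θ j).re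
/-- imaginary part of a complex vector -/
def imV (θ : Fin 3 → ℂ) : R3 := WithLp.toLp 2 fun j => (θ j).im
/-- `|Re θ|²` -/
def rho2 (θ : Fin 3 → ℂ) : ℝ := ∑ j, (θ j).re ^ 2
/-- the plane parametrization `z ↦ Re z • Re θ + Im z • Im θ` -/
def iot (θ : Fin 3 → ℂ) : ℂ →L[ℝ] R3 :=
  (Complex.reCLM.smulRight (reV θ)) + (Complex.imCLM.smulRight (imV θ))
/-- unit normal of the plane spanned by `Re θ`, `Im θ` -/
def nrm (θ : Fin 3 → ℂ) : R3 :=
  WithLp.toLp 2 ![((θ 1).re * (θ 2).im - (θ 2).re * (θ 1).im) / rho2 θ,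
    ((θ 2).re * (θ 0).im - (θ 0).re * (θ 2).im) / rho2 θ,
    ((θ 0).re * (θ 1).im - (θ 1).re * (θ 0).im) / rho2 θ]
/-- complex coordinate along the plane -/
def zc (θ : Fin 3 → ℂ) (x : R3) : ℂ :=
  ((⟪reV θ, x⟫ / rho2 θ : ℝ) : ℂ) + ((⟪imV θ, x⟫ / rho2 θ : ℝ) : ℂ) * Complex.I

end Slab

open Slab

local notation "⟪" x ", " y "⟫" => inner ℝ x y

/-- uniform local fundamental matrices near the planes `⟪nrm θ, x⟫ = t₀` -/
def StmtLocU : Prop :=
  ∀ (ι : Type) [Fintype ι] [DecidableEq ι] (S : Type) [TopologicalSpace S] (θ : S → Fin 3 → ℂ),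
    Continuous θ → (∀ s, IsNull (θ s)) →
    ∀ A : S → ι → ι → R3 → ℂ, (∀ s i j, ContDiff ℝ ∞ (A s i j)) →
    (∀ i j, Continuous fun p : S × R3 => A p.1 i j p.2) → ∀ (R : ℝ) (s₀ : S) (T : ℝ),
    ∃ ε M : ℝ, 0 < ε ∧ 0 < M ∧ ∀ᶠ s in 𝓝 s₀, ∀ t₀ : ℝ, |t₀| ≤ T →
      ∃ C Ci : ι → ι → R3 → ℂ,
        (∀ i j, ContDiff ℝ ∞ (C i j)) ∧ (∀ i j, ContDiff ℝ ∞ (Ci i j)) ∧
        (∀ x : R3, ‖x‖ < R → |⟪nrm (θ s), x⟫ - t₀| < ε →
          (∀ i j, ‖C i j x‖ ≤ M) ∧ (∀ i j, ‖Ci i j x‖ ≤ M) ∧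
          (∀ i j, DD (θ s) (C i j) x = ∑ l, A s i l x * C l j x) ∧
          (∀ i j, DD (θ s) (Ci i j) x = -∑ l, Ci i l x * A s l j x) ∧
          (∀ i j, ∑ l, C i l x * Ci l j x = if i = j then 1 else 0) ∧
          (∀ i j, ∑ l, Ci i l x * C l j x = if i = j then 1 else 0))

namespace Slab

/-! ### basic geometry -/

variable {θ : Fin 3 → ℂ}

@[simp] theorem reV_apply (θ : Fin 3 → ℂ) (j : Fin 3) : reV θ j = (θ j).re := rfl
@[simp] theorem imV_apply (θ : Fin 3 → ℂ) (j : Fin 3) : imV θ j = (θ j).im := rfl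

theorem iot_apply (θ : Fin 3 → ℂ) (z : ℂ) : iot θ z = z.re • reV θ + z.im • imV θ := rfl

theorem iot_one (θ : Fin 3 → ℂ) : iot θ 1 = reV θ := by simp [iot_apply]
theorem iot_I (θ : Fin 3 → ℂ) : iot θ Complex.I = imV θ := by simp [iot_apply]

theorem inner_R3 (x y : R3) : ⟪x, y⟫ = x 0 * y 0 + x 1 * y 1 + x 2 * y 2 := by
  simp [PiLp.inner_apply, Fin.sum_univ_three]; ring

theorem vec_decomp (v : R3) : v = ∑ j, v j • ee j := by
  ext i
  fin_cases i <;> simp [Fin.sum_univ_three]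

theorem fderiv_eq_sum_pd (f : R3 → ℂ) (x v : R3) : fderiv ℝ f x v = ∑ j, (v j : ℂ) * pd j f x := by
  conv_lhs => rw [vec_decomp v]
  simp [pd]

/-- `θ·∇` is `∂₁ + i ∂₂` along the plane of `θ` -/
theorem DD_eq_Dp (θ : Fin 3 → ℂ) (f : R3 → ℂ) (x : R3) : DD θ f x = Dp (iot θ) f x := by
  unfold DD Dp
  rw [iot_one, iot_I, fderiv_eq_sum_pd, fderiv_eq_sum_pd, Finset.mul_sum, ← Finset.sum_add_distrib]
  refine Finset.sum_congr rfl fun j _ => ?_
  conv_lhs => rw [← Complex.re_add_im (θ j)]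
  simp only [reV_apply, imV_apply]
  ring

theorem null_re (h : IsNull θ) : rho2 θ = ∑ j, (θ j).im ^ 2 := by
  have := congrArg Complex.re h.2
  simp [Fin.sum_univ_three, pow_two] at this
  simp only [rho2, Fin.sum_univ_three]
  nlinarith

theorem null_im (h : IsNull θ) : ∑ j, (θ j).re * (θ j).im = 0 := by
  have := congrArg Complex.im h.2
  simp [Fin.sum_univ_three, pow_two] at this
  simp only [Fin.sum_univ_three]
  nlinarith

theorem rho2_nonneg (θ : Fin 3 → ℂ) : 0 ≤ rho2 θ := Finset.sum_nonneg fun _ _ => sq_nonneg _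

theorem rho2_pos (h : IsNull θ) : 0 < rho2 θ := by
  refine lt_of_le_of_ne (rho2_nonneg θ) fun h0 => h.1 ?_
  have h1 : ∀ j, (θ j).re = 0 := by
    intro j
    have := (Finset.sum_eq_zero_iff_of_nonneg (fun j _ => sq_nonneg (θ j).re)).1 h0.symm j
      (Finset.mem_univ j)
    simpa using this
  have h2 : ∀ j, (θ j).im = 0 := by
    intro j
    have h3 := null_re h
    rw [← h0] at h3
    have := (Finset.sum_eq_zero_iff_of_nonneg (fun j _ => sq_nonneg (θ j).im)).1 h3.symm j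
      (Finset.mem_univ j)
    simpa using this
  ext j
  exact Complex.ext (by simp [h1]) (by simp [h2])

theorem inner_reV_reV (θ : Fin 3 → ℂ) : ⟪reV θ, reV θ⟫ = rho2 θ := by
  rw [inner_R3]; simp only [reV_apply, rho2, Fin.sum_univ_three]; ring
theorem inner_imV_imV (h : IsNull θ) : ⟪imV θ, imV θ⟫ = rho2 θ := by
  rw [null_re h, inner_R3]; simp only [imV_apply, Fin.sum_univ_three]; ring
theorem inner_reV_imV (h : IsNull θ) : ⟪reV θ, imV θ⟫ = 0 := by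
  rw [← null_im h]; simp [inner_R3, Fin.sum_univ_three]
theorem inner_imV_reV (h : IsNull θ) : ⟪imV θ, reV θ⟫ = 0 := by
  rw [← null_im h]; simp [inner_R3, Fin.sum_univ_three]; ring

theorem inner_nrm_reV (θ : Fin 3 → ℂ) : ⟪nrm θ, reV θ⟫ = 0 := by
  simp [inner_R3, nrm]; ring
theorem inner_nrm_imV (θ : Fin 3 → ℂ) : ⟪nrm θ, imV θ⟫ = 0 := by
  simp [inner_R3, nrm]; ring

theorem inner_nrm_iot (θ : Fin 3 → ℂ) (z : ℂ) : ⟪nrm θ, iot θ z⟫ = 0 := by
  rw [iot_apply, inner_add_right, inner_smul_right, inner_smul_right, inner_nrm_reV, inner_nrm_imV]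
  simp

theorem inner_nrm_nrm (h : IsNull θ) : ⟪nrm θ, nrm θ⟫ = 1 := by
  have hr := rho2_pos h
  have h1 : rho2 θ = (θ 0).re ^ 2 + (θ 1).re ^ 2 + (θ 2).re ^ 2 := by
    simp [rho2, Fin.sum_univ_three]
  have h2 : rho2 θ = (θ 0).im ^ 2 + (θ 1).im ^ 2 + (θ 2).im ^ 2 := by
    rw [null_re h]; simp [Fin.sum_univ_three]
  have h3 : (θ 0).re * (θ 0).im + (θ 1).re * (θ 1).im + (θ 2).re * (θ 2).im = 0 := by
    have := null_im h; simpa [Fin.sum_univ_three] using this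
  have h4 : ⟪nrm θ, nrm θ⟫ = (((θ 1).re * (θ 2).im - (θ 2).re * (θ 1).im) ^ 2 +
    ((θ 2).re * (θ 0).im - (θ 0).re * (θ 2).im) ^ 2 +
    ((θ 0).re * (θ 1).im - (θ 1).re * (θ 0).im) ^ 2) / (rho2 θ) ^ 2 := by
    rw [inner_R3]
    simp only [nrm, Matrix.cons_val_zero, Matrix.cons_val_one, Matrix.cons_val]
    field_simp
  have h5 : ((θ 1).re * (θ 2).im - (θ 2).re * (θ 1).im) ^ 2 +
    ((θ 2).re * (θ 0).im - (θ 0).re * (θ 2).im) ^ 2 +
    ((θ 0).re * (θ 1).im - (θ 1).re * (θ 0).im) ^ 2 =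
    ((θ 0).re ^ 2 + (θ 1).re ^ 2 + (θ 2).re ^ 2) * ((θ 0).im ^ 2 + (θ 1).im ^ 2 + (θ 2).im ^ 2)
    - ((θ 0).re * (θ 0).im + (θ 1).re * (θ 1).im + (θ 2).re * (θ 2).im) ^ 2 := by ring
  rw [h4, h5, h3, ← h1, ← h2, div_eq_one_iff_eq (by positivity)]
  ring

theorem norm_nrm (h : IsNull θ) : ‖nrm θ‖ = 1 := by
  have := inner_nrm_nrm h
  rw [real_inner_self_eq_norm_sq] at this
  nlinarith [norm_nonneg (nrm θ)]

theorem abs_inner_nrm_le (h : IsNull θ) (x : R3) : |⟪nrm θ, x⟫| ≤ ‖x‖ := by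
  have := abs_real_inner_le_norm (nrm θ) x
  rwa [norm_nrm h, one_mul] at this

theorem norm_iot (h : IsNull θ) (z : ℂ) : ‖iot θ z‖ = Real.sqrt (rho2 θ) * ‖z‖ := by
  have h1 : ‖iot θ z‖ ^ 2 = rho2 θ * ‖z‖ ^ 2 := by
    rw [← real_inner_self_eq_norm_sq, iot_apply, inner_add_left, inner_add_right, inner_add_right,
      inner_smul_left, inner_smul_left, inner_smul_right, inner_smul_right,
      inner_smul_left, inner_smul_left, inner_smul_right, inner_smul_right,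
      inner_reV_reV, inner_imV_imV h, inner_reV_imV h, inner_imV_reV h, Complex.sq_norm,
      Complex.normSq_apply]
    simp; ring
  have h2 : ‖iot θ z‖ = Real.sqrt (rho2 θ * ‖z‖ ^ 2) := by
    rw [← h1, Real.sqrt_sq (norm_nonneg _)]
  rw [h2, Real.sqrt_mul (rho2_nonneg θ), Real.sqrt_sq (norm_nonneg _)]

theorem reV_continuous : Continuous reV := by unfold reV; fun_prop
theorem imV_continuous : Continuous imV := by unfold imV; fun_prop
theorem rho2_continuous : Continuous rho2 := by unfold rho2; fun_prop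

theorem nrm_continuousAt (h : IsNull θ) : ContinuousAt nrm θ := by
  have hr : rho2 θ ≠ 0 := (rho2_pos h).ne'
  unfold nrm
  refine (PiLp.continuous_toLp 2 _).continuousAt.comp (x := θ) ?_
  refine continuousAt_pi.2 fun i => ?_
  have c := rho2_continuous.continuousAt (x := θ)
  fin_cases i
  all_goals
    refine ContinuousAt.div ?_ c hr
    fun_prop

/-- functions of `⟪nrm θ, x⟫` are `θ·∇`-closed -/
theorem DD_nrm (θ : Fin 3 → ℂ) (f : ℝ → ℂ) (hf : Differentiable ℝ f) (x : R3) :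
    DD θ (fun x => f ⟪nrm θ, x⟫) x = 0 := by
  have h1 : ∀ v : R3, fderiv ℝ (fun x : R3 => f ⟪nrm θ, x⟫) x v
      = fderiv ℝ f ⟪nrm θ, x⟫ ⟪nrm θ, v⟫ := by
    intro v
    have : HasFDerivAt (fun x : R3 => f ⟪nrm θ, x⟫)
        ((fderiv ℝ f ⟪nrm θ, x⟫).comp (innerSL ℝ (nrm θ))) x :=
      (hf _).hasFDerivAt.comp x (innerSL ℝ (nrm θ)).hasFDerivAt
    rw [this.fderiv]; rfl
  rw [DD_eq_Dp, Dp, h1, h1, iot_one, iot_I, inner_nrm_reV, inner_nrm_imV]
  simp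

end Slab
end Crest.Agent.R080
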