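import Crest.Agent.R080.NullFrame
import Crest.Agent.R080.SlabDefs

/-!
Row 80 (S0107), task T7b (assembly): right inverse of `D - A`, locally uniformly in a parameter,
from uniform local fundamental matrices (`StmtLocU`) and the Cauchy transform (`StmtCauchy`).
-/

set_option autoImplicit false
set_option linter.unusedSectionVars false

open MeasureTheory Filter
open scoped ContDiff Topology Manifold
open Crest.AnalysisR.VecCalc3 Crest.AnalysisR.PDE.Elasticity

noncomputable section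
namespace Crest.Agent.R080.RI

open Slab NullFrame

/-- partition of unity on a segment subordinate to intervals of radius `d` centred in the
segment -/
theorem line_partition' (T d : ℝ) (hd : 0 < d) :
    ∃ (N : ℕ) (c : Fin N → ℝ) (η γ : Fin N → ℝ → ℝ), (∀ a, |c a| ≤ T) ∧
      (∀ a, ContDiff ℝ ∞ (η a)) ∧
      (∀ a, ContDiff ℝ ∞ (γ a)) ∧ (∀ t, |t| ≤ T → ∑ a, η a t = 1) ∧
      (∀ a t, η a t ≠ 0 → γ a t = 1) ∧ (∀ a t, γ a t ≠ 0 → |t - c a| < d) ∧
      (∀ a t, 0 ≤ η a t) ∧ (∀ a t, 0 ≤ γ a t) ∧ (∀ a t, γ a t ≤ 1) := by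
  obtain ⟨S, hST, hS⟩ := isCompact_Icc.elim_nhds_subcover
    (s := Set.Icc (-T) T) (fun t : ℝ => Metric.ball t (d / 2))
    (fun t _ => Metric.ball_mem_nhds _ (by positivity))
  let e := S.equivFin
  let c : Fin S.card → ℝ := fun a => (e.symm a : ℝ)
  have hU : Set.Icc (-T) T ⊆ ⋃ a : Fin S.card, Metric.ball (c a) (d / 2) := by
    intro t ht
    obtain ⟨s, hs, hts⟩ := Set.mem_iUnion₂.mp (hS ht)
    refine Set.mem_iUnion.mpr ⟨e ⟨s, hs⟩, ?_⟩
    have : c (e ⟨s, hs⟩) = s := by simp [c]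
    rw [this]; exact hts
  obtain ⟨f, hf⟩ := SmoothPartitionOfUnity.exists_isSubordinate 𝓘(ℝ, ℝ)
    (isClosed_Icc (a := -T) (b := T)) (fun a : Fin S.card => Metric.ball (c a) (d / 2))
    (fun a => Metric.isOpen_ball) hU
  let γ : (a : Fin S.card) → ContDiffBump (c a) := fun a =>
    ⟨d / 2, d, by positivity, by linarith⟩
  refine ⟨S.card, c, fun a => f a, fun a => γ a, ?_, fun a => (f a).contMDiff.contDiff,
    fun a => (γ a).contDiff, ?_, ?_, ?_, fun a t => f.nonneg a t, fun a t => (γ a).nonneg,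
    fun a t => (γ a).le_one⟩
  · intro a
    have h1 : c a ∈ Set.Icc (-T) T := hST _ (e.symm a).2
    exact abs_le.mpr h1
  · intro t ht
    have ht' : t ∈ Set.Icc (-T) T := ⟨(abs_le.mp ht).1, (abs_le.mp ht).2⟩
    have := f.sum_eq_one ht'
    rwa [finsum_eq_sum_of_fintype] at this
  · intro a t h
    have h1 : t ∈ tsupport (f a) := subset_tsupport _ h
    have h2 := hf a h1
    exact (γ a).one_of_mem_closedBall (Metric.ball_subset_closedBall h2)
  · intro a t h
    have h1 : t ∈ Function.support (γ a) := h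
    rw [(γ a).support_eq] at h1
    exact Metric.mem_ball.mp h1

end RI

open RI Slab NullFrame

/-- T7b from the uniform local statement -/
theorem t_RI' (hC : StmtCauchy) (h : StmtLocU) : StmtRI := by
  intro n _ _ S _ θ hθc hθ A hA hAc R s₀
  have hRb : (0 : ℝ) < |R| + 1 := by positivity
  obtain ⟨ε, M0, hε, hM0, hloc⟩ := h n S θ hθc hθ A hA hAc (|R| + 1) s₀ |R|
  obtain ⟨N, c, η, γ, hcT, hη, hγ, hsum, hηγ, hγd, hη0, hγ0, hγ1⟩ := line_partition' |R| ε hε
  -- lower bound for the planes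
  have hr0 : 0 < Real.sqrt (rho2 (θ s₀)) := Real.sqrt_pos.mpr (rho2_pos (hθ s₀))
  obtain ⟨M1, hM1, hCau⟩ := hC R3 (Real.sqrt (rho2 (θ s₀)) / 2) (|R| + 1) (by positivity) hRb
  have hlow : ∀ᶠ s in 𝓝 s₀, Real.sqrt (rho2 (θ s₀)) / 2 < Real.sqrt (rho2 (θ s)) := by
    have hcont : Continuous fun s => Real.sqrt (rho2 (θ s)) :=
      Real.continuous_sqrt.comp (rho2_continuous.comp hθc)
    exact hcont.continuousAt.eventually_const_lt (by linarith)
  let K : ℝ := Fintype.card n
  have hK0 : 0 ≤ K := by positivity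
  refine ⟨K * (M0 * (M1 * (K * M0))), ?_⟩
  filter_upwards [hloc, hlow] with s hs hlow
  intro φ hφ b hb
  rcases isEmpty_or_nonempty n with hn | hn
  · exact ⟨fun _ _ => 0, fun i => (hn.false i).elim, fun _ _ i => (hn.false i).elim,
      fun i => (hn.false i).elim⟩
  have hb0 : 0 ≤ b := (norm_nonneg _).trans (hb hn.some 0)
  choose C Ci hC1 hCi1 hid using fun a => hs (c a) (hcT a)
  -- the cutoffs
  let tt : R3 → ℝ := fun x => inner ℝ (nrm (θ s)) x
  have htt : ContDiff ℝ ∞ tt := contDiff_const.inner ℝ contDiff_id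
  have hsm : ∀ f : ℝ → ℝ, ContDiff ℝ ∞ f → ContDiff ℝ ∞ fun x : R3 => ((f (tt x) : ℝ) : ℂ) :=
    fun f hf => Complex.ofRealCLM.contDiff.comp (hf.comp htt)
  have hDz : ∀ f : ℝ → ℝ, ContDiff ℝ ∞ f → ∀ x,
      Dp (iot (θ s)) (fun x : R3 => ((f (tt x) : ℝ) : ℂ)) x = 0 := by
    intro f hf x
    rw [← Slab.DD_eq_Dp]
    have h1 : ContDiff ℝ ∞ fun s : ℝ => ((f s : ℝ) : ℂ) := Complex.ofRealCLM.contDiff.comp hf
    exact DD_nrm (θ s) (fun s : ℝ => ((f s : ℝ) : ℂ)) (h1.differentiable (by simp)) x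
  let χ : ContDiffBump (0 : R3) := ⟨|R| + 1 / 2, |R| + 1, by positivity, by linarith⟩
  have hχs : ContDiff ℝ ∞ fun x : R3 => ((χ x : ℝ) : ℂ) := Complex.ofRealCLM.contDiff.comp χ.contDiff
  let Φ : Fin N → n → R3 → ℂ := fun a i x =>
    ((χ x : ℝ) : ℂ) * ((γ a (tt x) : ℝ) : ℂ) * ∑ j, Ci a i j x * φ j x
  have hΦ : ∀ a i, ContDiff ℝ ∞ (Φ a i) := fun a i =>
    (hχs.mul (hsm _ (hγ a))).mul (ContDiff.sum fun j _ => (hCi1 a i j).mul (hφ j))
  have hΦ0 : ∀ a i (x : R3), |R| + 1 ≤ ‖x‖ → Φ a i x = 0 := by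
    intro a i x hx
    have h1 : χ x = 0 := by
      rw [← Function.notMem_support, χ.support_eq, Metric.mem_ball, dist_zero_right]
      exact not_lt.mpr hx
    simp [Φ, h1]
  have hΦb : ∀ a i x, ‖Φ a i x‖ ≤ K * M0 * b := by
    intro a i x
    by_cases h1 : χ x = 0
    · simp only [Φ, h1, Complex.ofReal_zero, zero_mul, norm_zero]
      positivity
    by_cases h2 : γ a (tt x) = 0
    · simp only [Φ, h2, Complex.ofReal_zero, mul_zero, zero_mul, norm_zero]
      positivity
    have h3 : ‖x‖ < |R| + 1 := by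
      have : x ∈ Function.support χ := h1
      rw [χ.support_eq] at this
      exact mem_ball_zero_iff.mp this
    have h4 := (hid a x h3 (hγd a _ h2)).2.1
    have h5 : ‖∑ j, Ci a i j x * φ j x‖ ≤ K * M0 * b := by
      refine (norm_sum_le _ _).trans ?_
      have : ∀ j ∈ (Finset.univ : Finset n), ‖Ci a i j x * φ j x‖ ≤ M0 * b := by
        intro j _
        rw [norm_mul]
        exact mul_le_mul (h4 i j) (hb j x) (norm_nonneg _) hM0.le
      refine (Finset.sum_le_sum this).trans ?_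
      rw [Finset.sum_const, nsmul_eq_mul, Finset.card_univ]
      exact (mul_assoc _ _ _).ge
    have h6 : ‖((χ x : ℝ) : ℂ) * ((γ a (tt x) : ℝ) : ℂ)‖ ≤ 1 := by
      rw [norm_mul, Complex.norm_real, Complex.norm_real, Real.norm_eq_abs, Real.norm_eq_abs,
        abs_of_nonneg χ.nonneg, abs_of_nonneg (hγ0 a _)]
      exact mul_le_one₀ χ.le_one (hγ0 a _) (hγ1 a _)
    calc ‖Φ a i x‖ = ‖((χ x : ℝ) : ℂ) * ((γ a (tt x) : ℝ) : ℂ)‖ * ‖∑ j, Ci a i j x * φ j x‖ :=
          norm_mul _ _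
      _ ≤ 1 * (K * M0 * b) := mul_le_mul h6 h5 (norm_nonneg _) zero_le_one
      _ = K * M0 * b := one_mul _
  have hiot : ∀ z, Real.sqrt (rho2 (θ s₀)) / 2 * ‖z‖ ≤ ‖iot (θ s) z‖ := by
    intro z
    rw [norm_iot (hθ s)]
    exact mul_le_mul_of_nonneg_right hlow.le (norm_nonneg _)
  choose u hu hDu hub using fun a i => hCau (iot (θ s)) hiot (Φ a i) (hΦ a i) (hΦ0 a i)
    (K * M0 * b) (hΦb a i)
  let ψ : n → R3 → ℂ := fun i x => ∑ a, ((η a (tt x) : ℝ) : ℂ) * ∑ j, C a i j x * u a j x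
  have hin : ∀ a i, ContDiff ℝ ∞ fun x => ∑ j, C a i j x * u a j x := fun a i =>
    ContDiff.sum fun j _ => (hC1 a i j).mul (hu a j)
  have hψ : ∀ i, ContDiff ℝ ∞ (ψ i) := fun i =>
    ContDiff.sum fun a _ => (hsm _ (hη a)).mul (hin a i)
  have dC : ∀ a i j x, DifferentiableAt ℝ (C a i j) x := fun a i j x =>
    (hC1 a i j).differentiable (by simp) x
  have du : ∀ a j x, DifferentiableAt ℝ (u a j) x := fun a j x =>
    (hu a j).differentiable (by simp) x
  have dη : ∀ a x, DifferentiableAt ℝ (fun x : R3 => ((η a (tt x) : ℝ) : ℂ)) x := fun a x =>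
    (hsm _ (hη a)).differentiable (by simp) x
  have din : ∀ a i x, DifferentiableAt ℝ (fun x => ∑ j, C a i j x * u a j x) x := fun a i x =>
    (hin a i).differentiable (by simp) x
  -- facts where `η a` does not vanish
  have hfact : ∀ a (x : R3), ‖x‖ < R → η a (tt x) ≠ 0 → ‖x‖ < |R| + 1 ∧
      |tt x - c a| < ε ∧ γ a (tt x) = 1 := by
    intro a x hx hne
    have h1 := hηγ a _ hne
    refine ⟨?_, hγd a _ (by rw [h1]; exact one_ne_zero), h1⟩
    have := le_abs_self R
    linarith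
  have hsumx : ∀ x : R3, ‖x‖ < R → ∑ a, η a (tt x) = 1 := by
    intro x hx
    refine hsum _ ?_
    have h1 := abs_inner_nrm_le (hθ s) x
    have h2 := le_abs_self R
    exact h1.trans (by linarith)
  refine ⟨ψ, hψ, ?_, ?_⟩
  · intro x hx i
    have hχ1 : χ x = 1 := by
      refine χ.one_of_mem_closedBall ?_
      rw [mem_closedBall_zero_iff]
      change ‖x‖ ≤ |R| + 1 / 2
      have := le_abs_self R
      linarith
    rw [Slab.DD_eq_Dp]
    have e1 : Dp (iot (θ s)) (ψ i) x = ∑ a, ((η a (tt x) : ℝ) : ℂ) *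
        ∑ j, (Dp (iot (θ s)) (C a i j) x * u a j x + C a i j x * Φ a j x) := by
      change Dp (iot (θ s)) (fun y => ∑ a, ((η a (tt y) : ℝ) : ℂ) * ∑ j, C a i j y * u a j y) x = _
      rw [Dp_sum _ _ _ fun a _ => (dη a x).fun_mul (din a i x)]
      refine Finset.sum_congr rfl fun a _ => ?_
      rw [Dp_mul _ (dη a x) (din a i x), hDz _ (hη a), zero_mul, zero_add,
        Dp_sum _ _ _ fun j _ => (dC a i j x).fun_mul (du a j x)]
      congr 1
      refine Finset.sum_congr rfl fun j _ => ?_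
      rw [Dp_mul _ (dC a i j x) (du a j x), hDu]
    have e2 : ∀ a, ((η a (tt x) : ℝ) : ℂ) *
        ∑ j, (Dp (iot (θ s)) (C a i j) x * u a j x + C a i j x * Φ a j x) =
        ((η a (tt x) : ℝ) : ℂ) *
          ((∑ l, A s i l x * ∑ j, C a l j x * u a j x) + φ i x) := by
      intro a
      by_cases h0 : η a (tt x) = 0
      · simp [h0]
      obtain ⟨f1, f2, f3⟩ := hfact a x hx h0
      obtain ⟨_, _, g1, _, g2, _⟩ := hid a x f1 f2
      congr 1
      rw [Finset.sum_add_distrib]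
      congr 1
      · have : ∀ j, Dp (iot (θ s)) (C a i j) x * u a j x =
            ∑ l, A s i l x * (C a l j x * u a j x) := by
          intro j
          rw [← Slab.DD_eq_Dp, g1 i j, Finset.sum_mul]
          exact Finset.sum_congr rfl fun l _ => by ring
        simp_rw [this]
        rw [Finset.sum_comm]
        exact Finset.sum_congr rfl fun l _ => by rw [Finset.mul_sum]
      · have : ∀ j, C a i j x * Φ a j x = ∑ l, (C a i j x * Ci a j l x) * φ l x := by
          intro j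
          simp only [Φ, hχ1, f3, Complex.ofReal_one, one_mul]
          rw [Finset.mul_sum]
          exact Finset.sum_congr rfl fun l _ => by ring
        simp_rw [this]
        rw [Finset.sum_comm]
        simp_rw [← Finset.sum_mul, g2]
        simp
    rw [e1, Finset.sum_congr rfl fun a _ => e2 a]
    simp only [mul_add]
    rw [Finset.sum_add_distrib, ← Finset.sum_mul]
    congr 1
    · have : ∀ a, ((η a (tt x) : ℝ) : ℂ) * (∑ l, A s i l x * ∑ j, C a l j x * u a j x) =
          ∑ l, A s i l x * (((η a (tt x) : ℝ) : ℂ) * ∑ j, C a l j x * u a j x) := by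
        intro a
        rw [Finset.mul_sum]
        exact Finset.sum_congr rfl fun l _ => by ring
      simp_rw [this]
      rw [Finset.sum_comm]
      refine Finset.sum_congr rfl fun l _ => ?_
      rw [← Finset.mul_sum]
    · have : ∑ a, ((η a (tt x) : ℝ) : ℂ) = ((∑ a, η a (tt x) : ℝ) : ℂ) := by push_cast; rfl
      rw [this, hsumx x hx]
      simp
  · intro i x hx
    have h1 : ∀ a ∈ (Finset.univ : Finset (Fin N)),
        ‖((η a (tt x) : ℝ) : ℂ) * ∑ j, C a i j x * u a j x‖ ≤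
          η a (tt x) * (K * (M0 * (M1 * (K * M0 * b)))) := by
      intro a _
      by_cases h0 : η a (tt x) = 0
      · simp [h0]
      obtain ⟨f1, f2, f3⟩ := hfact a x hx h0
      have g1 := (hid a x f1 f2).1
      rw [norm_mul, Complex.norm_real, Real.norm_eq_abs, abs_of_nonneg (hη0 a _)]
      refine mul_le_mul_of_nonneg_left ?_ (hη0 a _)
      refine (norm_sum_le _ _).trans ?_
      have h2 : ∀ j ∈ (Finset.univ : Finset n), ‖C a i j x * u a j x‖ ≤
          M0 * (M1 * (K * M0 * b)) := by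
        intro j _
        rw [norm_mul]
        exact mul_le_mul (g1 i j) (hub a j x) (norm_nonneg _) hM0.le
      refine (Finset.sum_le_sum h2).trans ?_
      rw [Finset.sum_const, nsmul_eq_mul, Finset.card_univ]
    calc ‖ψ i x‖ ≤ ∑ a, ‖((η a (tt x) : ℝ) : ℂ) * ∑ j, C a i j x * u a j x‖ := norm_sum_le _ _
      _ ≤ ∑ a, η a (tt x) * (K * (M0 * (M1 * (K * M0 * b)))) := Finset.sum_le_sum h1
      _ = K * (M0 * (M1 * (K * M0 * b))) := by rw [← Finset.sum_mul, hsumx x hx, one_mul]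
      _ = K * (M0 * (M1 * (K * M0))) * b := by ring

end Crest.Agent.R080
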