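import Crest.Agent.R080.SlabCalc

/-!
Row 80 (S0107), T7: uniform local fundamental matrices near planes (helper631).
-/

set_option autoImplicit false

open MeasureTheory Filter
open scoped ContDiff Topology
open Crest.AnalysisR.VecCalc3 Crest.AnalysisR.PDE.Elasticity

noncomputable section
namespace Crest.Agent.R080
namespace Slab

local notation "⟪" x ", " y "⟫" => inner ℝ x y

variable {ι : Type} [Fintype ι] [DecidableEq ι]

theorem DD_comp_zcL {θ : Fin 3 → ℂ} (h : IsNull θ) {f : ℂ → ℂ} (hf : ContDiff ℝ ∞ f) (x : R3) :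
    DD θ (fun y => f (zcL θ y)) x = Dp (ContinuousLinearMap.id ℝ ℂ) f (zcL θ x) := by
  have h1 : HasFDerivAt (fun y : R3 => f (zcL θ y)) ((fderiv ℝ f (zcL θ x)).comp (zcL θ)) x :=
    ((hf.differentiable (by simp)).differentiableAt.hasFDerivAt).comp x (zcL θ).hasFDerivAt
  rw [DD_eq_Dp, Dp, Dp, h1.fderiv]
  simp [zcL_iot h]

/-- joint continuity of `DD (θ s) f x` -/
theorem DD_jointly {S : Type} [TopologicalSpace S] {θ : S → Fin 3 → ℂ} (hθ : Continuous θ)
    {f : R3 → ℂ} (hf : ContDiff ℝ ∞ f) : Continuous fun p : S × R3 => DD (θ p.1) f p.2 := by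
  unfold DD pd
  refine continuous_finsetSum _ fun j _ => ?_
  refine ((continuous_apply j).comp (hθ.comp continuous_fst)).mul ?_
  have : Continuous (fderiv ℝ f) := hf.continuous_fderiv (by simp)
  exact (this.comp continuous_snd).clm_apply continuous_const

/-- the local lemma at one plane -/
theorem loc0 (hS : StmtSmallFM) (hP : StmtPlaneFM) {S : Type} [TopologicalSpace S]
    (θ : S → Fin 3 → ℂ) (hθ : Continuous θ) (hn : ∀ s, IsNull (θ s))
    (A : S → ι → ι → R3 → ℂ) (hA : ∀ s i j, ContDiff ℝ ∞ (A s i j))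
    (hAc : ∀ i j, Continuous fun p : S × R3 => A p.1 i j p.2) (R : ℝ) (s₀ : S) (t₀ : ℝ) :
    ∃ ε M : ℝ, 0 < ε ∧ 0 < M ∧ ∀ᶠ s in 𝓝 s₀, ∃ C Ci : ι → ι → R3 → ℂ,
      (∀ i j, ContDiff ℝ ∞ (C i j)) ∧ (∀ i j, ContDiff ℝ ∞ (Ci i j)) ∧
      (∀ x : R3, ‖x‖ < R → |⟪nrm (θ s), x⟫ - t₀| < ε →
        (∀ i j, ‖C i j x‖ ≤ M) ∧ (∀ i j, ‖Ci i j x‖ ≤ M) ∧
        (∀ i j, DD (θ s) (C i j) x = ∑ l, A s i l x * C l j x) ∧
        (∀ i j, DD (θ s) (Ci i j) x = -∑ l, Ci i l x * A s l j x) ∧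
        (∀ i j, ∑ l, C i l x * Ci l j x = if i = j then 1 else 0) ∧
        (∀ i j, ∑ l, Ci i l x * C l j x = if i = j then 1 else 0)) := by
  classical
  set n₀ : R3 := nrm (θ s₀) with hn₀
  set Z : R3 →L[ℝ] ℂ := zcL (θ s₀) with hZ
  set ι₀ : ℂ →L[ℝ] R3 := iot (θ s₀) with hι₀
  set r₀ : ℝ := |R| + 2 with hr₀
  have hr₀pos : 0 < r₀ := by positivity
  -- the disc
  set D : ℝ := ‖Z‖ * r₀ with hD
  have hD0 : 0 ≤ D := by positivity
  have hZle : ∀ x : R3, ‖x‖ ≤ r₀ → ‖Z x‖ ≤ D := fun x hx =>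
    (Z.le_opNorm x).trans (mul_le_mul_of_nonneg_left hx (norm_nonneg _))
  -- the plane fundamental matrix
  obtain ⟨C0, C0i, hC0, hC0i, hC0eq⟩ := hP ι (fun i j z => A s₀ i j (t₀ • n₀ + ι₀ z))
    (fun i j => (hA s₀ i j).comp (contDiff_const.add ι₀.contDiff)) (D + 1)
  -- bounds on the disc
  obtain ⟨M0, hM0pos, hM0⟩ : ∃ M0 : ℝ, 0 < M0 ∧ ∀ z : ℂ, ‖z‖ ≤ D → ∀ i j,
      ‖C0 i j z‖ ≤ M0 ∧ ‖C0i i j z‖ ≤ M0 := by
    have hc : IsCompact (Metric.closedBall (0 : ℂ) D) := isCompact_closedBall _ _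
    have hcont : Continuous fun z => ∑ i, ∑ j, (‖C0 i j z‖ + ‖C0i i j z‖) := by
      refine continuous_finsetSum _ fun i _ => continuous_finsetSum _ fun j _ => ?_
      exact (hC0 i j).continuous.norm.add (hC0i i j).continuous.norm
    obtain ⟨M, hM⟩ := hc.bddAbove_image hcont.continuousOn
    refine ⟨max M 1, by positivity, fun z hz i j => ?_⟩
    have h1 := hM (Set.mem_image_of_mem _ (show z ∈ Metric.closedBall (0 : ℂ) D by simpa using hz))
    have h2 : ‖C0 i j z‖ + ‖C0i i j z‖ ≤ ∑ i, ∑ j, (‖C0 i j z‖ + ‖C0i i j z‖) := by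
      refine (Finset.single_le_sum (f := fun j => ‖C0 i j z‖ + ‖C0i i j z‖)
        (fun j _ => by positivity) (Finset.mem_univ j)).trans ?_
      exact Finset.single_le_sum (f := fun i => ∑ j, (‖C0 i j z‖ + ‖C0i i j z‖))
        (fun i _ => by positivity) (Finset.mem_univ i)
    have h3 : ‖C0 i j z‖ + ‖C0i i j z‖ ≤ max M 1 := (h2.trans h1).trans (le_max_left _ _)
    constructor
    · linarith [norm_nonneg (C0i i j z)]
    · linarith [norm_nonneg (C0 i j z)]
  -- constants for the small problem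
  have hρ := rho2_pos (hn s₀)
  set c : ℝ := Real.sqrt (rho2 (θ s₀)) / 2 with hc
  have hcpos : 0 < c := by positivity
  set e : ℝ := 1 / (2 * (Fintype.card ι + 1)) with he
  have hepos : 0 < e := by positivity
  have hecard : e * Fintype.card ι ≤ 1 / 2 := by
    rw [he, div_mul_eq_mul_div, div_le_div_iff₀ (by positivity) (by norm_num)]
    linarith
  have hele : e ≤ 1 := by
    rw [he, div_le_one (by positivity)]
    have : (0 : ℝ) ≤ Fintype.card ι := by positivity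
    linarith
  obtain ⟨δ, hδ, hsmall⟩ := hS R3 ι c r₀ e hcpos hr₀pos hepos
  -- the perturbation matrix
  set B : S → ι → ι → R3 → ℂ := fun s i j x => ∑ l, C0i i l (Z x) *
    ((∑ k, A s l k x * C0 k j (Z x)) - DD (θ s) (fun y => C0 l j (Z y)) x) with hB
  have hC0Z : ∀ i j, ContDiff ℝ ∞ fun y : R3 => C0 i j (Z y) := fun i j =>
    (hC0 i j).comp Z.contDiff
  have hC0iZ : ∀ i j, ContDiff ℝ ∞ fun y : R3 => C0i i j (Z y) := fun i j =>
    (hC0i i j).comp Z.contDiff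
  have hBs : ∀ s i j, ContDiff ℝ ∞ (B s i j) := by
    intro s i j
    refine ContDiff.sum fun l _ => (hC0iZ i l).mul (ContDiff.sub ?_ (smooth_DD (hC0Z l j)))
    exact ContDiff.sum fun k _ => (hA s l k).mul (hC0Z k j)
  have hBc : ∀ i j, Continuous fun p : S × R3 => B p.1 i j p.2 := by
    intro i j
    refine continuous_finsetSum _ fun l _ => ((hC0iZ i l).continuous.comp continuous_snd).mul
      (Continuous.sub ?_ (DD_jointly hθ (hC0Z l j)))
    exact continuous_finsetSum _ fun k _ => (hAc l k).mul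
      ((hC0Z k j).continuous.comp continuous_snd)
  -- it vanishes on the plane
  have hB0 : ∀ z : ℂ, ‖z‖ ≤ D → ∀ i j, B s₀ i j (t₀ • n₀ + ι₀ z) = 0 := by
    intro z hz i j
    have hZz : Z (t₀ • n₀ + ι₀ z) = z := by
      rw [map_add, map_smul, hZ, hn₀, zcL_nrm, hι₀, zcL_iot (hn s₀)]; simp
    simp only [hB]
    refine Finset.sum_eq_zero fun l _ => ?_
    have h1 : DD (θ s₀) (fun y => C0 l j (Z y)) (t₀ • n₀ + ι₀ z)
        = ∑ k, A s₀ l k (t₀ • n₀ + ι₀ z) * C0 k j z := by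
      rw [hZ, DD_comp_zcL (hn s₀) (hC0 l j), ← hZ, hZz]
      exact (hC0eq z (by linarith)).1 l j
    rw [h1, hZz, sub_self, mul_zero]
  -- smallness near the plane
  have hev : ∀ᶠ q : S × ℝ in 𝓝 (s₀, t₀), ∀ z ∈ Metric.closedBall (0 : ℂ) D, ∀ i j,
      ‖B q.1 i j (q.2 • n₀ + ι₀ z)‖ < δ := by
    refine (isCompact_closedBall (0 : ℂ) D).eventually_forall_of_forall_eventually fun z hz => ?_
    have hcont : Continuous fun w : (S × ℝ) × ℂ => (w.1.1, w.1.2 • n₀ + ι₀ w.2) := by fun_prop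
    refine eventually_all.2 fun i => eventually_all.2 fun j => ?_
    have h1 : ContinuousAt (fun w : (S × ℝ) × ℂ => ‖B w.1.1 i j (w.1.2 • n₀ + ι₀ w.2)‖)
        ((s₀, t₀), z) := (((hBc i j).comp hcont).norm).continuousAt
    have h2 : ‖B s₀ i j (t₀ • n₀ + ι₀ z)‖ < δ := by
      rw [hB0 z (by simpa using hz) i j]; simpa using hδ
    exact h1.eventually (gt_mem_nhds h2)
  rw [nhds_prod_eq, eventually_prod_iff] at hev
  obtain ⟨pa, hpa, pb, hpb, hpab⟩ := hev
  obtain ⟨ε₁, hε₁, hε₁b⟩ := Metric.eventually_nhds_iff.1 hpb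
  have hsmallB : ∀ s, pa s → ∀ x : R3, ‖x‖ ≤ r₀ → |⟪n₀, x⟫ - t₀| < ε₁ → ∀ i j,
      ‖B s i j x‖ ≤ δ := by
    intro s hs x hx ht i j
    have h1 := hpab hs (hε₁b (by simpa [Real.dist_eq] using ht)) (Z x)
      (by simpa using hZle x hx) i j
    simp only at h1
    rw [hι₀, hn₀, hZ, ← decomp (hn s₀) x] at h1
    exact h1.le
  -- cutoffs
  let b₁ : ContDiffBump (0 : R3) := ⟨|R| + 1, r₀, by positivity, by linarith⟩
  let b₂ : ContDiffBump (t₀ : ℝ) := ⟨ε₁ / 2, ε₁ * (3 / 4), by positivity, by linarith⟩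
  set χ : R3 → ℝ := fun x => b₁ x * b₂ ⟪n₀, x⟫ with hχ
  have hχs : ContDiff ℝ ∞ χ := by
    refine b₁.contDiff.mul (b₂.contDiff.comp ?_)
    exact (innerSL ℝ n₀).contDiff
  have hχ1 : ∀ x : R3, ‖x‖ ≤ |R| + 1 → |⟪n₀, x⟫ - t₀| ≤ ε₁ / 2 → χ x = 1 := by
    intro x hx ht
    have h1 : b₁ x = 1 := b₁.one_of_mem_closedBall (by simpa using hx)
    have h2 : b₂ ⟪n₀, x⟫ = 1 := b₂.one_of_mem_closedBall (by simpa [Real.dist_eq] using ht)
    simp only [hχ, h1, h2, mul_one]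
  have hχ0 : ∀ x, χ x ≠ 0 → ‖x‖ ≤ r₀ ∧ |⟪n₀, x⟫ - t₀| < ε₁ := by
    intro x hx
    have h1 : b₁ x ≠ 0 := left_ne_zero_of_mul hx
    have h2 : b₂ ⟪n₀, x⟫ ≠ 0 := right_ne_zero_of_mul hx
    constructor
    · by_contra hcon
      exact h1 (b₁.zero_of_le_dist (by simpa using (not_le.1 hcon).le))
    · by_contra hcon
      refine h2 (b₂.zero_of_le_dist ?_)
      rw [Real.dist_eq]
      have : ε₁ ≤ |⟪n₀, x⟫ - t₀| := not_lt.1 hcon
      show ε₁ * (3 / 4) ≤ _
      linarith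
  have hχle : ∀ x, ‖((χ x : ℝ) : ℂ)‖ ≤ 1 := by
    intro x
    rw [Complex.norm_real, Real.norm_eq_abs, hχ]
    simp only
    rw [abs_mul, abs_of_nonneg b₁.nonneg, abs_of_nonneg b₂.nonneg]
    exact mul_le_one₀ b₁.le_one b₂.nonneg b₂.le_one
  -- neighbourhood of s₀
  have hev2 : ∀ᶠ s in 𝓝 s₀, c < Real.sqrt (rho2 (θ s)) := by
    have : ContinuousAt (fun s => Real.sqrt (rho2 (θ s))) s₀ :=
      (Real.continuous_sqrt.comp (rho2_continuous.comp hθ)).continuousAt
    refine this.eventually (lt_mem_nhds ?_)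
    rw [hc]
    have : 0 < Real.sqrt (rho2 (θ s₀)) := by positivity
    linarith
  have hev3 : ∀ᶠ s in 𝓝 s₀, ‖nrm (θ s) - n₀‖ * r₀ < ε₁ / 4 := by
    have h1 : ContinuousAt (fun s => nrm (θ s)) s₀ :=
      (nrm_continuousAt (hn s₀)).comp hθ.continuousAt
    have h2 : ContinuousAt (fun s => ‖nrm (θ s) - n₀‖ * r₀) s₀ := by
      refine ContinuousAt.mul ?_ continuousAt_const
      exact (h1.sub continuousAt_const).norm
    refine h2.eventually (gt_mem_nhds ?_)
    show ‖nrm (θ s₀) - n₀‖ * r₀ < ε₁ / 4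
    rw [hn₀, sub_self, norm_zero, zero_mul]; positivity
  refine ⟨ε₁ / 4, Fintype.card ι * (M0 * 2) + 1, by positivity, by positivity, ?_⟩
  filter_upwards [hpa, hev2, hev3] with s hs1 hs2 hs3
  -- small problem
  obtain ⟨C', hC's, hC'eq, hC'near⟩ := hsmall (iot (θ s))
    (fun z => by rw [norm_iot (hn s)]; exact mul_le_mul_of_nonneg_right hs2.le (norm_nonneg _))
    (fun i j x => (χ x : ℂ) * B s i j x)
    (fun i j => (Complex.ofRealCLM.contDiff.comp hχs).mul (hBs s i j))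
    (fun i j x hx => by
      by_cases h0 : χ x = 0
      · simp [h0]
      · exfalso
        have h1 : b₁ x ≠ 0 := left_ne_zero_of_mul h0
        exact h1 (b₁.zero_of_le_dist (by simpa using hx)))
    (fun i j x => by
      by_cases h0 : χ x = 0
      · simp [h0, hδ.le]
      · obtain ⟨h1, h2⟩ := hχ0 x h0
        rw [norm_mul]
        calc _ ≤ 1 * δ := mul_le_mul (hχle x) (hsmallB s hs1 x h1 h2 i j) (norm_nonneg _)
              zero_le_one
          _ = δ := one_mul _)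
  have hdet : ∀ x, (Matrix.of fun i j => C' i j x).det ≠ 0 := fun x =>
    (near_one hecard (fun i j => hC'near i j x)).1
  have hinvb : ∀ x i j, ‖(Matrix.of fun i j => C' i j x)⁻¹ i j‖ ≤ 2 := fun x =>
    (near_one hecard (fun i j => hC'near i j x)).2
  have hC'b : ∀ i j x, ‖C' i j x‖ ≤ 2 := by
    intro i j x
    have h1 := hC'near i j x
    have h2 : ‖(if i = j then (1 : ℂ) else 0)‖ ≤ 1 := by split_ifs <;> simp
    have h3 := norm_sub_norm_le (C' i j x) (if i = j then (1 : ℂ) else 0)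
    linarith
  set Ci' : ι → ι → R3 → ℂ := fun i j x => (Matrix.of fun i j => C' i j x)⁻¹ i j with hCi'
  have hCi's : ∀ i j, ContDiff ℝ ∞ (Ci' i j) := fun i j => smooth_inv hC's hdet i j
  have hinv1 : ∀ x i j, ∑ l, C' i l x * Ci' l j x = if i = j then 1 else 0 := by
    intro x
    refine mat_mul_eq_one_iff.2 ?_
    exact Matrix.mul_nonsing_inv _ (isUnit_iff_ne_zero.2 (hdet x))
  -- the matrices
  refine ⟨fun i j x => ∑ l, C0 i l (Z x) * C' l j x, fun i j x => ∑ l, Ci' i l x * C0i l j (Z x),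
    fun i j => ContDiff.sum fun l _ => (hC0Z i l).mul (hC's l j),
    fun i j => ContDiff.sum fun l _ => (hCi's i l).mul (hC0iZ l j), fun x hx ht => ?_⟩
  have hRabs : R ≤ |R| := le_abs_self R
  have key : ∀ y : R3, ‖y‖ < R → |⟪nrm (θ s), y⟫ - t₀| < ε₁ / 4 →
      ‖y‖ ≤ r₀ ∧ ‖Z y‖ ≤ D ∧ χ y = 1 := by
    intro y hy hyt
    have h1 : ‖y‖ ≤ r₀ := by linarith
    refine ⟨h1, hZle y h1, hχ1 y (by linarith) ?_⟩
    have h2 : |⟪n₀, y⟫ - ⟪nrm (θ s), y⟫| ≤ ‖nrm (θ s) - n₀‖ * r₀ := by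
      rw [← inner_sub_left, norm_sub_rev]
      exact (abs_real_inner_le_norm _ _).trans (mul_le_mul_of_nonneg_left h1 (norm_nonneg _))
    have h3 : |⟪n₀, y⟫ - t₀| ≤ |⟪n₀, y⟫ - ⟪nrm (θ s), y⟫| + |⟪nrm (θ s), y⟫ - t₀| :=
      abs_sub_le _ _ _
    linarith
  have hprod : ∀ y : R3, ‖y‖ < R → |⟪nrm (θ s), y⟫ - t₀| < ε₁ / 4 → ∀ i j,
      ∑ l, (∑ k, C0 i k (Z y) * C' k l y) * (∑ k, Ci' l k y * C0i k j (Z y))
        = if i = j then 1 else 0 := by
    intro y hy hyt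
    obtain ⟨_, hZy, _⟩ := key y hy hyt
    have m1 := mat_mul_eq_one_iff.1 (hC0eq (Z y) (by linarith)).2
    have m2 := mat_mul_eq_one_iff.1 (hinv1 y)
    intro i j
    have m3 : ((Matrix.of fun i j => C0 i j (Z y)) * (Matrix.of fun i j => C' i j y)) *
        ((Matrix.of fun i j => Ci' i j y) * (Matrix.of fun i j => C0i i j (Z y))) = 1 := by
      calc _ = (Matrix.of fun i j => C0 i j (Z y)) *
            (((Matrix.of fun i j => C' i j y) * (Matrix.of fun i j => Ci' i j y)) *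
              (Matrix.of fun i j => C0i i j (Z y))) := by simp only [Matrix.mul_assoc]
        _ = 1 := by rw [m2, Matrix.one_mul, m1]
    have := congrFun (congrFun m3 i) j
    simp only [Matrix.mul_apply, Matrix.of_apply, Matrix.one_apply] at this
    exact this
  have hopen : ∀ᶠ y in 𝓝 x, ‖y‖ < R ∧ |⟪nrm (θ s), y⟫ - t₀| < ε₁ / 4 := by
    have c1 : ContinuousAt (fun y : R3 => ‖y‖) x := continuous_norm.continuousAt
    have c2 : ContinuousAt (fun y : R3 => |⟪nrm (θ s), y⟫ - t₀|) x := by fun_prop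
    exact (c1.eventually (gt_mem_nhds hx)).and (c2.eventually (gt_mem_nhds ht))
  obtain ⟨hxr, hZx, hχx⟩ := key x hx ht
  have hDC : ∀ i j, DD (θ s) (fun y => ∑ l, C0 i l (Z y) * C' l j y) x
      = ∑ l, A s i l x * ∑ k, C0 l k (Z x) * C' k j x := by
    have e1 : ∀ i j, DD (θ s) (fun y => ∑ l, C0 i l (Z y) * C' l j y) x
        = ∑ l, (C0 i l (Z x) * DD (θ s) (C' l j) x
          + DD (θ s) (fun y => C0 i l (Z y)) x * C' l j x) := by
      intro i j
      rw [DD_sum _ (fun l y => C0 i l (Z y) * C' l j y) (fun l _ =>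
        (((hC0Z i l).differentiable (by simp)).differentiableAt).mul
          (((hC's l j).differentiable (by simp)).differentiableAt))]
      exact Finset.sum_congr rfl fun l _ =>
        DD_mul (((hC0Z i l).differentiable (by simp)).differentiableAt)
          (((hC's l j).differentiable (by simp)).differentiableAt)
    have e2 : ∀ l j, DD (θ s) (C' l j) x = ∑ k, B s l k x * C' k j x := by
      intro l j
      rw [DD_eq_Dp, hC'eq l j x]
      simp only [hχx, Complex.ofReal_one, one_mul]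
    intro i j
    rw [e1]
    simp only [e2]
    -- matrix identity
    have m1 := mat_mul_eq_one_iff.1 (hC0eq (Z x) (by linarith)).2
    set c0 : Matrix ι ι ℂ := Matrix.of fun i j => C0 i j (Z x) with hc0
    set c0i : Matrix ι ι ℂ := Matrix.of fun i j => C0i i j (Z x) with hc0i
    set dc0 : Matrix ι ι ℂ := Matrix.of fun i j => DD (θ s) (fun y => C0 i j (Z y)) x with hdc0
    set c' : Matrix ι ι ℂ := Matrix.of fun i j => C' i j x with hc'
    set a : Matrix ι ι ℂ := Matrix.of fun i j => A s i j x with ha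
    set bb : Matrix ι ι ℂ := Matrix.of fun i j => B s i j x with hbb
    have m2 : bb = c0i * (a * c0 - dc0) := by
      ext i j
      rw [Matrix.mul_apply]
      rfl
    have m3 : c0 * (bb * c') + dc0 * c' = a * (c0 * c') := by
      rw [m2]
      calc c0 * (c0i * (a * c0 - dc0) * c') + dc0 * c'
          = (c0 * c0i) * ((a * c0 - dc0) * c') + dc0 * c' := by simp only [Matrix.mul_assoc]
        _ = a * (c0 * c') := by
          rw [m1, Matrix.one_mul, Matrix.sub_mul, Matrix.mul_assoc]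
          abel
    have := congrFun (congrFun m3 i) j
    rw [Matrix.add_apply, Matrix.mul_apply, Matrix.mul_apply, Matrix.mul_apply] at this
    rw [Finset.sum_add_distrib]
    exact this
  refine ⟨?_, ?_, hDC, ?_, hprod x hx ht, ?_⟩
  · intro i j
    calc _ ≤ ∑ l : ι, M0 * 2 := by
          refine (norm_sum_le _ _).trans (Finset.sum_le_sum fun l _ => ?_)
          rw [norm_mul]
          exact mul_le_mul (hM0 _ hZx i l).1 (hC'b l j x) (norm_nonneg _) hM0pos.le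
      _ ≤ _ := by simp
  · intro i j
    calc _ ≤ ∑ l : ι, M0 * 2 := by
          refine (norm_sum_le _ _).trans (Finset.sum_le_sum fun l _ => ?_)
          rw [norm_mul, mul_comm]
          exact mul_le_mul (hM0 _ hZx l j).2 (hinvb x i l) (norm_nonneg _) hM0pos.le
      _ ≤ _ := by simp
  · refine DD_inv (C := fun i j x => ∑ l, C0 i l (Z x) * C' l j x)
      (Ci := fun i j x => ∑ l, Ci' i l x * C0i l j (Z x)) (A := fun i j => A s i j x) ?_ ?_ ?_ hDC
    · intro i j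
      exact ((ContDiff.sum fun l _ => (hC0Z i l).mul (hC's l j)).differentiable
        (by simp)).differentiableAt
    · intro i j
      exact ((ContDiff.sum fun l _ => (hCi's i l).mul (hC0iZ l j)).differentiable
        (by simp)).differentiableAt
    · filter_upwards [hopen] with y hy using hprod y hy.1 hy.2
  · exact mat_comm (a := fun i j => ∑ l, C0 i l (Z x) * C' l j x)
      (b := fun i j => ∑ l, Ci' i l x * C0i l j (Z x)) (hprod x hx ht)

end Slab

open Slab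

local notation "⟪" x ", " y "⟫" => inner ℝ x y

theorem t_LocU (hS : StmtSmallFM) (hP : StmtPlaneFM) : StmtLocU := by
  intro ι _ _ S _ θ hθ hn A hA hAc R s₀ T
  have key : ∃ ε M : ℝ, 0 < ε ∧ 0 < M ∧ ∀ᶠ s in 𝓝 s₀, ∀ t₀ ∈ Set.Icc (-T) T,
      ∃ C Ci : ι → ι → R3 → ℂ,
        (∀ i j, ContDiff ℝ ∞ (C i j)) ∧ (∀ i j, ContDiff ℝ ∞ (Ci i j)) ∧
        (∀ x : R3, ‖x‖ < R → |⟪nrm (θ s), x⟫ - t₀| < ε →
          (∀ i j, ‖C i j x‖ ≤ M) ∧ (∀ i j, ‖Ci i j x‖ ≤ M) ∧
          (∀ i j, DD (θ s) (C i j) x = ∑ l, A s i l x * C l j x) ∧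
          (∀ i j, DD (θ s) (Ci i j) x = -∑ l, Ci i l x * A s l j x) ∧
          (∀ i j, ∑ l, C i l x * Ci l j x = if i = j then 1 else 0) ∧
          (∀ i j, ∑ l, Ci i l x * C l j x = if i = j then 1 else 0)) := by
    refine IsCompact.induction_on (p := fun K : Set ℝ => ∃ ε M : ℝ, 0 < ε ∧ 0 < M ∧
      ∀ᶠ s in 𝓝 s₀, ∀ t₀ ∈ K, ∃ C Ci : ι → ι → R3 → ℂ,
        (∀ i j, ContDiff ℝ ∞ (C i j)) ∧ (∀ i j, ContDiff ℝ ∞ (Ci i j)) ∧
        (∀ x : R3, ‖x‖ < R → |⟪nrm (θ s), x⟫ - t₀| < ε →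
          (∀ i j, ‖C i j x‖ ≤ M) ∧ (∀ i j, ‖Ci i j x‖ ≤ M) ∧
          (∀ i j, DD (θ s) (C i j) x = ∑ l, A s i l x * C l j x) ∧
          (∀ i j, DD (θ s) (Ci i j) x = -∑ l, Ci i l x * A s l j x) ∧
          (∀ i j, ∑ l, C i l x * Ci l j x = if i = j then 1 else 0) ∧
          (∀ i j, ∑ l, Ci i l x * C l j x = if i = j then 1 else 0)))
      (isCompact_Icc (a := -T) (b := T)) ?_ ?_ ?_ ?_
    · exact ⟨1, 1, one_pos, one_pos, Eventually.of_forall fun s t ht => ht.elim⟩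
    · rintro K K' hKK' ⟨ε, M, hε, hM, h⟩
      exact ⟨ε, M, hε, hM, h.mono fun s hs t ht => hs t (hKK' ht)⟩
    · rintro K K' ⟨ε, M, hε, hM, h⟩ ⟨ε', M', hε', hM', h'⟩
      refine ⟨min ε ε', max M M', lt_min hε hε', lt_max_of_lt_left hM, ?_⟩
      filter_upwards [h, h'] with s hs hs' t ht
      rcases ht with ht | ht
      · obtain ⟨C, Ci, h1, h2, h3⟩ := hs t ht
        refine ⟨C, Ci, h1, h2, fun x hx hxt => ?_⟩
        obtain ⟨g1, g2, g3⟩ := h3 x hx (hxt.trans_le (min_le_left _ _))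
        exact ⟨fun i j => (g1 i j).trans (le_max_left _ _),
          fun i j => (g2 i j).trans (le_max_left _ _), g3⟩
      · obtain ⟨C, Ci, h1, h2, h3⟩ := hs' t ht
        refine ⟨C, Ci, h1, h2, fun x hx hxt => ?_⟩
        obtain ⟨g1, g2, g3⟩ := h3 x hx (hxt.trans_le (min_le_right _ _))
        exact ⟨fun i j => (g1 i j).trans (le_max_right _ _),
          fun i j => (g2 i j).trans (le_max_right _ _), g3⟩
    · intro t _
      obtain ⟨ε, M, hε, hM, h⟩ := loc0 hS hP θ hθ hn A hA hAc R s₀ t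
      refine ⟨Metric.ball t (ε / 2), mem_nhdsWithin_of_mem_nhds (Metric.ball_mem_nhds _ (by positivity)),
        ε / 2, M, by positivity, hM, ?_⟩
      filter_upwards [h] with s hs t' ht'
      obtain ⟨C, Ci, h1, h2, h3⟩ := hs
      refine ⟨C, Ci, h1, h2, fun x hx hxt => h3 x hx ?_⟩
      have h4 : |t' - t| < ε / 2 := by simpa [Real.dist_eq] using ht'
      have h5 : |⟪nrm (θ s), x⟫ - t| ≤ |⟪nrm (θ s), x⟫ - t'| + |t' - t| := abs_sub_le _ _ _
      linarith
  obtain ⟨ε, M, hε, hM, h⟩ := key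
  exact ⟨ε, M, hε, hM, h.mono fun s hs t ht => hs t (abs_le.1 ht)⟩

end Crest.Agent.R080
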