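import Crest.Agent.R080.RI
import Crest.Agent.R080.SlabLoc

/-! Row 80 (S0107): T7b complete. -/

namespace Crest.Agent.R080

/-- T7b -/
theorem t_RI (hC : StmtCauchy) (hS : StmtSmallFM) (hP : StmtPlaneFM) : StmtRI :=
  t_RI' hC (t_LocU hS hP)

end Crest.Agent.R080
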