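import Crest.Agent.R080.Stmts2

/-!
Row 80 (S0107), T16b part 1: smoothness facts and the master identity.
-/

set_option autoImplicit false

open MeasureTheory Filter
open scoped ContDiff Topology
open Crest.AnalysisR.VecCalc3 Crest.AnalysisR.PDE.Elasticity

noncomputable section
namespace Crest.Agent.R080
namespace Rel

/-! ### calculus -/

theorem contDiff_cf {f : R3 → ℝ} (hf : ContDiff ℝ ∞ f) : ContDiff ℝ ∞ (cf f) :=
  Complex.ofRealCLM.contDiff.comp hf

theorem contDiff_pderiv {f : R3 → ℝ} (hf : ContDiff ℝ ∞ f) (j : Fin 3) :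
    ContDiff ℝ ∞ (fun x => pderiv f j x) :=
  (hf.fderiv_right (m := ∞) (by simp)).clm_apply contDiff_const

theorem contDiff_pd {f : R3 → ℂ} (hf : ContDiff ℝ ∞ f) (j : Fin 3) :
    ContDiff ℝ ∞ (pd j f) :=
  (hf.fderiv_right (m := ∞) (by simp)).clm_apply contDiff_const

theorem contDiff_DD {f : R3 → ℂ} (hf : ContDiff ℝ ∞ f) (θ : Fin 3 → ℂ) :
    ContDiff ℝ ∞ (DD θ f) := by
  have : DD θ f = fun x => ∑ j, θ j * pd j f x := rfl
  rw [this]
  exact ContDiff.sum fun j _ => contDiff_const.mul (contDiff_pd hf j)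

theorem pd_cf {f : R3 → ℝ} (hf : ContDiff ℝ ∞ f) (j : Fin 3) (x : R3) :
    pd j (cf f) x = ((pderiv f j x : ℝ) : ℂ) := by
  have h1 : HasFDerivAt f (fderiv ℝ f x) x :=
    (hf.differentiable (by simp)).differentiableAt.hasFDerivAt
  have h2 : HasFDerivAt (cf f) (Complex.ofRealCLM.comp (fderiv ℝ f x)) x :=
    Complex.ofRealCLM.hasFDerivAt.comp x h1
  unfold pd pderiv
  rw [h2.fderiv]
  rfl

theorem DD_cf {f : R3 → ℝ} (hf : ContDiff ℝ ∞ f) (θ : Fin 3 → ℂ) (x : R3) :
    DD θ (cf f) x = ∑ j, θ j * ((pderiv f j x : ℝ) : ℂ) := by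
  unfold DD
  exact Finset.sum_congr rfl fun j _ => by rw [pd_cf hf]

theorem pd_mul {f g : R3 → ℂ} (hf : ContDiff ℝ ∞ f) (hg : ContDiff ℝ ∞ g) (j : Fin 3) (x : R3) :
    pd j (fun y => f y * g y) x = f x * pd j g x + pd j f x * g x := by
  have h1 : HasFDerivAt f (fderiv ℝ f x) x :=
    (hf.differentiable (by simp)).differentiableAt.hasFDerivAt
  have h2 : HasFDerivAt g (fderiv ℝ g x) x :=
    (hg.differentiable (by simp)).differentiableAt.hasFDerivAt
  unfold pd
  have h3 : (fun y => f y * g y) = f * g := rfl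
  rw [h3, (h1.mul h2).fderiv]
  simp [mul_comm]

/-! ### moduli -/

section Moduli
variable (P : Moduli)

theorem lam_mu_pos (x : R3) : 0 < P.lam x + P.mu x := by
  have := P.mu_pos x; have := P.bulk_pos x; linarith

theorem lam_two_mu_pos (x : R3) : 0 < P.lam x + 2 * P.mu x := by
  have := P.mu_pos x; have := P.bulk_pos x; linarith

theorem m_pos (x : R3) : 0 < P.m x := inv_pos.2 (P.mu_pos x)

theorem sm_pos (x : R3) : 0 < P.sm x := Real.sqrt_pos.2 (m_pos P x)

theorem kap_pos (x : R3) : 0 < P.kap x := by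
  unfold Moduli.kap
  have := P.mu_pos x; have := lam_mu_pos P x; have := lam_two_mu_pos P x
  positivity

theorem smooth_m : ContDiff ℝ ∞ P.m := P.smooth_mu.inv fun x => (P.mu_pos x).ne'

theorem smooth_sm : ContDiff ℝ ∞ P.sm := (smooth_m P).sqrt fun x => (m_pos P x).ne'

theorem smooth_kap : ContDiff ℝ ∞ P.kap :=
  ((P.smooth_lam.add P.smooth_mu).mul P.smooth_mu).div
    (contDiff_const.mul (P.smooth_lam.add (contDiff_const.mul P.smooth_mu)))
    fun x => by have := lam_two_mu_pos P x; positivity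

theorem smooth_cfm_inv : ContDiff ℝ ∞ (fun x => 1 / (2 * P.m x)) :=
  contDiff_const.div (contDiff_const.mul (smooth_m P)) fun x => by
    have := m_pos P x; positivity

end Moduli

theorem smooth_aa (P₁ P₂ : Moduli) : ContDiff ℝ ∞ (aa P₁ P₂) :=
  ((smooth_kap P₂).mul (smooth_sm P₂)).div ((smooth_kap P₁).mul (smooth_sm P₁)) fun x =>
    (mul_pos (kap_pos P₁ x) (sm_pos P₁ x)).ne'

theorem smooth_qq (P₁ P₂ : Moduli) (l : Fin 3) : ContDiff ℝ ∞ (qq P₁ P₂ l) :=
  ((((smooth_kap P₁).sub (smooth_cfm_inv P₁)).mul (contDiff_pderiv (smooth_m P₁) l)).sub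
    (((smooth_kap P₂).sub (smooth_cfm_inv P₂)).mul (contDiff_pderiv (smooth_m P₂) l))).div
    ((smooth_kap P₁).mul (smooth_sm P₁)) fun x =>
    (mul_pos (kap_pos P₁ x) (sm_pos P₁ x)).ne'

theorem smooth_Amat (P : Moduli) (s : Fin 2 → ℂ) (a b : Option (Fin 2)) :
    ContDiff ℝ ∞ (Amat P s a b) := by
  have hk := contDiff_cf (smooth_kap P)
  have hs := contDiff_cf (smooth_sm P)
  have hsne : ∀ x, (P.sm x : ℂ) ≠ 0 := fun x => by exact_mod_cast (sm_pos P x).ne'
  have hmne : ∀ x, 2 * (P.m x : ℂ) ≠ 0 := fun x => by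
    have := (m_pos P x).ne'
    simpa using this
  have hm := contDiff_cf (smooth_m P)
  rcases a with _ | i <;> rcases b with _ | j <;> simp only [Amat]
  · exact hk.neg.mul (contDiff_DD hm _)
  · exact (hk.neg.mul hs).mul contDiff_const
  · simp only [div_eq_mul_inv]
    exact ((hk.mul (hs.inv hsne)).mul (contDiff_DD hm _)).mul (contDiff_DD hm _)
  · simp only [div_eq_mul_inv]
    exact ((hk.sub (contDiff_const.mul ((contDiff_const.mul hm).inv hmne))).mul
      contDiff_const).mul (contDiff_DD hm _)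

/-! ### the functional -/

theorem single_apply (a b : Option (Fin 2)) (η : R3 → ℂ) (a' b' : Option (Fin 2)) (x : R3) :
    single a b η a' b' x = if a' = a ∧ b' = b then η x else 0 := by
  unfold single; split_ifs <;> rfl

theorem smooth_single {a b : Option (Fin 2)} {η : R3 → ℂ} (hη : ContDiff ℝ ∞ η)
    (a' b' : Option (Fin 2)) : ContDiff ℝ ∞ (single a b η a' b') := by
  unfold single
  split_ifs
  · exact hη
  · exact contDiff_const

theorem DD_single (θ : Fin 3 → ℂ) (a b : Option (Fin 2)) (η : R3 → ℂ) (a' b' : Option (Fin 2))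
    (x : R3) : DD θ (single a b η a' b') x = single a b (DD θ η) a' b' x := by
  unfold single
  split_ifs
  · rfl
  · simp [DD, pd]

theorem smooth_Dstar (P₁ P₂ : Moduli) (s : Fin 2 → ℂ)
    (ψ : Option (Fin 2) → Option (Fin 2) → R3 → ℂ) (hψ : ∀ a b, ContDiff ℝ ∞ (ψ a b))
    (a b : Option (Fin 2)) : ContDiff ℝ ∞ (Dstar P₁ P₂ s ψ a b) := by
  have : Dstar P₁ P₂ s ψ a b = fun x =>
    -DD (th s) (ψ a b) x - ∑ c, Amat P₂ s c a x * ψ c b x + ∑ c, ψ a c x * Amat P₁ s b c x := rfl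
  rw [this]
  exact (((contDiff_DD (hψ a b) _).neg).sub
    (ContDiff.sum fun c _ => (smooth_Amat P₂ s c a).mul (hψ c b))).add
    (ContDiff.sum fun c _ => (hψ a c).mul (smooth_Amat P₁ s b c))

/-- linearity package for the functional -/
structure Lin (Φ : (Option (Fin 2) → Option (Fin 2) → R3 → ℂ) → ℂ) : Prop where
  add : ∀ φ φ' : Option (Fin 2) → Option (Fin 2) → R3 → ℂ,
    (∀ a b, ContDiff ℝ ∞ (φ a b)) → (∀ a b, ContDiff ℝ ∞ (φ' a b)) →
    Φ (fun a b x => φ a b x + φ' a b x) = Φ φ + Φ φ'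
  smul : ∀ (c : ℂ) (φ : Option (Fin 2) → Option (Fin 2) → R3 → ℂ),
    (∀ a b, ContDiff ℝ ∞ (φ a b)) → Φ (fun a b x => c * φ a b x) = c * Φ φ

theorem Lin.zero {Φ : (Option (Fin 2) → Option (Fin 2) → R3 → ℂ) → ℂ} (h : Lin Φ) :
    Φ (fun _ _ _ => 0) = 0 := by
  have := h.smul 0 (fun _ _ _ => 0) (fun _ _ => contDiff_const)
  simpa using this

theorem Lin.sum {Φ : (Option (Fin 2) → Option (Fin 2) → R3 → ℂ) → ℂ} (h : Lin Φ)
    {κ : Type} [DecidableEq κ] (S : Finset κ) (f : κ → Option (Fin 2) → Option (Fin 2) → R3 → ℂ)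
    (hf : ∀ k a b, ContDiff ℝ ∞ (f k a b)) :
    Φ (fun a b x => ∑ k ∈ S, f k a b x) = ∑ k ∈ S, Φ (f k) := by
  induction S using Finset.induction_on with
  | empty => simpa using h.zero
  | insert k S hk ih =>
    simp only [Finset.sum_insert hk]
    rw [h.add (f k) (fun a b x => ∑ k ∈ S, f k a b x) (hf k)
      (fun a b => ContDiff.sum fun k _ => hf k a b), ih]

theorem master (G : Dom) (P₁ P₂ : Moduli) (s : Fin 2 → ℂ)
    (Φ : (Option (Fin 2) → Option (Fin 2) → R3 → ℂ) → ℂ) (hΦ : Lin Φ)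
    (h1 : ∀ ψ φ : Option (Fin 2) → Option (Fin 2) → R3 → ℂ,
        (∀ a b, ContDiff ℝ ∞ (ψ a b)) → (∀ a b, ContDiff ℝ ∞ (φ a b)) →
        (∀ᶠ x in 𝓝ˢ (closure G.Ω), ∀ a b, Dstar P₁ P₂ s ψ a b x = φ a b x) →
        Φ φ = pairing G P₁ P₂ s ψ)
    (a0 b0 : Option (Fin 2)) (η : R3 → ℂ) (hη : ContDiff ℝ ∞ η) :
    -Φ (single a0 b0 (DD (th s) η)) - ∑ c, Φ (single c b0 (fun x => Amat P₂ s a0 c x * η x))
      + ∑ d, Φ (single a0 d (fun x => η x * Amat P₁ s d b0 x))
      = ∫ x in G.Ω, (Amat P₂ s a0 b0 x - Amat P₁ s a0 b0 x) * η x := by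
  have e1 := h1 (single a0 b0 η) (Dstar P₁ P₂ s (single a0 b0 η)) (smooth_single hη)
    (smooth_Dstar P₁ P₂ s _ (smooth_single hη)) (Eventually.of_forall fun x a b => rfl)
  have e2 : pairing G P₁ P₂ s (single a0 b0 η)
      = ∫ x in G.Ω, (Amat P₂ s a0 b0 x - Amat P₁ s a0 b0 x) * η x := by
    unfold pairing
    congr 1
    funext x
    simp only [single_apply, ite_and, mul_ite, mul_zero]
    simp
  have e3 : Dstar P₁ P₂ s (single a0 b0 η) = fun a b x =>
      ((-1) * single a0 b0 (DD (th s) η) a b x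
        + (-1) * ∑ c, single c b0 (fun x => Amat P₂ s a0 c x * η x) a b x)
      + ∑ d, single a0 d (fun x => η x * Amat P₁ s d b0 x) a b x := by
    funext a b x
    unfold Dstar
    rw [DD_single]
    have t1 : ∑ c, Amat P₂ s c a x * single a0 b0 η c b x
        = ∑ c, single c b0 (fun x => Amat P₂ s a0 c x * η x) a b x := by
      simp only [single_apply, ite_and, mul_ite, mul_zero]
      simp
    have t2 : ∑ c, single a0 b0 η a c x * Amat P₁ s b c x
        = ∑ d, single a0 d (fun x => η x * Amat P₁ s d b0 x) a b x := by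
      simp only [single_apply, ite_and, ite_mul, zero_mul]
      by_cases ha : a = a0 <;> simp [ha]
    rw [t1, t2]
    ring
  have hs1 : ∀ c a b, ContDiff ℝ ∞ (single c b0 (fun x => Amat P₂ s a0 c x * η x) a b) :=
    fun c a b => smooth_single ((smooth_Amat P₂ s a0 c).mul hη) a b
  have hs2 : ∀ d a b, ContDiff ℝ ∞ (single a0 d (fun x => η x * Amat P₁ s d b0 x) a b) :=
    fun d a b => smooth_single (hη.mul (smooth_Amat P₁ s d b0)) a b
  have hs0 : ∀ a b, ContDiff ℝ ∞ (single a0 b0 (DD (th s) η) a b) :=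
    fun a b => smooth_single (contDiff_DD hη _) a b
  have hs1' : ∀ a b, ContDiff ℝ ∞
      (fun x => ∑ c, single c b0 (fun x => Amat P₂ s a0 c x * η x) a b x) :=
    fun a b => ContDiff.sum fun c _ => hs1 c a b
  have hs2' : ∀ a b, ContDiff ℝ ∞
      (fun x => ∑ d, single a0 d (fun x => η x * Amat P₁ s d b0 x) a b x) :=
    fun a b => ContDiff.sum fun d _ => hs2 d a b
  have e4 : Φ (Dstar P₁ P₂ s (single a0 b0 η)) =
      -Φ (single a0 b0 (DD (th s) η)) - ∑ c, Φ (single c b0 (fun x => Amat P₂ s a0 c x * η x))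
      + ∑ d, Φ (single a0 d (fun x => η x * Amat P₁ s d b0 x)) := by
    rw [e3, hΦ.add _ _ (fun a b => (contDiff_const.mul (hs0 a b)).add
        (contDiff_const.mul (hs1' a b))) hs2',
      hΦ.add _ _ (fun a b => contDiff_const.mul (hs0 a b)) (fun a b => contDiff_const.mul (hs1' a b)),
      hΦ.smul _ _ hs0, hΦ.smul _ _ hs1', hΦ.sum _ _ hs1, hΦ.sum _ _ hs2]
    ring
  rw [← e4, e1, e2]

end Rel
end Crest.Agent.R080
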