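import Crest.Agent.R080.RelBasic
import Crest.Agent.R080.BdryLoc

/-!
Row 80 (S0107), T16b: the relations between the moduli.
-/

set_option autoImplicit false

open MeasureTheory Filter
open scoped ContDiff Topology
open Crest.AnalysisR.VecCalc3 Crest.AnalysisR.PDE.Elasticity

noncomputable section
namespace Crest.Agent.R080
namespace Rel

theorem integrableOn_cont (G : Dom) {f : R3 → ℂ} (hf : Continuous f) : IntegrableOn f G.Ω :=
  (hf.continuousOn.integrableOn_compact G.bdd.isCompact_closure).mono_set subset_closure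

/-- blocks of the functional at a fixed spinor -/
structure Blk (G : Dom) (P₁ P₂ : Moduli) (s : Fin 2 → ℂ)
    (Φ : (Option (Fin 2) → Option (Fin 2) → R3 → ℂ) → ℂ) : Prop where
  mst : ∀ (a0 b0 : Option (Fin 2)) (η : R3 → ℂ), ContDiff ℝ ∞ η →
    -Φ (single a0 b0 (DD (th s) η)) - ∑ c, Φ (single c b0 (fun x => Amat P₂ s a0 c x * η x))
      + ∑ d, Φ (single a0 d (fun x => η x * Amat P₁ s d b0 x))
      = ∫ x in G.Ω, (Amat P₂ s a0 b0 x - Amat P₁ s a0 b0 x) * η x
  z1 : ∀ η : R3 → ℂ, ContDiff ℝ ∞ η → ∀ j, Φ (single none (some j) η) = 0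
  z2 : ∀ η : R3 → ℂ, ContDiff ℝ ∞ η → ∀ i j, Φ (single (some i) (some j) η) = 0

section
variable {G : Dom} {P₁ P₂ : Moduli} {s : Fin 2 → ℂ}
  {Φ : (Option (Fin 2) → Option (Fin 2) → R3 → ℂ) → ℂ}

theorem ksm_ne (P : Moduli) (x : R3) : (P.kap x : ℂ) * (P.sm x : ℂ) ≠ 0 := by
  exact_mod_cast (mul_pos (kap_pos P x) (sm_pos P x)).ne'

theorem smooth_ksm (P : Moduli) : ContDiff ℝ ∞ fun x => (P.kap x : ℂ) * (P.sm x : ℂ) :=
  (contDiff_cf (smooth_kap P)).mul (contDiff_cf (smooth_sm P))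

theorem Blk.gg (h : Blk G P₁ P₂ s Φ) {j : Fin 2} (hj : s j ≠ 0) (ζ : R3 → ℂ)
    (hζ : ContDiff ℝ ∞ ζ) :
    Φ (single none none ζ) = ∫ x in G.Ω, ((aa P₁ P₂ x : ℂ) - 1) * ζ x := by
  have hne : ∀ x, (P₁.kap x : ℂ) * (P₁.sm x : ℂ) * s j ≠ 0 := fun x => mul_ne_zero (ksm_ne P₁ x) hj
  set η : R3 → ℂ := fun x => -(ζ x * ((P₁.kap x : ℂ) * (P₁.sm x : ℂ) * s j)⁻¹) with hη
  have hηs : ContDiff ℝ ∞ η :=
    (hζ.mul (((smooth_ksm P₁).mul contDiff_const).inv hne)).neg
  have e := h.mst none (some j) η hηs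
  rw [h.z1 _ (contDiff_DD hηs _), Fintype.sum_option, Fintype.sum_option,
    h.z1 _ ((smooth_Amat P₂ s none none).mul hηs),
    Finset.sum_eq_zero (fun i _ => h.z2 _ ((smooth_Amat P₂ s none (some i)).mul hηs) i j),
    Finset.sum_eq_zero (fun i _ => h.z1 _ (hηs.mul (smooth_Amat P₁ s (some i) (some j))) i)] at e
  have e1 : (fun x => η x * Amat P₁ s none (some j) x) = ζ := by
    funext x
    simp only [hη, Amat]
    have := ksm_ne P₁ x
    have h1 : (P₁.kap x : ℂ) ≠ 0 := left_ne_zero_of_mul this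
    have h2 : (P₁.sm x : ℂ) ≠ 0 := right_ne_zero_of_mul this
    field_simp
  rw [e1] at e
  have e2 : (fun x => (Amat P₂ s none (some j) x - Amat P₁ s none (some j) x) * η x)
      = fun x => ((aa P₁ P₂ x : ℂ) - 1) * ζ x := by
    funext x
    simp only [hη, Amat, aa]
    push_cast
    have := ksm_ne P₁ x
    have h1 : (P₁.kap x : ℂ) ≠ 0 := left_ne_zero_of_mul this
    have h2 : (P₁.sm x : ℂ) ≠ 0 := right_ne_zero_of_mul this
    field_simp
    ring
  rw [e2] at e
  simpa using e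

theorem Blk.ig (h : Blk G P₁ P₂ s Φ) {j : Fin 2} (hj : s j ≠ 0) (i : Fin 2) (ζ : R3 → ℂ)
    (hζ : ContDiff ℝ ∞ ζ) :
    Φ (single (some i) none ζ) = ∫ x in G.Ω, (∑ l, nu s i l * (qq P₁ P₂ l x : ℂ)) * ζ x := by
  have hne : ∀ x, (P₁.kap x : ℂ) * (P₁.sm x : ℂ) * s j ≠ 0 := fun x => mul_ne_zero (ksm_ne P₁ x) hj
  set η : R3 → ℂ := fun x => -(ζ x * ((P₁.kap x : ℂ) * (P₁.sm x : ℂ) * s j)⁻¹) with hη
  have hηs : ContDiff ℝ ∞ η :=
    (hζ.mul (((smooth_ksm P₁).mul contDiff_const).inv hne)).neg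
  have e := h.mst (some i) (some j) η hηs
  rw [h.z2 _ (contDiff_DD hηs _), Fintype.sum_option, Fintype.sum_option,
    h.z1 _ ((smooth_Amat P₂ s (some i) none).mul hηs),
    Finset.sum_eq_zero (fun k _ => h.z2 _ ((smooth_Amat P₂ s (some i) (some k)).mul hηs) k j),
    Finset.sum_eq_zero (fun k _ => h.z2 _ (hηs.mul (smooth_Amat P₁ s (some k) (some j))) i k)] at e
  have e1 : (fun x => η x * Amat P₁ s none (some j) x) = ζ := by
    funext x
    simp only [hη, Amat]
    have := ksm_ne P₁ x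
    have h1 : (P₁.kap x : ℂ) ≠ 0 := left_ne_zero_of_mul this
    have h2 : (P₁.sm x : ℂ) ≠ 0 := right_ne_zero_of_mul this
    field_simp
  rw [e1] at e
  have e2 : (fun x => (Amat P₂ s (some i) (some j) x - Amat P₁ s (some i) (some j) x) * η x)
      = fun x => (∑ l, nu s i l * (qq P₁ P₂ l x : ℂ)) * ζ x := by
    funext x
    simp only [hη, Amat, qq, DD_cf (smooth_m P₁), DD_cf (smooth_m P₂), Fin.sum_univ_three]
    push_cast
    have := ksm_ne P₁ x
    have h1 : (P₁.kap x : ℂ) ≠ 0 := left_ne_zero_of_mul this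
    have h2 : (P₁.sm x : ℂ) ≠ 0 := right_ne_zero_of_mul this
    have h3 : (P₁.m x : ℂ) ≠ 0 := by exact_mod_cast (m_pos P₁ x).ne'
    have h4 : (P₂.m x : ℂ) ≠ 0 := by exact_mod_cast (m_pos P₂ x).ne'
    field_simp
    ring
  rw [e2] at e
  simpa using e

theorem sum_s_nu (s : Fin 2 → ℂ) (l : Fin 3) : s 0 * nu s 0 l + s 1 * nu s 1 l = th s l := by
  fin_cases l <;> simp [nu, th] <;> ring

theorem six {Ω : Set R3} {f1 f2 f3 f4 f5 f6 : R3 → ℂ} (i1 : IntegrableOn f1 Ω)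
    (i2 : IntegrableOn f2 Ω) (i3 : IntegrableOn f3 Ω) (i4 : IntegrableOn f4 Ω)
    (i5 : IntegrableOn f5 Ω) (i6 : IntegrableOn f6 Ω) :
    ∫ x in Ω, (((((f1 x + f2 x) + f3 x) + f4 x) - f5 x) + f6 x) =
      (∫ x in Ω, f1 x) + (∫ x in Ω, f2 x) + (∫ x in Ω, f3 x) + (∫ x in Ω, f4 x)
        - (∫ x in Ω, f5 x) + ∫ x in Ω, f6 x := by
  rw [integral_add _ i6, integral_sub _ i5, integral_add _ i4, integral_add _ i3,
    integral_add i1 i2]
  · exact i1.add i2
  · exact (i1.add i2).add i3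
  · exact ((i1.add i2).add i3).add i4
  · exact (((i1.add i2).add i3).add i4).sub i5

/-- right hand side of `∂_j a = f_j` -/
def ff (P₁ P₂ : Moduli) (j : Fin 3) (x : R3) : ℝ :=
  aa P₁ P₂ x * (P₁.kap x * pderiv P₁.m j x - P₂.kap x * pderiv P₂.m j x)
      - P₂.kap x * P₂.sm x * qq P₁ P₂ j x

/-- right hand side of `∂_j q_l = g_{jl} + φ δ_{jl}` -/
def gjl (P₁ P₂ : Moduli) (j l : Fin 3) (x : R3) : ℝ :=
  P₂.kap x / P₂.sm x * aa P₁ P₂ x * pderiv P₂.m j x * pderiv P₂.m l x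
      + (P₂.kap x - 1 / (2 * P₂.m x)) * qq P₁ P₂ j x * pderiv P₂.m l x
      + P₁.kap x * pderiv P₁.m j x * qq P₁ P₂ l x
      - P₁.kap x / P₁.sm x * pderiv P₁.m j x * pderiv P₁.m l x

theorem smooth_ff (P₁ P₂ : Moduli) (j : Fin 3) : ContDiff ℝ ∞ (ff P₁ P₂ j) :=
  ((smooth_aa P₁ P₂).mul (((smooth_kap P₁).mul (contDiff_pderiv (smooth_m P₁) j)).sub
    ((smooth_kap P₂).mul (contDiff_pderiv (smooth_m P₂) j)))).sub
    (((smooth_kap P₂).mul (smooth_sm P₂)).mul (smooth_qq P₁ P₂ j))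

theorem smooth_gjl (P₁ P₂ : Moduli) (j l : Fin 3) : ContDiff ℝ ∞ (gjl P₁ P₂ j l) :=
  ((((((smooth_kap P₂).div (smooth_sm P₂) fun x => (sm_pos P₂ x).ne').mul
    (smooth_aa P₁ P₂)).mul (contDiff_pderiv (smooth_m P₂) j)).mul
    (contDiff_pderiv (smooth_m P₂) l)).add
    ((((smooth_kap P₂).sub (smooth_cfm_inv P₂)).mul (smooth_qq P₁ P₂ j)).mul
      (contDiff_pderiv (smooth_m P₂) l)) |>.add
    (((smooth_kap P₁).mul (contDiff_pderiv (smooth_m P₁) j)).mul (smooth_qq P₁ P₂ l))).sub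
    ((((smooth_kap P₁).div (smooth_sm P₁) fun x => (sm_pos P₁ x).ne').mul
      (contDiff_pderiv (smooth_m P₁) j)).mul (contDiff_pderiv (smooth_m P₁) l))

/-- `L_j(η) = ∫_Ω (a-1) ∂_j η + f_j η` -/
def LL (G : Dom) (P₁ P₂ : Moduli) (j : Fin 3) (η : R3 → ℂ) : ℂ :=
  ∫ x in G.Ω, (((aa P₁ P₂ x : ℂ) - 1) * pd j η x + (ff P₁ P₂ j x : ℂ) * η x)

/-- `W_{jl}(η) = ∫_Ω q_l ∂_j η + g_{jl} η` -/
def WW (G : Dom) (P₁ P₂ : Moduli) (j l : Fin 3) (η : R3 → ℂ) : ℂ :=
  ∫ x in G.Ω, ((qq P₁ P₂ l x : ℂ) * pd j η x + (gjl P₁ P₂ j l x : ℂ) * η x)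

theorem Blk.I1 (h : Blk G P₁ P₂ s Φ) {j : Fin 2} (hj : s j ≠ 0) (η : R3 → ℂ)
    (hη : ContDiff ℝ ∞ η) : ∑ k, th s k * LL G P₁ P₂ k η = 0 := by
  have e := h.mst none none η hη
  have sA2 := smooth_Amat P₂ s
  have sA1 := smooth_Amat P₁ s
  rw [Fintype.sum_option, Fintype.sum_option, Fin.sum_univ_two,
    h.gg hj _ (contDiff_DD hη _), h.gg hj _ ((sA2 none none).mul hη),
    h.ig hj 0 _ ((sA2 none (some 0)).mul hη), h.ig hj 1 _ ((sA2 none (some 1)).mul hη),
    h.gg hj _ (hη.mul (sA1 none none)),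
    Finset.sum_eq_zero (fun k _ => h.z1 _ (hη.mul (sA1 (some k) none)) k)] at e
  have ca : Continuous fun x => (aa P₁ P₂ x : ℂ) - 1 :=
    ((contDiff_cf (smooth_aa P₁ P₂)).continuous).sub continuous_const
  have cq : ∀ i, Continuous fun x => ∑ l, nu s i l * (qq P₁ P₂ l x : ℂ) := fun i =>
    continuous_finsetSum _ fun l _ =>
      continuous_const.mul (contDiff_cf (smooth_qq P₁ P₂ l)).continuous
  have i1 := integrableOn_cont G (ca.mul (contDiff_DD hη (th s)).continuous)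
  have i2 := integrableOn_cont G (ca.mul ((sA2 none none).mul hη).continuous)
  have i3 := integrableOn_cont G ((cq 0).mul ((sA2 none (some 0)).mul hη).continuous)
  have i4 := integrableOn_cont G ((cq 1).mul ((sA2 none (some 1)).mul hη).continuous)
  have i5 := integrableOn_cont G (ca.mul (hη.mul (sA1 none none)).continuous)
  have i6 := integrableOn_cont G ((((sA2 none none).continuous).sub
    (sA1 none none).continuous).mul hη.continuous)
  have key : ∑ k, th s k * LL G P₁ P₂ k η = ∫ x in G.Ω,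
      (((((((aa P₁ P₂ x : ℂ) - 1) * DD (th s) η x)
        + ((aa P₁ P₂ x : ℂ) - 1) * (Amat P₂ s none none x * η x))
        + (∑ l, nu s 0 l * (qq P₁ P₂ l x : ℂ)) * (Amat P₂ s none (some 0) x * η x))
        + (∑ l, nu s 1 l * (qq P₁ P₂ l x : ℂ)) * (Amat P₂ s none (some 1) x * η x))
        - ((aa P₁ P₂ x : ℂ) - 1) * (η x * Amat P₁ s none none x))
        + (Amat P₂ s none none x - Amat P₁ s none none x) * η x := by
    simp only [LL]
    simp_rw [← integral_const_mul]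
    rw [← integral_finsetSum]
    · refine integral_congr_ae (Eventually.of_forall fun x => ?_)
      simp only [Amat, DD, pd_cf (smooth_m P₁), pd_cf (smooth_m P₂), ff, Fin.sum_univ_three,
        ← sum_s_nu]
      push_cast
      ring
    · intro k _
      refine (integrableOn_cont G ?_)
      exact continuous_const.mul ((ca.mul (contDiff_pd hη k).continuous).add
        ((contDiff_cf (smooth_ff P₁ P₂ k)).continuous.mul hη.continuous))
  refine key.trans ((six i1 i2 i3 i4 i5 i6).trans ?_)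
  simp only [Pi.mul_apply, Pi.sub_apply]
  linear_combination -e

theorem Blk.I2 (h : Blk G P₁ P₂ s Φ) {j : Fin 2} (hj : s j ≠ 0) (i : Fin 2) (η : R3 → ℂ)
    (hη : ContDiff ℝ ∞ η) :
    ∑ k, ∑ l, th s k * nu s i l * WW G P₁ P₂ k l η = 0 := by
  have e := h.mst (some i) none η hη
  have sA2 := smooth_Amat P₂ s
  have sA1 := smooth_Amat P₁ s
  rw [Fintype.sum_option, Fintype.sum_option, Fin.sum_univ_two,
    h.ig hj i _ (contDiff_DD hη _), h.gg hj _ ((sA2 (some i) none).mul hη),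
    h.ig hj 0 _ ((sA2 (some i) (some 0)).mul hη), h.ig hj 1 _ ((sA2 (some i) (some 1)).mul hη),
    h.ig hj i _ (hη.mul (sA1 none none)),
    Finset.sum_eq_zero (fun k _ => h.z2 _ (hη.mul (sA1 (some k) none)) i k)] at e
  have ca : Continuous fun x => (aa P₁ P₂ x : ℂ) - 1 :=
    ((contDiff_cf (smooth_aa P₁ P₂)).continuous).sub continuous_const
  have cq : ∀ i, Continuous fun x => ∑ l, nu s i l * (qq P₁ P₂ l x : ℂ) := fun i =>
    continuous_finsetSum _ fun l _ =>
      continuous_const.mul (contDiff_cf (smooth_qq P₁ P₂ l)).continuous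
  have i1 := integrableOn_cont G ((cq i).mul (contDiff_DD hη (th s)).continuous)
  have i2 := integrableOn_cont G (ca.mul ((sA2 (some i) none).mul hη).continuous)
  have i3 := integrableOn_cont G ((cq 0).mul ((sA2 (some i) (some 0)).mul hη).continuous)
  have i4 := integrableOn_cont G ((cq 1).mul ((sA2 (some i) (some 1)).mul hη).continuous)
  have i5 := integrableOn_cont G ((cq i).mul (hη.mul (sA1 none none)).continuous)
  have i6 := integrableOn_cont G ((((sA2 (some i) none).continuous).sub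
    (sA1 (some i) none).continuous).mul hη.continuous)
  have key : ∑ k, ∑ l, th s k * nu s i l * WW G P₁ P₂ k l η = ∫ x in G.Ω,
      (((((((∑ l, nu s i l * (qq P₁ P₂ l x : ℂ)) * DD (th s) η x)
        + ((aa P₁ P₂ x : ℂ) - 1) * (Amat P₂ s (some i) none x * η x))
        + (∑ l, nu s 0 l * (qq P₁ P₂ l x : ℂ)) * (Amat P₂ s (some i) (some 0) x * η x))
        + (∑ l, nu s 1 l * (qq P₁ P₂ l x : ℂ)) * (Amat P₂ s (some i) (some 1) x * η x))
        - (∑ l, nu s i l * (qq P₁ P₂ l x : ℂ)) * (η x * Amat P₁ s none none x))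
        + (Amat P₂ s (some i) none x - Amat P₁ s (some i) none x) * η x) := by
    simp only [WW]
    simp_rw [← integral_const_mul]
    have hint : ∀ k l, IntegrableOn (fun x => th s k * nu s i l *
        ((qq P₁ P₂ l x : ℂ) * pd k η x + (gjl P₁ P₂ k l x : ℂ) * η x)) G.Ω := fun k l =>
      integrableOn_cont G (continuous_const.mul
        (((contDiff_cf (smooth_qq P₁ P₂ l)).continuous.mul (contDiff_pd hη k).continuous).add
        ((contDiff_cf (smooth_gjl P₁ P₂ k l)).continuous.mul hη.continuous)))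
    have h1 : ∀ k, ∑ l, ∫ x in G.Ω, th s k * nu s i l *
        ((qq P₁ P₂ l x : ℂ) * pd k η x + (gjl P₁ P₂ k l x : ℂ) * η x)
        = ∫ x in G.Ω, ∑ l, th s k * nu s i l *
        ((qq P₁ P₂ l x : ℂ) * pd k η x + (gjl P₁ P₂ k l x : ℂ) * η x) := fun k =>
      (integral_finsetSum _ fun l _ => hint k l).symm
    simp_rw [h1]
    rw [← integral_finsetSum]
    · refine integral_congr_ae (Eventually.of_forall fun x => ?_)
      simp only [Amat, DD, pd_cf (smooth_m P₁), pd_cf (smooth_m P₂), gjl, Fin.sum_univ_three,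
        ← sum_s_nu]
      push_cast
      ring
    · intro k _
      exact integrable_finsetSum _ fun l _ => hint k l
  refine key.trans ((six i1 i2 i3 i4 i5 i6).trans ?_)
  simp only [Pi.mul_apply, Pi.sub_apply]
  linear_combination -e

end

/-! ### interior identities -/

theorem zero_on_frontier (G : Dom) {η : R3 → ℂ} (hη : tsupport η ⊆ G.Ω) {x : R3}
    (hx : x ∈ frontier G.Ω) : η x = 0 := by
  by_contra hne
  have h1 : x ∈ G.Ω := hη (subset_tsupport _ (Function.mem_support.2 hne))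
  have h2 := (BdryLoc.isOpen_Omega G).frontier_eq ▸ hx
  exact h2.2 h1

theorem du (G : Dom) (h : R3 → ℝ) (hc : Continuous h)
    (H : ∀ η : R3 → ℂ, ContDiff ℝ ∞ η → HasCompactSupport η → tsupport η ⊆ G.Ω →
      ∫ x in G.Ω, (h x : ℂ) * η x = 0) : ∀ x ∈ G.Ω, h x = 0 := by
  have hU := BdryLoc.isOpen_Omega G
  have h1 : ∀ᵐ x ∂(volume : Measure R3), x ∈ G.Ω → h x = 0 := by
    refine hU.ae_eq_zero_of_integral_contDiff_smul_eq_zero
      (hc.locallyIntegrable.locallyIntegrableOn _) ?_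
    intro g hg hgc hgs
    have h2 := H (cf g) (contDiff_cf hg) ?_ ?_
    · have h3 : ∫ x in G.Ω, g x • h x = ∫ x, g x • h x := by
        refine setIntegral_eq_integral_of_forall_compl_eq_zero fun x hx => ?_
        have : g x = 0 := by
          by_contra hne
          exact hx (hgs (subset_tsupport _ (Function.mem_support.2 hne)))
        rw [this, zero_smul]
      rw [← h3]
      have h4 : ∫ x in G.Ω, (h x : ℂ) * cf g x = ((∫ x in G.Ω, g x • h x : ℝ) : ℂ) := by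
        rw [← integral_complex_ofReal]
        refine integral_congr_ae (Eventually.of_forall fun x => ?_)
        simp [mul_comm]
      rw [h4] at h2
      exact_mod_cast h2
    · exact hgc.comp_left (g := fun t : ℝ => (t : ℂ)) (by simp)
    · refine (closure_mono ?_).trans hgs
      intro x hx
      rw [Function.mem_support] at hx ⊢
      intro h0; exact hx (by simp [cf, h0])
  have h2 : h =ᵐ[volume.restrict G.Ω] (fun _ => 0) :=
    (ae_restrict_iff' hU.measurableSet).2 h1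
  intro x hx
  exact Measure.eqOn_open_of_ae_eq h2 hU hc.continuousOn continuous_const.continuousOn hx

theorem pd_rmul {p : R3 → ℝ} (hp : ContDiff ℝ ∞ p) {η : R3 → ℂ} (hη : ContDiff ℝ ∞ η)
    (j : Fin 3) (x : R3) :
    pd j (fun y => (p y : ℂ) * η y) x = (p x : ℂ) * pd j η x + (pderiv p j x : ℂ) * η x := by
  rw [pd_mul (contDiff_cf hp) hη, pd_cf hp]

theorem ibp (hZ : StmtZ) (G : Dom) (j : Fin 3) {p g : R3 → ℝ} (hp : ContDiff ℝ ∞ p)
    (hg : ContDiff ℝ ∞ g) (η : R3 → ℂ) (hη : ContDiff ℝ ∞ η) (hs : tsupport η ⊆ G.Ω) :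
    ∫ x in G.Ω, ((p x : ℂ) * pd j η x + (g x : ℂ) * η x)
      = ∫ x in G.Ω, ((g x - pderiv p j x : ℝ) : ℂ) * η x := by
  have e := hZ G (fun x => (p x : ℂ) * η x) (((contDiff_cf hp).mul hη).of_le (by simp)) ?_ j
  · have i1 : IntegrableOn (fun x => (p x : ℂ) * pd j η x + (g x : ℂ) * η x) G.Ω :=
      integrableOn_cont G (((contDiff_cf hp).mul (contDiff_pd hη j)).add
        ((contDiff_cf hg).mul hη)).continuous
    have i2 : IntegrableOn (fun x => pd j (fun x => (p x : ℂ) * η x) x) G.Ω :=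
      integrableOn_cont G (contDiff_pd ((contDiff_cf hp).mul hη) j).continuous
    rw [← sub_zero (∫ x in G.Ω, ((p x : ℂ) * pd j η x + (g x : ℂ) * η x)), ← e,
      ← integral_sub i1 i2]
    refine integral_congr_ae (Eventually.of_forall fun x => ?_)
    simp only [pd_rmul hp hη]
    push_cast
    ring
  · intro x hx
    rw [zero_on_frontier G hs hx, mul_zero]

/-! ### linear algebra over the null cone -/

section
variable {G : Dom} {P₁ P₂ : Moduli} {Φ : (Fin 2 → ℂ) →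
    (Option (Fin 2) → Option (Fin 2) → R3 → ℂ) → ℂ}

theorem LL_zero (blk : ∀ s, s ≠ 0 → Blk G P₁ P₂ s (Φ s)) (η : R3 → ℂ) (hη : ContDiff ℝ ∞ η)
    (j : Fin 3) : LL G P₁ P₂ j η = 0 := by
  have e1 := (blk ![1, 0] (by simp)).I1 (j := 0) (by simp) η hη
  have e2 := (blk ![0, 1] (by simp)).I1 (j := 1) (by simp) η hη
  have e3 := (blk ![1, 1] (by simp)).I1 (j := 0) (by simp) η hη
  simp only [th, Fin.sum_univ_three, Matrix.cons_val_zero, Matrix.cons_val_one,
    Matrix.cons_val] at e1 e2 e3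
  have h0 : LL G P₁ P₂ 0 η = 0 := by linear_combination (1/2) * e1 - (1/2) * e2
  have h1 : LL G P₁ P₂ 1 η = 0 := by
    linear_combination (-Complex.I/2) * (e1 + e2) + LL G P₁ P₂ 1 η * Complex.I_sq
  have h2 : LL G P₁ P₂ 2 η = 0 := by linear_combination (1/2) * e3 - Complex.I * h1
  fin_cases j
  · exact h0
  · exact h1
  · exact h2

theorem WW_rel (blk : ∀ s, s ≠ 0 → Blk G P₁ P₂ s (Φ s)) (η : R3 → ℂ) (hη : ContDiff ℝ ∞ η) :
    (∀ j l, j ≠ l → WW G P₁ P₂ j l η = 0) ∧ (∀ j, WW G P₁ P₂ j j η = WW G P₁ P₂ 0 0 η) := by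
  have e1 := (blk ![1, 0] (by simp)).I2 (j := 0) (by simp) 0 η hη
  have e2 := (blk ![1, 0] (by simp)).I2 (j := 0) (by simp) 1 η hη
  have e3 := (blk ![0, 1] (by simp)).I2 (j := 1) (by simp) 0 η hη
  have e4 := (blk ![0, 1] (by simp)).I2 (j := 1) (by simp) 1 η hη
  have e5 := (blk ![1, 1] (by simp)).I2 (j := 0) (by simp) 0 η hη
  have e6 := (blk ![1, 1] (by simp)).I2 (j := 0) (by simp) 1 η hη
  have e7 := (blk ![1, -1] (by simp)).I2 (j := 0) (by simp) 0 η hη
  have e8 := (blk ![1, -1] (by simp)).I2 (j := 0) (by simp) 1 η hη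
  simp only [th, nu, Fin.sum_univ_three, Matrix.cons_val_zero, Matrix.cons_val_one,
    Matrix.cons_val, if_true, one_ne_zero, if_false] at e1 e2 e3 e4 e5 e6 e7 e8
  have h02 : WW G P₁ P₂ 0 2 η = 0 := by linear_combination (1/2) * (e2 - e3)
  have h12 : WW G P₁ P₂ 1 2 η = 0 := by
    linear_combination (-Complex.I/2) * (e2 + e3) + WW G P₁ P₂ 1 2 η * Complex.I_sq
  have h10 : WW G P₁ P₂ 1 0 η = 0 := by
    linear_combination (-Complex.I/8) * (e5 - e6 + e7 + e8) + WW G P₁ P₂ 1 0 η * Complex.I_sq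
  have h20 : WW G P₁ P₂ 2 0 η = 0 := by
    linear_combination (1/8) * ((e5 - e6) - (e7 + e8))
  have h01 : WW G P₁ P₂ 0 1 η = 0 := by
    linear_combination (-Complex.I/2) * (e1 - e4) +
      (WW G P₁ P₂ 0 1 η + WW G P₁ P₂ 1 0 η) * Complex.I_sq - h10
  have h21 : WW G P₁ P₂ 2 1 η = 0 := by
    linear_combination (-Complex.I/8) * ((e5 + e6) - (e7 - e8)) +
      (WW G P₁ P₂ 1 2 η + WW G P₁ P₂ 2 1 η) * Complex.I_sq - h12
  have h11 : WW G P₁ P₂ 1 1 η = WW G P₁ P₂ 0 0 η := by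
    linear_combination (-1/2) * (e1 + e4) + WW G P₁ P₂ 1 1 η * Complex.I_sq
  have h22 : WW G P₁ P₂ 2 2 η = WW G P₁ P₂ 0 0 η := by
    linear_combination (1/8) * ((e5 + e6) + (e7 - e8)) - WW G P₁ P₂ 1 1 η * Complex.I_sq + h11
  refine ⟨fun j l hjl => ?_, fun j => ?_⟩
  · fin_cases j <;> fin_cases l
    · exact absurd rfl hjl
    · exact h01
    · exact h02
    · exact h10
    · exact absurd rfl hjl
    · exact h12
    · exact h20
    · exact h21
    · exact absurd rfl hjl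
  · fin_cases j
    · rfl
    · exact h11
    · exact h22

end

theorem sum_ee (e : R3) : e = ∑ j, e j • ee j := by
  ext k
  fin_cases k <;> simp [ee, Fin.sum_univ_three]

end Rel

open Crest.Agent.R080.Rel in
theorem t_Relations (hG : StmtGauge) (hb : StmtBdry) (hZ : StmtZ) (hL : StmtBdryLoc) :
    StmtRelations := by
  intro G P₁ P₂ hS
  obtain ⟨Φ, h1, h2, h3, -, h5, h6⟩ := hG G P₁ P₂ hS
  have blk : ∀ s, s ≠ 0 → Blk G P₁ P₂ s (Φ s) := fun s hs =>
    { mst := master G P₁ P₂ s (Φ s) ⟨h2 s hs, h3 s hs⟩ (h1 s hs)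
      z1 := fun η hη j => h5 η hη s hs j
      z2 := fun η hη i j => h6 η hη s hs i j }
  have hU := BdryLoc.isOpen_Omega G
  -- interior identity for a
  have ga : ∀ j, ∀ x ∈ G.Ω, pderiv (aa P₁ P₂) j x = ff P₁ P₂ j x := by
    intro j x hx
    have hp : ContDiff ℝ ∞ (fun x => aa P₁ P₂ x - 1) := (smooth_aa P₁ P₂).sub contDiff_const
    have hpd : ∀ x, pderiv (fun x => aa P₁ P₂ x - 1) j x = pderiv (aa P₁ P₂) j x := by
      intro x; simp [pderiv, fderiv_sub_const]
    have := du G (fun x => ff P₁ P₂ j x - pderiv (aa P₁ P₂) j x)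
      ((smooth_ff P₁ P₂ j).sub (contDiff_pderiv (smooth_aa P₁ P₂) j)).continuous ?_ x hx
    · linarith
    · intro η hη _ hs
      have e := ibp hZ G j hp (smooth_ff P₁ P₂ j) η hη hs
      simp only [hpd] at e
      rw [← e, ← LL_zero blk η hη j, LL]
      push_cast
      rfl
  -- interior identities for q
  have gq : ∀ j l, j ≠ l → ∀ x ∈ G.Ω, pderiv (qq P₁ P₂ l) j x = gjl P₁ P₂ j l x := by
    intro j l hjl x hx
    have := du G (fun x => gjl P₁ P₂ j l x - pderiv (qq P₁ P₂ l) j x)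
      ((smooth_gjl P₁ P₂ j l).sub (contDiff_pderiv (smooth_qq P₁ P₂ l) j)).continuous ?_ x hx
    · linarith
    · intro η hη _ hs
      rw [← ibp hZ G j (smooth_qq P₁ P₂ l) (smooth_gjl P₁ P₂ j l) η hη hs]
      exact (WW_rel blk η hη).1 j l hjl
  have gd : ∀ j, ∀ x ∈ G.Ω, pderiv (qq P₁ P₂ j) j x - gjl P₁ P₂ j j x
      = pderiv (qq P₁ P₂ 0) 0 x - gjl P₁ P₂ 0 0 x := by
    intro j x hx
    have := du G (fun x => (gjl P₁ P₂ j j x - pderiv (qq P₁ P₂ j) j x)
        - (gjl P₁ P₂ 0 0 x - pderiv (qq P₁ P₂ 0) 0 x))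
      (((smooth_gjl P₁ P₂ j j).sub (contDiff_pderiv (smooth_qq P₁ P₂ j) j)).sub
        ((smooth_gjl P₁ P₂ 0 0).sub (contDiff_pderiv (smooth_qq P₁ P₂ 0) 0))).continuous ?_ x hx
    · linarith
    · intro η hη _ hs
      have e1 := ibp hZ G j (smooth_qq P₁ P₂ j) (smooth_gjl P₁ P₂ j j) η hη hs
      have e2 := ibp hZ G 0 (smooth_qq P₁ P₂ 0) (smooth_gjl P₁ P₂ 0 0) η hη hs
      have e3 := (WW_rel blk η hη).2 j
      unfold WW at e3
      rw [e1, e2] at e3
      have i1 : ∀ j, IntegrableOn (fun x => ((gjl P₁ P₂ j j x - pderiv (qq P₁ P₂ j) j x : ℝ) : ℂ)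
          * η x) G.Ω := fun j => integrableOn_cont G
        ((contDiff_cf ((smooth_gjl P₁ P₂ j j).sub
          (contDiff_pderiv (smooth_qq P₁ P₂ j) j))).mul hη).continuous
      rw [← sub_eq_zero, ← integral_sub (i1 j) (i1 0)] at e3
      rw [← e3]
      refine integral_congr_ae (Eventually.of_forall fun x => ?_)
      push_cast
      ring
  -- boundary integrals
  have hcoord : ∀ x ∈ frontier G.Ω, ∃ j, fderiv ℝ G.rho x (ee j) ≠ 0 := by
    intro x hx
    by_contra hcon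
    simp only [not_exists, not_not] at hcon
    refine G.reg x (BdryLoc.rho_eq_zero_of_frontier G hx) ?_
    ext e
    rw [sum_ee e, map_sum]
    simp only [map_smul, hcon, smul_zero, Finset.sum_const_zero]
    simp
  have bq : ∀ j l, j ≠ l → ∀ χ : R3 → ℂ, ContDiff ℝ ∞ χ →
      ∫ x in G.Ω, pd j (fun y => (qq P₁ P₂ l y : ℂ) * χ y) x = 0 := by
    intro j l hjl χ hχ
    rw [← (WW_rel blk χ hχ).1 j l hjl, WW]
    refine setIntegral_congr_fun hU.measurableSet fun x hx => ?_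
    simp only [pd_rmul (smooth_qq P₁ P₂ l) hχ, gq j l hjl x hx]
  have bd : ∀ j, ∀ χ : R3 → ℂ, ContDiff ℝ ∞ χ →
      ∫ x in G.Ω, pd j (fun y => (qq P₁ P₂ j y : ℂ) * χ y) x
      = ∫ x in G.Ω, pd 0 (fun y => (qq P₁ P₂ 0 y : ℂ) * χ y) x := by
    have aux : ∀ j, ∀ χ : R3 → ℂ, ContDiff ℝ ∞ χ →
      ∫ x in G.Ω, pd j (fun y => (qq P₁ P₂ j y : ℂ) * χ y) x = WW G P₁ P₂ j j χ +
        ∫ x in G.Ω, ((pderiv (qq P₁ P₂ 0) 0 x - gjl P₁ P₂ 0 0 x : ℝ) : ℂ) * χ x := by
      intro j χ hχ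
      rw [WW, ← integral_add]
      · refine setIntegral_congr_fun hU.measurableSet fun x hx => ?_
        simp only [pd_rmul (smooth_qq P₁ P₂ j) hχ, ← gd j x hx]
        push_cast
        ring
      · exact integrableOn_cont G (((contDiff_cf (smooth_qq P₁ P₂ j)).mul
          (contDiff_pd hχ j)).add ((contDiff_cf (smooth_gjl P₁ P₂ j j)).mul hχ)).continuous
      · exact integrableOn_cont G ((contDiff_cf ((contDiff_pderiv (smooth_qq P₁ P₂ 0) 0).sub
          (smooth_gjl P₁ P₂ 0 0))).mul hχ).continuous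
    intro j χ hχ
    rw [aux j χ hχ, aux 0 χ hχ, (WW_rel blk χ hχ).2 j]
  have q0 : ∀ x ∈ frontier G.Ω, ∀ j l, j ≠ l → fderiv ℝ G.rho x (ee j) ≠ 0 →
      qq P₁ P₂ l x = 0 := by
    intro x hx j l hjl hj
    have := hL G (cf (qq P₁ P₂ l)) (contDiff_cf (smooth_qq P₁ P₂ l)) x hx (ee j) hj
      (fun χ hχ _ => bq j l hjl χ hχ)
    exact Complex.ofReal_eq_zero.1 this
  have q1 : ∀ x ∈ frontier G.Ω, ∀ l, qq P₁ P₂ l x = 0 := by
    intro x hx l
    by_cases hex : ∃ j, j ≠ l ∧ fderiv ℝ G.rho x (ee j) ≠ 0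
    · obtain ⟨j, hjl, hj⟩ := hex
      exact q0 x hx j l hjl hj
    · simp only [not_exists, not_and, not_not] at hex
      obtain ⟨k, hk⟩ := hcoord x hx
      have hkl : k = l := by
        by_contra hne
        exact hk (hex k hne)
      subst hkl
      obtain ⟨j, hj⟩ : ∃ j : Fin 3, j ≠ k := exists_ne k
      have hqj : qq P₁ P₂ j x = 0 := q0 x hx k j hj.symm hk
      have hρ : fderiv ℝ G.rho x (ee k + ee j) ≠ 0 := by
        rw [map_add, hex j hj, add_zero]; exact hk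
      have hsm : ContDiff ℝ ∞ (cf fun x => qq P₁ P₂ k x - qq P₁ P₂ j x) :=
        contDiff_cf ((smooth_qq P₁ P₂ k).sub (smooth_qq P₁ P₂ j))
      have := hL G (cf fun x => qq P₁ P₂ k x - qq P₁ P₂ j x) hsm x hx (ee k + ee j) hρ ?_
      · have h7 : qq P₁ P₂ k x - qq P₁ P₂ j x = 0 := Complex.ofReal_eq_zero.1 this
        linarith
      · intro χ hχ _
        have hs : ∀ l, ContDiff ℝ ∞ (fun y => (qq P₁ P₂ l y : ℂ) * χ y) := fun l =>
          (contDiff_cf (smooth_qq P₁ P₂ l)).mul hχ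
        have hI : ∀ j l, IntegrableOn (fun x => pd j (fun y => (qq P₁ P₂ l y : ℂ) * χ y) x) G.Ω :=
          fun j l => integrableOn_cont G (contDiff_pd (hs l) j).continuous
        have hfun : (fun z => cf (fun x => qq P₁ P₂ k x - qq P₁ P₂ j x) z * χ z)
            = (fun y => (qq P₁ P₂ k y : ℂ) * χ y) - (fun y => (qq P₁ P₂ j y : ℂ) * χ y) := by
          funext z
          simp only [cf, Pi.sub_apply]
          push_cast
          ring
        have hder : ∀ y, fderiv ℝ (fun z => cf (fun x => qq P₁ P₂ k x - qq P₁ P₂ j x) z * χ z) y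
            (ee k + ee j) =
            ((pd k (fun y => (qq P₁ P₂ k y : ℂ) * χ y) y - pd k (fun y => (qq P₁ P₂ j y : ℂ) * χ y) y)
            + pd j (fun y => (qq P₁ P₂ k y : ℂ) * χ y) y)
            - pd j (fun y => (qq P₁ P₂ j y : ℂ) * χ y) y := by
          intro y
          rw [hfun, fderiv_sub ((hs k).differentiable (by simp)).differentiableAt
            ((hs j).differentiable (by simp)).differentiableAt]
          simp only [sub_apply, map_add, pd]
          ring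
        simp only [hder]
        rw [integral_sub _ (hI j j), integral_add _ (hI j k), integral_sub (hI k k) (hI k j),
          bd k χ hχ, bd j χ hχ, bq k j hj.symm χ hχ, bq j k hj χ hχ]
        · ring
        · exact (hI k k).sub (hI k j)
        · exact ((hI k k).sub (hI k j)).add (hI j k)
  refine ⟨?_, ?_, hb G P₁ P₂ hS, ?_, q1⟩
  · intro x hx j
    exact ga j x hx
  · intro x hx
    refine ⟨pderiv (qq P₁ P₂ 0) 0 x - gjl P₁ P₂ 0 0 x, fun j l => ?_⟩
    by_cases hjl : j = l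
    · subst hjl
      rw [if_pos rfl, ← gd j x hx, gjl]
      ring
    · rw [if_neg hjl, gq j l hjl x hx, gjl]
      ring
  · intro x hx
    obtain ⟨j, hj⟩ := hcoord x hx
    have := hL G (fun x => (aa P₁ P₂ x : ℂ) - 1)
      ((contDiff_cf (smooth_aa P₁ P₂)).sub contDiff_const) x hx (ee j) hj ?_
    · have h7 : (aa P₁ P₂ x : ℂ) = 1 := by linear_combination this
      exact_mod_cast h7
    · intro χ hχ _
      rw [← LL_zero blk χ hχ j, LL]
      refine setIntegral_congr_fun hU.measurableSet fun x hx => ?_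
      have h8 : fderiv ℝ (fun z => ((aa P₁ P₂ z : ℂ) - 1) * χ z) x (ee j)
          = pd j (fun z => ((aa P₁ P₂ z - 1 : ℝ) : ℂ) * χ z) x := by
        unfold pd
        push_cast
        rfl
      have h9 : pderiv (fun x => aa P₁ P₂ x - 1) j x = pderiv (aa P₁ P₂) j x := by
        simp [pderiv, fderiv_sub_const]
      simp only [h8]
      rw [pd_rmul ((smooth_aa P₁ P₂).sub contDiff_const) hχ, h9, ga j x hx]
      push_cast
      ring

end Crest.Agent.R080
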