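import Crest.Agent.R080.SeeleyCoeff

/-!
Row 80: Seeley's extension theorem for a half-space.
-/

set_option autoImplicit false

open Filter Finset
open scoped Topology ContDiff

noncomputable section
namespace Crest.Agent.R080.Seeley

variable {V F : Type*} [NormedAddCommGroup V] [NormedSpace ℝ V]
  [NormedAddCommGroup F] [NormedSpace ℝ F]

/-- the reflection `x ↦ x - (1 + 2^k) ℓ(x) e` -/
def Ak (l : V →L[ℝ] ℝ) (e : V) (k : ℕ) : V →L[ℝ] V :=
  ContinuousLinearMap.id ℝ V - (1 + (2 : ℝ) ^ k) • l.smulRight e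

lemma Ak_apply (l : V →L[ℝ] ℝ) (e : V) (k : ℕ) (x : V) :
    Ak l e k x = (x - l x • e) + (-(2 : ℝ) ^ k) • (l x • e) := by
  have h : Ak l e k x = x - (1 + (2 : ℝ) ^ k) • (l x • e) := rfl
  rw [h, add_smul, neg_smul, one_smul]
  abel

lemma l_Ak {l : V →L[ℝ] ℝ} {e : V} (he : l e = 1) (k : ℕ) (x : V) :
    l (Ak l e k x) = -(2 : ℝ) ^ k * l x := by
  rw [Ak_apply]; simp [he]

lemma norm_Ak_le (l : V →L[ℝ] ℝ) (e : V) (k : ℕ) :
    ‖Ak l e k‖ ≤ (1 + 2 * (‖l‖ * ‖e‖)) * 2 ^ k := by
  have h1 : (1 : ℝ) ≤ 2 ^ k := one_le_pow₀ (by norm_num)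
  have h2 : ‖ContinuousLinearMap.id ℝ V‖ ≤ 1 := ContinuousLinearMap.norm_id_le
  have h3 : ‖(1 + (2 : ℝ) ^ k) • l.smulRight e‖ ≤ (2 * 2 ^ k) * (‖l‖ * ‖e‖) := by
    rw [norm_smul, ContinuousLinearMap.norm_smulRight_apply, Real.norm_of_nonneg (by positivity)]
    refine mul_le_mul_of_nonneg_right (by linarith) (by positivity)
  calc ‖Ak l e k‖ ≤ ‖ContinuousLinearMap.id ℝ V‖ + ‖(1 + (2 : ℝ) ^ k) • l.smulRight e‖ :=
        norm_sub_le _ _
    _ ≤ 1 + (2 * 2 ^ k) * (‖l‖ * ‖e‖) := add_le_add h2 h3
    _ ≤ (1 + 2 * (‖l‖ * ‖e‖)) * 2 ^ k := by nlinarith [mul_nonneg (norm_nonneg l) (norm_nonneg e)]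

/-- the moment conditions give invariance of multilinear maps -/
lemma tsum_comp_Ak (l : V →L[ℝ] ℝ) (e : V) (n : ℕ) (q : V [×n]→L[ℝ] F) (v : Fin n → V) :
    ∑' k, cc k • q (fun i => Ak l e k (v i)) = q v := by
  classical
  set a : Fin n → V := fun i => v i - l (v i) • e with ha
  set b : Fin n → V := fun i => l (v i) • e with hb
  have hexp : ∀ τ : ℝ, q (fun i => a i + τ • b i)
      = ∑ s : Finset (Fin n), τ ^ (#sᶜ) • q (s.piecewise a b) := by
    intro τ
    have h1 : (fun i => a i + τ • b i) = a + fun i => τ • b i := rfl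
    rw [h1]
    have h2 := q.toMultilinearMap.map_add_univ a (fun i => τ • b i)
    simp only [ContinuousMultilinearMap.coe_coe] at h2
    rw [h2]
    refine sum_congr rfl fun s _ => ?_
    have h3 : s.piecewise a (fun i => τ • b i)
        = sᶜ.piecewise (fun i => τ • (s.piecewise a b) i) (s.piecewise a b) := by
      funext i
      by_cases hi : i ∈ s <;> simp [hi]
    have h4 := q.toMultilinearMap.map_piecewise_smul (fun _ => τ) (s.piecewise a b) sᶜ
    simp only [ContinuousMultilinearMap.coe_coe] at h4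
    rw [h3, h4, prod_const]
  have h5 : ∀ k, cc k • q (fun i => Ak l e k (v i))
      = ∑ s : Finset (Fin n), (cc k * (-(2 : ℝ) ^ k) ^ (#sᶜ)) • q (s.piecewise a b) := by
    intro k
    have : (fun i => Ak l e k (v i)) = fun i => a i + (-(2 : ℝ) ^ k) • b i := by
      funext i; rw [Ak_apply]
    rw [this, hexp, smul_sum]
    exact sum_congr rfl fun s _ => by rw [smul_smul]
  have hs : ∀ j, Summable fun k => cc k * (-(2 : ℝ) ^ k) ^ j := by
    intro j
    refine Summable.of_norm_bounded (cc_summable j) fun k => ?_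
    rw [norm_mul, norm_pow, norm_neg, Real.norm_of_nonneg (by positivity : (0 : ℝ) ≤ 2 ^ k),
      Real.norm_eq_abs]
  have h6 : ∑' k, cc k • q (fun i => Ak l e k (v i)) = ∑ s : Finset (Fin n), q (s.piecewise a b) := by
    have h7 : ∀ s : Finset (Fin n), HasSum
        (fun k => (cc k * (-(2 : ℝ) ^ k) ^ (#sᶜ)) • q (s.piecewise a b)) (q (s.piecewise a b)) := by
      intro s
      have := (hs (#sᶜ)).hasSum
      rw [cc_moment] at this
      simpa using this.smul_const (q (s.piecewise a b))
    have h8 := hasSum_sum (s := (univ : Finset (Finset (Fin n)))) fun s _ => h7 s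
    rw [← h8.tsum_eq]
    exact tsum_congr h5
  rw [h6]
  have h9 := hexp 1
  simp only [one_pow, one_smul] at h9
  rw [← h9]
  congr 1
  funext i
  simp [ha, hb]

/-! ### the extended Taylor series -/

variable [CompleteSpace F]

/-- extended Taylor series -/
def PP (l : V →L[ℝ] ℝ) (e : V) (p : V → FormalMultilinearSeries ℝ V F) (x : V) :
    FormalMultilinearSeries ℝ V F :=
  fun n => if l x ≤ 0 then p x n else
    ∑' k, cc k • (p (Ak l e k x) n).compContinuousLinearMap (fun _ => Ak l e k)

/-- extended function -/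
def FF (l : V →L[ℝ] ℝ) (e : V) (f : V → F) (x : V) : F :=
  if l x ≤ 0 then f x else ∑' k, cc k • f (Ak l e k x)

section
variable {l : V →L[ℝ] ℝ} {e : V} {p : V → FormalMultilinearSeries ℝ V F} {f : V → F}

omit [CompleteSpace F] in
lemma term_bound (he : l e = 1) {n : ℕ} {C : ℝ} (hC : ∀ x, l x ≤ 0 → ‖p x n‖ ≤ C) (k : ℕ) {x : V}
    (hx : 0 ≤ l x) :
    ‖cc k • (p (Ak l e k x) n).compContinuousLinearMap (fun _ => Ak l e k)‖
      ≤ C * (1 + 2 * (‖l‖ * ‖e‖)) ^ n * (|cc k| * ((2 : ℝ) ^ k) ^ n) := by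
  have h0 : l (Ak l e k x) ≤ 0 := by
    rw [l_Ak he]; have : (0 : ℝ) < 2 ^ k := by positivity
    nlinarith
  have h1 := ContinuousMultilinearMap.norm_compContinuousLinearMap_le (p (Ak l e k x) n)
    (fun _ => Ak l e k)
  rw [prod_const, card_univ, Fintype.card_fin] at h1
  have h2 : ‖Ak l e k‖ ^ n ≤ ((1 + 2 * (‖l‖ * ‖e‖)) * 2 ^ k) ^ n :=
    pow_le_pow_left₀ (norm_nonneg _) (norm_Ak_le l e k) n
  have hC0 : 0 ≤ C := (norm_nonneg _).trans (hC _ h0)
  rw [norm_smul, Real.norm_eq_abs]
  calc |cc k| * ‖(p (Ak l e k x) n).compContinuousLinearMap (fun _ => Ak l e k)‖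
      ≤ |cc k| * (C * ((1 + 2 * (‖l‖ * ‖e‖)) * 2 ^ k) ^ n) := by
        refine mul_le_mul_of_nonneg_left (h1.trans ?_) (abs_nonneg _)
        exact mul_le_mul (hC _ h0) h2 (by positivity) hC0
    _ = _ := by rw [mul_pow]; ring

lemma summable_bound (l : V →L[ℝ] ℝ) (e : V) (C : ℝ) (n : ℕ) :
    Summable fun k => C * (1 + 2 * (‖l‖ * ‖e‖)) ^ n * (|cc k| * ((2 : ℝ) ^ k) ^ n) :=
  (cc_summable n).mul_left _

lemma hasFDerivAt_pos (he : l e = 1) (hp : HasFTaylorSeriesUpToOn ∞ f p {x | l x ≤ 0})
    (hb : ∀ n, ∃ C, ∀ x, l x ≤ 0 → ‖p x n‖ ≤ C) (n : ℕ) {x : V} (hx : 0 < l x) :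
    HasFDerivAt (fun y => PP l e p y n) (PP l e p x (n + 1)).curryLeft x := by
  obtain ⟨C, hC⟩ := hb n
  obtain ⟨C', hC'⟩ := hb (n + 1)
  have hopen : IsOpen {x : V | 0 < l x} := isOpen_lt continuous_const l.continuous
  have hconv : Convex ℝ {x : V | 0 < l x} := by
    exact (convex_Ioi (0 : ℝ)).is_linear_preimage l.toLinearMap.isLinear
  have key := hasFDerivAt_tsum_of_isPreconnected (𝕜 := ℝ) (s := {x : V | 0 < l x})
    (f := fun k y => cc k • (p (Ak l e k y) n).compContinuousLinearMap (fun _ => Ak l e k))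
    (f' := fun k y => (cc k • (p (Ak l e k y) (n + 1)).compContinuousLinearMap
      (fun _ => Ak l e k)).curryLeft)
    (x₀ := x) (x := x) (summable_bound l e C' (n + 1)) hopen hconv.isPreconnected ?_ ?_ hx ?_ hx
  · have h1 : (fun y => PP l e p y n) =ᶠ[𝓝 x] fun y =>
        ∑' k, cc k • (p (Ak l e k y) n).compContinuousLinearMap (fun _ => Ak l e k) := by
      filter_upwards [hopen.mem_nhds hx] with y hy
      simp only [PP, not_le.2 (show 0 < l y from hy), if_false]
    refine (key.congr_of_eventuallyEq h1).congr_fderiv ?_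
    have h2 : PP l e p x (n + 1)
        = ∑' k, cc k • (p (Ak l e k x) (n + 1)).compContinuousLinearMap (fun _ => Ak l e k) := by
      simp only [PP, not_le.2 hx, if_false]
    rw [h2]
    have hs : Summable fun k =>
        cc k • (p (Ak l e k x) (n + 1)).compContinuousLinearMap (fun _ => Ak l e k) :=
      Summable.of_norm_bounded (summable_bound l e C' (n + 1)) fun k =>
        term_bound he hC' k hx.le
    have h3 := ((continuousMultilinearCurryLeftEquiv ℝ (fun _ : Fin (n + 1) => V) F
      ).toContinuousLinearEquiv.toContinuousLinearMap).map_tsum hs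
    exact h3.symm
  · intro k y hy
    have h1 := (hp.compContinuousLinearMap (Ak l e k)).fderivWithin n (by exact_mod_cast
      (WithTop.coe_lt_coe.2 (WithTop.coe_lt_top n))) y (by
        show l (Ak l e k y) ≤ 0
        rw [l_Ak he]; have : (0 : ℝ) < 2 ^ k := by positivity
        have hy' : 0 < l y := hy
        nlinarith)
    have h2 : (Ak l e k) ⁻¹' {x | l x ≤ 0} ∈ 𝓝 y := by
      filter_upwards [hopen.mem_nhds hy] with z hz
      show l (Ak l e k z) ≤ 0
      rw [l_Ak he]; have : (0 : ℝ) < 2 ^ k := by positivity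
      have hy' : 0 < l z := hz
      nlinarith
    exact (h1.hasFDerivAt h2).const_smul (cc k)
  · intro k y hy
    rw [ContinuousMultilinearMap.curryLeft_norm]
    exact term_bound he hC' k (le_of_lt hy)
  · exact Summable.of_norm_bounded (summable_bound l e C n) fun k => term_bound he hC k hx.le

lemma tendsto_bdry (he : l e = 1) (hp : HasFTaylorSeriesUpToOn ∞ f p {x | l x ≤ 0})
    (hb : ∀ n, ∃ C, ∀ x, l x ≤ 0 → ‖p x n‖ ≤ C) (n : ℕ) {x : V} (hx : l x = 0) :
    Tendsto (fun y => PP l e p y n) (𝓝[{y | 0 < l y}] x) (𝓝 (p x n)) := by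
  obtain ⟨C, hC⟩ := hb n
  have hAx : ∀ k, Ak l e k x = x := fun k => by rw [Ak_apply, hx]; simp
  have h1 : Tendsto (fun y => ∑' k, cc k • (p (Ak l e k y) n).compContinuousLinearMap
      (fun _ => Ak l e k)) (𝓝[{y | 0 < l y}] x)
      (𝓝 (∑' k, cc k • (p x n).compContinuousLinearMap (fun _ => Ak l e k))) := by
    refine tendsto_tsum_of_dominated_convergence (summable_bound l e C n) (fun k => ?_) ?_
    · have h2 : Tendsto (fun y => p (Ak l e k y) n) (𝓝[{y | 0 < l y}] x) (𝓝 (p x n)) := by
        have h3 : ContinuousWithinAt (fun y => p y n) {x | l x ≤ 0} x :=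
          hp.cont n (by exact_mod_cast le_top) x (by simp [hx])
        have h4 : Tendsto (fun y => Ak l e k y) (𝓝[{y | 0 < l y}] x)
            (𝓝[{x | l x ≤ 0}] x) := by
          refine tendsto_nhdsWithin_iff.2 ⟨?_, ?_⟩
          · have := (Ak l e k).continuous.tendsto x
            rw [hAx] at this
            exact this.mono_left nhdsWithin_le_nhds
          · filter_upwards [self_mem_nhdsWithin] with y hy
            show l (Ak l e k y) ≤ 0
            rw [l_Ak he]; have : (0 : ℝ) < 2 ^ k := by positivity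
            have hy' : 0 < l y := hy
            nlinarith
        exact h3.tendsto.comp h4
      have h5 := ((ContinuousMultilinearMap.compContinuousLinearMapL (F := F)
        (fun _ : Fin n => Ak l e k)).continuous.tendsto (p x n)).comp h2
      exact h5.const_smul (cc k)
    · filter_upwards [self_mem_nhdsWithin] with y hy k
      exact term_bound he hC k (le_of_lt hy)
  have h6 : (∑' k, cc k • (p x n).compContinuousLinearMap (fun _ => Ak l e k)) = p x n := by
    have hs : Summable fun k => cc k • (p x n).compContinuousLinearMap (fun _ => Ak l e k) := by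
      refine Summable.of_norm_bounded (summable_bound l e C n) fun k => ?_
      have := term_bound he hC k hx.ge
      rwa [hAx] at this
    ext v
    have h7 := (ContinuousMultilinearMap.apply ℝ (fun _ : Fin n => V) F v).map_tsum hs
    simp only [ContinuousMultilinearMap.apply_apply] at h7
    rw [h7]
    exact tsum_comp_Ak l e n (p x n) v
  rw [h6] at h1
  refine h1.congr' ?_
  filter_upwards [self_mem_nhdsWithin] with y hy
  simp only [PP, not_le.2 (show 0 < l y from hy), if_false]

lemma hasFDerivAt_all (he : l e = 1) (hp : HasFTaylorSeriesUpToOn ∞ f p {x | l x ≤ 0})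
    (hb : ∀ n, ∃ C, ∀ x, l x ≤ 0 → ‖p x n‖ ≤ C) (n : ℕ) (x : V) :
    HasFDerivAt (fun y => PP l e p y n) (PP l e p x (n + 1)).curryLeft x := by
  rcases lt_trichotomy (l x) 0 with hx | hx | hx
  · have h1 := hp.fderivWithin n (by exact_mod_cast
      (WithTop.coe_lt_coe.2 (WithTop.coe_lt_top n))) x hx.le
    have hm : {x : V | l x ≤ 0} ∈ 𝓝 x := by
      filter_upwards [(isOpen_lt l.continuous continuous_const).mem_nhds hx] with z hz
      exact le_of_lt hz
    have h2 := h1.hasFDerivAt hm
    have h3 : (fun y => PP l e p y n) =ᶠ[𝓝 x] fun y => p y n := by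
      filter_upwards [hm] with y hy
      simp only [PP, if_pos (show l y ≤ 0 from hy)]
    refine (h2.congr_of_eventuallyEq h3).congr_fderiv ?_
    simp only [PP, if_pos hx.le]
  · -- boundary
    have hPx : ∀ m, PP l e p x m = p x m := fun m => by simp only [PP, if_pos hx.le]
    have hleft : HasFDerivWithinAt (fun y => PP l e p y n) (PP l e p x (n + 1)).curryLeft
        {x | l x ≤ 0} x := by
      rw [hPx]
      refine (hp.fderivWithin n (by exact_mod_cast
        (WithTop.coe_lt_coe.2 (WithTop.coe_lt_top n))) x hx.le).congr ?_ (hPx n)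
      intro y hy
      simp only [PP, if_pos (show l y ≤ 0 from hy)]
    have hopen : IsOpen {x : V | 0 < l x} := isOpen_lt continuous_const l.continuous
    have hconv : Convex ℝ {x : V | 0 < l x} := by
      exact (convex_Ioi (0 : ℝ)).is_linear_preimage l.toLinearMap.isLinear
    have hcl : closure {x : V | 0 < l x} ⊆ {x | 0 ≤ l x} :=
      closure_minimal (fun y (hy : 0 < l y) => (hy.le : (0 : ℝ) ≤ l y))
        (isClosed_le continuous_const l.continuous)
    have hcl' : {x : V | 0 ≤ l x} ⊆ closure {x : V | 0 < l x} := by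
      intro y hy
      have h1 : Tendsto (fun t : ℝ => y + t • e) (𝓝[>] 0) (𝓝 y) := by
        have : Tendsto (fun t : ℝ => y + t • e) (𝓝 0) (𝓝 (y + (0 : ℝ) • e)) :=
          (continuous_const.add (continuous_id.smul continuous_const)).tendsto 0
        rw [zero_smul, add_zero] at this
        exact this.mono_left nhdsWithin_le_nhds
      refine mem_closure_of_tendsto h1 ?_
      filter_upwards [self_mem_nhdsWithin] with t ht
      have h0 : (0 : ℝ) ≤ l y := hy
      have ht' : (0 : ℝ) < t := ht
      show 0 < l (y + t • e)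
      rw [map_add, map_smul, he, smul_eq_mul, mul_one]; linarith
    have hright : HasFDerivWithinAt (fun y => PP l e p y n) (PP l e p x (n + 1)).curryLeft
        (closure {x | 0 < l x}) x := by
      refine hasFDerivWithinAt_closure_of_tendsto_fderiv ?_ hconv hopen ?_ ?_
      · intro y hy
        exact (hasFDerivAt_pos he hp hb n hy).differentiableAt.differentiableWithinAt
      · intro y hy
        rcases (show (0 : ℝ) ≤ l y from hcl hy).eq_or_lt with h | h
        · have h1 := tendsto_bdry he hp hb n h.symm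
          show Tendsto _ _ _
          simpa only [PP, if_pos h.symm.le] using h1
        · exact (hasFDerivAt_pos he hp hb n h).continuousAt.continuousWithinAt
      · have h1 := tendsto_bdry he hp hb (n + 1) hx
        have h2 := ((continuousMultilinearCurryLeftEquiv ℝ (fun _ : Fin (n + 1) => V) F
          ).continuous.tendsto (p x (n + 1))).comp h1
        rw [hPx]
        refine Tendsto.congr' ?_ h2
        filter_upwards [self_mem_nhdsWithin] with y hy
        exact (hasFDerivAt_pos he hp hb n hy).fderiv.symm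
    have h3 := hleft.union (hright.mono hcl')
    have h4 : {x : V | l x ≤ 0} ∪ {x | 0 ≤ l x} = Set.univ := by
      ext y; simp [le_total]
    rw [h4] at h3
    exact hasFDerivWithinAt_univ.1 h3
  · exact hasFDerivAt_pos he hp hb n hx

theorem contDiff_FF (he : l e = 1) (hp : HasFTaylorSeriesUpToOn ∞ f p {x | l x ≤ 0})
    (hb : ∀ n, ∃ C, ∀ x, l x ≤ 0 → ‖p x n‖ ≤ C) : ContDiff ℝ ∞ (FF l e f) := by
  have hT : HasFTaylorSeriesUpTo ∞ (FF l e f) (PP l e p) := by
    refine ⟨fun x => ?_, fun m _ x => hasFDerivAt_all he hp hb m x, fun m _ => ?_⟩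
    · by_cases hx : l x ≤ 0
      · simp only [FF, PP, if_pos hx]
        exact hp.zero_eq x hx
      · simp only [FF, PP, if_neg hx]
        obtain ⟨C, hC⟩ := hb 0
        have hs : Summable fun k =>
            cc k • (p (Ak l e k x) 0).compContinuousLinearMap (fun _ => Ak l e k) :=
          Summable.of_norm_bounded (summable_bound l e C 0) fun k =>
            term_bound he hC k (not_le.1 hx).le
        have h7 := (ContinuousMultilinearMap.apply ℝ (fun _ : Fin 0 => V) F 0).map_tsum hs
        simp only [ContinuousMultilinearMap.apply_apply] at h7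
        refine h7.trans (tsum_congr fun k => ?_)
        have h8 : l (Ak l e k x) ≤ 0 := by
          rw [l_Ak he]; have : (0 : ℝ) < 2 ^ k := by positivity
          have := not_le.1 hx
          nlinarith
        rw [← hp.zero_eq _ h8]
        show cc k • (p (Ak l e k x) 0) (fun i => Ak l e k ((0 : Fin 0 → V) i))
          = cc k • (p (Ak l e k x) 0) 0
        congr 2
        funext i
        exact i.elim0
    · exact continuous_iff_continuousAt.2 fun x => (hasFDerivAt_all he hp hb m x).continuousAt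
  exact hT.contDiff

end

/-- **Seeley's extension theorem** for a half-space: a compactly supported smooth function on a
closed half-space is the restriction of a smooth function. -/
theorem seeley_halfspace [FiniteDimensional ℝ V] (l : V →L[ℝ] ℝ) (hl : l ≠ 0) (f : V → F)
    (hf : ContDiffOn ℝ ∞ f {x | l x ≤ 0}) (R : ℝ) (hR : ∀ x, l x ≤ 0 → R < ‖x‖ → f x = 0) :
    ∃ g : V → F, ContDiff ℝ ∞ g ∧ ∀ x, l x ≤ 0 → g x = f x := by
  obtain ⟨v, hv⟩ : ∃ v, l v ≠ 0 := by
    by_contra h
    push Not at h
    exact hl (ContinuousLinearMap.ext h)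
  have he : l ((l v)⁻¹ • v) = 1 := by rw [map_smul, smul_eq_mul, inv_mul_cancel₀ hv]
  set e := (l v)⁻¹ • v
  set s : Set V := {x | l x ≤ 0} with hs
  have hconv : Convex ℝ s := by
    exact (convex_Iic (0 : ℝ)).is_linear_preimage l.toLinearMap.isLinear
  have hint : (interior s).Nonempty := by
    refine ⟨-e, ?_⟩
    refine mem_interior.2 ⟨{x | l x < 0}, fun y (hy : l y < 0) => (hy.le : l y ≤ 0),
      isOpen_lt l.continuous continuous_const, ?_⟩
    show l (-e) < 0
    rw [map_neg, he]; norm_num
  have hu : UniqueDiffOn ℝ s := uniqueDiffOn_convex hconv hint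
  have hp : HasFTaylorSeriesUpToOn ∞ f (ftaylorSeriesWithin ℝ f s) s := hf.ftaylorSeriesWithin hu
  have hclosed : IsClosed s := isClosed_le l.continuous continuous_const
  refine ⟨FF l e f, contDiff_FF he hp ?_, fun x hx => by simp only [FF, if_pos hx]⟩
  intro n
  have hK : IsCompact (s ∩ Metric.closedBall (0 : V) R) :=
    (isCompact_closedBall (0 : V) R).inter_left hclosed
  obtain ⟨C, hC⟩ := hK.exists_bound_of_continuousOn
    (f := fun x => ftaylorSeriesWithin ℝ f s x n)
    ((hp.cont n (by exact_mod_cast le_top)).mono Set.inter_subset_left)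
  refine ⟨max C 0, fun x hx => ?_⟩
  by_cases hxR : ‖x‖ ≤ R
  · exact (hC x ⟨hx, by simpa using hxR⟩).trans (le_max_left _ _)
  · have h1 : f =ᶠ[𝓝[s] x] fun _ => 0 := by
      have h2 : {y : V | R < ‖y‖} ∈ 𝓝 x := (isOpen_lt continuous_const continuous_norm).mem_nhds
        (not_le.1 hxR)
      filter_upwards [nhdsWithin_le_nhds h2, self_mem_nhdsWithin] with y hy hy'
      exact hR y hy' hy
    have h3 : ftaylorSeriesWithin ℝ f s x n = 0 := by
      have h4 := (Filter.EventuallyEq.iteratedFDerivWithin_eq (𝕜 := ℝ) h1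
        (hR x hx (not_le.1 hxR)) n)
      rw [ftaylorSeriesWithin, h4]
      simp
    rw [h3, norm_zero]
    exact le_max_right _ _

end Crest.Agent.R080.Seeley
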