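import Mathlib

/-!
Row 80, T1 (a): Seeley coefficients. There is a sequence `c` with `∑ |c_j| R^j < ∞` for all `R`,
`∑ c_j = 1`, `∑ c_j 2^{jk} = 0` for `k ≥ 1`.
-/

set_option autoImplicit false

open Filter Topology

noncomputable section
namespace Crest.Agent.R080.Seeley

/-- `d_0 = 1`, `d_{j+1} = - d_j 2^{-j}/(1-2^{-(j+1)})` -/
def dco : ℕ → ℝ
  | 0 => 1
  | j + 1 => -(dco j * (1 / 2) ^ j / (1 - (1 / 2) ^ (j + 1)))

theorem one_sub_pos (j : ℕ) : (1 / 2 : ℝ) ≤ 1 - (1 / 2) ^ (j + 1) := by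
  have : (1 / 2 : ℝ) ^ (j + 1) ≤ (1 / 2) ^ 1 :=
    pow_le_pow_of_le_one (by norm_num) (by norm_num) (by omega)
  linarith [this, pow_one (1 / 2 : ℝ)]

theorem dco_succ (j : ℕ) :
    dco (j + 1) * (1 - (1 / 2) ^ (j + 1)) = -(dco j * (1 / 2) ^ j) := by
  have h := one_sub_pos j
  have h' : (1 - (1 / 2 : ℝ) ^ (j + 1)) ≠ 0 := by linarith
  rw [dco, neg_mul, div_mul_cancel₀ _ h']

theorem dco_ne (j : ℕ) : dco j ≠ 0 := by
  induction j with
  | zero => simp [dco]
  | succ j ih =>
    have h := one_sub_pos j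
    have h' : (1 - (1 / 2 : ℝ) ^ (j + 1)) ≠ 0 := by linarith
    rw [dco]
    exact neg_ne_zero.mpr (div_ne_zero (mul_ne_zero ih (by positivity)) h')

theorem abs_dco_succ_le (j : ℕ) : |dco (j + 1)| ≤ |dco j| * (2 * (1 / 2) ^ j) := by
  have h := one_sub_pos j
  have h' : 0 < (1 - (1 / 2 : ℝ) ^ (j + 1)) := by linarith
  have e := congrArg abs (dco_succ j)
  rw [abs_mul, abs_neg, abs_mul, abs_of_pos h', abs_of_pos (by positivity : (0 : ℝ) < (1 / 2) ^ j)] at e
  nlinarith [abs_nonneg (dco (j + 1)), abs_nonneg (dco j)]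

theorem summable_dco (R : ℝ) : Summable fun j => |dco j| * R ^ j := by
  by_cases hR : R = 0
  · subst hR
    refine summable_of_ne_finset_zero (s := {0}) ?_
    intro j hj
    simp at hj
    simp [hj]
  refine summable_of_ratio_test_tendsto_lt_one (l := 0) (by norm_num) ?_ ?_
  · exact Eventually.of_forall fun j => mul_ne_zero (abs_ne_zero.mpr (dco_ne j)) (pow_ne_zero _ hR)
  · have hlim : Tendsto (fun j : ℕ => (2 * |R|) * (1 / 2 : ℝ) ^ j) atTop (𝓝 0) := by
      simpa using (tendsto_pow_atTop_nhds_zero_of_lt_one (r := (1 / 2 : ℝ)) (by norm_num)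
        (by norm_num)).const_mul (2 * |R|)
    refine squeeze_zero (fun j => by positivity) (fun j => ?_) hlim
    have hd : 0 < |dco j| := abs_pos.mpr (dco_ne j)
    have hRp : 0 < |R| ^ j := by positivity
    simp only [Real.norm_eq_abs, abs_mul, abs_abs, abs_pow]
    rw [div_le_iff₀ (by positivity)]
    have := abs_dco_succ_le j
    calc |dco (j + 1)| * |R| ^ (j + 1) ≤ (|dco j| * (2 * (1 / 2) ^ j)) * |R| ^ (j + 1) := by gcongr
      _ = 2 * |R| * (1 / 2) ^ j * (|dco j| * |R| ^ j) := by ring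

theorem summable_dco' (z : ℝ) : Summable fun j => dco j * z ^ j := by
  refine Summable.of_norm ?_
  have := summable_dco |z|
  refine this.congr fun j => ?_
  simp [abs_mul, abs_pow]

/-- the entire function `∑ d_j z^j` -/
def SS (z : ℝ) : ℝ := ∑' j, dco j * z ^ j

theorem SS_eq (z : ℝ) : SS z = (1 - z) * SS (z / 2) := by
  have h1 := summable_dco' z
  have h2 := summable_dco' (z / 2)
  have h3 : Summable fun j => z * (dco j * (z / 2) ^ j) := h2.mul_left z
  unfold SS
  rw [sub_mul, one_mul, ← tsum_mul_left]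
  rw [h1.tsum_eq_zero_add, h2.tsum_eq_zero_add]
  have h1' := (summable_nat_add_iff 1).mpr h1
  have h2' := (summable_nat_add_iff 1).mpr h2
  have : (∑' j, dco (j + 1) * z ^ (j + 1)) =
      (∑' j, dco (j + 1) * (z / 2) ^ (j + 1)) - ∑' j, z * (dco j * (z / 2) ^ j) := by
    rw [← h2'.tsum_sub h3]
    congr 1
    ext j
    have e := dco_succ j
    have : dco (j + 1) = dco (j + 1) * (1 / 2) ^ (j + 1) - dco j * (1 / 2) ^ j := by linarith
    rw [div_pow, div_pow, pow_succ z j]
    have e2 : dco (j + 1) * (z ^ j * z) =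
        (dco (j + 1) * (1 / 2) ^ (j + 1) - dco j * (1 / 2) ^ j) * (z ^ j * z) := by rw [← this]
    rw [e2]
    simp only [one_div, inv_pow]
    ring
  rw [this]
  ring

theorem SS_pow (k : ℕ) : SS (2 ^ k) = 0 := by
  induction k with
  | zero => rw [SS_eq]; simp
  | succ k ih => rw [SS_eq, pow_succ, mul_div_assoc, div_self (by norm_num), mul_one, ih, mul_zero]

theorem SS_zero : SS 0 = 1 := by
  unfold SS
  rw [tsum_eq_single 0]
  · simp [dco]
  · intro j hj; simp [hj]

theorem SS_cont0 : Tendsto (fun n : ℕ => SS ((1 / 2) ^ n)) atTop (𝓝 (SS 0)) := by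
  unfold SS
  refine tendsto_tsum_of_dominated_convergence (bound := fun j => |dco j| * 1 ^ j)
    (summable_dco 1) ?_ ?_
  · intro j
    refine (Tendsto.pow ?_ j).const_mul _
    exact tendsto_pow_atTop_nhds_zero_of_lt_one (by norm_num) (by norm_num)
  · refine Eventually.of_forall fun n j => ?_
    rw [norm_mul, Real.norm_eq_abs, norm_pow, norm_pow, one_pow]
    have : ‖(1 / 2 : ℝ)‖ ≤ 1 := by norm_num
    have h1 : (‖(1 / 2 : ℝ)‖ ^ n) ^ j ≤ 1 := pow_le_one₀ (by positivity)
      (pow_le_one₀ (by positivity) this)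
    gcongr

theorem SS_half : SS (1 / 2) ≠ 0 := by
  intro h
  have hn : ∀ n : ℕ, SS ((1 / 2) ^ (n + 1)) = 0 := by
    intro n
    induction n with
    | zero => simpa using h
    | succ n ih =>
      have e := SS_eq ((1 / 2) ^ (n + 1))
      rw [ih] at e
      have : (1 - (1 / 2 : ℝ) ^ (n + 1)) ≠ 0 := by linarith [one_sub_pos n]
      have e2 := (mul_eq_zero.mp e.symm).resolve_left this
      rw [pow_succ, ← div_eq_mul_one_div]
      exact e2
  have h1 : Tendsto (fun n : ℕ => SS ((1 / 2) ^ (n + 1))) atTop (𝓝 (SS 0)) :=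
    SS_cont0.comp (tendsto_add_atTop_nat 1)
  simp only [hn, SS_zero] at h1
  have := tendsto_nhds_unique h1 tendsto_const_nhds
  norm_num at this

/-- Seeley coefficients -/
theorem exists_coef : ∃ c : ℕ → ℝ, (∀ k : ℕ, Summable fun j => |c j| * (2 ^ j) ^ k) ∧
    (∑' j, c j = 1) ∧ ∀ k : ℕ, 1 ≤ k → ∑' j, c j * (2 ^ j) ^ k = 0 := by
  refine ⟨fun j => dco j * (1 / 2) ^ j / SS (1 / 2), fun k => ?_, ?_, fun k hk => ?_⟩
  · have := (summable_dco (2 ^ k / 2)).div_const |SS (1 / 2)|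
    refine this.congr fun j => ?_
    rw [abs_div, abs_mul, abs_of_pos (by positivity : (0 : ℝ) < (1 / 2) ^ j), ← pow_mul,
      mul_comm j k, pow_mul, div_pow]
    simp only [one_div, inv_pow]
    ring
  · rw [tsum_div_const]
    exact div_self SS_half
  · have : ∀ j, dco j * (1 / 2) ^ j / SS (1 / 2) * (2 ^ j) ^ k
        = dco j * (2 ^ (k - 1)) ^ j / SS (1 / 2) := by
      intro j
      obtain ⟨k, rfl⟩ : ∃ k', k = k' + 1 := ⟨k - 1, by omega⟩
      rw [Nat.add_sub_cancel, ← pow_mul (2 : ℝ) k j, mul_comm k j, pow_mul, pow_succ]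
      simp only [one_div, inv_pow]
      field_simp
    simp only [this]
    rw [tsum_div_const]
    have h := SS_pow (k - 1)
    unfold SS at h
    rw [h, zero_div]

end Crest.Agent.R080.Seeley
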