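import Mathlib

/-!
Row 80: the coefficients of Seeley's extension operator.
-/

set_option autoImplicit false

open Filter Finset
open scoped Topology

noncomputable section
namespace Crest.Agent.R080.Seeley

/-- factors -/
def rr (j k : ℕ) : ℝ := (1 + 2 ^ j) / (2 ^ j - 2 ^ k)

def AA (k : ℕ) : ℝ := ∏ j ∈ range k, rr j k
def BB (N k : ℕ) : ℝ := ∏ j ∈ Ioc k N, rr j k
def bnd (k : ℕ) : ℝ := ∏ j ∈ range k, (4 * 2 ^ j / 2 ^ k : ℝ)

def cN (N k : ℕ) : ℝ := if k ≤ N then AA k * BB N k else 0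
def cc (k : ℕ) : ℝ := AA k * ⨆ N, BB N k

lemma abs_rr_le {j k : ℕ} (h : j < k) : |rr j k| ≤ 4 * 2 ^ j / 2 ^ k := by
  have h1 : (2 : ℝ) ^ k ≥ 2 * 2 ^ j := by
    calc (2 : ℝ) ^ k ≥ 2 ^ (j + 1) := pow_le_pow_right₀ (by norm_num) h
      _ = 2 * 2 ^ j := by ring
  have hj : (1 : ℝ) ≤ 2 ^ j := one_le_pow₀ (by norm_num)
  have hk : (0 : ℝ) < 2 ^ k := by positivity
  have hneg : (2 : ℝ) ^ j - 2 ^ k < 0 := by linarith
  unfold rr
  rw [abs_div, abs_of_pos (by linarith : (0 : ℝ) < 1 + 2 ^ j), abs_of_neg hneg,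
    div_le_div_iff₀ (by linarith) hk]
  nlinarith

lemma one_le_rr {j k : ℕ} (h : k < j) : 1 ≤ rr j k := by
  have h1 : (2 : ℝ) ^ j ≥ 2 * 2 ^ k := by
    calc (2 : ℝ) ^ j ≥ 2 ^ (k + 1) := pow_le_pow_right₀ (by norm_num) h
      _ = 2 * 2 ^ k := by ring
  have hk : (0 : ℝ) < 2 ^ k := by positivity
  unfold rr
  rw [le_div_iff₀ (by linarith)]
  linarith

lemma rr_le {j k : ℕ} (h : k < j) : rr j k ≤ Real.exp (4 * 2 ^ k / 2 ^ j) := by
  have h1 : (2 : ℝ) ^ j ≥ 2 * 2 ^ k := by
    calc (2 : ℝ) ^ j ≥ 2 ^ (k + 1) := pow_le_pow_right₀ (by norm_num) h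
      _ = 2 * 2 ^ k := by ring
  have hk : (1 : ℝ) ≤ 2 ^ k := one_le_pow₀ (by norm_num)
  have hj : (0 : ℝ) < 2 ^ j := by positivity
  refine le_trans ?_ (Real.add_one_le_exp _)
  unfold rr
  rw [div_le_iff₀ (by linarith)]
  have : (4 * 2 ^ k / 2 ^ j + 1 : ℝ) * (2 ^ j - 2 ^ k)
      = (4 * 2 ^ k + 2 ^ j) * (2 ^ j - 2 ^ k) / 2 ^ j := by
    field_simp
  rw [this, le_div_iff₀ hj]
  nlinarith

lemma bnd_nonneg (k : ℕ) : 0 ≤ bnd k := prod_nonneg fun _ _ => by positivity

lemma bnd_pos (k : ℕ) : 0 < bnd k := prod_pos fun _ _ => by positivity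

lemma bnd_succ (k : ℕ) : bnd (k + 1) = 2 * (1 / 2) ^ k * bnd k := by
  unfold bnd
  rw [prod_range_succ]
  have : ∀ j ∈ range k, (4 * 2 ^ j / 2 ^ (k + 1) : ℝ) = (1 / 2) * (4 * 2 ^ j / 2 ^ k) := by
    intro j _
    rw [pow_succ]; field_simp
  rw [prod_congr rfl this, prod_mul_distrib, prod_const, card_range]
  have h2 : (4 * 2 ^ k / 2 ^ (k + 1) : ℝ) = 2 := by
    rw [pow_succ]; field_simp; norm_num
  rw [h2]; ring

lemma abs_AA_le (k : ℕ) : |AA k| ≤ bnd k := by
  unfold AA bnd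
  rw [abs_prod]
  exact prod_le_prod (fun _ _ => abs_nonneg _) fun j hj => abs_rr_le (mem_range.1 hj)

lemma BB_pos (N k : ℕ) : 0 < BB N k :=
  prod_pos fun _ hj => lt_of_lt_of_le one_pos (one_le_rr (mem_Ioc.1 hj).1)

lemma BB_mono (k : ℕ) : Monotone fun N => BB N k := by
  refine monotone_nat_of_le_succ fun N => ?_
  rcases lt_or_ge N k with h | h
  · have h1 : Ioc k (N + 1) = ∅ := Ioc_eq_empty (by omega)
    have h2 : Ioc k N = ∅ := Ioc_eq_empty (by omega)
    simp [BB, h1, h2]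
  · have : Ioc k (N + 1) = insert (N + 1) (Ioc k N) := by
      ext x; simp only [mem_Ioc, mem_insert]; omega
    have hn : (N + 1) ∉ Ioc k N := by simp
    show BB N k ≤ BB (N + 1) k
    unfold BB
    rw [this, prod_insert hn]
    exact le_mul_of_one_le_left (BB_pos N k).le (one_le_rr (by omega))

lemma BB_le (N k : ℕ) : BB N k ≤ Real.exp 4 := by
  unfold BB
  calc ∏ j ∈ Ioc k N, rr j k ≤ ∏ j ∈ Ioc k N, Real.exp (4 * 2 ^ k / 2 ^ j) :=
        prod_le_prod (fun j hj => le_trans zero_le_one (one_le_rr (mem_Ioc.1 hj).1))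
          fun j hj => rr_le (mem_Ioc.1 hj).1
    _ = Real.exp (∑ j ∈ Ioc k N, 4 * 2 ^ k / 2 ^ j) := by rw [Real.exp_sum]
    _ ≤ Real.exp 4 := by
        apply Real.exp_le_exp.2
        have key : ∀ M, ∑ j ∈ Ioc k (k + M), (4 * 2 ^ k / 2 ^ j : ℝ) = 4 * (1 - (1 / 2) ^ M) := by
          intro M
          induction M with
          | zero => simp
          | succ M ih =>
            have : Ioc k (k + (M + 1)) = insert (k + (M + 1)) (Ioc k (k + M)) := by
              ext x; simp only [mem_Ioc, mem_insert]; omega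
            rw [this, sum_insert (by simp), ih, pow_add, pow_succ, one_div_pow, one_div_pow]
            field_simp
            ring
        rcases le_or_gt k N with h | h
        · obtain ⟨M, rfl⟩ := Nat.exists_eq_add_of_le h
          rw [key]
          have : (0 : ℝ) < (1 / 2) ^ M := by positivity
          linarith
        · rw [Ioc_eq_empty (by omega)]; simp

lemma BB_tendsto (k : ℕ) : Tendsto (fun N => BB N k) atTop (𝓝 (⨆ N, BB N k)) :=
  tendsto_atTop_ciSup (BB_mono k) ⟨Real.exp 4, by rintro _ ⟨N, rfl⟩; exact BB_le N k⟩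

lemma abs_cN_le (N k : ℕ) : |cN N k| ≤ Real.exp 4 * bnd k := by
  unfold cN
  split_ifs
  · rw [abs_mul, abs_of_pos (BB_pos N k), mul_comm]
    exact mul_le_mul (BB_le N k) (abs_AA_le k) (abs_nonneg _) (Real.exp_pos _).le
  · rw [abs_zero]
    exact mul_nonneg (Real.exp_pos _).le (bnd_nonneg k)

lemma cN_tendsto (k : ℕ) : Tendsto (fun N => cN N k) atTop (𝓝 (cc k)) := by
  have h : Tendsto (fun N => AA k * BB N k) atTop (𝓝 (cc k)) := (BB_tendsto k).const_mul _
  refine h.congr' ?_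
  filter_upwards [eventually_ge_atTop k] with N hN
  simp [cN, hN]

lemma abs_cc_le (k : ℕ) : |cc k| ≤ Real.exp 4 * bnd k :=
  le_of_tendsto (cN_tendsto k).abs (Eventually.of_forall fun N => abs_cN_le N k)

lemma summable_bnd (n : ℕ) : Summable fun k => bnd k * ((2 : ℝ) ^ k) ^ n := by
  refine summable_of_ratio_test_tendsto_lt_one (l := 0) zero_lt_one
    (Eventually.of_forall fun k => ?_) ?_
  · have := bnd_pos k
    positivity
  · have h : (fun k : ℕ => ‖bnd (k + 1) * ((2 : ℝ) ^ (k + 1)) ^ n‖ / ‖bnd k * ((2 : ℝ) ^ k) ^ n‖)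
        = fun k => (2 * 2 ^ n) * (1 / 2 : ℝ) ^ k := by
      funext k
      have := bnd_pos k
      rw [Real.norm_of_nonneg (by have := bnd_pos (k + 1); positivity),
        Real.norm_of_nonneg (by positivity), bnd_succ, pow_succ, mul_pow]
      field_simp
    rw [h]
    simpa using (tendsto_pow_atTop_nhds_zero_of_lt_one (by norm_num : (0 : ℝ) ≤ 1 / 2)
      (by norm_num)).const_mul (2 * 2 ^ n)

lemma cN_moment {N n : ℕ} (h : n ≤ N) :
    ∑ k ∈ range (N + 1), cN N k * (-(2 : ℝ) ^ k) ^ n = 1 := by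
  classical
  set v : ℕ → ℝ := fun k => -(2 : ℝ) ^ k with hv
  have hinj : Set.InjOn v (range (N + 1) : Finset ℕ) := by
    intro a _ b _ hab
    have : (2 : ℝ) ^ a = 2 ^ b := by simpa [hv] using hab
    exact pow_right_injective₀ (by norm_num) (by norm_num) this
  have hdeg : (Polynomial.X ^ n : Polynomial ℝ).degree < #(range (N + 1)) := by
    rw [Polynomial.degree_X_pow, card_range]
    exact_mod_cast Nat.lt_succ_of_le h
  have h1 := Lagrange.eq_interpolate hinj hdeg
  have h2 := congrArg (Polynomial.eval 1) h1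
  rw [Lagrange.interpolate_apply, Polynomial.eval_finsetSum] at h2
  simp only [Polynomial.eval_pow, Polynomial.eval_X, one_pow, Polynomial.eval_mul,
    Polynomial.eval_C] at h2
  rw [h2]
  refine sum_congr rfl fun k hk => ?_
  have hk' : k ≤ N := Nat.lt_succ_iff.1 (mem_range.1 hk)
  have hsplit : (range (N + 1)).erase k = (range k) ∪ (Ioc k N) := by
    ext x; simp only [mem_erase, mem_range, mem_union, mem_Ioc]; omega
  have hdisj : Disjoint (range k) (Ioc k N) := by
    rw [disjoint_left]; intro x hx hx'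
    simp only [mem_range, mem_Ioc] at hx hx'; omega
  have hb : Polynomial.eval 1 (Lagrange.basis (range (N + 1)) v k) = cN N k := by
    unfold Lagrange.basis
    rw [Polynomial.eval_prod, hsplit, prod_union hdisj, cN, if_pos hk', AA, BB]
    have hr : ∀ j, j ≠ k → Polynomial.eval 1 (Lagrange.basisDivisor (v k) (v j)) = rr j k := by
      intro j hj
      simp only [Lagrange.basisDivisor, Polynomial.eval_mul, Polynomial.eval_C,
        Polynomial.eval_sub, Polynomial.eval_X, hv, rr]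
      rw [div_eq_mul_inv, mul_comm]
      congr 1
      · ring
      · congr 1; ring
    congr 1
    · refine prod_congr rfl fun j hj => hr j ?_
      have := mem_range.1 hj; omega
    · refine prod_congr rfl fun j hj => hr j ?_
      have := (mem_Ioc.1 hj).1; omega
  rw [hb]; ring

lemma cc_moment (n : ℕ) : ∑' k, cc k * (-(2 : ℝ) ^ k) ^ n = 1 := by
  have hb : Summable fun k => Real.exp 4 * (bnd k * ((2 : ℝ) ^ k) ^ n) :=
    (summable_bnd n).mul_left _
  have ht : Tendsto (fun N => ∑' k, cN N k * (-(2 : ℝ) ^ k) ^ n) atTop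
      (𝓝 (∑' k, cc k * (-(2 : ℝ) ^ k) ^ n)) := by
    refine tendsto_tsum_of_dominated_convergence hb
      (fun k => (cN_tendsto k).mul_const _) (Eventually.of_forall fun N k => ?_)
    rw [norm_mul, Real.norm_eq_abs, norm_pow, norm_neg, Real.norm_of_nonneg (by positivity),
      ← mul_assoc]
    exact mul_le_mul_of_nonneg_right (abs_cN_le N k) (by positivity)
  refine tendsto_nhds_unique ht (tendsto_const_nhds.congr' ?_)
  filter_upwards [eventually_ge_atTop n] with N hN
  rw [tsum_eq_sum (s := range (N + 1)), cN_moment hN]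
  intro k hk
  have : ¬ k ≤ N := fun h => hk (mem_range.2 (Nat.lt_succ_of_le h))
  simp [cN, this]

lemma cc_summable (n : ℕ) : Summable fun k => |cc k| * ((2 : ℝ) ^ k) ^ n := by
  refine Summable.of_nonneg_of_le (fun k => by positivity) (fun k => ?_)
    ((summable_bnd n).mul_left (Real.exp 4))
  rw [← mul_assoc]
  exact mul_le_mul_of_nonneg_right (abs_cc_le k) (by positivity)

end Crest.Agent.R080.Seeley
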