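import Crest.Agent.R080.SlabDefs

/-!
Row 80 (S0107), T7: calculus of `DD` on matrices, smooth inverses (helper631).
-/

set_option autoImplicit false

open MeasureTheory Filter
open scoped ContDiff Topology
open Crest.AnalysisR.VecCalc3 Crest.AnalysisR.PDE.Elasticity

noncomputable section
namespace Crest.Agent.R080
namespace Slab

/-! ### calculus of `DD` -/

section DD
variable {θ : Fin 3 → ℂ} {f g : R3 → ℂ} {x : R3}

theorem DD_eq (θ : Fin 3 → ℂ) (f : R3 → ℂ) (x : R3) :
    DD θ f x = fderiv ℝ f x (reV θ) + Complex.I * fderiv ℝ f x (imV θ) := by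
  rw [DD_eq_Dp, Dp, iot_one, iot_I]

theorem DD_congr (h : f =ᶠ[𝓝 x] g) : DD θ f x = DD θ g x := by
  rw [DD_eq, DD_eq, h.fderiv_eq]

theorem DD_const (c : ℂ) : DD θ (fun _ => c) x = 0 := by
  rw [DD_eq]; simp

theorem DD_mul (hf : DifferentiableAt ℝ f x) (hg : DifferentiableAt ℝ g x) :
    DD θ (fun y => f y * g y) x = f x * DD θ g x + DD θ f x * g x := by
  simp only [DD_eq]
  rw [fderiv_fun_mul hf hg]
  simp [smul_eq_mul]
  ring

theorem DD_sum {α : Type*} (s : Finset α) (F : α → R3 → ℂ)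
    (hF : ∀ i ∈ s, DifferentiableAt ℝ (F i) x) :
    DD θ (fun y => ∑ i ∈ s, F i y) x = ∑ i ∈ s, DD θ (F i) x := by
  simp only [DD_eq]
  rw [fderiv_fun_sum hF]
  simp [Finset.sum_add_distrib, Finset.mul_sum]

theorem smooth_DD (hf : ContDiff ℝ ∞ f) : ContDiff ℝ ∞ (DD θ f) := by
  have : DD θ f = fun x => fderiv ℝ f x (reV θ) + Complex.I * fderiv ℝ f x (imV θ) :=
    funext fun x => DD_eq θ f x
  rw [this]
  have h1 : ContDiff ℝ ∞ (fderiv ℝ f) := hf.fderiv_right (m := ∞) (by simp)
  exact (h1.clm_apply contDiff_const).add (contDiff_const.mul (h1.clm_apply contDiff_const))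

end DD

/-! ### matrices -/

section mat
variable {ι : Type} [Fintype ι] [DecidableEq ι]

theorem mat_mul_eq_one_iff {a b : ι → ι → ℂ} :
    (∀ i j, ∑ l, a i l * b l j = if i = j then 1 else 0) ↔ Matrix.of a * Matrix.of b = 1 := by
  constructor
  · intro h; ext i j; simp [Matrix.mul_apply, h, Matrix.one_apply]
  · intro h i j
    have := congrFun (congrFun h i) j
    simpa [Matrix.mul_apply, Matrix.one_apply] using this

theorem mat_comm {a b : ι → ι → ℂ}
    (h : ∀ i j, ∑ l, a i l * b l j = if i = j then 1 else 0) :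
    ∀ i j, ∑ l, b i l * a l j = if i = j then 1 else 0 :=
  mat_mul_eq_one_iff.2 (mul_eq_one_comm.1 (mat_mul_eq_one_iff.1 h))

/-- derivative of the inverse matrix -/
theorem DD_inv {θ : Fin 3 → ℂ} {A : ι → ι → ℂ} {C Ci : ι → ι → R3 → ℂ} {x : R3}
    (hC : ∀ i j, DifferentiableAt ℝ (C i j) x) (hCi : ∀ i j, DifferentiableAt ℝ (Ci i j) x)
    (h1 : ∀ᶠ y in 𝓝 x, ∀ i j, ∑ l, C i l y * Ci l j y = if i = j then 1 else 0)
    (hA : ∀ i j, DD θ (C i j) x = ∑ l, A i l * C l j x) :
    ∀ i j, DD θ (Ci i j) x = -∑ l, Ci i l x * A l j := by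
  have e1 : ∀ i j, ∑ l, (C i l x * DD θ (Ci l j) x + DD θ (C i l) x * Ci l j x) = 0 := by
    intro i j
    have h2 : DD θ (fun y => ∑ l, C i l y * Ci l j y) x = 0 := by
      rw [DD_congr (g := fun _ => if i = j then (1 : ℂ) else 0), DD_const]
      filter_upwards [h1] with y hy using hy i j
    rw [DD_sum _ (fun l y => C i l y * Ci l j y) (fun l _ => (hC i l).mul (hCi l j))] at h2
    rw [← h2]
    exact Finset.sum_congr rfl fun l _ => (DD_mul (hC i l) (hCi l j)).symm
  set c : Matrix ι ι ℂ := Matrix.of fun i j => C i j x with hc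
  set ci : Matrix ι ι ℂ := Matrix.of fun i j => Ci i j x with hci
  set dc : Matrix ι ι ℂ := Matrix.of fun i j => DD θ (C i j) x with hdc
  set dci : Matrix ι ι ℂ := Matrix.of fun i j => DD θ (Ci i j) x with hdci
  have m1 : c * ci = 1 := mat_mul_eq_one_iff.1 h1.self_of_nhds
  have m2 : ci * c = 1 := mul_eq_one_comm.1 m1
  have m3 : c * dci + dc * ci = 0 := by
    ext i j
    have := e1 i j
    rw [Finset.sum_add_distrib] at this
    rw [Matrix.add_apply, Matrix.mul_apply, Matrix.mul_apply]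
    exact this
  have m4 : dc = Matrix.of A * c := by
    ext i j
    rw [Matrix.mul_apply]
    exact hA i j
  have m5 : dci = -(ci * Matrix.of A) := by
    calc dci = ci * (c * dci) := by rw [← Matrix.mul_assoc, m2, Matrix.one_mul]
      _ = ci * (-(dc * ci)) := by rw [eq_neg_of_add_eq_zero_left m3]
      _ = -(ci * (Matrix.of A * (c * ci))) := by
        rw [m4, Matrix.mul_neg, Matrix.mul_assoc]
      _ = -(ci * Matrix.of A) := by rw [m1, Matrix.mul_one]
  intro i j
  have := congrFun (congrFun m5 i) j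
  rw [Matrix.neg_apply, Matrix.mul_apply] at this
  exact this

/-- matrices close to the identity are invertible with bounded inverse -/
theorem near_one {a : ι → ι → ℂ} {e : ℝ} (he : e * Fintype.card ι ≤ 1 / 2)
    (h : ∀ i j, ‖a i j - if i = j then 1 else 0‖ ≤ e) :
    (Matrix.of a).det ≠ 0 ∧ ∀ i j, ‖(Matrix.of a)⁻¹ i j‖ ≤ 2 := by
  have key : ∀ v : ι → ℂ, ‖v‖ ≤ 2 * ‖(Matrix.of a).mulVec v‖ := by
    intro v
    have h1 : ‖(Matrix.of a).mulVec v - v‖ ≤ 1 / 2 * ‖v‖ := by
      refine (pi_norm_le_iff_of_nonneg (by positivity)).2 fun i => ?_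
      have h2 : ((Matrix.of a).mulVec v - v) i
          = ∑ j, (a i j - if i = j then 1 else 0) * v j := by
        simp [Matrix.mulVec, dotProduct, sub_mul, Finset.sum_sub_distrib]
      rw [h2]
      calc ‖∑ j, (a i j - if i = j then 1 else 0) * v j‖
          ≤ ∑ j : ι, e * ‖v‖ := by
            refine (norm_sum_le _ _).trans (Finset.sum_le_sum fun j _ => ?_)
            rw [norm_mul]
            exact mul_le_mul (h i j) (norm_le_pi_norm v j) (norm_nonneg _)
              ((norm_nonneg _).trans (h i j))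
        _ = e * Fintype.card ι * ‖v‖ := by simp; ring
        _ ≤ 1 / 2 * ‖v‖ := mul_le_mul_of_nonneg_right he (norm_nonneg _)
    have h3 : ‖v‖ ≤ ‖(Matrix.of a).mulVec v‖ + ‖(Matrix.of a).mulVec v - v‖ := by
      have := norm_sub_le ((Matrix.of a).mulVec v) ((Matrix.of a).mulVec v - v)
      simpa using this
    linarith
  have hdet : (Matrix.of a).det ≠ 0 := by
    intro h0
    obtain ⟨v, hv, hv0⟩ := Matrix.exists_mulVec_eq_zero_iff.2 h0
    have := key v
    rw [hv0, norm_zero, mul_zero] at this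
    exact hv (norm_le_zero_iff.1 this)
  refine ⟨hdet, fun i j => ?_⟩
  have hu : IsUnit (Matrix.of a).det := isUnit_iff_ne_zero.2 hdet
  have h4 := key (fun k => (Matrix.of a)⁻¹ k j)
  have h5 : (Matrix.of a).mulVec (fun k => (Matrix.of a)⁻¹ k j) = fun k => if k = j then 1 else 0 := by
    ext k
    have := congrFun (congrFun (Matrix.mul_nonsing_inv (Matrix.of a) hu) k) j
    simpa [Matrix.mul_apply, Matrix.mulVec, dotProduct, Matrix.one_apply] using this
  rw [h5] at h4
  have h6 : ‖(fun k => if k = j then (1 : ℂ) else 0)‖ ≤ 1 := by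
    refine (pi_norm_le_iff_of_nonneg zero_le_one).2 fun k => ?_
    split_ifs <;> simp
  calc ‖(Matrix.of a)⁻¹ i j‖ ≤ ‖fun k => (Matrix.of a)⁻¹ k j‖ :=
        norm_le_pi_norm (fun k => (Matrix.of a)⁻¹ k j) i
    _ ≤ 2 := by linarith

variable {V : Type} [NormedAddCommGroup V] [NormedSpace ℝ V]

theorem smooth_det {C : ι → ι → V → ℂ} (hC : ∀ i j, ContDiff ℝ ∞ (C i j)) :
    ContDiff ℝ ∞ fun x => (Matrix.of fun i j => C i j x).det := by
  simp only [Matrix.det_apply]
  refine ContDiff.sum fun σ _ => ?_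
  refine ContDiff.const_smul _ ?_
  exact contDiff_prod fun i _ => hC _ _

/-- smooth pointwise inverse -/
theorem smooth_inv {C : ι → ι → V → ℂ} (hC : ∀ i j, ContDiff ℝ ∞ (C i j))
    (hdet : ∀ x, (Matrix.of fun i j => C i j x).det ≠ 0) (i j : ι) :
    ContDiff ℝ ∞ fun x => (Matrix.of fun i j => C i j x)⁻¹ i j := by
  have h1 : (fun x => (Matrix.of fun i j => C i j x)⁻¹ i j) = fun x =>
      ((Matrix.of fun i j => C i j x).det)⁻¹ *
        (Matrix.of fun k l => if k = j then (if l = i then (1 : ℂ) else 0) else C k l x).det := by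
    ext x
    rw [Matrix.inv_def, Matrix.smul_apply, Ring.inverse_eq_inv', smul_eq_mul, Matrix.adjugate_apply]
    congr 2
    ext k l
    by_cases hk : k = j
    · subst hk
      simp [Matrix.updateRow_apply, Pi.single_apply]
    · simp [Matrix.updateRow_apply, hk]
  rw [h1]
  refine ContDiff.mul ?_ ?_
  · exact (smooth_det hC).inv hdet
  · refine smooth_det (C := fun k l x => if k = j then (if l = i then (1 : ℂ) else 0) else C k l x)
      fun k l => ?_
    by_cases hk : k = j
    · simp only [hk, if_true]; exact contDiff_const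
    · simp only [hk, if_false]; exact hC k l

end mat

/-! ### the plane coordinate -/

section zc
variable {θ : Fin 3 → ℂ}

local notation "⟪" x ", " y "⟫" => inner ℝ x y

/-- `zc` as a continuous linear map -/
def zcL (θ : Fin 3 → ℂ) : R3 →L[ℝ] ℂ :=
  (Complex.ofRealCLM.comp ((rho2 θ)⁻¹ • innerSL ℝ (reV θ)))
    + Complex.I • (Complex.ofRealCLM.comp ((rho2 θ)⁻¹ • innerSL ℝ (imV θ)))

theorem zcL_re (θ : Fin 3 → ℂ) (x : R3) : (zcL θ x).re = (rho2 θ)⁻¹ * ⟪reV θ, x⟫ := by
  simp [zcL]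
theorem zcL_im (θ : Fin 3 → ℂ) (x : R3) : (zcL θ x).im = (rho2 θ)⁻¹ * ⟪imV θ, x⟫ := by
  simp [zcL]

theorem zcL_iot (h : IsNull θ) (z : ℂ) : zcL θ (iot θ z) = z := by
  have hr := (rho2_pos h).ne'
  apply Complex.ext
  · rw [zcL_re, iot_apply, inner_add_right, inner_smul_right, inner_smul_right, inner_reV_reV,
      inner_reV_imV h]
    field_simp; ring
  · rw [zcL_im, iot_apply, inner_add_right, inner_smul_right, inner_smul_right, inner_imV_reV h,
      inner_imV_imV h]
    field_simp; ring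

theorem zcL_nrm (θ : Fin 3 → ℂ) : zcL θ (nrm θ) = 0 := by
  apply Complex.ext
  · rw [zcL_re, real_inner_comm, inner_nrm_reV]; simp
  · rw [zcL_im, real_inner_comm, inner_nrm_imV]; simp

theorem decomp (h : IsNull θ) (x : R3) : x = ⟪nrm θ, x⟫ • nrm θ + iot θ (zcL θ x) := by
  have hr := (rho2_pos h).ne'
  have h1 : rho2 θ = (θ 0).re ^ 2 + (θ 1).re ^ 2 + (θ 2).re ^ 2 := by
    simp [rho2, Fin.sum_univ_three]
  have h2 : rho2 θ = (θ 0).im ^ 2 + (θ 1).im ^ 2 + (θ 2).im ^ 2 := by
    rw [null_re h]; simp [Fin.sum_univ_three]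
  have h3 : (θ 0).re * (θ 0).im + (θ 1).re * (θ 1).im + (θ 2).re * (θ 2).im = 0 := by
    have := null_im h; simpa [Fin.sum_univ_three] using this
  ext k
  rw [iot_apply, zcL_re, zcL_im]
  simp only [PiLp.add_apply, PiLp.smul_apply, smul_eq_mul, inner_R3, reV_apply, imV_apply, nrm]
  set a := (θ 0).re
  set b := (θ 1).re
  set c := (θ 2).re
  set a' := (θ 0).im
  set b' := (θ 1).im
  set c' := (θ 2).im
  set r := rho2 θ
  fin_cases k
  · simp only [Fin.zero_eta, Fin.isValue, Matrix.cons_val_zero, Matrix.cons_val_one, Matrix.cons_val]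
    field_simp
    linear_combination (x 0 * (a' ^ 2 + b' ^ 2 + c' ^ 2)
      - (x 0 * a' + x 1 * b' + x 2 * c') * a') * h1
      + (x 0 * r - (x 0 * a + x 1 * b + x 2 * c) * a) * h2
      + ((a * a' + b * b' + c * c') * x 0 - (x 0 * a + x 1 * b + x 2 * c) * a'
        - a * (x 0 * a' + x 1 * b' + x 2 * c')) * h3
  · simp only [Fin.mk_one, Fin.isValue, Matrix.cons_val_zero, Matrix.cons_val_one, Matrix.cons_val]
    field_simp
    linear_combination (x 1 * (a' ^ 2 + b' ^ 2 + c' ^ 2)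
      - (x 0 * a' + x 1 * b' + x 2 * c') * b') * h1
      + (x 1 * r - (x 0 * a + x 1 * b + x 2 * c) * b) * h2
      + ((a * a' + b * b' + c * c') * x 1 - (x 0 * a + x 1 * b + x 2 * c) * b'
        - b * (x 0 * a' + x 1 * b' + x 2 * c')) * h3
  · simp only [Fin.reduceFinMk, Fin.isValue, Matrix.cons_val_zero, Matrix.cons_val_one,
      Matrix.cons_val]
    field_simp
    linear_combination (x 2 * (a' ^ 2 + b' ^ 2 + c' ^ 2)
      - (x 0 * a' + x 1 * b' + x 2 * c') * c') * h1
      + (x 2 * r - (x 0 * a + x 1 * b + x 2 * c) * c) * h2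
      + ((a * a' + b * b' + c * c') * x 2 - (x 0 * a + x 1 * b + x 2 * c) * c'
        - c * (x 0 * a' + x 1 * b' + x 2 * c')) * h3

end zc

end Slab
end Crest.Agent.R080
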