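import Crest.Agent.R080.Stmts2

/-!
Row 80 (S0107): the algebra of smooth complex functions on `ℝ³` with its commuting derivations
(helper417). Used by the Carleman estimate.
-/

set_option autoImplicit false

open MeasureTheory Filter
open scoped ContDiff Topology ComplexConjugate
open Crest.AnalysisR.VecCalc3

noncomputable section
namespace Crest.Agent.R080.Carl

theorem contDiff_pd' {f : R3 → ℂ} (j : Fin 3) (hf : ContDiff ℝ ∞ f) : ContDiff ℝ ∞ (pd j f) :=
  (hf.fderiv_right (m := ∞) (by simp)).clm_apply contDiff_const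

/-- the algebra of smooth functions -/
def Sm : Subalgebra ℂ (R3 → ℂ) where
  carrier := {f | ContDiff ℝ ∞ f}
  mul_mem' := fun {f g} (hf : ContDiff ℝ ∞ f) (hg : ContDiff ℝ ∞ g) =>
    show ContDiff ℝ ∞ (fun x => f x * g x) from hf.mul hg
  add_mem' := fun {f g} (hf : ContDiff ℝ ∞ f) (hg : ContDiff ℝ ∞ g) =>
    show ContDiff ℝ ∞ (fun x => f x + g x) from hf.add hg
  algebraMap_mem' := fun c => show ContDiff ℝ ∞ (fun _ : R3 => c) from contDiff_const

namespace Sm

instance : CoeFun Sm (fun _ => R3 → ℂ) := ⟨fun f => f.1⟩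

theorem smooth (f : Sm) : ContDiff ℝ ∞ (f : R3 → ℂ) := f.2

theorem diffb (f : Sm) : Differentiable ℝ (f : R3 → ℂ) := (smooth f).differentiable (by simp)

theorem cont (f : Sm) : Continuous (f : R3 → ℂ) := (smooth f).continuous

@[simp] theorem add_apply (f g : Sm) (x : R3) : (f + g) x = f x + g x := rfl
@[simp] theorem sub_apply (f g : Sm) (x : R3) : (f - g) x = f x - g x := rfl
@[simp] theorem neg_apply (f : Sm) (x : R3) : (-f) x = -f x := rfl
@[simp] theorem mul_apply (f g : Sm) (x : R3) : (f * g) x = f x * g x := rfl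
@[simp] theorem smul_apply (c : ℂ) (f : Sm) (x : R3) : (c • f) x = c * f x := rfl
@[simp] theorem zero_apply (x : R3) : (0 : Sm) x = 0 := rfl
@[simp] theorem one_apply (x : R3) : (1 : Sm) x = 1 := rfl
@[simp] theorem algebraMap_apply (c : ℂ) (x : R3) : (algebraMap ℂ Sm c) x = c := rfl

@[simp] theorem sum_apply {ι : Type*} (s : Finset ι) (f : ι → Sm) (x : R3) :
    (∑ i ∈ s, f i) x = ∑ i ∈ s, f i x := by
  classical
  induction s using Finset.induction_on with
  | empty => simp
  | insert a s ha ih => rw [Finset.sum_insert ha, Finset.sum_insert ha, add_apply, ih]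

@[ext] theorem ext' {f g : Sm} (h : ∀ x, f x = g x) : f = g := Subtype.ext (funext h)

/-- partial derivative as a derivation -/
def dd (j : Fin 3) : Derivation ℂ Sm Sm := Derivation.mk'
  { toFun := fun f => ⟨pd j f, contDiff_pd' j f.2⟩
    map_add' := fun f g => by
      ext x
      show fderiv ℝ (fun y => f y + g y) x (ee j) = pd j f x + pd j g x
      have := fderiv_add (diffb f x) (diffb g x)
      have h2 : fderiv ℝ (fun y => f y + g y) x = fderiv ℝ f x + fderiv ℝ g x := this
      rw [h2]; rfl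
    map_smul' := fun c f => by
      ext x
      show fderiv ℝ (fun y => c * f y) x (ee j) = c * pd j f x
      have h2 : fderiv ℝ (fun y => c * f y) x = c • fderiv ℝ f x :=
        fderiv_const_mul (diffb f x) c
      rw [h2]; rfl } (fun f g => by
    ext x
    show fderiv ℝ (fun y => f y * g y) x (ee j) = f x * pd j g x + g x * pd j f x
    have h2 : fderiv ℝ (fun y => f y * g y) x = f x • fderiv ℝ g x + g x • fderiv ℝ f x :=
      fderiv_mul (diffb f x) (diffb g x)
    rw [h2]; rfl)

theorem dd_apply (j : Fin 3) (f : Sm) (x : R3) : dd j f x = pd j f x := rfl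

theorem dd_comm (i j : Fin 3) (f : Sm) : dd i (dd j f) = dd j (dd i f) := by
  ext x
  have hs : IsSymmSndFDerivAt ℝ (f : R3 → ℂ) x :=
    ((smooth f).contDiffAt).isSymmSndFDerivAt (by
      rw [minSmoothness_of_isRCLikeNormedField]
      exact ENat.LEInfty.out)
  have h1 : ∀ v w : R3, fderiv ℝ (fun y => fderiv ℝ (f : R3 → ℂ) y v) x w
      = fderiv ℝ (fderiv ℝ (f : R3 → ℂ)) x w v := by
    intro v w
    have hd : DifferentiableAt ℝ (fderiv ℝ (f : R3 → ℂ)) x :=
      (((smooth f).fderiv_right (m := ∞) (by simp)).differentiable (by simp)) x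
    rw [fderiv_clm_apply hd (differentiableAt_const v)]
    simp
  show fderiv ℝ (fun y => fderiv ℝ (f : R3 → ℂ) y (ee j)) x (ee i)
    = fderiv ℝ (fun y => fderiv ℝ (f : R3 → ℂ) y (ee i)) x (ee j)
  rw [h1, h1]
  exact hs _ _

/-- complex conjugate -/
def cj (f : Sm) : Sm := ⟨fun x => conj (f x), Complex.conjCLE.contDiff.comp (smooth f)⟩

@[simp] theorem cj_apply (f : Sm) (x : R3) : cj f x = conj (f x) := rfl

theorem cj_add (f g : Sm) : cj (f + g) = cj f + cj g := by ext x; simp
theorem cj_sub (f g : Sm) : cj (f - g) = cj f - cj g := by ext x; simp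
theorem cj_mul (f g : Sm) : cj (f * g) = cj f * cj g := by ext x; simp
theorem cj_smul (c : ℂ) (f : Sm) : cj (c • f) = conj c • cj f := by ext x; simp
theorem cj_sum {ι : Type*} (s : Finset ι) (f : ι → Sm) : cj (∑ i ∈ s, f i) = ∑ i ∈ s, cj (f i) := by
  ext x; simp
theorem cj_algebraMap (c : ℂ) : cj (algebraMap ℂ Sm c) = algebraMap ℂ Sm (conj c) := by ext x; simp

theorem cj_dd (j : Fin 3) (f : Sm) : cj (dd j f) = dd j (cj f) := by
  ext x
  show conj (fderiv ℝ (f : R3 → ℂ) x (ee j)) = fderiv ℝ (fun y => conj (f y)) x (ee j)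
  have h1 : fderiv ℝ (fun y => Complex.conjCLE (f y)) x
      = (Complex.conjCLE : ℂ →L[ℝ] ℂ).comp (fderiv ℝ (f : R3 → ℂ) x) :=
    Complex.conjCLE.comp_fderiv
  have h2 : fderiv ℝ (fun y => conj (f y)) x
      = (Complex.conjCLE : ℂ →L[ℝ] ℂ).comp (fderiv ℝ (f : R3 → ℂ) x) := h1
  rw [h2]; rfl

/-! ### supports -/

/-- supported in the closed ball of radius `R` -/
def Cp (R : ℝ) (f : Sm) : Prop := tsupport (f : R3 → ℂ) ⊆ Metric.closedBall 0 R

variable {R : ℝ} {f g : Sm}

theorem Cp.apply_eq_zero (h : Cp R f) {x : R3} (hx : R < ‖x‖) : f x = 0 := by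
  by_contra hne
  have : x ∈ Metric.closedBall (0 : R3) R := h (subset_tsupport _ hne)
  rw [mem_closedBall_zero_iff] at this
  linarith

theorem cp_of_zero (h : ∀ x : R3, R < ‖x‖ → f x = 0) : Cp R f := by
  refine closure_minimal ?_ Metric.isClosed_closedBall
  intro x hx
  rw [mem_closedBall_zero_iff]
  by_contra hcon
  exact hx (h x (not_le.mp hcon))

theorem Cp.hcs (h : Cp R f) : HasCompactSupport (f : R3 → ℂ) :=
  (isCompact_closedBall (0 : R3) R).of_isClosed_subset (isClosed_tsupport _) h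

theorem Cp.integrable (h : Cp R f) : Integrable (f : R3 → ℂ) :=
  (cont f).integrable_of_hasCompactSupport h.hcs

theorem Cp.add (hf : Cp R f) (hg : Cp R g) : Cp R (f + g) :=
  cp_of_zero fun x hx => by rw [add_apply, hf.apply_eq_zero hx, hg.apply_eq_zero hx, add_zero]

theorem Cp.sub (hf : Cp R f) (hg : Cp R g) : Cp R (f - g) :=
  cp_of_zero fun x hx => by rw [sub_apply, hf.apply_eq_zero hx, hg.apply_eq_zero hx, sub_zero]

theorem Cp.mul_left (hg : Cp R g) (f : Sm) : Cp R (f * g) :=
  cp_of_zero fun x hx => by rw [mul_apply, hg.apply_eq_zero hx, mul_zero]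

theorem Cp.mul_right (hf : Cp R f) (g : Sm) : Cp R (f * g) :=
  cp_of_zero fun x hx => by rw [mul_apply, hf.apply_eq_zero hx, zero_mul]

theorem Cp.smul (hf : Cp R f) (c : ℂ) : Cp R (c • f) :=
  cp_of_zero fun x hx => by rw [smul_apply, hf.apply_eq_zero hx, mul_zero]

theorem Cp.cj (hf : Cp R f) : Cp R (cj f) :=
  cp_of_zero fun x hx => by rw [cj_apply, hf.apply_eq_zero hx, map_zero]

theorem Cp.sum {ι : Type*} (s : Finset ι) (F : ι → Sm) (h : ∀ i ∈ s, Cp R (F i)) :
    Cp R (∑ i ∈ s, F i) :=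
  cp_of_zero fun x hx => by
    rw [sum_apply]
    exact Finset.sum_eq_zero fun i hi => (h i hi).apply_eq_zero hx

theorem Cp.dd (hf : Cp R f) (j : Fin 3) : Cp R (dd j f) := by
  refine closure_minimal ?_ Metric.isClosed_closedBall
  intro x hx
  refine hf (support_fderiv_subset ℝ (f := (f : R3 → ℂ)) ?_)
  intro h0
  apply hx
  show fderiv ℝ (f : R3 → ℂ) x (ee j) = 0
  rw [h0]; rfl

/-! ### the integral -/

/-- integral -/
def J (f : Sm) : ℂ := ∫ x, f x

theorem J_dd (j : Fin 3) (hf : HasCompactSupport (f : R3 → ℂ)) : J (dd j f) = 0 := by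
  have h := integral_mul_fderiv_eq_neg_fderiv_mul_of_integrable (μ := (volume : Measure R3))
    (f := fun _ : R3 => (1 : ℂ)) (g := (f : R3 → ℂ)) (v := ee j) ?_ ?_ ?_
    (fun x _ => differentiableAt_const _) (fun x _ => diffb f x)
  · simp only [one_mul, fderiv_fun_const, Pi.zero_apply, _root_.zero_apply,
      zero_mul, integral_zero, neg_zero] at h
    exact h
  · simp
  · simp only [one_mul]
    exact (cont (dd j f)).integrable_of_hasCompactSupport (hf.fderiv_apply (𝕜 := ℝ) (ee j))
  · simp only [one_mul]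
    exact (cont f).integrable_of_hasCompactSupport hf

theorem J_add (hf : Cp R f) (hg : Cp R g) : J (f + g) = J f + J g :=
  integral_add hf.integrable hg.integrable

theorem J_sub (hf : Cp R f) (hg : Cp R g) : J (f - g) = J f - J g :=
  integral_sub hf.integrable hg.integrable

theorem J_smul (c : ℂ) : J (c • f) = c * J f :=
  integral_const_mul c _

theorem J_sum {ι : Type*} (s : Finset ι) (F : ι → Sm) (h : ∀ i ∈ s, Cp R (F i)) :
    J (∑ i ∈ s, F i) = ∑ i ∈ s, J (F i) := by
  unfold J
  simp only [sum_apply]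
  exact integral_finsetSum _ fun i hi => (h i hi).integrable

/-- squared `L²` norm -/
def n2 (f : Sm) : ℝ := ∫ x, ‖f x‖ ^ 2

theorem n2_nonneg (f : Sm) : 0 ≤ n2 f := integral_nonneg fun _ => by positivity

theorem J_mul_cj (f : Sm) : J (f * cj f) = (n2 f : ℂ) := by
  unfold J n2
  rw [← integral_complex_ofReal]
  refine integral_congr_ae (Eventually.of_forall fun x => ?_)
  simp only [mul_apply, cj_apply]
  rw [Complex.mul_conj, Complex.normSq_eq_norm_sq]

theorem Cp.integrable_sq (h : Cp R f) : Integrable (fun x => ‖f x‖ ^ 2) := by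
  refine ((cont f).norm.pow 2).integrable_of_hasCompactSupport ?_
  refine (isCompact_closedBall (0 : R3) R).of_isClosed_subset (isClosed_tsupport _) ?_
  refine closure_minimal ?_ Metric.isClosed_closedBall
  intro x hx
  rw [mem_closedBall_zero_iff]
  by_contra hcon
  apply hx
  show ‖f x‖ ^ 2 = 0
  rw [h.apply_eq_zero (not_le.mp hcon)]; simp

end Sm
end Crest.Agent.R080.Carl
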