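import Crest.Agent.R080.CauchyOp
import Crest.Agent.R080.Pompeiu

/-!
Row 80, T5b: fundamental matrices for small compactly supported coefficients.
-/

set_option autoImplicit false
set_option linter.unusedSectionVars false
set_option linter.unusedVariables false
open MeasureTheory Filter Metric Set
open scoped ContDiff Topology

noncomputable section
namespace Crest.Agent.R080.SmallFM
open Crest.Agent.R080.CT

variable {V : Type} [NormedAddCommGroup V] [NormedSpace ℝ V] [FiniteDimensional ℝ V]

/-- the Cauchy transform solves the `∂̄` equation -/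
theorem Dp_T {c R : ℝ} (hc : 0 < c) {ι : ℂ →L[ℝ] V} (hι : Low c ι) {f : V → ℂ}
    (hf : Sp R f) (h1 : ContDiff ℝ 1 f) (x : V) : Dp ι (T ι f) x = f x := by
  have hd : Continuous (fderiv ℝ f) := h1.continuous_fderiv one_ne_zero
  obtain ⟨b, -, hb⟩ := bounded_of_Sp (Sp_fderiv hf hd) hd
  have hint := integrable hc hι (Sp_fderiv hf hd) hd hb x
  have e1 : ∀ v : V, T ι (fderiv ℝ f) x v = ∫ w : ℂ, K w * fderiv ℝ f (x - ι w) v := by
    intro v
    unfold T
    rw [ContinuousLinearMap.integral_apply hint]
    rfl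
  have hintv : ∀ v : V, Integrable (fun w : ℂ => K w * fderiv ℝ f (x - ι w) v) := by
    intro v
    have := hint.apply_continuousLinearMap v
    exact this
  have e2 : Dp ι (T ι f) x = ∫ w : ℂ, K w * Dp ι f (x - ι w) := by
    unfold Dp
    rw [fderiv_T hc hι hf h1, e1, e1, ← integral_const_mul, ← integral_add (hintv _)
      ((hintv _).const_mul _)]
    refine integral_congr_ae (.of_forall fun w => ?_)
    simp only
    ring
  -- pass to the plane
  let g : ℂ → ℂ := fun z => f (x + ι z)
  have hg1 : ContDiff ℝ 1 g := h1.comp (by fun_prop)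
  have hgs : HasCompactSupport g := by
    refine HasCompactSupport.of_support_subset_isCompact (isCompact_closedBall 0 ((R + ‖x‖) / c)) ?_
    intro z hz
    by_contra hcon
    apply hz
    have h3 : (R + ‖x‖) / c ≤ ‖-z‖ := by
      rw [norm_neg]
      simp only [mem_closedBall, dist_zero_right, not_le] at hcon
      exact hcon.le
    have := eq_zero_of_large hc hι hf (x := x) h3
    simpa [g] using this
  have hgd : ∀ z, Dp (ContinuousLinearMap.id ℝ ℂ) g z = Dp ι f (x + ι z) := by
    intro z
    have h2 : HasFDerivAt (fun z : ℂ => x + ι z) ι z := ι.hasFDerivAt.const_add x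
    have h3 : HasFDerivAt g ((fderiv ℝ f (x + ι z)).comp ι) z :=
      ((h1.differentiable one_ne_zero (x + ι z)).hasFDerivAt).comp z h2
    unfold Dp
    rw [h3.fderiv]
    simp
  have h4 := Pomp.pompeiu hg1 hgs 0
  have h5 : ∫ w : ℂ, K w * Dp ι f (x - ι w) = ∫ w : ℂ, K (-w) * Dp ι f (x + ι w) := by
    rw [← integral_neg_eq_self (fun w : ℂ => K w * Dp ι f (x - ι w))]
    refine integral_congr_ae (.of_forall fun w => ?_)
    simp
  rw [e2, h5]
  have h6 : ∫ w : ℂ, K (-w) * Dp ι f (x + ι w)
      = -(2 * Real.pi : ℂ)⁻¹ * ∫ z, Dp (ContinuousLinearMap.id ℝ ℂ) g z * (z - 0)⁻¹ := by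
    rw [← integral_const_mul]
    refine integral_congr_ae (.of_forall fun w => ?_)
    simp only [hgd, sub_zero, K]
    rw [mul_neg, inv_neg, mul_inv]
    ring
  rw [h6, h4]
  have hp : (Real.pi : ℂ) ≠ 0 := by exact_mod_cast Real.pi_ne_zero
  simp only [g, map_zero, add_zero]
  field_simp

variable {n : Type} [Fintype n] [DecidableEq n]

/-- the iterates -/
def it (ι : ℂ →L[ℝ] V) (A : n → n → V → ℂ) : ℕ → n → n → V → ℂ
  | 0 => fun i j _ => if i = j then 1 else 0
  | N + 1 => fun i j => T ι (fun x => ∑ l, A i l x * it ι A N l j x)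

theorem Sp_prod {R : ℝ} {A : n → n → V → ℂ} (hA : ∀ i j x, R ≤ ‖x‖ → A i j x = 0)
    (f : n → n → V → ℂ) (i j : n) : Sp R (fun x => ∑ l, A i l x * f l j x) := by
  intro x hx
  exact Finset.sum_eq_zero fun l _ => by rw [hA i l x hx, zero_mul]

theorem smooth_it {c R : ℝ} (hc : 0 < c) {ι : ℂ →L[ℝ] V} (hι : Low c ι) {A : n → n → V → ℂ}
    (hs : ∀ i j, ContDiff ℝ ∞ (A i j)) (hA : ∀ i j x, R ≤ ‖x‖ → A i j x = 0) (N : ℕ) :
    ∀ i j, ContDiff ℝ ∞ (it ι A N i j) := by
  induction N with
  | zero => intro i j; exact contDiff_const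
  | succ N ih =>
    intro i j
    exact contDiff_T hc hι (Sp_prod hA _ i j) (ContDiff.sum fun l _ => (hs i l).mul (ih l j))

/-- bound of all derivatives of the iterates -/
theorem bound_it {c R : ℝ} (hc : 0 < c) (hR : 0 < R) {ι : ℂ →L[ℝ] V} (hι : Low c ι)
    {A : n → n → V → ℂ}
    (hs : ∀ i j, ContDiff ℝ ∞ (A i j)) (hA : ∀ i j x, R ≤ ‖x‖ → A i j x = 0) {δ : ℝ}
    (hδ0 : 0 ≤ δ) (hδ : ∀ i j x, ‖A i j x‖ ≤ δ) (hq : 3 * R / c * (Fintype.card n * δ) ≤ 1 / 4)
    (k : ℕ) : ∃ B : ℝ, 0 ≤ B ∧ ∀ N i j x, ‖iteratedFDeriv ℝ k (it ι A N i j) x‖ ≤ B * (1 / 2) ^ N := by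
  set M := 3 * R / c with hM
  have hM0 : 0 < M := by positivity
  -- bounds of the derivatives of A
  have hAb : ∀ s : ℕ, ∃ a : ℝ, 0 ≤ a ∧ ∀ i j x, ‖iteratedFDeriv ℝ s (A i j) x‖ ≤ a := by
    intro s
    have h1 : ∀ i j, ∃ a : ℝ, ∀ x, ‖iteratedFDeriv ℝ s (A i j) x‖ ≤ a := by
      intro i j
      have hcs : HasCompactSupport (A i j) := by
        refine HasCompactSupport.of_support_subset_isCompact (isCompact_closedBall 0 R) ?_
        intro x hx
        by_contra hcon
        simp only [mem_closedBall, dist_zero_right, not_le] at hcon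
        exact hx (hA i j x hcon.le)
      exact ((hs i j).continuous_iteratedFDeriv (by exact_mod_cast le_top)).bounded_above_of_compact_support
        (hcs.iteratedFDeriv s)
    choose a ha using h1
    refine ⟨∑ i, ∑ j, |a i j|, by positivity, fun i j x => (ha i j x).trans ?_⟩
    calc a i j ≤ |a i j| := le_abs_self _
      _ ≤ ∑ j, |a i j| := Finset.single_le_sum (f := fun j => |a i j|) (fun _ _ => abs_nonneg _) (Finset.mem_univ j)
      _ ≤ _ := Finset.single_le_sum (f := fun i => ∑ j, |a i j|) (fun _ _ => by positivity) (Finset.mem_univ i)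
  choose a ha0 ha using hAb
  induction k using Nat.strong_induction_on with
  | _ k ih =>
    choose! U hU0 hU using ih
    -- constant for the lower order terms
    set W : ℝ := Fintype.card n * ∑ s ∈ Finset.range k,
      (k.choose (s + 1) : ℝ) * a (s + 1) * |U (k - (s + 1))| with hW
    have hW0 : 0 ≤ W := by
      have : ∀ s ∈ Finset.range k, 0 ≤ (k.choose (s + 1) : ℝ) * a (s + 1) * |U (k - (s + 1))| :=
        fun s _ => mul_nonneg (mul_nonneg (by positivity) (ha0 _)) (abs_nonneg _)
      exact mul_nonneg (by positivity) (Finset.sum_nonneg this)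
    -- start
    obtain ⟨B0, hB00, hB0⟩ : ∃ B : ℝ, 0 ≤ B ∧ ∀ i j x, ‖iteratedFDeriv ℝ k (it ι A 0 i j) x‖ ≤ B := by
      refine ⟨1, zero_le_one, fun i j x => ?_⟩
      by_cases hk : k = 0
      · subst hk
        rw [norm_iteratedFDeriv_zero]
        simp only [it]
        split_ifs <;> simp
      · have : iteratedFDeriv ℝ k (it ι A 0 i j) = 0 := by
          simp only [it]
          exact iteratedFDeriv_const_of_ne hk _
        rw [this]; simp
    set B := max B0 (4 * M * W) with hB
    have hBn : 0 ≤ B := hB00.trans (le_max_left _ _)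
    refine ⟨B, hBn, fun N => ?_⟩
    induction N with
    | zero =>
      intro i j x
      rw [pow_zero, mul_one]
      exact (hB0 i j x).trans (le_max_left _ _)
    | succ N ihN =>
      intro i j x
      have hsm := smooth_it hc hι hs hA N
      have hk : ((k : ℕ∞) : WithTop ℕ∞) ≤ ∞ := by exact_mod_cast le_top
      have hprod : ∀ y, ‖iteratedFDeriv ℝ k (fun x => ∑ l, A i l x * it ι A N l j x) y‖
          ≤ (Fintype.card n * δ) * (B * (1 / 2) ^ N) + W * (1 / 2) ^ N := by
        intro y
        have e1 : iteratedFDeriv ℝ k (fun x => ∑ l, A i l x * it ι A N l j x) y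
            = ∑ l, iteratedFDeriv ℝ k (fun x => A i l x * it ι A N l j x) y := by
          have := iteratedFDeriv_sum_apply (𝕜 := ℝ) (f := fun l x => A i l x * it ι A N l j x)
            (u := Finset.univ) (n := k) (x := y)
            (fun l _ => (((hs i l).mul (hsm l j)).of_le hk).contDiffAt)
          have e0 : (fun x => ∑ l, A i l x * it ι A N l j x)
              = ∑ l, fun x => A i l x * it ι A N l j x := by
            funext x; simp
          rw [e0]
          exact this
        rw [e1]
        have e2 : ∀ l, ‖iteratedFDeriv ℝ k (fun x => A i l x * it ι A N l j x) y‖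
            ≤ δ * (B * (1 / 2) ^ N) + (∑ s ∈ Finset.range k,
              (k.choose (s + 1) : ℝ) * a (s + 1) * |U (k - (s + 1))|) * (1 / 2) ^ N := by
          intro l
          refine (norm_iteratedFDeriv_mul_le (hs i l) (hsm l j) y hk).trans ?_
          rw [Finset.sum_range_succ', add_comm]
          refine add_le_add ?_ ?_
          · simp only [Nat.choose_zero_right, Nat.cast_one, one_mul, Nat.sub_zero,
              norm_iteratedFDeriv_zero]
            exact mul_le_mul (hδ i l y) (ihN l j y) (norm_nonneg _) hδ0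
          · rw [Finset.sum_mul]
            refine Finset.sum_le_sum fun s hs' => ?_
            have hs1 : k - (s + 1) < k := by
              have := Finset.mem_range.1 hs'
              omega
            have h1 := ha (s + 1) i l y
            have h2 : ‖iteratedFDeriv ℝ (k - (s + 1)) (it ι A N l j) y‖
                ≤ |U (k - (s + 1))| * (1 / 2) ^ N :=
              (hU _ hs1 N l j y).trans (by gcongr; exact le_abs_self _)
            calc (k.choose (s + 1) : ℝ) * ‖iteratedFDeriv ℝ (s + 1) (A i l) y‖ *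
                  ‖iteratedFDeriv ℝ (k - (s + 1)) (it ι A N l j) y‖
                ≤ (k.choose (s + 1) : ℝ) * a (s + 1) * (|U (k - (s + 1))| * (1 / 2) ^ N) := by
                  have := ha0 (s + 1)
                  gcongr
              _ = _ := by ring
        calc ‖∑ l, iteratedFDeriv ℝ k (fun x => A i l x * it ι A N l j x) y‖
            ≤ ∑ l : n, (δ * (B * (1 / 2) ^ N) + (∑ s ∈ Finset.range k,
              (k.choose (s + 1) : ℝ) * a (s + 1) * |U (k - (s + 1))|) * (1 / 2) ^ N) :=
              norm_sum_le_of_le _ fun l _ => e2 l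
          _ = _ := by
              rw [Finset.sum_const, Finset.card_univ, nsmul_eq_mul, hW]
              ring
      have hT := norm_iteratedFDeriv_T_le hc hR hι k (Sp_prod hA (it ι A N) i j)
        ((ContDiff.sum fun l _ => (hs i l).mul (hsm l j)).of_le hk) _ hprod x
      refine (show ‖iteratedFDeriv ℝ k (it ι A (N + 1) i j) x‖ ≤ _ from hT).trans ?_
      rw [← hM]
      have h4 : 4 * M * W ≤ B := le_max_right _ _
      have h5 : M * (Fintype.card n * δ) ≤ 1 / 4 := hq
      have hp : 0 < (1 / 2 : ℝ) ^ N := by positivity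
      calc M * ((Fintype.card n * δ) * (B * (1 / 2) ^ N) + W * (1 / 2) ^ N)
          = (M * (Fintype.card n * δ)) * B * (1 / 2) ^ N + (M * W) * (1 / 2) ^ N := by ring
        _ ≤ (1 / 4) * B * (1 / 2) ^ N + (B / 4) * (1 / 2) ^ N := by
            have : M * W ≤ B / 4 := by linarith
            gcongr
        _ = B * (1 / 2) ^ (N + 1) := by ring

/-- geometric bound of the iterates -/
theorem bound_it0 {c R : ℝ} (hc : 0 < c) (hR : 0 < R) {ι : ℂ →L[ℝ] V} (hι : Low c ι)
    {A : n → n → V → ℂ}
    (hs : ∀ i j, ContDiff ℝ ∞ (A i j)) (hA : ∀ i j x, R ≤ ‖x‖ → A i j x = 0) {δ : ℝ}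
    (hδ0 : 0 ≤ δ) (hδ : ∀ i j x, ‖A i j x‖ ≤ δ) (N : ℕ) :
    ∀ i j x, ‖it ι A N i j x‖ ≤ (3 * R / c * (Fintype.card n * δ)) ^ N := by
  induction N with
  | zero => intro i j x; simp only [it]; split_ifs <;> simp
  | succ N ih =>
    intro i j x
    have h := norm_T_le hc hR hι (Sp_prod hA (it ι A N) i j)
      (b := Fintype.card n * δ * (3 * R / c * (Fintype.card n * δ)) ^ N) (fun y => ?_) x
    · refine (show ‖it ι A (N + 1) i j x‖ ≤ _ from h).trans (le_of_eq ?_)
      ring
    · calc ‖∑ l, A i l y * it ι A N l j y‖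
          ≤ ∑ l : n, δ * (3 * R / c * (Fintype.card n * δ)) ^ N :=
            norm_sum_le_of_le _ fun l _ => by
              rw [norm_mul]
              exact mul_le_mul (hδ i l y) (ih l j y) (norm_nonneg _) hδ0
        _ = _ := by rw [Finset.sum_const, Finset.card_univ, nsmul_eq_mul]; ring


/-- the fundamental matrix -/
def C (ι : ℂ →L[ℝ] V) (A : n → n → V → ℂ) (i j : n) (x : V) : ℂ := ∑' N, it ι A N i j x

/-- T5a as a corollary of the operator bounds -/
theorem cauchy : StmtCauchy := by
  intro V _ _ _ c R hc hR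
  refine ⟨3 * R / c, by positivity, fun ι hι φ hφ hs b hb => ⟨T ι φ, ?_, fun x => ?_, fun x => ?_⟩⟩
  · exact contDiff_T hc hι hs hφ
  · exact Dp_T hc hι hs (hφ.of_le (by exact_mod_cast le_top)) x
  · exact norm_T_le hc hR hι hs hb x

end Crest.Agent.R080.SmallFM

namespace Crest.Agent.R080
open SmallFM CT

theorem t_SmallFM : StmtSmallFM := by
  intro V _ _ _ n _ _ c R e hc hR he
  -- choice of δ
  set M := 3 * R / c with hM
  have hM0 : 0 < M := by positivity
  set q : ℝ := min (1 / 4) (e / 2) with hq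
  have hq0 : 0 < q := lt_min (by norm_num) (by positivity)
  set d : ℝ := (Fintype.card n : ℝ) + 1 with hd
  have hd0 : 0 < d := by positivity
  refine ⟨q / (M * d), by positivity, fun ι hι A hs hA hδ => ?_⟩
  have hι' : Low c ι := hι
  set δ := q / (M * d) with hδd
  have hδ0 : 0 ≤ δ := by positivity
  have hqle : M * (Fintype.card n * δ) ≤ q := by
    have : M * (Fintype.card n * δ) ≤ M * (d * δ) := by
      have : (Fintype.card n : ℝ) ≤ d := by linarith
      gcongr
    refine this.trans (le_of_eq ?_)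
    rw [hδd]; field_simp
  have hq4 : M * (Fintype.card n * δ) ≤ 1 / 4 := hqle.trans (min_le_left _ _)
  have hqe : M * (Fintype.card n * δ) ≤ e / 2 := hqle.trans (min_le_right _ _)
  have hb := fun k => bound_it hc hR hι' hs hA hδ0 hδ hq4 k
  choose B hB0 hB using hb
  have hb0 := fun N => bound_it0 hc hR hι' hs hA hδ0 hδ N
  have hsm := fun N => smooth_it hc hι' hs hA N
  have hgeo : Summable fun N : ℕ => ((1 / 2 : ℝ)) ^ N := summable_geometric_two
  have hsum : ∀ i j x, Summable fun N => it ι A N i j x := by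
    intro i j x
    refine Summable.of_norm_bounded (hgeo.mul_left (B 0)) fun N => ?_
    have := hB 0 N i j x
    rwa [norm_iteratedFDeriv_zero] at this
  have hfd : ∀ i j N x, ‖fderiv ℝ (it ι A N i j) x‖ ≤ B 1 * (1 / 2) ^ N := by
    intro i j N x
    have := hB 1 N i j x
    rwa [← norm_iteratedFDeriv_fderiv, norm_iteratedFDeriv_zero] at this
  have hdiff : ∀ i j N, Differentiable ℝ (it ι A N i j) := fun i j N =>
    (hsm N i j).differentiable (by simp)
  refine ⟨SmallFM.C ι A, fun i j => ?_, fun i j x => ?_, fun i j x => ?_⟩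
  · -- smoothness
    refine contDiff_tsum (𝕜 := ℝ) (N := (⊤ : ℕ∞)) (f := fun N => it ι A N i j)
      (v := fun k N => B k * (1 / 2) ^ N) (fun N => hsm N i j) (fun k _ => hgeo.mul_left _) ?_
    intro k N x _
    exact hB k N i j x
  · -- the equation
    have h1 : fderiv ℝ (SmallFM.C ι A i j) x = ∑' N, fderiv ℝ (it ι A N i j) x :=
      fderiv_tsum_apply (hgeo.mul_left (B 1)) (fun N => hdiff i j N) (fun N x => hfd i j N x)
        (hsum i j 0) x
    have hsfd : Summable fun N => fderiv ℝ (it ι A N i j) x :=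
      Summable.of_norm_bounded (hgeo.mul_left (B 1)) fun N => hfd i j N x
    have h2 : ∀ v, fderiv ℝ (SmallFM.C ι A i j) x v = ∑' N, fderiv ℝ (it ι A N i j) x v := by
      intro v
      rw [h1]
      exact (ContinuousLinearMap.apply ℝ ℂ v).map_tsum hsfd
    have hsv : ∀ v, Summable fun N => fderiv ℝ (it ι A N i j) x v := fun v =>
      (ContinuousLinearMap.apply ℝ ℂ v).summable hsfd
    have h3 : Dp ι (SmallFM.C ι A i j) x = ∑' N, Dp ι (it ι A N i j) x := by
      unfold Dp
      rw [h2, h2, ← tsum_mul_left, ← Summable.tsum_add (hsv _) ((hsv _).mul_left _)]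
    have hsD : Summable fun N => Dp ι (it ι A N i j) x := by
      unfold Dp
      exact (hsv _).add ((hsv _).mul_left _)
    rw [h3, hsD.tsum_eq_zero_add]
    have h4 : Dp ι (it ι A 0 i j) x = 0 := by
      unfold Dp; simp [it]
    have h5 : ∀ N, Dp ι (it ι A (N + 1) i j) x = ∑ l, A i l x * it ι A N l j x := by
      intro N
      exact Dp_T hc hι' (Sp_prod hA (it ι A N) i j)
        ((ContDiff.sum fun l _ => (hs i l).mul (hsm N l j)).of_le (by exact_mod_cast le_top)) x
    rw [h4, zero_add, tsum_congr h5, Summable.tsum_finsetSum fun l _ => (hsum l j x).mul_left _]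
    exact Finset.sum_congr rfl fun l _ => tsum_mul_left
  · -- closeness
    have h1 : SmallFM.C ι A i j x - (if i = j then 1 else 0) = ∑' N, it ι A (N + 1) i j x := by
      unfold SmallFM.C
      rw [(hsum i j x).tsum_eq_zero_add]
      simp [it]
    rw [h1]
    set p := M * (Fintype.card n * δ) with hp
    have hp0 : 0 ≤ p := by positivity
    have hp1 : p < 1 := by linarith
    have hgp : HasSum (fun N : ℕ => p ^ (N + 1)) (p / (1 - p)) := by
      have := (hasSum_geometric_of_lt_one hp0 hp1).mul_left p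
      simpa [pow_succ', div_eq_mul_inv] using this
    refine (tsum_of_norm_bounded hgp fun N => hb0 (N + 1) i j x).trans ?_
    rw [div_le_iff₀ (by linarith)]
    nlinarith

end Crest.Agent.R080
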