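import Crest.Agent.R080.Stmts

/-!
Row 80 (S0107): finer statements (intermediate interfaces).
-/

set_option autoImplicit false

open MeasureTheory Filter
open scoped ContDiff Topology
open Crest.AnalysisR.VecCalc3 Crest.AnalysisR.PDE.Elasticity

noncomputable section
namespace Crest.Agent.R080

/-! ### `∂̄` along planes -/

/-- `∂₁ + i ∂₂` along a real-linear plane `ι : ℂ → V` -/
def Dp {V : Type} [NormedAddCommGroup V] [NormedSpace ℝ V] (ι : ℂ →L[ℝ] V) (f : V → ℂ) (x : V) :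
    ℂ := fderiv ℝ f x (ι 1) + Complex.I * fderiv ℝ f x (ι Complex.I)

/-- T5 (i): solvability of `D ψ = φ` (Cauchy transform along planes) -/
def StmtCauchy : Prop :=
  ∀ (V : Type) [NormedAddCommGroup V] [NormedSpace ℝ V] [FiniteDimensional ℝ V] (c R : ℝ),
    0 < c → 0 < R → ∃ M : ℝ, 0 < M ∧ ∀ ι : ℂ →L[ℝ] V, (∀ z, c * ‖z‖ ≤ ‖ι z‖) →
      ∀ φ : V → ℂ, ContDiff ℝ ∞ φ → (∀ x, R ≤ ‖x‖ → φ x = 0) →
      ∀ b : ℝ, (∀ x, ‖φ x‖ ≤ b) →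
      ∃ ψ : V → ℂ, ContDiff ℝ ∞ ψ ∧ (∀ x, Dp ι ψ x = φ x) ∧ ∀ x, ‖ψ x‖ ≤ M * b

/-- T5 (ii): fundamental matrices for small compactly supported coefficients -/
def StmtSmallFM : Prop :=
  ∀ (V : Type) [NormedAddCommGroup V] [NormedSpace ℝ V] [FiniteDimensional ℝ V]
    (n : Type) [Fintype n] [DecidableEq n] (c R e : ℝ), 0 < c → 0 < R → 0 < e →
    ∃ δ : ℝ, 0 < δ ∧ ∀ ι : ℂ →L[ℝ] V, (∀ z, c * ‖z‖ ≤ ‖ι z‖) →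
      ∀ A : n → n → V → ℂ, (∀ i j, ContDiff ℝ ∞ (A i j)) →
      (∀ i j x, R ≤ ‖x‖ → A i j x = 0) → (∀ i j x, ‖A i j x‖ ≤ δ) →
      ∃ C : n → n → V → ℂ, (∀ i j, ContDiff ℝ ∞ (C i j)) ∧
        (∀ i j x, Dp ι (C i j) x = ∑ l, A i l x * C l j x) ∧
        (∀ i j x, ‖C i j x - if i = j then 1 else 0‖ ≤ e)

/-- T6a: a nondegenerate continuous weak solution matrix on the plane (Gaussian weights) -/
def StmtKsol : Prop :=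
  ∀ (n : Type) [Fintype n] [DecidableEq n] (A : n → n → ℂ → ℂ),
    (∀ i j, Continuous (A i j)) → (∀ i j, HasCompactSupport (A i j)) →
    ∃ X : n → n → ℂ → ℂ, (∀ i j, Continuous (X i j)) ∧
      (∀ i j, ∀ φ : ℂ → ℂ, ContDiff ℝ ∞ φ → HasCompactSupport φ →
        -∫ z, X i j z * Dp (ContinuousLinearMap.id ℝ ℂ) φ z
          = ∫ z, (∑ l, A i l z * X l j z) * φ z) ∧
      (Matrix.of fun i j => X i j 0).det ≠ 0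

/-- T6b: fundamental matrix on an arbitrarily large disc of a single plane -/
def StmtPlaneFM : Prop :=
  ∀ (n : Type) [Fintype n] [DecidableEq n] (A : n → n → ℂ → ℂ),
    (∀ i j, ContDiff ℝ ∞ (A i j)) → ∀ R : ℝ,
    ∃ C Ci : n → n → ℂ → ℂ, (∀ i j, ContDiff ℝ ∞ (C i j)) ∧ (∀ i j, ContDiff ℝ ∞ (Ci i j)) ∧
      ∀ z : ℂ, ‖z‖ < R →
        (∀ i j, Dp (ContinuousLinearMap.id ℝ ℂ) (C i j) z = ∑ l, A i l z * C l j z) ∧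
        (∀ i j, ∑ l, C i l z * Ci l j z = if i = j then 1 else 0)

/-! ### Carleman -/

/-- T8: Carleman estimate for smooth compactly supported fields -/
def StmtCarleman : Prop :=
  ∀ (ι : Type) [Fintype ι] [DecidableEq ι] (θ : Fin 3 → ℂ), IsNull θ →
    ∀ (A : Fin 3 → ι → ι → R3 → ℂ) (B : ι → ι → R3 → ℂ),
    (∀ j i l, ContDiff ℝ ∞ (A j i l)) → (∀ i l, ContDiff ℝ ∞ (B i l)) → ∀ R : ℝ,
    ∃ C τ₀ : ℝ, 0 < C ∧ 0 < τ₀ ∧ ∀ τ : ℝ, τ₀ ≤ τ → ∀ v : ι → R3 → ℂ,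
      (∀ i, ContDiff ℝ ∞ (v i)) → (∀ i (x : R3), R ≤ ‖x‖ → v i x = 0) →
      τ ^ 2 * (∫ x, ∑ i, ‖v i x‖ ^ 2) + (∫ x, ∑ i, ∑ j, ‖pd j (v i) x‖ ^ 2)
        ≤ C * ∫ x, ∑ i, ‖P0 A B v i x + τ * M0 θ A v i x‖ ^ 2

/-- T9: approximate solvability in `L²` (duality + mollification) -/
def StmtL2Solve : Prop :=
  ∀ (ι : Type) [Fintype ι] [DecidableEq ι] (θ : Fin 3 → ℂ), IsNull θ →
    ∀ (A : Fin 3 → ι → ι → R3 → ℂ) (B : ι → ι → R3 → ℂ),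
    (∀ j i l, ContDiff ℝ ∞ (A j i l)) → (∀ i l, ContDiff ℝ ∞ (B i l)) → ∀ R : ℝ,
    ∃ C τ₀ : ℝ, 0 < C ∧ 0 < τ₀ ∧ ∀ τ : ℝ, τ₀ ≤ τ → ∀ f : ι → R3 → ℂ,
      (∀ i, ContDiff ℝ ∞ (f i)) → (∀ i, HasCompactSupport (f i)) → ∀ ε : ℝ, 0 < ε →
      ∃ r : ι → R3 → ℂ, (∀ i, ContDiff ℝ ∞ (r i)) ∧
        (∫ x in Metric.ball (0 : R3) R, ∑ i, ‖P0 A B r i x + τ * M0 θ A r i x - f i x‖ ^ 2
          ≤ ε) ∧
        ∫ x in Metric.ball (0 : R3) R, ∑ i, ‖r i x‖ ^ 2 ≤ (C / τ) ^ 2 * ∫ x, ∑ i, ‖f i x‖ ^ 2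

/-- T10: interior `H²` estimate for smooth fields -/
def StmtInterior : Prop :=
  ∀ (ι : Type) [Fintype ι] [DecidableEq ι] (θ : Fin 3 → ℂ),
    ∀ (A : Fin 3 → ι → ι → R3 → ℂ) (B : ι → ι → R3 → ℂ),
    (∀ j i l, ContDiff ℝ ∞ (A j i l)) → (∀ i l, ContDiff ℝ ∞ (B i l)) → ∀ R R' : ℝ, R < R' →
    ∃ C : ℝ, 0 < C ∧ ∀ τ : ℝ, 1 ≤ τ → ∀ r : ι → R3 → ℂ, (∀ i, ContDiff ℝ ∞ (r i)) →
      H2sq (Metric.ball (0 : R3) R) r ≤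
        C * (τ ^ 4 * (∫ x in Metric.ball (0 : R3) R', ∑ i, ‖r i x‖ ^ 2)
          + (∫ x in Metric.ball (0 : R3) R', ∑ i, ‖P0 A B r i x + τ * M0 θ A r i x‖ ^ 2))

/-! ### Lamé algebra -/

/-- the complex displacement field `e^{τθ·x} (w + m (∇+τθ) g - g ∇m)` -/
def uU (P : Moduli) (θ : Fin 3 → ℂ) (τ : ℂ) (U : Option (Fin 3) → R3 → ℂ) :
    Fin 3 → R3 → ℂ := fun i x => expo θ τ x * dispU P θ τ U i x

/-- T11 (i): the weak form of the Lamé operator on `uU` -/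
def StmtLame : Prop :=
  ∀ (G : Dom) (P : Moduli) (θ : Fin 3 → ℂ), IsNull θ → ∀ (τ : ℂ) (U : Option (Fin 3) → R3 → ℂ),
    (∀ i, ContDiff ℝ ∞ (U i)) → ∀ w : Fin 3 → R3 → ℂ, (∀ i, ContDiff ℝ 1 (w i)) →
    (∀ x ∈ frontier G.Ω, ∀ i, w i x = 0) →
    BE G.Ω P (uU P θ τ U) w =
      -(∫ x in G.Ω, expo θ τ x * (P.mu x : ℂ) *
          ∑ i, (P0 (A4 P) (B4 P) U (some i) x + τ * M0 θ (A4 P) U (some i) x) * w i x)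
      + ∫ x in G.Ω, expo θ τ x * ((P.cc x : ℂ))⁻¹ *
          (P0 (A4 P) (B4 P) U none x + τ * M0 θ (A4 P) U none x) * divg w x

/-- T11 (ii): exact expansion in `τ` -/
def StmtBilin : Prop :=
  ∀ (G : Dom) (P₁ P₂ : Moduli) (θ : Fin 3 → ℂ), IsNull θ → ∀ (τ : ℂ)
    (U V : Option (Fin 3) → R3 → ℂ), (∀ i, ContDiff ℝ ∞ (U i)) → (∀ i, ContDiff ℝ ∞ (V i)) →
    BE G.Ω P₁ (uU P₁ θ τ U) (uU P₂ θ (-τ) V) - BE G.Ω P₂ (uU P₁ θ τ U) (uU P₂ θ (-τ) V)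
      = ∫ x in G.Ω, (τ ^ 2 * q2 P₁ P₂ θ U V x + τ * q1 P₁ P₂ θ U V x + q0 P₁ P₂ U V x)

/-- T16a: boundary localization -/
def StmtBdryLoc : Prop :=
  ∀ (G : Dom) (F : R3 → ℂ), ContDiff ℝ ∞ F → ∀ x ∈ frontier G.Ω, ∀ e : R3,
    fderiv ℝ G.rho x e ≠ 0 →
    (∀ χ : R3 → ℂ, ContDiff ℝ ∞ χ → HasCompactSupport χ →
      ∫ y in G.Ω, fderiv ℝ (fun z => F z * χ z) y e = 0) → F x = 0

end Crest.Agent.R080
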