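import Crest.Agent.R080.W0d

/-!
Row 80 (S0107), module T12: `StmtW0` (helper777).
-/

set_option autoImplicit false

open MeasureTheory Filter
open scoped ContDiff Topology
open Crest.AnalysisR.VecCalc3 Crest.AnalysisR.PDE.Elasticity

noncomputable section
namespace Crest.Agent.R080
namespace W0
open PdBasic

/-- exact expansion of the quadratic expression -/
theorem expansion (P₁ P₂ : Moduli) {θ : Fin 3 → ℂ} (hθ : IsNull θ)
    {U X V V' W : Option (Fin 3) → R3 → ℂ} (hU : ∀ i, ContDiff ℝ ∞ (U i))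
    (hX : ∀ i, ContDiff ℝ ∞ (X i)) (hV : ∀ i, ContDiff ℝ ∞ (V i))
    (hV' : ∀ i, ContDiff ℝ ∞ (V' i)) (hW : ∀ i, ContDiff ℝ ∞ (W i))
    (hVn : ∀ x, V none x = 0) (hVθ : ∀ x, ∑ i, θ i * V (some i) x = 0)
    {t τ : ℂ} (ht : t * τ = 1) (x : R3) :
    τ ^ 2 * q2 P₁ P₂ θ (comb U t X) (comb V t (comb V' t W)) x
      + τ * q1 P₁ P₂ θ (comb U t X) (comb V t (comb V' t W)) x
      + q0 P₁ P₂ (comb U t X) (comb V t (comb V' t W)) x
    = τ * (q2 P₁ P₂ θ U V' x + q1 P₁ P₂ θ U V x)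
      + (q2 P₁ P₂ θ X V' x + q2 P₁ P₂ θ (comb U t X) W x + q1 P₁ P₂ θ X V x
        + q1 P₁ P₂ θ (comb U t X) (comb V' t W) x
        + q0 P₁ P₂ (comb U t X) (comb V t (comb V' t W)) x) := by
  have hZ := contDiff_comb hV' hW t
  rw [q2_comb_right P₁ P₂ θ hV hZ, q2_shear P₁ P₂ hθ (comb U t X) V hV hVn hVθ,
    q2_comb_right (W := comb U t X) P₁ P₂ θ hV' hW, q2_comb_left (W := V') P₁ P₂ θ hU hX,
    q1_comb_right (W := comb U t X) P₁ P₂ θ hV hZ, q1_comb_left (W := V) P₁ P₂ θ hU hX]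
  have q1' : t * τ = 1 := ht
  have h2 : t ^ 2 * τ ^ 2 = 1 := by rw [← mul_pow, q1', one_pow]
  have h3 : t * τ ^ 2 = τ := by rw [pow_two, ← mul_assoc, q1', one_mul]
  linear_combination (q2 P₁ P₂ θ U V' x) * h3 + (q2 P₁ P₂ θ X V' x) * h2
    + (q2 P₁ P₂ θ (comb U t X) W x) * h2
    + (q1 P₁ P₂ θ X V x) * q1'
    + (q1 P₁ P₂ θ (comb U t X) (comb V' t W) x) * q1'

theorem integral_sum5 {S : Set R3} {f0 f1 f2 f3 f4 f5 : R3 → ℂ} (i0 : IntegrableOn f0 S)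
    (i1 : IntegrableOn f1 S) (i2 : IntegrableOn f2 S) (i3 : IntegrableOn f3 S)
    (i4 : IntegrableOn f4 S) (i5 : IntegrableOn f5 S) :
    ∫ x in S, (f0 x + (f1 x + f2 x + f3 x + f4 x + f5 x)) = (∫ x in S, f0 x)
      + ((∫ x in S, f1 x) + (∫ x in S, f2 x) + (∫ x in S, f3 x) + (∫ x in S, f4 x)
        + ∫ x in S, f5 x) := by
  have e1 : ∫ x in S, (f0 x + (f1 x + f2 x + f3 x + f4 x + f5 x))
      = (∫ x in S, f0 x) + ∫ x in S, (f1 x + f2 x + f3 x + f4 x + f5 x) :=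
    integral_add i0 ((((i1.add i2).add i3).add i4).add i5)
  have e2 : ∫ x in S, (f1 x + f2 x + f3 x + f4 x + f5 x)
      = (∫ x in S, (f1 x + f2 x + f3 x + f4 x)) + ∫ x in S, f5 x :=
    integral_add (((i1.add i2).add i3).add i4) i5
  have e3 : ∫ x in S, (f1 x + f2 x + f3 x + f4 x)
      = (∫ x in S, (f1 x + f2 x + f3 x)) + ∫ x in S, f4 x :=
    integral_add ((i1.add i2).add i3) i4
  have e4 : ∫ x in S, (f1 x + f2 x + f3 x)
      = (∫ x in S, (f1 x + f2 x)) + ∫ x in S, f3 x := integral_add (i1.add i2) i3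
  have e5 : ∫ x in S, (f1 x + f2 x) = (∫ x in S, f1 x) + ∫ x in S, f2 x := integral_add i1 i2
  rw [e1, e2, e3, e4, e5]

/-- integrated expansion -/
theorem expansion_integral (G : Dom) (P₁ P₂ : Moduli) {θ : Fin 3 → ℂ} (hθ : IsNull θ)
    {U X V V' W : Option (Fin 3) → R3 → ℂ} (hU : ∀ i, ContDiff ℝ ∞ (U i))
    (hX : ∀ i, ContDiff ℝ ∞ (X i)) (hV : ∀ i, ContDiff ℝ ∞ (V i))
    (hV' : ∀ i, ContDiff ℝ ∞ (V' i)) (hW : ∀ i, ContDiff ℝ ∞ (W i))
    (hVn : ∀ x, V none x = 0) (hVθ : ∀ x, ∑ i, θ i * V (some i) x = 0)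
    {t τ : ℂ} (ht : t * τ = 1) :
    ∫ x in G.Ω, (τ ^ 2 * q2 P₁ P₂ θ (comb U t X) (comb V t (comb V' t W)) x
      + τ * q1 P₁ P₂ θ (comb U t X) (comb V t (comb V' t W)) x
      + q0 P₁ P₂ (comb U t X) (comb V t (comb V' t W)) x)
    = τ * (∫ x in G.Ω, (q2 P₁ P₂ θ U V' x + q1 P₁ P₂ θ U V x))
      + ((∫ x in G.Ω, q2 P₁ P₂ θ X V' x) + (∫ x in G.Ω, q2 P₁ P₂ θ (comb U t X) W x)
        + (∫ x in G.Ω, q1 P₁ P₂ θ X V x)
        + (∫ x in G.Ω, q1 P₁ P₂ θ (comb U t X) (comb V' t W) x)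
        + ∫ x in G.Ω, q0 P₁ P₂ (comb U t X) (comb V t (comb V' t W)) x) := by
  have hUt := contDiff_comb hU hX t
  have hZ := contDiff_comb hV' hW t
  have hVt := contDiff_comb hV hZ t
  have i0 : IntegrableOn (fun x => τ * (q2 P₁ P₂ θ U V' x + q1 P₁ P₂ θ U V x)) G.Ω :=
    Dom.integrableOn G (continuous_const.mul
      ((cont_q2 P₁ P₂ θ hU hV').add (cont_q1 P₁ P₂ θ hU hV)))
  have i1 : IntegrableOn (q2 P₁ P₂ θ X V') G.Ω := Dom.integrableOn G (cont_q2 P₁ P₂ θ hX hV')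
  have i2 : IntegrableOn (q2 P₁ P₂ θ (comb U t X) W) G.Ω :=
    Dom.integrableOn G (cont_q2 P₁ P₂ θ hUt hW)
  have i3 : IntegrableOn (q1 P₁ P₂ θ X V) G.Ω := Dom.integrableOn G (cont_q1 P₁ P₂ θ hX hV)
  have i4 : IntegrableOn (q1 P₁ P₂ θ (comb U t X) (comb V' t W)) G.Ω :=
    Dom.integrableOn G (cont_q1 P₁ P₂ θ hUt hZ)
  have i5 : IntegrableOn (q0 P₁ P₂ (comb U t X) (comb V t (comb V' t W))) G.Ω :=
    Dom.integrableOn G (cont_q0 P₁ P₂ hUt hVt)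
  rw [← integral_const_mul, ← integral_sum5 i0 i1 i2 i3 i4 i5]
  refine setIntegral_congr_fun (Dom.measurableSet G) fun x _ => ?_
  exact expansion P₁ P₂ hθ hU hX hV hV' hW hVn hVθ ht x

end W0

open PdBasic W0 in
set_option maxHeartbeats 1000000 in
theorem t_W0 (hRI3 : StmtRI3D) (hRI : StmtRI) (hL : StmtLame) (hB : StmtBilin) (hP : StmtPolar)
    (hK : StmtKorn) : StmtW0 := by
  intro G P₁ P₂ hsame θ hθ U V V' hU hV hV' hU0 hVn hVθ hV0 hV1
  have hU0' : ∀ x ∈ G.Ω, ∀ i, M0 θ (A4 P₁) U i x = 0 := fun x hx =>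
    hU0.self_of_nhdsSet x (subset_closure hx)
  have hV0' : ∀ x ∈ G.Ω, ∀ i, M0 θ (A4 P₂) V i x = 0 := fun x hx =>
    hV0.self_of_nhdsSet x (subset_closure hx)
  have hV1' : ∀ x ∈ G.Ω, ∀ i, M0 θ (A4 P₂) V' i x = P0 (A4 P₂) (B4 P₂) V i x := fun x hx =>
    hV1.self_of_nhdsSet x (subset_closure hx)
  obtain ⟨R, hR0, hR⟩ := (Dom.exists_ball G)
  obtain ⟨U1, hU1, hU1'⟩ := transport hRI P₁ hθ (fun i x => - P0 (A4 P₁) (B4 P₁) U i x)
    (fun i => (contDiff_P0 (contDiff_A4 P₁) (contDiff_B4 P₁) hU i).neg) R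
  obtain ⟨MU, τU, hMU, hτU, hcgoU⟩ := cgo hRI3 hRI G P₁ hθ U U1 hU hU1 hU0' (fun x hx i =>
    hU1' x (by
      have := hR (subset_closure hx)
      rwa [Metric.mem_ball, dist_zero_right] at this) i)
  obtain ⟨MV, τV, hMV, hτV, hcgoV⟩ := cgo hRI3 hRI G P₂ (IsNull.neg hθ) V V' hV hV'
    (fun x hx i => by rw [M0_neg_theta, hV0' x hx i, neg_zero])
    (fun x hx i => by rw [M0_neg_theta, hV1' x hx i])
  obtain ⟨CP, hCP, hpol⟩ := hP G P₁ P₂ hsame
  obtain ⟨C2, hC2, hb2⟩ := (bibd_q2 (G := G) P₁ P₂ θ).integral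
  obtain ⟨C1, hC1, hb1⟩ := (bibd_q1 (G := G) P₁ P₂ θ).integral
  obtain ⟨C0, hC0, hb0⟩ := (bibd_q0 (G := G) P₁ P₂).integral
  -- uniform bounds of the `H²` norms
  set hu := H2sq G.Ω U with hu_def
  set hu1 := H2sq G.Ω U1 with hu1_def
  set hv := H2sq G.Ω V with hv_def
  set hv' := H2sq G.Ω V' with hv'_def
  have hu0 : 0 ≤ hu := H2sq_nonneg _ _
  have hu10 : 0 ≤ hu1 := H2sq_nonneg _ _
  have hv0 : 0 ≤ hv := H2sq_nonneg _ _
  have hv'0 : 0 ≤ hv' := H2sq_nonneg _ _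
  set BX : ℝ := 2 * hu1 + 2 * MU with hBX
  set BU : ℝ := 2 * hu + 2 * BX with hBU
  set BZ : ℝ := 2 * hv' + 2 * MV with hBZ
  set BV : ℝ := 2 * hv + 2 * BZ with hBV
  set M' : ℝ := C2 * (BX + hv') + C2 * (BU + MV) + C1 * (BX + hv) + C1 * (BU + BZ)
    + C0 * (BU + BV) with hM'
  set T : ℂ := ∫ x in G.Ω, (q2 P₁ P₂ θ U V' x + q1 P₁ P₂ θ U V x) with hT
  have main : ∀ τ : ℝ, max τU τV ≤ τ → τ * ‖T‖ ≤ M' := by
    intro τ hτ
    have hτU' : τU ≤ τ := (le_max_left _ _).trans hτ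
    have hτV' : τV ≤ τ := (le_max_right _ _).trans hτ
    have hτ1 : 1 ≤ τ := hτU.trans hτU'
    have hτpos : 0 < τ := by linarith
    have hτne : (τ : ℂ) ≠ 0 := by exact_mod_cast hτpos.ne'
    set t : ℂ := (τ : ℂ)⁻¹ with ht
    have htτ : t * (τ : ℂ) = 1 := inv_mul_cancel₀ hτne
    have htn : ‖t‖ ^ 2 ≤ 1 := by
      rw [ht, norm_inv, Complex.norm_real, Real.norm_of_nonneg hτpos.le]
      exact pow_le_one₀ (by positivity) (inv_le_one_of_one_le₀ hτ1)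
    obtain ⟨D1, hD1, hw1⟩ := weakRes_of hL hK G P₁ hθ (τ : ℂ)
    obtain ⟨D2, hD2, hw2⟩ := weakRes_of hL hK G P₂ hθ (-(τ : ℂ))
    obtain ⟨E1, hE1, hg1⟩ := gradSq_uU G P₁ θ (τ : ℂ)
    obtain ⟨E2, hE2, hg2⟩ := gradSq_uU G P₂ θ (-(τ : ℂ))
    set Cτ : ℝ := CP * (D1 ^ 2 + D2 ^ 2 + D1 * √(E2 * BV) + D2 * √(E1 * BU)) with hCτ
    have hCτ0 : 0 ≤ Cτ := by positivity
    have step : ∀ s : ℝ, 0 < s → s ≤ 1 → τ * ‖T‖ ≤ M' + Cτ * s := by
      intro s hs hs1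
      obtain ⟨W, hW, hW1, hW2⟩ := hcgoU τ hτU' (s ^ 2) (by positivity)
      obtain ⟨Y, hY, hY1, hY2⟩ := hcgoV τ hτV' (s ^ 2) (by positivity)
      have hsq : √(s ^ 2) = s := Real.sqrt_sq hs.le
      have hX := contDiff_comb hU1 hW t
      have hUt := contDiff_comb hU hX t
      have hZ := contDiff_comb hV' hY t
      have hVt := contDiff_comb hV hZ t
      -- `H²` bounds
      have aX : H2sq G.Ω (comb U1 t W) ≤ BX := by
        have h1 := H2sq_comb G hU1 hW t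
        have h2 : ‖t‖ ^ 2 * H2sq G.Ω W ≤ MU :=
          (mul_le_of_le_one_left (H2sq_nonneg _ _) htn).trans hW1
        linarith
      have aU : H2sq G.Ω (comb U t (comb U1 t W)) ≤ BU := by
        have h1 := H2sq_comb G hU hX t
        have h2 : ‖t‖ ^ 2 * H2sq G.Ω (comb U1 t W) ≤ BX :=
          (mul_le_of_le_one_left (H2sq_nonneg _ _) htn).trans aX
        linarith
      have aZ : H2sq G.Ω (comb V' t Y) ≤ BZ := by
        have h1 := H2sq_comb G hV' hY t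
        have h2 : ‖t‖ ^ 2 * H2sq G.Ω Y ≤ MV :=
          (mul_le_of_le_one_left (H2sq_nonneg _ _) htn).trans hY1
        linarith
      have aV : H2sq G.Ω (comb V t (comb V' t Y)) ≤ BV := by
        have h1 := H2sq_comb G hV hZ t
        have h2 : ‖t‖ ^ 2 * H2sq G.Ω (comb V' t Y) ≤ BZ :=
          (mul_le_of_le_one_left (H2sq_nonneg _ _) htn).trans aZ
        linarith
      -- weak residuals
      have wr1 := hw1 (comb U t (comb U1 t W)) hUt (s ^ 2) hW2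
      have wr2 := hw2 (comb V t (comb V' t Y)) hVt (s ^ 2) (by
        refine le_trans (le_of_eq ?_) hY2
        refine setIntegral_congr_fun (Dom.measurableSet G) fun x _ => ?_
        refine Finset.sum_congr rfl fun i _ => ?_
        rw [M0_neg_theta, mul_neg, neg_mul])
      rw [hsq] at wr1 wr2
      -- gradients
      have g1 : √(gradSq G.Ω (uU P₁ θ (τ : ℂ) (comb U t (comb U1 t W)))) ≤ √(E1 * BU) :=
        Real.sqrt_le_sqrt ((hg1 _ hUt).trans (mul_le_mul_of_nonneg_left aU hE1))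
      have g2 : √(gradSq G.Ω (uU P₂ θ (-(τ : ℂ)) (comb V t (comb V' t Y)))) ≤ √(E2 * BV) :=
        Real.sqrt_le_sqrt ((hg2 _ hVt).trans (mul_le_mul_of_nonneg_left aV hE2))
      have hpol' := hpol (uU P₁ θ (τ : ℂ) (comb U t (comb U1 t W)))
        (uU P₂ θ (-(τ : ℂ)) (comb V t (comb V' t Y)))
        (fun i => (contDiff_uU P₁ θ _ hUt i).of_le (by simp))
        (fun i => (contDiff_uU P₂ θ _ hVt i).of_le (by simp))
        (D1 * s) (D2 * s) (by positivity) (by positivity) wr1 wr2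
      rw [hB G P₁ P₂ θ hθ (τ : ℂ) _ _ hUt hVt] at hpol'
      have hpol2 : ‖∫ x in G.Ω, ((τ : ℂ) ^ 2 * q2 P₁ P₂ θ (comb U t (comb U1 t W))
            (comb V t (comb V' t Y)) x
          + (τ : ℂ) * q1 P₁ P₂ θ (comb U t (comb U1 t W)) (comb V t (comb V' t Y)) x
          + q0 P₁ P₂ (comb U t (comb U1 t W)) (comb V t (comb V' t Y)) x)‖ ≤ Cτ * s := by
        refine hpol'.trans ?_
        rw [hCτ, mul_assoc CP]
        refine mul_le_mul_of_nonneg_left ?_ hCP.le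
        have e1 : (D1 * s) ^ 2 ≤ D1 ^ 2 * s := by
          rw [mul_pow]
          exact mul_le_mul_of_nonneg_left (by nlinarith) (by positivity)
        have e2 : (D2 * s) ^ 2 ≤ D2 ^ 2 * s := by
          rw [mul_pow]
          exact mul_le_mul_of_nonneg_left (by nlinarith) (by positivity)
        have e3 := mul_le_mul_of_nonneg_left g2 (by positivity : 0 ≤ D1 * s)
        have e4 := mul_le_mul_of_nonneg_left g1 (by positivity : 0 ≤ D2 * s)
        calc _ ≤ D1 ^ 2 * s + D2 ^ 2 * s + (D1 * s) * √(E2 * BV) + (D2 * s) * √(E1 * BU) := by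
              linarith
          _ = (D1 ^ 2 + D2 ^ 2 + D1 * √(E2 * BV) + D2 * √(E1 * BU)) * s := by ring
      -- expansion
      have hexp := expansion_integral G P₁ P₂ hθ hU hX hV hV' hY hVn hVθ htτ
      have b1 := hb2 (comb U1 t W) V' hX hV'
      have b2 := hb2 (comb U t (comb U1 t W)) Y hUt hY
      have b3 := hb1 (comb U1 t W) V hX hV
      have b4 := hb1 (comb U t (comb U1 t W)) (comb V' t Y) hUt hZ
      have b5 := hb0 (comb U t (comb U1 t W)) (comb V t (comb V' t Y)) hUt hVt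
      have b1' : ‖∫ x in G.Ω, q2 P₁ P₂ θ (comb U1 t W) V' x‖ ≤ C2 * (BX + hv') :=
        b1.trans (mul_le_mul_of_nonneg_left (by linarith) hC2)
      have b2' : ‖∫ x in G.Ω, q2 P₁ P₂ θ (comb U t (comb U1 t W)) Y x‖ ≤ C2 * (BU + MV) :=
        b2.trans (mul_le_mul_of_nonneg_left (by linarith) hC2)
      have b3' : ‖∫ x in G.Ω, q1 P₁ P₂ θ (comb U1 t W) V x‖ ≤ C1 * (BX + hv) :=
        b3.trans (mul_le_mul_of_nonneg_left (by linarith) hC1)
      have b4' : ‖∫ x in G.Ω, q1 P₁ P₂ θ (comb U t (comb U1 t W)) (comb V' t Y) x‖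
          ≤ C1 * (BU + BZ) := b4.trans (mul_le_mul_of_nonneg_left (by linarith) hC1)
      have b5' : ‖∫ x in G.Ω, q0 P₁ P₂ (comb U t (comb U1 t W)) (comb V t (comb V' t Y)) x‖
          ≤ C0 * (BU + BV) := b5.trans (mul_le_mul_of_nonneg_left (by linarith) hC0)
      have n1 : τ * ‖T‖ = ‖(τ : ℂ) * T‖ := by
        rw [norm_mul, Complex.norm_real, Real.norm_of_nonneg hτpos.le]
      rw [hexp] at hpol2
      set I1 := ∫ x in G.Ω, q2 P₁ P₂ θ (comb U1 t W) V' x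
      set I2 := ∫ x in G.Ω, q2 P₁ P₂ θ (comb U t (comb U1 t W)) Y x
      set I3 := ∫ x in G.Ω, q1 P₁ P₂ θ (comb U1 t W) V x
      set I4 := ∫ x in G.Ω, q1 P₁ P₂ θ (comb U t (comb U1 t W)) (comb V' t Y) x
      set I5 := ∫ x in G.Ω, q0 P₁ P₂ (comb U t (comb U1 t W)) (comb V t (comb V' t Y)) x
      have n2 : ‖(τ : ℂ) * T‖ ≤ ‖(τ : ℂ) * T + (I1 + I2 + I3 + I4 + I5)‖
          + ‖I1 + I2 + I3 + I4 + I5‖ := by
        have := norm_sub_le ((τ : ℂ) * T + (I1 + I2 + I3 + I4 + I5)) (I1 + I2 + I3 + I4 + I5)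
        rwa [add_sub_cancel_right] at this
      have n3 : ‖I1 + I2 + I3 + I4 + I5‖ ≤ ‖I1‖ + ‖I2‖ + ‖I3‖ + ‖I4‖ + ‖I5‖ := by
        have m1 := norm_add_le (I1 + I2 + I3 + I4) I5
        have m2 := norm_add_le (I1 + I2 + I3) I4
        have m3 := norm_add_le (I1 + I2) I3
        have m4 := norm_add_le I1 I2
        linarith
      rw [n1]
      linarith
    -- let `s → 0`
    refine le_of_forall_pos_le_add fun δ hδ => ?_
    set s : ℝ := min 1 (δ / (Cτ + 1)) with hs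
    have hs0 : 0 < s := lt_min one_pos (by positivity)
    have h1 := step s hs0 (min_le_left _ _)
    have h2 : Cτ * s ≤ δ := by
      have h3 : s ≤ δ / (Cτ + 1) := min_le_right _ _
      rw [le_div_iff₀ (by positivity)] at h3
      nlinarith
    linarith
  -- conclusion
  by_contra hne
  have hTpos : 0 < ‖T‖ := norm_pos_iff.mpr hne
  have h1 := main (max (max τU τV) ((|M'| + 1) / ‖T‖)) (le_max_left _ _)
  have h2 : (|M'| + 1) / ‖T‖ * ‖T‖ ≤ max (max τU τV) ((|M'| + 1) / ‖T‖) * ‖T‖ :=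
    mul_le_mul_of_nonneg_right (le_max_right _ _) hTpos.le
  rw [div_mul_cancel₀ _ hTpos.ne'] at h2
  have h3 := le_abs_self M'
  linarith

end Crest.Agent.R080
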