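import Crest.Agent.R080.PdBasic

/-!
Row 80 (S0107), module T12 (StmtW0), part a: pointwise `H²` density and bilinear bounds
(helper777).
-/

set_option autoImplicit false

open MeasureTheory Filter
open scoped ContDiff Topology
open Crest.AnalysisR.VecCalc3 Crest.AnalysisR.PDE.Elasticity

noncomputable section
namespace Crest.Agent.R080.W0
open PdBasic

/-! ### Cauchy–Schwarz for continuous functions on the domain -/

theorem Dom.cauchySchwarz (G : Dom) {f g : R3 → ℝ} (hf : Continuous f) (hg : Continuous g) :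
    |∫ x in G.Ω, f x * g x| ≤ √(∫ x in G.Ω, f x ^ 2) * √(∫ x in G.Ω, g x ^ 2) := by
  have hf2 : IntegrableOn (fun x => f x ^ 2) G.Ω := Dom.integrableOn G (hf.pow 2)
  have hg2 : IntegrableOn (fun x => g x ^ 2) G.Ω := Dom.integrableOn G (hg.pow 2)
  have hfg : IntegrableOn (fun x => f x * g x) G.Ω := Dom.integrableOn G (hf.mul hg)
  have hA : 0 ≤ ∫ x in G.Ω, f x ^ 2 := integral_nonneg fun x => sq_nonneg _
  have hB : 0 ≤ ∫ x in G.Ω, g x ^ 2 := integral_nonneg fun x => sq_nonneg _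
  have key : ∀ t : ℝ, 0 ≤ (∫ x in G.Ω, g x ^ 2) * (t * t) + (2 * ∫ x in G.Ω, f x * g x) * t
      + ∫ x in G.Ω, f x ^ 2 := by
    intro t
    have h1 : (∫ x in G.Ω, g x ^ 2) * (t * t) + (2 * ∫ x in G.Ω, f x * g x) * t
        + ∫ x in G.Ω, f x ^ 2 = ∫ x in G.Ω, (f x + t * g x) ^ 2 := by
      have h2 : ∀ x, (f x + t * g x) ^ 2 = (t * t) * g x ^ 2 + (2 * t) * (f x * g x) + f x ^ 2 :=
        fun x => by ring
      simp_rw [h2]
      have h3 : IntegrableOn (fun x => (t * t) * g x ^ 2 + (2 * t) * (f x * g x)) G.Ω :=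
        (hg2.const_mul _).add (hfg.const_mul _)
      have e1 : ∫ x in G.Ω, ((t * t) * g x ^ 2 + (2 * t) * (f x * g x) + f x ^ 2)
          = (∫ x in G.Ω, ((t * t) * g x ^ 2 + (2 * t) * (f x * g x))) + ∫ x in G.Ω, f x ^ 2 :=
        integral_add h3 hf2
      rw [e1, integral_add (hg2.const_mul _) (hfg.const_mul _), integral_const_mul,
        integral_const_mul]
      ring
    rw [h1]
    exact integral_nonneg fun x => sq_nonneg _
  have hd := discrim_le_zero key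
  unfold discrim at hd
  have h3 : (∫ x in G.Ω, f x * g x) ^ 2 ≤ (∫ x in G.Ω, f x ^ 2) * ∫ x in G.Ω, g x ^ 2 := by
    nlinarith
  rw [← Real.sqrt_mul hA]
  exact Real.abs_le_sqrt h3

/-! ### the pointwise `H²` density -/

section N2
variable {ι : Type} [Fintype ι]

/-- pointwise `H²` density -/
def N2 (U : ι → R3 → ℂ) (x : R3) : ℝ :=
  ∑ i, (‖U i x‖ ^ 2 + ∑ j, ‖pd j (U i) x‖ ^ 2 + ∑ j, ∑ k, ‖pd j (pd k (U i)) x‖ ^ 2)

/-- its square root -/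
def nrm (U : ι → R3 → ℂ) (x : R3) : ℝ := √(N2 U x)

theorem H2sq_eq (S : Set R3) (U : ι → R3 → ℂ) : H2sq S U = ∫ x in S, N2 U x := rfl

theorem N2_nonneg (U : ι → R3 → ℂ) (x : R3) : 0 ≤ N2 U x :=
  Finset.sum_nonneg fun i _ => by positivity

theorem nrm_nonneg (U : ι → R3 → ℂ) (x : R3) : 0 ≤ nrm U x := Real.sqrt_nonneg _

theorem nrm_sq (U : ι → R3 → ℂ) (x : R3) : nrm U x ^ 2 = N2 U x := Real.sq_sqrt (N2_nonneg U x)

theorem le_N2_0 (U : ι → R3 → ℂ) (x : R3) (i : ι) : ‖U i x‖ ^ 2 ≤ N2 U x := by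
  refine le_trans ?_ (Finset.single_le_sum (f := fun i => (‖U i x‖ ^ 2 +
    ∑ j, ‖pd j (U i) x‖ ^ 2 + ∑ j, ∑ k, ‖pd j (pd k (U i)) x‖ ^ 2))
    (fun i _ => by positivity) (Finset.mem_univ i))
  have h1 : 0 ≤ ∑ j, ‖pd j (U i) x‖ ^ 2 := by positivity
  have h2 : 0 ≤ ∑ j, ∑ k, ‖pd j (pd k (U i)) x‖ ^ 2 := by positivity
  linarith

theorem le_N2_1 (U : ι → R3 → ℂ) (x : R3) (i : ι) (j : Fin 3) : ‖pd j (U i) x‖ ^ 2 ≤ N2 U x := by
  refine le_trans ?_ (Finset.single_le_sum (f := fun i => (‖U i x‖ ^ 2 +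
    ∑ j, ‖pd j (U i) x‖ ^ 2 + ∑ j, ∑ k, ‖pd j (pd k (U i)) x‖ ^ 2))
    (fun i _ => by positivity) (Finset.mem_univ i))
  have h1 : ‖pd j (U i) x‖ ^ 2 ≤ ∑ j, ‖pd j (U i) x‖ ^ 2 :=
    Finset.single_le_sum (f := fun j => ‖pd j (U i) x‖ ^ 2) (fun j _ => by positivity)
      (Finset.mem_univ j)
  have h2 : 0 ≤ ∑ j, ∑ k, ‖pd j (pd k (U i)) x‖ ^ 2 := by positivity
  have h3 : 0 ≤ ‖U i x‖ ^ 2 := by positivity
  linarith

theorem le_N2_2 (U : ι → R3 → ℂ) (x : R3) (i : ι) (j k : Fin 3) :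
    ‖pd j (pd k (U i)) x‖ ^ 2 ≤ N2 U x := by
  refine le_trans ?_ (Finset.single_le_sum (f := fun i => (‖U i x‖ ^ 2 +
    ∑ j, ‖pd j (U i) x‖ ^ 2 + ∑ j, ∑ k, ‖pd j (pd k (U i)) x‖ ^ 2))
    (fun i _ => by positivity) (Finset.mem_univ i))
  have h0 : ‖pd j (pd k (U i)) x‖ ^ 2 ≤ ∑ k, ‖pd j (pd k (U i)) x‖ ^ 2 :=
    Finset.single_le_sum (f := fun k => ‖pd j (pd k (U i)) x‖ ^ 2) (fun j _ => by positivity)
      (Finset.mem_univ k)
  have h1 : ∑ k, ‖pd j (pd k (U i)) x‖ ^ 2 ≤ ∑ j, ∑ k, ‖pd j (pd k (U i)) x‖ ^ 2 :=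
    Finset.single_le_sum (f := fun j => ∑ k, ‖pd j (pd k (U i)) x‖ ^ 2)
      (fun j _ => by positivity) (Finset.mem_univ j)
  have h2 : 0 ≤ ∑ j, ‖pd j (U i) x‖ ^ 2 := by positivity
  have h3 : 0 ≤ ‖U i x‖ ^ 2 := by positivity
  linarith

theorem le_nrm_0 (U : ι → R3 → ℂ) (x : R3) (i : ι) : ‖U i x‖ ≤ nrm U x :=
  Real.le_sqrt_of_sq_le (le_N2_0 U x i)

theorem le_nrm_1 (U : ι → R3 → ℂ) (x : R3) (i : ι) (j : Fin 3) : ‖pd j (U i) x‖ ≤ nrm U x :=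
  Real.le_sqrt_of_sq_le (le_N2_1 U x i j)

theorem le_nrm_2 (U : ι → R3 → ℂ) (x : R3) (i : ι) (j k : Fin 3) :
    ‖pd j (pd k (U i)) x‖ ≤ nrm U x :=
  Real.le_sqrt_of_sq_le (le_N2_2 U x i j k)

theorem continuous_N2 {U : ι → R3 → ℂ} (hU : ∀ i, ContDiff ℝ ∞ (U i)) : Continuous (N2 U) := by
  unfold N2
  refine continuous_finsetSum _ fun i _ => ?_
  refine ((((hU i).continuous.norm).pow 2).add (continuous_finsetSum _ fun j _ => ?_)).add
    (continuous_finsetSum _ fun j _ => continuous_finsetSum _ fun k _ => ?_)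
  · exact ((contDiff_pd (hU i) j).continuous.norm).pow 2
  · exact ((contDiff_pd (contDiff_pd (hU i) k) j).continuous.norm).pow 2

theorem continuous_nrm {U : ι → R3 → ℂ} (hU : ∀ i, ContDiff ℝ ∞ (U i)) : Continuous (nrm U) :=
  (continuous_N2 hU).sqrt

theorem norm_add_sq_le (a b : ℂ) : ‖a + b‖ ^ 2 ≤ 2 * ‖a‖ ^ 2 + 2 * ‖b‖ ^ 2 := by
  have h := norm_add_le a b
  have h1 : ‖a + b‖ ^ 2 ≤ (‖a‖ + ‖b‖) ^ 2 := pow_le_pow_left₀ (norm_nonneg _) h 2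
  nlinarith [sq_nonneg (‖a‖ - ‖b‖)]

theorem N2_add {U V : ι → R3 → ℂ} (hU : ∀ i, ContDiff ℝ ∞ (U i)) (hV : ∀ i, ContDiff ℝ ∞ (V i))
    (x : R3) : N2 (fun i y => U i y + V i y) x ≤ 2 * N2 U x + 2 * N2 V x := by
  unfold N2
  rw [Finset.mul_sum, Finset.mul_sum, ← Finset.sum_add_distrib]
  refine Finset.sum_le_sum fun i _ => ?_
  have h1 : ∑ j, ‖pd j (fun y => U i y + V i y) x‖ ^ 2 ≤
      2 * ∑ j, ‖pd j (U i) x‖ ^ 2 + 2 * ∑ j, ‖pd j (V i) x‖ ^ 2 := by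
    rw [Finset.mul_sum, Finset.mul_sum, ← Finset.sum_add_distrib]
    refine Finset.sum_le_sum fun j _ => ?_
    rw [pd_add (sm_diffAt (hU i)) (sm_diffAt (hV i))]
    exact norm_add_sq_le _ _
  have h2 : ∑ j, ∑ k, ‖pd j (pd k (fun y => U i y + V i y)) x‖ ^ 2 ≤
      2 * ∑ j, ∑ k, ‖pd j (pd k (U i)) x‖ ^ 2 + 2 * ∑ j, ∑ k, ‖pd j (pd k (V i)) x‖ ^ 2 := by
    rw [Finset.mul_sum, Finset.mul_sum, ← Finset.sum_add_distrib]
    refine Finset.sum_le_sum fun j _ => ?_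
    rw [Finset.mul_sum, Finset.mul_sum, ← Finset.sum_add_distrib]
    refine Finset.sum_le_sum fun k _ => ?_
    rw [pd_add' (hU i) (hV i), pd_add (sm_diffAt (contDiff_pd (hU i) k))
      (sm_diffAt (contDiff_pd (hV i) k))]
    exact norm_add_sq_le _ _
  have h3 := norm_add_sq_le (U i x) (V i x)
  linarith

theorem N2_const_mul {U : ι → R3 → ℂ} (hU : ∀ i, ContDiff ℝ ∞ (U i)) (c : ℂ)
    (x : R3) : N2 (fun i y => c * U i y) x = ‖c‖ ^ 2 * N2 U x := by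
  unfold N2
  rw [Finset.mul_sum]
  refine Finset.sum_congr rfl fun i _ => ?_
  have h1 : ∀ j, ‖pd j (fun y => c * U i y) x‖ ^ 2 = ‖c‖ ^ 2 * ‖pd j (U i) x‖ ^ 2 := by
    intro j
    rw [pd_const_mul (sm_diffAt (hU i)), norm_mul, mul_pow]
  have h2 : ∀ j k, ‖pd j (pd k (fun y => c * U i y)) x‖ ^ 2 =
      ‖c‖ ^ 2 * ‖pd j (pd k (U i)) x‖ ^ 2 := by
    intro j k
    rw [pd_const_mul' (hU i), pd_const_mul (sm_diffAt (contDiff_pd (hU i) k)), norm_mul, mul_pow]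
  simp only [h1, h2, norm_mul, mul_pow, Finset.mul_sum, mul_add]

theorem H2sq_nonneg (S : Set R3) (U : ι → R3 → ℂ) : 0 ≤ H2sq S U :=
  integral_nonneg fun x => N2_nonneg U x

theorem H2sq_add (G : Dom) {U V : ι → R3 → ℂ} (hU : ∀ i, ContDiff ℝ ∞ (U i))
    (hV : ∀ i, ContDiff ℝ ∞ (V i)) :
    H2sq G.Ω (fun i y => U i y + V i y) ≤ 2 * H2sq G.Ω U + 2 * H2sq G.Ω V := by
  rw [H2sq_eq, H2sq_eq, H2sq_eq, ← integral_const_mul, ← integral_const_mul, ← integral_add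
    ((Dom.integrableOn G (continuous_N2 hU)).const_mul _)
    ((Dom.integrableOn G (continuous_N2 hV)).const_mul _)]
  refine integral_mono (Dom.integrableOn G (continuous_N2 fun i => (hU i).add (hV i)))
    (((Dom.integrableOn G (continuous_N2 hU)).const_mul _).add
    ((Dom.integrableOn G (continuous_N2 hV)).const_mul _)) fun x => N2_add hU hV x

theorem H2sq_const_mul (S : Set R3) {U : ι → R3 → ℂ} (hU : ∀ i, ContDiff ℝ ∞ (U i)) (c : ℂ) :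
    H2sq S (fun i y => c * U i y) = ‖c‖ ^ 2 * H2sq S U := by
  rw [H2sq_eq, H2sq_eq, ← integral_const_mul]
  exact integral_congr_ae (Eventually.of_forall fun x => N2_const_mul hU c x)

end N2

/-! ### operators bounded by the density -/

section Bd
variable {ι : Type} [Fintype ι]

/-- `F U` is pointwise bounded on `Ω` by the density of `U`, uniformly in `U` -/
def BdOp (G : Dom) (F : (ι → R3 → ℂ) → R3 → ℂ) : Prop :=
  ∃ C : ℝ, 0 ≤ C ∧ ∀ U : ι → R3 → ℂ, ∀ x ∈ G.Ω, ‖F U x‖ ≤ C * nrm U x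

variable {G : Dom}

theorem BdOp.val (i : ι) : BdOp G (fun U x => U i x) :=
  ⟨1, zero_le_one, fun U x _ => by rw [one_mul]; exact le_nrm_0 U x i⟩

theorem BdOp.pd1 (i : ι) (j : Fin 3) : BdOp G (fun U x => pd j (U i) x) :=
  ⟨1, zero_le_one, fun U x _ => by rw [one_mul]; exact le_nrm_1 U x i j⟩

theorem BdOp.pd2 (i : ι) (j k : Fin 3) : BdOp G (fun U x => pd j (pd k (U i)) x) :=
  ⟨1, zero_le_one, fun U x _ => by rw [one_mul]; exact le_nrm_2 U x i j k⟩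

theorem BdOp.add {F H : (ι → R3 → ℂ) → R3 → ℂ} (hF : BdOp G F) (hH : BdOp G H) :
    BdOp G (fun U x => F U x + H U x) := by
  obtain ⟨C, hC, h1⟩ := hF
  obtain ⟨D, hD, h2⟩ := hH
  refine ⟨C + D, add_nonneg hC hD, fun U x hx => ?_⟩
  rw [add_mul]
  exact (norm_add_le _ _).trans (add_le_add (h1 U x hx) (h2 U x hx))

theorem BdOp.sub {F H : (ι → R3 → ℂ) → R3 → ℂ} (hF : BdOp G F) (hH : BdOp G H) :
    BdOp G (fun U x => F U x - H U x) := by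
  obtain ⟨C, hC, h1⟩ := hF
  obtain ⟨D, hD, h2⟩ := hH
  refine ⟨C + D, add_nonneg hC hD, fun U x hx => ?_⟩
  rw [add_mul]
  exact (norm_sub_le _ _).trans (add_le_add (h1 U x hx) (h2 U x hx))

theorem BdOp.coeff_mul {F : (ι → R3 → ℂ) → R3 → ℂ} (hF : BdOp G F) {f : R3 → ℂ}
    (hf : Continuous f) : BdOp G (fun U x => f x * F U x) := by
  obtain ⟨C, hC, h1⟩ := hF
  obtain ⟨D, hD, h2⟩ := Dom.exists_bound G hf
  refine ⟨D * C, mul_nonneg hD hC, fun U x hx => ?_⟩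
  rw [norm_mul, mul_assoc]
  exact mul_le_mul (h2 x (subset_closure hx)) (h1 U x hx) (norm_nonneg _) hD

theorem BdOp.sum {κ : Type*} (s : Finset κ) {F : κ → (ι → R3 → ℂ) → R3 → ℂ}
    (hF : ∀ k ∈ s, BdOp G (F k)) : BdOp G (fun U x => ∑ k ∈ s, F k U x) := by
  classical
  induction s using Finset.induction_on with
  | empty => exact ⟨0, le_rfl, fun U x _ => by simp⟩
  | insert a s ha ih =>
    have h1 := (hF a (Finset.mem_insert_self a s)).add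
      (ih fun k hk => hF k (Finset.mem_insert_of_mem hk))
    obtain ⟨C, hC, h2⟩ := h1
    refine ⟨C, hC, fun U x hx => ?_⟩
    simp only [Finset.sum_insert ha]
    exact h2 U x hx

/-- bilinear version -/
def BiBd (G : Dom) (q : (ι → R3 → ℂ) → (ι → R3 → ℂ) → R3 → ℂ) : Prop :=
  ∃ C : ℝ, 0 ≤ C ∧ ∀ U V : ι → R3 → ℂ, ∀ x ∈ G.Ω, ‖q U V x‖ ≤ C * (nrm U x * nrm V x)

theorem BdOp.mul {F H : (ι → R3 → ℂ) → R3 → ℂ} (hF : BdOp G F) (hH : BdOp G H) :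
    BiBd G (fun U V x => F U x * H V x) := by
  obtain ⟨C, hC, h1⟩ := hF
  obtain ⟨D, hD, h2⟩ := hH
  refine ⟨C * D, mul_nonneg hC hD, fun U V x hx => ?_⟩
  rw [norm_mul]
  calc ‖F U x‖ * ‖H V x‖ ≤ (C * nrm U x) * (D * nrm V x) :=
        mul_le_mul (h1 U x hx) (h2 V x hx) (norm_nonneg _) (mul_nonneg hC (nrm_nonneg _ _))
    _ = C * D * (nrm U x * nrm V x) := by ring

theorem BiBd.add {p q : (ι → R3 → ℂ) → (ι → R3 → ℂ) → R3 → ℂ} (hp : BiBd G p) (hq : BiBd G q) :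
    BiBd G (fun U V x => p U V x + q U V x) := by
  obtain ⟨C, hC, h1⟩ := hp
  obtain ⟨D, hD, h2⟩ := hq
  refine ⟨C + D, add_nonneg hC hD, fun U V x hx => ?_⟩
  rw [add_mul]
  exact (norm_add_le _ _).trans (add_le_add (h1 U V x hx) (h2 U V x hx))

theorem BiBd.sub {p q : (ι → R3 → ℂ) → (ι → R3 → ℂ) → R3 → ℂ} (hp : BiBd G p) (hq : BiBd G q) :
    BiBd G (fun U V x => p U V x - q U V x) := by
  obtain ⟨C, hC, h1⟩ := hp
  obtain ⟨D, hD, h2⟩ := hq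
  refine ⟨C + D, add_nonneg hC hD, fun U V x hx => ?_⟩
  rw [add_mul]
  exact (norm_sub_le _ _).trans (add_le_add (h1 U V x hx) (h2 U V x hx))

theorem BiBd.coeff_mul {q : (ι → R3 → ℂ) → (ι → R3 → ℂ) → R3 → ℂ} (hq : BiBd G q) {f : R3 → ℂ}
    (hf : Continuous f) : BiBd G (fun U V x => f x * q U V x) := by
  obtain ⟨C, hC, h1⟩ := hq
  obtain ⟨D, hD, h2⟩ := Dom.exists_bound G hf
  refine ⟨D * C, mul_nonneg hD hC, fun U V x hx => ?_⟩
  rw [norm_mul, mul_assoc]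
  exact mul_le_mul (h2 x (subset_closure hx)) (h1 U V x hx) (norm_nonneg _) hD

theorem BiBd.sum {κ : Type*} (s : Finset κ) {q : κ → (ι → R3 → ℂ) → (ι → R3 → ℂ) → R3 → ℂ}
    (hq : ∀ k ∈ s, BiBd G (q k)) : BiBd G (fun U V x => ∑ k ∈ s, q k U V x) := by
  classical
  induction s using Finset.induction_on with
  | empty => exact ⟨0, le_rfl, fun U V x _ => by simp⟩
  | insert a s ha ih =>
    have h1 := (hq a (Finset.mem_insert_self a s)).add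
      (ih fun k hk => hq k (Finset.mem_insert_of_mem hk))
    obtain ⟨C, hC, h2⟩ := h1
    refine ⟨C, hC, fun U V x hx => ?_⟩
    simp only [Finset.sum_insert ha]
    exact h2 U V x hx

/-- integrated bound -/
theorem BiBd.integral {q : (ι → R3 → ℂ) → (ι → R3 → ℂ) → R3 → ℂ} (hq : BiBd G q) :
    ∃ C : ℝ, 0 ≤ C ∧ ∀ U V : ι → R3 → ℂ, (∀ i, ContDiff ℝ ∞ (U i)) → (∀ i, ContDiff ℝ ∞ (V i)) →
      ‖∫ x in G.Ω, q U V x‖ ≤ C * (H2sq G.Ω U + H2sq G.Ω V) := by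
  obtain ⟨C, hC, h1⟩ := hq
  refine ⟨C, hC, fun U V hU hV => ?_⟩
  have h2 : ‖∫ x in G.Ω, q U V x‖ ≤ ∫ x in G.Ω, C * (N2 U x + N2 V x) := by
    refine norm_integral_le_of_norm_le
      (((Dom.integrableOn G (continuous_N2 hU)).add (Dom.integrableOn G (continuous_N2 hV))).const_mul C)
      ?_
    refine (ae_restrict_iff' (Dom.measurableSet G)).mpr (Eventually.of_forall fun x hx => ?_)
    refine (h1 U V x hx).trans (mul_le_mul_of_nonneg_left ?_ hC)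
    rw [← nrm_sq, ← nrm_sq]
    nlinarith [sq_nonneg (nrm U x - nrm V x), sq_nonneg (nrm U x), sq_nonneg (nrm V x)]
  rw [integral_const_mul, integral_add (Dom.integrableOn G (continuous_N2 hU))
    (Dom.integrableOn G (continuous_N2 hV))] at h2
  exact h2

end Bd

end Crest.Agent.R080.W0
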