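import Crest.Agent.R080.W0a

/-!
Row 80 (S0107), module T12 (StmtW0), part b: bounds, linearity and continuity of `q0 q1 q2`
(helper777).
-/

set_option autoImplicit false

open MeasureTheory Filter
open scoped ContDiff Topology
open Crest.AnalysisR.VecCalc3 Crest.AnalysisR.PDE.Elasticity

noncomputable section
namespace Crest.Agent.R080.W0
open PdBasic

/-! ### bounds -/

section bounds
variable {G : Dom} {ι : Type} [Fintype ι]

theorem BdOp.congr {F H : (ι → R3 → ℂ) → R3 → ℂ} (hF : BdOp G F) (h : ∀ U x, H U x = F U x) :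
    BdOp G H := by
  have : H = F := funext fun U => funext fun x => h U x
  rw [this]; exact hF

theorem BdOp.dd (θ : Fin 3 → ℂ) (i : ι) : BdOp G (fun U x => DD θ (U i) x) := by
  unfold DD
  exact BdOp.sum Finset.univ fun j _ => (BdOp.pd1 i j).coeff_mul (f := fun _ => θ j) continuous_const

theorem BdOp.lap (i : ι) : BdOp G (fun U x => Lap (U i) x) := by
  unfold Lap
  exact BdOp.sum Finset.univ fun j _ => BdOp.pd2 i j j

theorem bd_S1 (P : Moduli) (θ : Fin 3 → ℂ) : BdOp G (fun U x => S1 P θ U x) := by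
  unfold S1
  refine BdOp.add (BdOp.sum Finset.univ fun i _ =>
    (BdOp.val (some i)).coeff_mul (f := fun _ => θ i) continuous_const) ?_
  exact (BdOp.dd θ none).coeff_mul (f := fun x => 2 * (P.m x : ℂ))
    (continuous_const.mul (Moduli.smooth_cf_m P).continuous)

theorem bd_S2 (P : Moduli) : BdOp G (fun U x => S2 P U x) := by
  unfold S2
  refine BdOp.sub (BdOp.add (BdOp.sum Finset.univ fun i _ => BdOp.pd1 (some i) i)
    ((BdOp.lap none).coeff_mul (f := fun x => (P.m x : ℂ)) (Moduli.smooth_cf_m P).continuous)) ?_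
  exact ((BdOp.val none).coeff_mul (f := fun x => Lap (cf P.m) x)
    (contDiff_Lap (Moduli.smooth_cf_m P)).continuous).congr fun U x => mul_comm _ _

theorem bd_E0 (P : Moduli) (θ : Fin 3 → ℂ) (i j : Fin 3) :
    BdOp G (fun U x => E0 P θ U i j x) := by
  unfold E0
  exact ((BdOp.val none).coeff_mul (f := fun x => (P.m x : ℂ) * (θ i * θ j))
    ((Moduli.smooth_cf_m P).continuous.mul continuous_const)).congr fun U x => by ring

theorem bd_E1 (P : Moduli) (θ : Fin 3 → ℂ) (i j : Fin 3) :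
    BdOp G (fun U x => E1 P θ U i j x) := by
  unfold E1
  have h : ∀ j : Fin 3, BdOp G (fun U x => U (some j) x + 2 * (P.m x : ℂ) * pd j (U none) x) :=
    fun j => (BdOp.val (some j)).add ((BdOp.pd1 none j).coeff_mul
      (f := fun x => 2 * (P.m x : ℂ)) (continuous_const.mul (Moduli.smooth_cf_m P).continuous))
  exact ((((h j).coeff_mul (f := fun _ => θ i) continuous_const).add
    ((h i).coeff_mul (f := fun _ => θ j) continuous_const)).coeff_mul (f := fun _ => (1 / 2 : ℂ))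
    continuous_const).congr fun U x => by ring

theorem bd_E2 (P : Moduli) (i j : Fin 3) : BdOp G (fun U x => E2 P U i j x) := by
  unfold E2
  refine BdOp.sub (BdOp.add ?_ ((BdOp.pd2 none i j).coeff_mul (f := fun x => (P.m x : ℂ))
    (Moduli.smooth_cf_m P).continuous)) ?_
  · exact (((BdOp.pd1 (some j) i).add (BdOp.pd1 (some i) j)).coeff_mul (f := fun _ => (1 / 2 : ℂ))
      continuous_const).congr fun U x => by ring
  · exact ((BdOp.val none).coeff_mul (f := fun x => pd i (pd j (cf P.m)) x)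
      (contDiff_pd (contDiff_pd (Moduli.smooth_cf_m P) j) i).continuous).congr fun U x => mul_comm _ _

theorem BiBd.congr {p q : (ι → R3 → ℂ) → (ι → R3 → ℂ) → R3 → ℂ} (hp : BiBd G p)
    (h : ∀ U V x, q U V x = p U V x) : BiBd G q := by
  have : q = p := funext fun U => funext fun V => funext fun x => h U V x
  rw [this]; exact hp

theorem continuous_dlam (P₁ P₂ : Moduli) : Continuous (dlam P₁ P₂) :=
  (Moduli.smooth_cf_lam P₁).continuous.sub (Moduli.smooth_cf_lam P₂).continuous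

theorem continuous_dmu (P₁ P₂ : Moduli) : Continuous (dmu P₁ P₂) :=
  (Moduli.smooth_cf_mu P₁).continuous.sub (Moduli.smooth_cf_mu P₂).continuous

theorem bibd_q2 (P₁ P₂ : Moduli) (θ : Fin 3 → ℂ) :
    BiBd G (fun U V x => q2 P₁ P₂ θ U V x) := by
  unfold q2
  refine BiBd.add ?_ ?_
  · exact (((bd_S1 P₁ θ).mul (bd_S1 P₂ θ)).coeff_mul (f := fun x => -(dlam P₁ P₂ x))
      (continuous_dlam P₁ P₂).neg).congr fun U V x => by ring
  · refine (BiBd.sum Finset.univ fun i _ => BiBd.sum Finset.univ fun j _ => ?_).coeff_mul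
      (f := fun x => 2 * dmu P₁ P₂ x) (continuous_const.mul (continuous_dmu P₁ P₂))
    exact (((bd_E0 P₁ θ i j).mul (bd_E2 P₂ i j)).add ((bd_E2 P₁ i j).mul (bd_E0 P₂ θ i j))).sub
      ((bd_E1 P₁ θ i j).mul (bd_E1 P₂ θ i j))

theorem bibd_q1 (P₁ P₂ : Moduli) (θ : Fin 3 → ℂ) :
    BiBd G (fun U V x => q1 P₁ P₂ θ U V x) := by
  unfold q1
  refine BiBd.add ?_ ?_
  · exact (((bd_S1 P₁ θ).mul (bd_S2 P₂)).sub ((bd_S2 P₁).mul (bd_S1 P₂ θ))).coeff_mul
      (f := fun x => dlam P₁ P₂ x) (continuous_dlam P₁ P₂)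
  · refine (BiBd.sum Finset.univ fun i _ => BiBd.sum Finset.univ fun j _ => ?_).coeff_mul
      (f := fun x => 2 * dmu P₁ P₂ x) (continuous_const.mul (continuous_dmu P₁ P₂))
    exact ((bd_E1 P₁ θ i j).mul (bd_E2 P₂ i j)).sub ((bd_E2 P₁ i j).mul (bd_E1 P₂ θ i j))

theorem bibd_q0 (P₁ P₂ : Moduli) : BiBd G (fun U V x => q0 P₁ P₂ U V x) := by
  unfold q0
  refine BiBd.add ?_ ?_
  · exact (((bd_S2 P₁).mul (bd_S2 P₂)).coeff_mul (f := fun x => dlam P₁ P₂ x)
      (continuous_dlam P₁ P₂)).congr fun U V x => by ring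
  · refine (BiBd.sum Finset.univ fun i _ => BiBd.sum Finset.univ fun j _ => ?_).coeff_mul
      (f := fun x => 2 * dmu P₁ P₂ x) (continuous_const.mul (continuous_dmu P₁ P₂))
    exact (bd_E2 P₁ i j).mul (bd_E2 P₂ i j)

end bounds

/-! ### continuity -/

section cont
variable {U V : Option (Fin 3) → R3 → ℂ}

theorem cont_S1 (P : Moduli) (θ : Fin 3 → ℂ) (hU : ∀ i, ContDiff ℝ ∞ (U i)) :
    Continuous (S1 P θ U) := by
  unfold S1
  exact (continuous_finsetSum _ fun i _ => continuous_const.mul (hU (some i)).continuous).add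
    ((continuous_const.mul (Moduli.smooth_cf_m P).continuous).mul (contDiff_DD θ (hU none)).continuous)

theorem cont_S2 (P : Moduli) (hU : ∀ i, ContDiff ℝ ∞ (U i)) : Continuous (S2 P U) := by
  unfold S2
  exact ((continuous_finsetSum _ fun i _ => (contDiff_pd (hU (some i)) i).continuous).add
    ((Moduli.smooth_cf_m P).continuous.mul (contDiff_Lap (hU none)).continuous)).sub
    ((hU none).continuous.mul (contDiff_Lap (Moduli.smooth_cf_m P)).continuous)

theorem cont_E0 (P : Moduli) (θ : Fin 3 → ℂ) (hU : ∀ i, ContDiff ℝ ∞ (U i)) (i j : Fin 3) :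
    Continuous (E0 P θ U i j) := by
  unfold E0
  exact (((Moduli.smooth_cf_m P).continuous.mul (hU none).continuous).mul continuous_const).mul
    continuous_const

theorem cont_E1 (P : Moduli) (θ : Fin 3 → ℂ) (hU : ∀ i, ContDiff ℝ ∞ (U i)) (i j : Fin 3) :
    Continuous (E1 P θ U i j) := by
  unfold E1
  have h : ∀ j : Fin 3, Continuous (fun x => U (some j) x + 2 * (P.m x : ℂ) * pd j (U none) x) :=
    fun j => (hU (some j)).continuous.add ((continuous_const.mul (Moduli.smooth_cf_m P).continuous).mul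
      (contDiff_pd (hU none) j).continuous)
  exact ((continuous_const.mul (h j)).add (continuous_const.mul (h i))).div_const 2

theorem cont_E2 (P : Moduli) (hU : ∀ i, ContDiff ℝ ∞ (U i)) (i j : Fin 3) :
    Continuous (E2 P U i j) := by
  unfold E2
  exact ((((contDiff_pd (hU (some j)) i).continuous.add
    (contDiff_pd (hU (some i)) j).continuous).div_const 2).add
    ((Moduli.smooth_cf_m P).continuous.mul (contDiff_pd (contDiff_pd (hU none) j) i).continuous)).sub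
    ((hU none).continuous.mul (contDiff_pd (contDiff_pd (Moduli.smooth_cf_m P) j) i).continuous)

theorem cont_q2 (P₁ P₂ : Moduli) (θ : Fin 3 → ℂ) (hU : ∀ i, ContDiff ℝ ∞ (U i))
    (hV : ∀ i, ContDiff ℝ ∞ (V i)) : Continuous (q2 P₁ P₂ θ U V) := by
  unfold q2
  exact ((((continuous_dlam P₁ P₂).neg).mul (cont_S1 P₁ θ hU)).mul (cont_S1 P₂ θ hV)).add
    ((continuous_const.mul (continuous_dmu P₁ P₂)).mul (continuous_finsetSum _ fun i _ =>
      continuous_finsetSum _ fun j _ =>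
        (((cont_E0 P₁ θ hU i j).mul (cont_E2 P₂ hV i j)).add
          ((cont_E2 P₁ hU i j).mul (cont_E0 P₂ θ hV i j))).sub
            ((cont_E1 P₁ θ hU i j).mul (cont_E1 P₂ θ hV i j))))

theorem cont_q1 (P₁ P₂ : Moduli) (θ : Fin 3 → ℂ) (hU : ∀ i, ContDiff ℝ ∞ (U i))
    (hV : ∀ i, ContDiff ℝ ∞ (V i)) : Continuous (q1 P₁ P₂ θ U V) := by
  unfold q1
  exact ((continuous_dlam P₁ P₂).mul (((cont_S1 P₁ θ hU).mul (cont_S2 P₂ hV)).sub
    ((cont_S2 P₁ hU).mul (cont_S1 P₂ θ hV)))).add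
    ((continuous_const.mul (continuous_dmu P₁ P₂)).mul (continuous_finsetSum _ fun i _ =>
      continuous_finsetSum _ fun j _ =>
        ((cont_E1 P₁ θ hU i j).mul (cont_E2 P₂ hV i j)).sub
          ((cont_E2 P₁ hU i j).mul (cont_E1 P₂ θ hV i j))))

theorem cont_q0 (P₁ P₂ : Moduli) (hU : ∀ i, ContDiff ℝ ∞ (U i))
    (hV : ∀ i, ContDiff ℝ ∞ (V i)) : Continuous (q0 P₁ P₂ U V) := by
  unfold q0
  exact (((continuous_dlam P₁ P₂).mul (cont_S2 P₁ hU)).mul (cont_S2 P₂ hV)).add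
    ((continuous_const.mul (continuous_dmu P₁ P₂)).mul (continuous_finsetSum _ fun i _ =>
      continuous_finsetSum _ fun j _ => (cont_E2 P₁ hU i j).mul (cont_E2 P₂ hV i j)))

end cont

/-! ### linearity -/

/-- `U + c V` -/
def comb {ι : Type} (U : ι → R3 → ℂ) (c : ℂ) (V : ι → R3 → ℂ) : ι → R3 → ℂ :=
  fun i y => U i y + c * V i y

theorem contDiff_comb {ι : Type} {U V : ι → R3 → ℂ} (hU : ∀ i, ContDiff ℝ ∞ (U i))
    (hV : ∀ i, ContDiff ℝ ∞ (V i)) (c : ℂ) : ∀ i, ContDiff ℝ ∞ (comb U c V i) :=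
  fun i => (hU i).add (contDiff_const.mul (hV i))

section lin
variable {U V W : Option (Fin 3) → R3 → ℂ}

theorem pd_comb {f g : R3 → ℂ} (hf : ContDiff ℝ ∞ f) (hg : ContDiff ℝ ∞ g) (c : ℂ) (j : Fin 3)
    (x : R3) : pd j (fun y => f y + c * g y) x = pd j f x + c * pd j g x := by
  rw [pd_add (sm_diffAt hf) (sm_diffAt (contDiff_const.mul hg)), pd_const_mul (sm_diffAt hg)]

theorem pd_pd_comb {f g : R3 → ℂ} (hf : ContDiff ℝ ∞ f) (hg : ContDiff ℝ ∞ g) (c : ℂ)
    (j k : Fin 3) (x : R3) :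
    pd j (pd k (fun y => f y + c * g y)) x = pd j (pd k f) x + c * pd j (pd k g) x := by
  have h : pd k (fun y => f y + c * g y) = fun y => pd k f y + c * pd k g y :=
    funext fun y => pd_comb hf hg c k y
  rw [h, pd_comb (contDiff_pd hf k) (contDiff_pd hg k)]

theorem DD_comb {f g : R3 → ℂ} (hf : ContDiff ℝ ∞ f) (hg : ContDiff ℝ ∞ g) (c : ℂ)
    (θ : Fin 3 → ℂ) (x : R3) : DD θ (fun y => f y + c * g y) x = DD θ f x + c * DD θ g x := by
  unfold DD
  simp only [pd_comb hf hg, Finset.mul_sum, ← Finset.sum_add_distrib]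
  exact Finset.sum_congr rfl fun j _ => by ring

theorem Lap_comb {f g : R3 → ℂ} (hf : ContDiff ℝ ∞ f) (hg : ContDiff ℝ ∞ g) (c : ℂ)
    (x : R3) : Lap (fun y => f y + c * g y) x = Lap f x + c * Lap g x := by
  unfold Lap
  simp only [pd_pd_comb hf hg, Finset.mul_sum, ← Finset.sum_add_distrib]

theorem S1_comb (P : Moduli) (θ : Fin 3 → ℂ) (hU : ∀ i, ContDiff ℝ ∞ (U i))
    (hV : ∀ i, ContDiff ℝ ∞ (V i)) (c : ℂ) (x : R3) :
    S1 P θ (comb U c V) x = S1 P θ U x + c * S1 P θ V x := by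
  unfold S1 comb
  rw [DD_comb (hU none) (hV none), mul_add, mul_add, Finset.mul_sum]
  have h : ∑ i, θ i * (U (some i) x + c * V (some i) x) =
      (∑ i, θ i * U (some i) x) + ∑ i, c * (θ i * V (some i) x) := by
    rw [← Finset.sum_add_distrib]
    exact Finset.sum_congr rfl fun i _ => by ring
  rw [h]
  ring

theorem S2_comb (P : Moduli) (hU : ∀ i, ContDiff ℝ ∞ (U i))
    (hV : ∀ i, ContDiff ℝ ∞ (V i)) (c : ℂ) (x : R3) :
    S2 P (comb U c V) x = S2 P U x + c * S2 P V x := by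
  unfold S2 comb
  rw [Lap_comb (hU none) (hV none)]
  have h : ∑ i, pd i (fun y => U (some i) y + c * V (some i) y) x =
      (∑ i, pd i (U (some i)) x) + c * ∑ i, pd i (V (some i)) x := by
    rw [Finset.mul_sum, ← Finset.sum_add_distrib]
    exact Finset.sum_congr rfl fun i _ => pd_comb (hU _) (hV _) c i x
  rw [h]
  ring

theorem E0_comb (P : Moduli) (θ : Fin 3 → ℂ) (c : ℂ) (i j : Fin 3) (x : R3) :
    E0 P θ (comb U c V) i j x = E0 P θ U i j x + c * E0 P θ V i j x := by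
  unfold E0 comb
  ring

theorem E1_comb (P : Moduli) (θ : Fin 3 → ℂ) (hU : ∀ i, ContDiff ℝ ∞ (U i))
    (hV : ∀ i, ContDiff ℝ ∞ (V i)) (c : ℂ) (i j : Fin 3) (x : R3) :
    E1 P θ (comb U c V) i j x = E1 P θ U i j x + c * E1 P θ V i j x := by
  unfold E1 comb
  rw [pd_comb (hU none) (hV none), pd_comb (hU none) (hV none)]
  ring

theorem E2_comb (P : Moduli) (hU : ∀ i, ContDiff ℝ ∞ (U i))
    (hV : ∀ i, ContDiff ℝ ∞ (V i)) (c : ℂ) (i j : Fin 3) (x : R3) :
    E2 P (comb U c V) i j x = E2 P U i j x + c * E2 P V i j x := by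
  unfold E2 comb
  rw [pd_comb (hU _) (hV _), pd_comb (hU _) (hV _), pd_pd_comb (hU none) (hV none)]
  ring

theorem q2_comb_left (P₁ P₂ : Moduli) (θ : Fin 3 → ℂ) (hU : ∀ i, ContDiff ℝ ∞ (U i))
    (hV : ∀ i, ContDiff ℝ ∞ (V i)) (c : ℂ) (x : R3) :
    q2 P₁ P₂ θ (comb U c V) W x = q2 P₁ P₂ θ U W x + c * q2 P₁ P₂ θ V W x := by
  unfold q2
  rw [S1_comb P₁ θ hU hV]
  have h : ∑ i, ∑ j, (E0 P₁ θ (comb U c V) i j x * E2 P₂ W i j x
      + E2 P₁ (comb U c V) i j x * E0 P₂ θ W i j x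
      - E1 P₁ θ (comb U c V) i j x * E1 P₂ θ W i j x)
      = (∑ i, ∑ j, (E0 P₁ θ U i j x * E2 P₂ W i j x + E2 P₁ U i j x * E0 P₂ θ W i j x
        - E1 P₁ θ U i j x * E1 P₂ θ W i j x))
      + c * (∑ i, ∑ j, (E0 P₁ θ V i j x * E2 P₂ W i j x + E2 P₁ V i j x * E0 P₂ θ W i j x
        - E1 P₁ θ V i j x * E1 P₂ θ W i j x)) := by
    rw [Finset.mul_sum, ← Finset.sum_add_distrib]
    refine Finset.sum_congr rfl fun i _ => ?_
    rw [Finset.mul_sum, ← Finset.sum_add_distrib]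
    refine Finset.sum_congr rfl fun j _ => ?_
    rw [E0_comb, E1_comb P₁ θ hU hV, E2_comb P₁ hU hV]
    ring
  rw [h]
  ring

theorem q2_comb_right (P₁ P₂ : Moduli) (θ : Fin 3 → ℂ) (hU : ∀ i, ContDiff ℝ ∞ (U i))
    (hV : ∀ i, ContDiff ℝ ∞ (V i)) (c : ℂ) (x : R3) :
    q2 P₁ P₂ θ W (comb U c V) x = q2 P₁ P₂ θ W U x + c * q2 P₁ P₂ θ W V x := by
  unfold q2
  rw [S1_comb P₂ θ hU hV]
  have h : ∑ i, ∑ j, (E0 P₁ θ W i j x * E2 P₂ (comb U c V) i j x
      + E2 P₁ W i j x * E0 P₂ θ (comb U c V) i j x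
      - E1 P₁ θ W i j x * E1 P₂ θ (comb U c V) i j x)
      = (∑ i, ∑ j, (E0 P₁ θ W i j x * E2 P₂ U i j x + E2 P₁ W i j x * E0 P₂ θ U i j x
        - E1 P₁ θ W i j x * E1 P₂ θ U i j x))
      + c * (∑ i, ∑ j, (E0 P₁ θ W i j x * E2 P₂ V i j x + E2 P₁ W i j x * E0 P₂ θ V i j x
        - E1 P₁ θ W i j x * E1 P₂ θ V i j x)) := by
    rw [Finset.mul_sum, ← Finset.sum_add_distrib]
    refine Finset.sum_congr rfl fun i _ => ?_
    rw [Finset.mul_sum, ← Finset.sum_add_distrib]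
    refine Finset.sum_congr rfl fun j _ => ?_
    rw [E0_comb, E1_comb P₂ θ hU hV, E2_comb P₂ hU hV]
    ring
  rw [h]
  ring

theorem q1_comb_left (P₁ P₂ : Moduli) (θ : Fin 3 → ℂ) (hU : ∀ i, ContDiff ℝ ∞ (U i))
    (hV : ∀ i, ContDiff ℝ ∞ (V i)) (c : ℂ) (x : R3) :
    q1 P₁ P₂ θ (comb U c V) W x = q1 P₁ P₂ θ U W x + c * q1 P₁ P₂ θ V W x := by
  unfold q1
  rw [S1_comb P₁ θ hU hV, S2_comb P₁ hU hV]
  have h : ∑ i, ∑ j, (E1 P₁ θ (comb U c V) i j x * E2 P₂ W i j x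
      - E2 P₁ (comb U c V) i j x * E1 P₂ θ W i j x)
      = (∑ i, ∑ j, (E1 P₁ θ U i j x * E2 P₂ W i j x - E2 P₁ U i j x * E1 P₂ θ W i j x))
      + c * (∑ i, ∑ j, (E1 P₁ θ V i j x * E2 P₂ W i j x
        - E2 P₁ V i j x * E1 P₂ θ W i j x)) := by
    rw [Finset.mul_sum, ← Finset.sum_add_distrib]
    refine Finset.sum_congr rfl fun i _ => ?_
    rw [Finset.mul_sum, ← Finset.sum_add_distrib]
    refine Finset.sum_congr rfl fun j _ => ?_
    rw [E1_comb P₁ θ hU hV, E2_comb P₁ hU hV]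
    ring
  rw [h]
  ring

theorem q1_comb_right (P₁ P₂ : Moduli) (θ : Fin 3 → ℂ) (hU : ∀ i, ContDiff ℝ ∞ (U i))
    (hV : ∀ i, ContDiff ℝ ∞ (V i)) (c : ℂ) (x : R3) :
    q1 P₁ P₂ θ W (comb U c V) x = q1 P₁ P₂ θ W U x + c * q1 P₁ P₂ θ W V x := by
  unfold q1
  rw [S1_comb P₂ θ hU hV, S2_comb P₂ hU hV]
  have h : ∑ i, ∑ j, (E1 P₁ θ W i j x * E2 P₂ (comb U c V) i j x
      - E2 P₁ W i j x * E1 P₂ θ (comb U c V) i j x)
      = (∑ i, ∑ j, (E1 P₁ θ W i j x * E2 P₂ U i j x - E2 P₁ W i j x * E1 P₂ θ U i j x))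
      + c * (∑ i, ∑ j, (E1 P₁ θ W i j x * E2 P₂ V i j x
        - E2 P₁ W i j x * E1 P₂ θ V i j x)) := by
    rw [Finset.mul_sum, ← Finset.sum_add_distrib]
    refine Finset.sum_congr rfl fun i _ => ?_
    rw [Finset.mul_sum, ← Finset.sum_add_distrib]
    refine Finset.sum_congr rfl fun j _ => ?_
    rw [E1_comb P₂ θ hU hV, E2_comb P₂ hU hV]
    ring
  rw [h]
  ring

end lin

/-! ### `q2 (·, V) = 0` for shear fields -/

theorem q2_shear (P₁ P₂ : Moduli) {θ : Fin 3 → ℂ} (hθ : IsNull θ) (U V : Option (Fin 3) → R3 → ℂ)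
    (hV : ∀ i, ContDiff ℝ ∞ (V i)) (h0 : ∀ x, V none x = 0)
    (h1 : ∀ x, ∑ i, θ i * V (some i) x = 0) (x : R3) : q2 P₁ P₂ θ U V x = 0 := by
  have hn : V none = fun _ => 0 := funext h0
  have hpd : ∀ j y, pd j (V none) y = 0 := fun j y => by rw [hn]; exact pd_const 0 j
  have hpd2 : ∀ i j y, pd i (pd j (V none)) y = 0 := fun i j y => by
    have : pd j (V none) = fun _ => 0 := funext fun z => hpd j z
    rw [this]; exact pd_const 0 i
  have hS : S1 P₂ θ V x = 0 := by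
    unfold S1 DD
    rw [h1 x]
    simp [hpd]
  have hE0 : ∀ i j, E0 P₂ θ V i j x = 0 := fun i j => by
    unfold E0; rw [h0]; ring
  have hE1 : ∀ i j, E1 P₂ θ V i j x = (θ i * V (some j) x + θ j * V (some i) x) / 2 := by
    intro i j
    unfold E1
    rw [hpd, hpd]; ring
  have hE2 : ∀ i j, E2 P₂ V i j x = (pd i (V (some j)) x + pd j (V (some i)) x) / 2 := by
    intro i j
    unfold E2
    rw [hpd2, h0]; ring
  -- derivative of `θ·V = 0`
  have hD : ∀ i, ∑ j, θ j * pd i (V (some j)) x = 0 := by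
    intro i
    have h2 : (fun y => ∑ j, θ j * V (some j) y) = fun _ => (0 : ℂ) := funext h1
    have h3 : pd i (fun y => ∑ j, θ j * V (some j) y) x = 0 := by rw [h2]; exact pd_const 0 i
    rw [pd_sum Finset.univ (fun j y => θ j * V (some j) y)
      (fun j _ => sm_diffAt (contDiff_const.mul (hV (some j))))] at h3
    rw [← h3]
    exact Finset.sum_congr rfl fun j _ => (pd_const_mul (sm_diffAt (hV (some j))) (θ j) i).symm
  have hnull := hθ.2
  have hV1 := h1 x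
  have hD0 := hD 0
  have hD1 := hD 1
  have hD2 := hD 2
  unfold q2
  simp only [hS, hE0, hE1, hE2]
  have e1 : ∑ i, ∑ j, (E0 P₁ θ U i j x * ((pd i (V (some j)) x + pd j (V (some i)) x) / 2)
      + E2 P₁ U i j x * 0
      - E1 P₁ θ U i j x * ((θ i * V (some j) x + θ j * V (some i) x) / 2)) = 0 := by
    have e2 : ∑ i, ∑ j, E0 P₁ θ U i j x * ((pd i (V (some j)) x + pd j (V (some i)) x) / 2) = 0 := by
      unfold E0
      have e3 : ∀ i j : Fin 3, (P₁.m x : ℂ) * U none x * θ i * θ j *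
          ((pd i (V (some j)) x + pd j (V (some i)) x) / 2) =
          ((P₁.m x : ℂ) * U none x / 2) * (θ i * (θ j * pd i (V (some j)) x)
            + θ j * (θ i * pd j (V (some i)) x)) := fun i j => by ring
      simp_rw [e3]
      simp_rw [← Finset.mul_sum, Finset.sum_add_distrib, ← Finset.mul_sum, hD]
      rw [Finset.sum_comm]
      simp_rw [← Finset.mul_sum, hD]
      simp
    have e4 : ∑ i, ∑ j, E1 P₁ θ U i j x * ((θ i * V (some j) x + θ j * V (some i) x) / 2) = 0 := by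
      unfold E1
      simp only [Fin.sum_univ_three] at hnull hV1 ⊢
      linear_combination (1 / 2 * (
          (U (some 0) x + 2 * (P₁.m x : ℂ) * pd 0 (U none) x) * V (some 0) x
        + (U (some 1) x + 2 * (P₁.m x : ℂ) * pd 1 (U none) x) * V (some 1) x
        + (U (some 2) x + 2 * (P₁.m x : ℂ) * pd 2 (U none) x) * V (some 2) x)) * hnull
        + (1 / 2 * (
          (U (some 0) x + 2 * (P₁.m x : ℂ) * pd 0 (U none) x) * θ 0
        + (U (some 1) x + 2 * (P₁.m x : ℂ) * pd 1 (U none) x) * θ 1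
        + (U (some 2) x + 2 * (P₁.m x : ℂ) * pd 2 (U none) x) * θ 2)) * hV1
    have e5 : ∑ i, ∑ j, (E0 P₁ θ U i j x * ((pd i (V (some j)) x + pd j (V (some i)) x) / 2)
      + E2 P₁ U i j x * 0
      - E1 P₁ θ U i j x * ((θ i * V (some j) x + θ j * V (some i) x) / 2))
      = (∑ i, ∑ j, E0 P₁ θ U i j x * ((pd i (V (some j)) x + pd j (V (some i)) x) / 2))
        - ∑ i, ∑ j, E1 P₁ θ U i j x * ((θ i * V (some j) x + θ j * V (some i) x) / 2) := by
      rw [← Finset.sum_sub_distrib]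
      refine Finset.sum_congr rfl fun i _ => ?_
      rw [← Finset.sum_sub_distrib]
      exact Finset.sum_congr rfl fun j _ => by ring
    rw [e5, e2, e4, sub_zero]
  rw [e1]
  ring

end Crest.Agent.R080.W0
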