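import Crest.Agent.R080.W0b

/-!
Row 80 (S0107), module T12 (StmtW0), part c: transport equations and CGO families (helper777).
-/

set_option autoImplicit false

open MeasureTheory Filter
open scoped ContDiff Topology
open Crest.AnalysisR.VecCalc3 Crest.AnalysisR.PDE.Elasticity

noncomputable section
namespace Crest.Agent.R080.W0
open PdBasic

/-- a smooth compactly supported cutoff -/
theorem exists_cutoff (R : ℝ) : ∃ χ : R3 → ℂ, ContDiff ℝ ∞ χ ∧ HasCompactSupport χ ∧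
    ∀ x : R3, ‖x‖ < R → χ x = 1 := by
  let f : ContDiffBump (0 : R3) := ⟨max R 1, max R 1 + 1, by positivity, by linarith⟩
  refine ⟨fun x => ((f x : ℝ) : ℂ), Complex.ofRealCLM.contDiff.comp f.contDiff, ?_, ?_⟩
  · exact f.hasCompactSupport.comp_left (g := fun t : ℝ => (t : ℂ)) Complex.ofReal_zero
  · intro x hx
    have h1 : f x = 1 := f.one_of_mem_closedBall (by
      rw [Metric.mem_closedBall, dist_zero_right]
      exact hx.le.trans (le_max_left _ _))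
    show ((f x : ℝ) : ℂ) = 1
    rw [h1, Complex.ofReal_one]

theorem transport (hRI : StmtRI) (P : Moduli) {θ : Fin 3 → ℂ} (hθ : IsNull θ)
    (F : Option (Fin 3) → R3 → ℂ) (hF : ∀ i, ContDiff ℝ ∞ (F i)) (R : ℝ) :
    ∃ X : Option (Fin 3) → R3 → ℂ, (∀ i, ContDiff ℝ ∞ (X i)) ∧
      ∀ x : R3, ‖x‖ < R → ∀ i, M0 θ (A4 P) X i x = F i x := by
  obtain ⟨χ, hχ, hχc, hχ1⟩ := exists_cutoff R
  have hA : ∀ i l, ContDiff ℝ ∞ (fun x => -(1 / 2 : ℂ) * ∑ j, A4 P j i l x * θ j) := fun i l =>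
    contDiff_const.mul (ContDiff.sum fun j _ => (contDiff_A4 P j i l).mul contDiff_const)
  obtain ⟨M, hM⟩ := hRI (Option (Fin 3)) Unit (fun _ => θ) continuous_const (fun _ => hθ)
    (fun _ i l x => -(1 / 2 : ℂ) * ∑ j, A4 P j i l x * θ j) (fun _ i l => hA i l)
    (fun i l => (hA i l).continuous.comp continuous_snd) R ()
  have hM' := hM.self_of_nhds
  have hφ : ∀ i, ContDiff ℝ ∞ (fun x => (1 / 2 : ℂ) * (χ x * F i x)) := fun i =>
    contDiff_const.mul (hχ.mul (hF i))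
  have hb : ∀ i, ∃ b : ℝ, ∀ x, ‖(1 / 2 : ℂ) * (χ x * F i x)‖ ≤ b := fun i => by
    refine HasCompactSupport.exists_bound_of_continuous ?_ (hφ i).continuous
    exact (hχc.mul_right (f' := F i)).mul_left (f := fun _ => (1 / 2 : ℂ))
  choose b hb using hb
  obtain ⟨ψ, hψ, hψ1, -⟩ := hM' (fun i x => (1 / 2 : ℂ) * (χ x * F i x)) hφ (∑ i, |b i|)
    (fun i x => (hb i x).trans ((le_abs_self _).trans
      (Finset.single_le_sum (f := fun i => |b i|) (fun _ _ => abs_nonneg _) (Finset.mem_univ i))))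
  refine ⟨ψ, hψ, fun x hx i => ?_⟩
  unfold M0
  rw [hψ1 x hx i, hχ1 x hx]
  have h1 : ∑ j, ∑ l, A4 P j i l x * θ j * ψ l x
      = ∑ l, (∑ j, A4 P j i l x * θ j) * ψ l x := by
    rw [Finset.sum_comm]
    exact Finset.sum_congr rfl fun l _ => by rw [Finset.sum_mul]
  have h2 : ∑ l, -(1 / 2 : ℂ) * (∑ j, A4 P j i l x * θ j) * ψ l x
      = -(1 / 2 : ℂ) * ∑ l, (∑ j, A4 P j i l x * θ j) * ψ l x := by
    rw [Finset.mul_sum]
    exact Finset.sum_congr rfl fun l _ => by ring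
  rw [h1, h2]
  ring

section comb
variable {ι : Type} [Fintype ι] {A : Fin 3 → ι → ι → R3 → ℂ} {B : ι → ι → R3 → ℂ}
  {θ : Fin 3 → ℂ} {U V : ι → R3 → ℂ}

theorem P0_comb (hU : ∀ i, ContDiff ℝ ∞ (U i)) (hV : ∀ i, ContDiff ℝ ∞ (V i)) (c : ℂ) (i : ι)
    (x : R3) : P0 A B (comb U c V) i x = P0 A B U i x + c * P0 A B V i x := by
  unfold comb
  rw [P0_add (s := fun i y => c * V i y) hU (fun i => contDiff_const.mul (hV i)),
    P0_const_mul hV]

theorem M0_comb (hU : ∀ i, ContDiff ℝ ∞ (U i)) (hV : ∀ i, ContDiff ℝ ∞ (V i)) (c : ℂ) (i : ι)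
    (x : R3) : M0 θ A (comb U c V) i x = M0 θ A U i x + c * M0 θ A V i x := by
  unfold comb
  rw [M0_add (s := fun i y => c * V i y) hU (fun i => contDiff_const.mul (hV i)),
    M0_const_mul hV]

theorem H2sq_comb (G : Dom) (hU : ∀ i, ContDiff ℝ ∞ (U i)) (hV : ∀ i, ContDiff ℝ ∞ (V i))
    (c : ℂ) : H2sq G.Ω (comb U c V) ≤ 2 * H2sq G.Ω U + 2 * (‖c‖ ^ 2 * H2sq G.Ω V) := by
  unfold comb
  have h := H2sq_add G (V := fun i y => c * V i y) hU (fun i => contDiff_const.mul (hV i))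
  rw [H2sq_const_mul G.Ω hV] at h
  exact h

end comb

/-- CGO families: `U₀ + τ⁻¹ (U₁ + τ⁻¹ W)` with `W` bounded in `H²` -/
theorem cgo (hRI3 : StmtRI3D) (hRI : StmtRI) (G : Dom) (P : Moduli) {θ : Fin 3 → ℂ}
    (hθ : IsNull θ) (U0 U1 : Option (Fin 3) → R3 → ℂ) (hU0 : ∀ i, ContDiff ℝ ∞ (U0 i))
    (hU1 : ∀ i, ContDiff ℝ ∞ (U1 i)) (h0 : ∀ x ∈ G.Ω, ∀ i, M0 θ (A4 P) U0 i x = 0)
    (h1 : ∀ x ∈ G.Ω, ∀ i, M0 θ (A4 P) U1 i x = - P0 (A4 P) (B4 P) U0 i x) :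
    ∃ M τ₀ : ℝ, 0 ≤ M ∧ 1 ≤ τ₀ ∧ ∀ τ : ℝ, τ₀ ≤ τ → ∀ ε : ℝ, 0 < ε →
      ∃ W : Option (Fin 3) → R3 → ℂ,
      (∀ i, ContDiff ℝ ∞ (W i)) ∧ H2sq G.Ω W ≤ M ∧
      ∫ x in G.Ω, ∑ i, ‖P0 (A4 P) (B4 P) (comb U0 (τ : ℂ)⁻¹ (comb U1 (τ : ℂ)⁻¹ W)) i x
        + τ * M0 θ (A4 P) (comb U0 (τ : ℂ)⁻¹ (comb U1 (τ : ℂ)⁻¹ W)) i x‖ ^ 2 ≤ ε := by
  obtain ⟨R, hR0, hR⟩ := (Dom.exists_ball G)
  have hΩR : G.Ω ⊆ Metric.ball (0 : R3) R := subset_closure.trans hR
  have hA := contDiff_A4 P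
  have hB := contDiff_B4 P
  obtain ⟨χ, hχ, hχc, hχ1⟩ := exists_cutoff R
  obtain ⟨U2, hU2, h2⟩ := transport hRI P hθ (fun i x => - P0 (A4 P) (B4 P) U1 i x)
    (fun i => (contDiff_P0 hA hB hU1 i).neg) R
  obtain ⟨U3, hU3, h3⟩ := transport hRI P hθ (fun i x => - P0 (A4 P) (B4 P) U2 i x)
    (fun i => (contDiff_P0 hA hB hU2 i).neg) R
  obtain ⟨C, τ₁, hC, hτ₁, hsol⟩ := hRI3 (Option (Fin 3)) θ hθ (A4 P) (B4 P) hA hB R
  set F : Option (Fin 3) → R3 → ℂ := fun i x => χ x * P0 (A4 P) (B4 P) U3 i x with hF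
  have hFs : ∀ i, ContDiff ℝ ∞ (F i) := fun i => hχ.mul (contDiff_P0 hA hB hU3 i)
  have hFc : ∀ i, HasCompactSupport (F i) := fun i => hχc.mul_right
  set K : ℝ := ∫ x, ∑ i, ‖F i x‖ ^ 2 with hK
  have hK0 : 0 ≤ K := integral_nonneg fun x => Finset.sum_nonneg fun i _ => by positivity
  refine ⟨4 * H2sq G.Ω U2 + 4 * H2sq G.Ω U3 + 2 * (C ^ 2 * K), max τ₁ 1, ?_, le_max_right _ _, ?_⟩
  · have := H2sq_nonneg G.Ω U2
    have := H2sq_nonneg G.Ω U3
    positivity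
  intro τ hτ ε hε
  have hτ1 : 1 ≤ τ := (le_max_right _ _).trans hτ
  have hτpos : 0 < τ := by linarith
  have hτne : (τ : ℂ) ≠ 0 := by exact_mod_cast hτpos.ne'
  set t : ℂ := (τ : ℂ)⁻¹ with ht
  have htτ : t * τ = 1 := inv_mul_cancel₀ hτne
  have htn : ‖t‖ = τ⁻¹ := by
    rw [ht, norm_inv, Complex.norm_real, Real.norm_of_nonneg hτpos.le]
  have hfs : ∀ i, ContDiff ℝ ∞ (fun x => -(t ^ 3) * F i x) := fun i => contDiff_const.mul (hFs i)
  obtain ⟨r, hr, hr1, hr2⟩ := hsol τ ((le_max_left _ _).trans hτ)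
    (fun i x => -(t ^ 3) * F i x) hfs
    (fun i => (hFc i).mul_left (f := fun _ => -(t ^ 3))) ε hε
  have hfint : ∫ x, ∑ i, ‖-(t ^ 3) * F i x‖ ^ 2 = τ⁻¹ ^ 6 * K := by
    rw [hK, ← integral_const_mul]
    refine integral_congr_ae (Eventually.of_forall fun x => ?_)
    simp only [norm_mul, norm_neg, norm_pow, htn, mul_pow, Finset.mul_sum]
    exact Finset.sum_congr rfl fun i _ => by ring
  rw [hfint] at hr2
  refine ⟨comb (comb U2 t U3) ((τ : ℂ) ^ 2) r, contDiff_comb (contDiff_comb hU2 hU3 t) hr _, ?_, ?_⟩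
  · -- the `H²` bound
    have e1 := H2sq_comb G (contDiff_comb hU2 hU3 t) hr ((τ : ℂ) ^ 2)
    have e2 := H2sq_comb G hU2 hU3 t
    have e3 : H2sq G.Ω r ≤ H2sq (Metric.ball (0 : R3) R) r := by
      rw [H2sq_eq, H2sq_eq]
      refine setIntegral_mono_set ?_ (Eventually.of_forall fun x => N2_nonneg r x)
        hΩR.eventuallyLE
      exact ((continuous_N2 hr).continuousOn.integrableOn_compact
        (isCompact_closedBall (0 : R3) R)).mono_set Metric.ball_subset_closedBall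
    have e4 : ‖((τ : ℂ) ^ 2)‖ ^ 2 = τ ^ 4 := by
      rw [norm_pow, Complex.norm_real, Real.norm_of_nonneg hτpos.le]; ring
    have e5 : ‖t‖ ^ 2 ≤ 1 := by
      rw [htn]
      exact pow_le_one₀ (by positivity) (inv_le_one_of_one_le₀ hτ1)
    have e6 : τ ^ 4 * ((C * τ) ^ 2 * (τ⁻¹ ^ 6 * K)) = C ^ 2 * K := by
      field_simp
    have e7 : τ ^ 4 * H2sq G.Ω r ≤ C ^ 2 * K := by
      rw [← e6]
      exact mul_le_mul_of_nonneg_left (e3.trans hr2) (by positivity)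
    have e8 : ‖t‖ ^ 2 * H2sq G.Ω U3 ≤ H2sq G.Ω U3 :=
      mul_le_of_le_one_left (H2sq_nonneg _ _) e5
    rw [e4] at e1
    linarith
  · -- the residual
    have key : ∀ x ∈ G.Ω, ∀ i,
        P0 (A4 P) (B4 P) (comb U0 t (comb U1 t (comb (comb U2 t U3) ((τ : ℂ) ^ 2) r))) i x
          + τ * M0 θ (A4 P) (comb U0 t (comb U1 t (comb (comb U2 t U3) ((τ : ℂ) ^ 2) r))) i x
        = P0 (A4 P) (B4 P) r i x + τ * M0 θ (A4 P) r i x - -(t ^ 3) * F i x := by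
      intro x hx i
      have hxR : ‖x‖ < R := by
        have := hΩR hx
        rwa [Metric.mem_ball, dist_zero_right] at this
      have s23 := contDiff_comb hU2 hU3 t
      have sW := contDiff_comb s23 hr ((τ : ℂ) ^ 2)
      have s1 := contDiff_comb hU1 sW t
      rw [P0_comb hU0 s1, P0_comb hU1 sW, P0_comb s23 hr, P0_comb hU2 hU3,
        M0_comb hU0 s1, M0_comb hU1 sW, M0_comb s23 hr, M0_comb hU2 hU3,
        h0 x hx i, h1 x hx i, h2 x hxR i, h3 x hxR i]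
      simp only [hF, hχ1 x hxR]
      have q1 : t * τ = 1 := htτ
      have q2 : t ^ 2 * τ ^ 2 = 1 := by rw [← mul_pow, q1, one_pow]
      have q3 : t ^ 2 * τ = t := by rw [pow_two, mul_assoc, q1, mul_one]
      have q4 : t ^ 3 * τ = t ^ 2 := by
        rw [pow_succ, mul_assoc, q1, mul_one]
      linear_combination (- P0 (A4 P) (B4 P) U0 i x) * q1
        + (P0 (A4 P) (B4 P) r i x + τ * M0 θ (A4 P) r i x) * q2
        + (- P0 (A4 P) (B4 P) U1 i x) * q3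
        + (- P0 (A4 P) (B4 P) U2 i x) * q4
    have e1 : ∫ x in G.Ω, ∑ i,
        ‖P0 (A4 P) (B4 P) (comb U0 t (comb U1 t (comb (comb U2 t U3) ((τ : ℂ) ^ 2) r))) i x
          + τ * M0 θ (A4 P) (comb U0 t (comb U1 t (comb (comb U2 t U3) ((τ : ℂ) ^ 2) r))) i x‖ ^ 2
        = ∫ x in G.Ω, ∑ i, ‖P0 (A4 P) (B4 P) r i x + τ * M0 θ (A4 P) r i x
            - -(t ^ 3) * F i x‖ ^ 2 := by
      refine setIntegral_congr_fun (Dom.measurableSet G) fun x hx => ?_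
      exact Finset.sum_congr rfl fun i _ => by rw [key x hx i]
    rw [e1]
    refine le_trans ?_ hr1
    refine setIntegral_mono_set ?_ (Eventually.of_forall fun x => Finset.sum_nonneg
      fun i _ => by positivity) hΩR.eventuallyLE
    have hcont : Continuous (fun x => ∑ i, ‖P0 (A4 P) (B4 P) r i x + τ * M0 θ (A4 P) r i x
            - -(t ^ 3) * F i x‖ ^ 2) :=
      continuous_finsetSum _ fun i _ => ((((contDiff_P0 hA hB hr i).continuous.add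
        (continuous_const.mul (contDiff_M0 hA hr i).continuous)).sub (hfs i).continuous).norm).pow 2
    exact (hcont.continuousOn.integrableOn_compact
      (isCompact_closedBall (0 : R3) R)).mono_set Metric.ball_subset_closedBall

end Crest.Agent.R080.W0
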