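import Crest.Agent.R080.W0c

/-!
Row 80 (S0107), module T12 (StmtW0), part d: weak residuals and gradient bounds (helper777).
-/

set_option autoImplicit false

open MeasureTheory Filter
open scoped ContDiff Topology
open Crest.AnalysisR.VecCalc3 Crest.AnalysisR.PDE.Elasticity

noncomputable section
namespace Crest.Agent.R080.W0
open PdBasic

theorem contDiff_expo (θ : Fin 3 → ℂ) (τ : ℂ) : ContDiff ℝ ∞ (expo θ τ) := by
  have h1 : ∀ j : Fin 3, ContDiff ℝ ∞ (fun x : R3 => ((x j : ℝ) : ℂ)) := fun j =>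
    Complex.ofRealCLM.contDiff.comp (EuclideanSpace.proj (𝕜 := ℝ) j).contDiff
  have h2 : ContDiff ℝ ∞ (fun x : R3 => τ * ∑ j, θ j * (x j : ℂ)) :=
    contDiff_const.mul (ContDiff.sum fun j _ => contDiff_const.mul (h1 j))
  have h3 : ContDiff ℝ ∞ Complex.exp := Complex.contDiff_exp
  exact h3.comp h2

theorem contDiff_dispU (P : Moduli) (θ : Fin 3 → ℂ) (τ : ℂ) {U : Option (Fin 3) → R3 → ℂ}
    (hU : ∀ i, ContDiff ℝ ∞ (U i)) (i : Fin 3) : ContDiff ℝ ∞ (dispU P θ τ U i) := by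
  unfold dispU
  exact ((hU _).add ((Moduli.smooth_cf_m P).mul ((contDiff_pd (hU none) i).add
    (contDiff_const.mul (hU none))))).sub ((hU none).mul (contDiff_pd (Moduli.smooth_cf_m P) i))

theorem contDiff_uU (P : Moduli) (θ : Fin 3 → ℂ) (τ : ℂ) {U : Option (Fin 3) → R3 → ℂ}
    (hU : ∀ i, ContDiff ℝ ∞ (U i)) (i : Fin 3) : ContDiff ℝ ∞ (uU P θ τ U i) := by
  unfold uU
  exact (contDiff_expo θ τ).mul (contDiff_dispU P θ τ hU i)

theorem pd_dispU (P : Moduli) (θ : Fin 3 → ℂ) (τ : ℂ) {U : Option (Fin 3) → R3 → ℂ}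
    (hU : ∀ i, ContDiff ℝ ∞ (U i)) (i j : Fin 3) (x : R3) :
    pd j (dispU P θ τ U i) x = pd j (U (some i)) x
      + ((P.m x : ℂ) * (pd j (pd i (U none)) x + τ * θ i * pd j (U none) x)
        + pd j (cf P.m) x * (pd i (U none) x + τ * θ i * U none x))
      - (U none x * pd j (pd i (cf P.m)) x + pd j (U none) x * pd i (cf P.m) x) := by
  have hm := (Moduli.smooth_cf_m P)
  unfold dispU
  have e1 : pd j (fun x => U (some i) x + (P.m x : ℂ) * (pd i (U none) x + τ * θ i * U none x)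
      - U none x * pd i (cf P.m) x) x = pd j (fun x => U (some i) x + (P.m x : ℂ) *
        (pd i (U none) x + τ * θ i * U none x)) x - pd j (fun x => U none x * pd i (cf P.m) x) x :=
    pd_sub (sm_diffAt ((hU _).add (hm.mul ((contDiff_pd (hU none) i).add
      (contDiff_const.mul (hU none)))))) (sm_diffAt ((hU none).mul (contDiff_pd hm i))) j
  have e2 : pd j (fun x => U (some i) x + (P.m x : ℂ) *
        (pd i (U none) x + τ * θ i * U none x)) x = pd j (U (some i)) x +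
        pd j (fun x => (P.m x : ℂ) * (pd i (U none) x + τ * θ i * U none x)) x :=
    pd_add (sm_diffAt (hU _)) (sm_diffAt (hm.mul ((contDiff_pd (hU none) i).add
      (contDiff_const.mul (hU none))))) j
  have e3 : pd j (fun x => (P.m x : ℂ) * (pd i (U none) x + τ * θ i * U none x)) x
      = (P.m x : ℂ) * pd j (fun x => pd i (U none) x + τ * θ i * U none x) x
        + pd j (cf P.m) x * (pd i (U none) x + τ * θ i * U none x) :=
    pd_mul (sm_diffAt hm) (sm_diffAt ((contDiff_pd (hU none) i).add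
      (contDiff_const.mul (hU none)))) j
  have e4 : pd j (fun x => pd i (U none) x + τ * θ i * U none x) x
      = pd j (pd i (U none)) x + τ * θ i * pd j (U none) x :=
    pd_comb (contDiff_pd (hU none) i) (hU none) (τ * θ i) j x
  have e5 : pd j (fun x => U none x * pd i (cf P.m) x) x
      = U none x * pd j (pd i (cf P.m)) x + pd j (U none) x * pd i (cf P.m) x :=
    pd_mul (sm_diffAt (hU none)) (sm_diffAt (contDiff_pd hm i)) j
  rw [e1, e2, e3, e4, e5]

theorem bd_pd_uU (G : Dom) (P : Moduli) (θ : Fin 3 → ℂ) (τ : ℂ) (i j : Fin 3) :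
    ∃ C : ℝ, 0 ≤ C ∧ ∀ U : Option (Fin 3) → R3 → ℂ, (∀ i, ContDiff ℝ ∞ (U i)) →
      ∀ x ∈ G.Ω, ‖pd j (uU P θ τ U i) x‖ ≤ C * nrm U x := by
  have hm := (Moduli.smooth_cf_m P)
  have hc1 : Continuous (fun x => pd i (cf P.m) x) := (contDiff_pd hm i).continuous
  have hc2 : Continuous (fun x => pd j (cf P.m) x) := (contDiff_pd hm j).continuous
  have hc3 : Continuous (fun x => pd j (pd i (cf P.m)) x) :=
    (contDiff_pd (contDiff_pd hm i) j).continuous
  have b0 : BdOp G (fun (U : Option (Fin 3) → R3 → ℂ) x => pd i (U none) x + τ * θ i * U none x) :=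
    (BdOp.pd1 none i).add ((BdOp.val none).coeff_mul (f := fun _ => τ * θ i) continuous_const)
  have b1 : BdOp G (fun (U : Option (Fin 3) → R3 → ℂ) x => dispU P θ τ U i x) := by
    unfold dispU
    exact ((BdOp.val (some i)).add (b0.coeff_mul (f := fun x => (P.m x : ℂ)) hm.continuous)).sub
      (((BdOp.val none).coeff_mul hc1).congr fun U x => mul_comm _ _)
  have b2 : BdOp G (fun (U : Option (Fin 3) → R3 → ℂ) x => pd j (U (some i)) x
      + ((P.m x : ℂ) * (pd j (pd i (U none)) x + τ * θ i * pd j (U none) x)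
        + pd j (cf P.m) x * (pd i (U none) x + τ * θ i * U none x))
      - (U none x * pd j (pd i (cf P.m)) x + pd j (U none) x * pd i (cf P.m) x)) := by
    refine ((BdOp.pd1 (some i) j).add (BdOp.add ?_ (b0.coeff_mul hc2))).sub (BdOp.add ?_ ?_)
    · exact ((BdOp.pd2 none j i).add ((BdOp.pd1 none j).coeff_mul (f := fun _ => τ * θ i)
        continuous_const)).coeff_mul (f := fun x => (P.m x : ℂ)) hm.continuous
    · exact ((BdOp.val none).coeff_mul hc3).congr fun U x => mul_comm _ _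
    · exact ((BdOp.pd1 none j).coeff_mul hc1).congr fun U x => mul_comm _ _
  have he := contDiff_expo θ τ
  obtain ⟨C, hC, h⟩ := (b2.coeff_mul he.continuous).add
    (b1.coeff_mul (contDiff_pd he j).continuous)
  refine ⟨C, hC, fun U hU x hx => ?_⟩
  have e : pd j (uU P θ τ U i) x = expo θ τ x * pd j (dispU P θ τ U i) x
      + pd j (expo θ τ) x * dispU P θ τ U i x :=
    pd_mul (sm_diffAt he) (sm_diffAt (contDiff_dispU P θ τ hU i)) j
  rw [e, pd_dispU P θ τ hU]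
  exact h U x hx

theorem gradSq_uU (G : Dom) (P : Moduli) (θ : Fin 3 → ℂ) (τ : ℂ) :
    ∃ C : ℝ, 0 ≤ C ∧ ∀ U : Option (Fin 3) → R3 → ℂ, (∀ i, ContDiff ℝ ∞ (U i)) →
      gradSq G.Ω (uU P θ τ U) ≤ C * H2sq G.Ω U := by
  choose C hC h using fun i j : Fin 3 => bd_pd_uU G P θ τ i j
  refine ⟨∑ i, ∑ j, C i j ^ 2, Finset.sum_nonneg fun i _ => Finset.sum_nonneg fun j _ => by
    positivity, fun U hU => ?_⟩
  unfold gradSq
  rw [H2sq_eq, ← integral_const_mul]
  refine setIntegral_mono_on ?_ ((Dom.integrableOn G (continuous_N2 hU)).const_mul _)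
    (Dom.measurableSet G) fun x hx => ?_
  · refine Dom.integrableOn G ?_
    exact continuous_finsetSum _ fun i _ => continuous_finsetSum _ fun j _ =>
      ((contDiff_pd (contDiff_uU P θ τ hU i) j).continuous.norm).pow 2
  · rw [Finset.sum_mul]
    refine Finset.sum_le_sum fun i _ => ?_
    rw [Finset.sum_mul]
    refine Finset.sum_le_sum fun j _ => ?_
    rw [← nrm_sq, ← mul_pow]
    exact pow_le_pow_left₀ (norm_nonneg _) (h i j U hU x hx) 2

theorem Dom.norm_integral_le_cs (G : Dom) {k : R3 → ℂ} {a b : R3 → ℝ} (ha : Continuous a)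
    (hb : Continuous b) {D : ℝ} (hD : 0 ≤ D) (h : ∀ x ∈ G.Ω, ‖k x‖ ≤ D * (a x * b x)) :
    ‖∫ x in G.Ω, k x‖ ≤ D * (√(∫ x in G.Ω, a x ^ 2) * √(∫ x in G.Ω, b x ^ 2)) := by
  have h1 : ‖∫ x in G.Ω, k x‖ ≤ ∫ x in G.Ω, D * (a x * b x) := by
    refine norm_integral_le_of_norm_le ((Dom.integrableOn G (ha.mul hb)).const_mul D) ?_
    exact (ae_restrict_iff' (Dom.measurableSet G)).mpr (Eventually.of_forall h)
  rw [integral_const_mul] at h1
  exact h1.trans (mul_le_mul_of_nonneg_left ((le_abs_self _).trans (Dom.cauchySchwarz G ha hb)) hD)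

theorem weakRes_of (hL : StmtLame) (hK : StmtKorn) (G : Dom) (P : Moduli) {θ : Fin 3 → ℂ}
    (hθ : IsNull θ) (τ : ℂ) :
    ∃ C : ℝ, 0 ≤ C ∧ ∀ U : Option (Fin 3) → R3 → ℂ, (∀ i, ContDiff ℝ ∞ (U i)) → ∀ ε : ℝ,
      ∫ x in G.Ω, ∑ i, ‖P0 (A4 P) (B4 P) U i x + τ * M0 θ (A4 P) U i x‖ ^ 2 ≤ ε →
      WeakRes G P (uU P θ τ U) (C * √ε) := by
  obtain ⟨CK, hCK, hKorn⟩ := hK G
  have he := (contDiff_expo θ τ).continuous
  have hmu := (Moduli.smooth_cf_mu P).continuous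
  have hcc : Continuous (fun x => ((P.cc x : ℂ))⁻¹) :=
    (Moduli.smooth_cf_cc P).continuous.inv₀ fun x => Complex.ofReal_ne_zero.mpr ((Moduli.cc_pos P) x).ne'
  obtain ⟨D1, hD1, hb1⟩ := Dom.exists_bound G (he.mul hmu)
  obtain ⟨D2, hD2, hb2⟩ := Dom.exists_bound G (he.mul hcc)
  refine ⟨D1 * √CK + D2 * √3, by positivity, fun U hU ε hε => ?_⟩
  intro w hw hw0
  set ρ : Option (Fin 3) → R3 → ℂ := fun i x =>
    P0 (A4 P) (B4 P) U i x + τ * M0 θ (A4 P) U i x with hρ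
  have hρc : ∀ i, Continuous (ρ i) := fun i =>
    (contDiff_P0 (contDiff_A4 P) (contDiff_B4 P) hU i).continuous.add
      (continuous_const.mul (contDiff_M0 (contDiff_A4 P) hU i).continuous)
  set a : R3 → ℝ := fun x => √(∑ i, ‖ρ i x‖ ^ 2) with ha
  have hac : Continuous a :=
    (continuous_finsetSum _ fun i _ => (hρc i).norm.pow 2).sqrt
  have ha2 : ∀ x, a x ^ 2 = ∑ i, ‖ρ i x‖ ^ 2 := fun x =>
    Real.sq_sqrt (Finset.sum_nonneg fun i _ => by positivity)
  have ha_int : √(∫ x in G.Ω, a x ^ 2) ≤ √ε := by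
    refine Real.sqrt_le_sqrt ?_
    simp_rw [ha2]
    exact hε
  have hanone : ∀ x, ‖ρ none x‖ ≤ a x := fun x => by
    refine Real.le_sqrt_of_sq_le ?_
    exact Finset.single_le_sum (f := fun i => ‖ρ i x‖ ^ 2) (fun i _ => by positivity)
      (Finset.mem_univ none)
  set b : R3 → ℝ := fun x => √(∑ i, ‖w i x‖ ^ 2) with hb
  have hbc : Continuous b :=
    (continuous_finsetSum _ fun i _ => (hw i).continuous.norm.pow 2).sqrt
  have hb2' : ∀ x, b x ^ 2 = ∑ i, ‖w i x‖ ^ 2 := fun x =>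
    Real.sq_sqrt (Finset.sum_nonneg fun i _ => by positivity)
  have hb_int : √(∫ x in G.Ω, b x ^ 2) ≤ √CK * √(gradSq G.Ω w) := by
    rw [← Real.sqrt_mul hCK.le]
    refine Real.sqrt_le_sqrt ?_
    simp_rw [hb2']
    exact (hKorn w hw hw0).1
  set c : R3 → ℝ := fun x => ‖divg w x‖ with hc
  have hcc' : Continuous c :=
    (continuous_finsetSum _ fun i _ => continuous_pd_of_C1 (hw i) i).norm
  have hc_int : √(∫ x in G.Ω, c x ^ 2) ≤ √3 * √(gradSq G.Ω w) := by
    rw [← Real.sqrt_mul (by norm_num)]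
    refine Real.sqrt_le_sqrt ?_
    unfold gradSq
    rw [← integral_const_mul]
    have hgi : IntegrableOn (fun x => ∑ i, ∑ j, ‖pd j (w i) x‖ ^ 2) G.Ω :=
      Dom.integrableOn G (continuous_finsetSum _ fun i _ => continuous_finsetSum _ fun j _ =>
        (continuous_pd_of_C1 (hw i) j).norm.pow 2)
    refine setIntegral_mono_on (Dom.integrableOn G (hcc'.pow 2)) (hgi.const_mul 3)
      (Dom.measurableSet G) fun x _ => ?_
    · have h1 : c x ≤ ∑ i, ‖pd i (w i) x‖ := norm_sum_le _ _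
      have h2 : c x ^ 2 ≤ (∑ i, ‖pd i (w i) x‖) ^ 2 := pow_le_pow_left₀ (norm_nonneg _) h1 2
      have h3 : (∑ i : Fin 3, ‖pd i (w i) x‖) ^ 2 ≤ 3 * ∑ i : Fin 3, ‖pd i (w i) x‖ ^ 2 := by
        have := sq_sum_le_card_mul_sum_sq (s := (Finset.univ : Finset (Fin 3)))
          (f := fun i => ‖pd i (w i) x‖)
        simpa using this
      have h4 : ∑ i : Fin 3, ‖pd i (w i) x‖ ^ 2 ≤ ∑ i, ∑ j, ‖pd j (w i) x‖ ^ 2 :=
        Finset.sum_le_sum fun i _ => Finset.single_le_sum (f := fun j => ‖pd j (w i) x‖ ^ 2)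
          (fun j _ => by positivity) (Finset.mem_univ i)
      linarith
  rw [hL G P θ hθ τ U hU w hw hw0]
  have k1 : ‖∫ x in G.Ω, expo θ τ x * (P.mu x : ℂ) * ∑ i, ρ (some i) x * w i x‖ ≤
      D1 * (√(∫ x in G.Ω, a x ^ 2) * √(∫ x in G.Ω, b x ^ 2)) := by
    refine Dom.norm_integral_le_cs G hac hbc hD1 fun x hx => ?_
    rw [norm_mul]
    refine mul_le_mul (hb1 x (subset_closure hx)) ?_ (norm_nonneg _) hD1
    calc ‖∑ i, ρ (some i) x * w i x‖ ≤ ∑ i, ‖ρ (some i) x‖ * ‖w i x‖ := by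
          refine (norm_sum_le _ _).trans (le_of_eq (Finset.sum_congr rfl fun i _ => norm_mul _ _))
      _ ≤ √(∑ i, ‖ρ (some i) x‖ ^ 2) * √(∑ i, ‖w i x‖ ^ 2) :=
          Real.sum_mul_le_sqrt_mul_sqrt _ _ _
      _ ≤ a x * b x := by
          refine mul_le_mul_of_nonneg_right (Real.sqrt_le_sqrt ?_) (Real.sqrt_nonneg _)
          rw [Fintype.sum_option]
          have : 0 ≤ ‖ρ none x‖ ^ 2 := by positivity
          linarith
  have k2 : ‖∫ x in G.Ω, expo θ τ x * ((P.cc x : ℂ))⁻¹ * ρ none x * divg w x‖ ≤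
      D2 * (√(∫ x in G.Ω, a x ^ 2) * √(∫ x in G.Ω, c x ^ 2)) := by
    refine Dom.norm_integral_le_cs G hac hcc' hD2 fun x hx => ?_
    rw [norm_mul, norm_mul, mul_assoc]
    refine mul_le_mul (hb2 x (subset_closure hx)) ?_ (by positivity) hD2
    exact mul_le_mul_of_nonneg_right (hanone x) (norm_nonneg _)
  have hg0 : 0 ≤ √(gradSq G.Ω w) := Real.sqrt_nonneg _
  have hε0 : 0 ≤ √ε := Real.sqrt_nonneg _
  have k3 : √(∫ x in G.Ω, a x ^ 2) * √(∫ x in G.Ω, b x ^ 2) ≤ √ε * (√CK * √(gradSq G.Ω w)) :=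
    mul_le_mul ha_int hb_int (Real.sqrt_nonneg _) hε0
  have k4 : √(∫ x in G.Ω, a x ^ 2) * √(∫ x in G.Ω, c x ^ 2) ≤ √ε * (√3 * √(gradSq G.Ω w)) :=
    mul_le_mul ha_int hc_int (Real.sqrt_nonneg _) hε0
  calc ‖-(∫ x in G.Ω, expo θ τ x * (P.mu x : ℂ) * ∑ i, ρ (some i) x * w i x)
        + ∫ x in G.Ω, expo θ τ x * ((P.cc x : ℂ))⁻¹ * ρ none x * divg w x‖
      ≤ ‖∫ x in G.Ω, expo θ τ x * (P.mu x : ℂ) * ∑ i, ρ (some i) x * w i x‖
        + ‖∫ x in G.Ω, expo θ τ x * ((P.cc x : ℂ))⁻¹ * ρ none x * divg w x‖ := by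
        refine (norm_add_le _ _).trans ?_
        rw [norm_neg]
    _ ≤ D1 * (√ε * (√CK * √(gradSq G.Ω w))) + D2 * (√ε * (√3 * √(gradSq G.Ω w))) :=
        add_le_add (k1.trans (mul_le_mul_of_nonneg_left k3 hD1))
          (k2.trans (mul_le_mul_of_nonneg_left k4 hD2))
    _ = (D1 * √CK + D2 * √3) * √ε * √(gradSq G.Ω w) := by ring

end Crest.Agent.R080.W0
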