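import Crest.Agent.R080.W1Id
import Crest.Agent.R080.DomBasic

/-!
Row 80 (S0107), T13a: the orthogonality identity `StmtW1` for the reduced system.
-/

set_option autoImplicit false

open MeasureTheory Filter
open scoped ContDiff Topology
open Crest.AnalysisR.VecCalc3 Crest.AnalysisR.PDE.Elasticity

noncomputable section
namespace Crest.Agent.R080
namespace W1Fin

open CalcA W1Alg
open La (Sm)
open W1 (nv al be)

theorem int_DD_zero (hZ : StmtZ) (G : Dom) {F : R3 → ℂ} (hF : ContDiff ℝ ∞ F)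
    (hF0 : ∀ x ∈ frontier G.Ω, F x = 0) (v : Fin 3 → ℂ) : ∫ x in G.Ω, DD v F x = 0 := by
  unfold DD
  rw [integral_finsetSum]
  · refine Finset.sum_eq_zero fun j _ => ?_
    rw [integral_const_mul, hZ G F (hF.of_le (by norm_cast)) hF0 j, mul_zero]
  · intro j _
    exact DB.integrableOn' G (continuous_const.mul (CalcA.contDiff_pd hF j).continuous)

/-- `Y · X` at a point -/
theorem dot_eq {s0 s1 a b Y0 Y1 X0 X1 : ℂ} (h : a * s1 - b * s0 = 1) :
    Y0 * X0 + Y1 * X1 = (a * X0 + b * X1) * (s1 * Y0 - s0 * Y1)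
      + (s0 * X0 + s1 * X1) * (a * Y1 - b * Y0) := by
  linear_combination (-(Y0 * X0 + Y1 * X1)) * h

end W1Fin

open CalcA W1Alg W1Fin in
open La (Sm) in
open W1 (nv al be) in
theorem t_W1 (h0 : StmtW0) (hb : StmtBdry) (hZ : StmtZ) (hL : W1.StmtLift) : StmtW1 := by
  intro G P₁ P₂ hd s hs X Y hX hY HX HY
  obtain ⟨U, V, V', hU, hV, hV', HU, hV0, HV, HV', hU0, hUθ, hUν, hVs, hV'0, hV'θ⟩ :=
    hL G P₁ P₂ s hs X Y hX hY HX HY
  set p : R3 → ℂ := fun y => (P₂.sm y : ℂ) * (s 1 * Y (some 0) y - s 0 * Y (some 1) y) with hpdef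
  have hp : ContDiff ℝ ∞ p := (CalcA.contDiff_cf (CalcA.contDiff_sm P₂)).mul
    ((contDiff_const.mul (hY _)).sub (contDiff_const.mul (hY _)))
  have hVp : ∀ i x, V (some i) x = p x * nv s i := hVs
  have hVθ : ∀ x, ∑ i, th s i * V (some i) x = 0 := by
    intro x
    simp only [hVp]
    have := W1.th_nv s
    calc ∑ i, th s i * (p x * nv s i) = p x * ∑ i, th s i * nv s i := by
          rw [Finset.mul_sum]; exact Finset.sum_congr rfl fun i _ => by ring
      _ = 0 := by rw [this, mul_zero]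
  have hW0 := h0 G P₁ P₂ hd (th s) (isNull_th hs) U V V' hU hV hV' HU hV0 hVθ HV HV'
  -- the primitives
  set T : Sm := TT (th s) (nv s) (mS P₁) (mS P₂) (uS P₁) (uS P₂) (mk (hU none))
            (mk (contDiff_ct hU (th s))) (mk (contDiff_ct hU (nv s))) (mk (hV' none))
            (mk (contDiff_ct hV' (th s))) (mk hp) with hT
  set C : Sm := CC (th s) (mS P₁) (mS P₂) (uS P₁) (uS P₂) (kS P₁) (mk (hU none))
            (mk (contDiff_ct hU (th s))) (mk hp) with hC
  set YX : R3 → ℂ := fun y => ∑ a, Y a y * X a y with hYX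
  have hYXs : ContDiff ℝ ∞ YX := ContDiff.sum fun a _ => (hY a).mul (hX a)
  set F : R3 → ℂ := fun y => T.1 y - 2 * YX y with hF
  have hTs : ContDiff ℝ ∞ T.1 := La.Sm.smooth T
  have hFs : ContDiff ℝ ∞ F := hTs.sub (contDiff_const.mul hYXs)
  have hid : ∀ x ∈ G.Ω, q2 P₁ P₂ (th s) U V' x + q1 P₁ P₂ (th s) U V x
      = 2 * DD (th s) YX x + DD (th s) F x + DD (nv s) C.1 x := by
    intro x hx
    have hle : 𝓝 x ≤ 𝓝ˢ (closure G.Ω) := nhds_le_nhdsSet (subset_closure hx)
    have key := ident P₁ P₂ hs hU hV hV' hp hV0 hVp (HU.filter_mono hle) (HV.filter_mono hle)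
      (HV'.filter_mono hle)
    rw [key, map_add, ev_dv, ev_dv]
    have e : DD (th s) F x = DD (th s) T.1 x - 2 * DD (th s) YX x := by
      rw [hF, DD_sub_at (f := T.1) (g := fun y => 2 * YX y) _ (diffAt hTs x)
        ((differentiableAt_const _).mul (diffAt hYXs x)), DD_const_mul_at _ _ (diffAt hYXs x)]
    rw [e]
    ring
  -- boundary values
  have hm : ∀ x ∈ frontier G.Ω, P₁.m x = P₂.m x := fun x hx => by
    unfold Moduli.m; rw [hb G P₁ P₂ hd x hx]
  have hC0 : ∀ x ∈ frontier G.Ω, C.1 x = 0 := by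
    intro x hx
    have e1 : (P₁.m x : ℂ) = (P₂.m x : ℂ) := by rw [hm x hx]
    have e2 : ev x (mS P₁) = ev x (mS P₂) := e1
    show ev x C = 0
    simp only [hC, CC, map_mul, map_sub, e2, sub_self, zero_mul]
  have hF0 : ∀ x ∈ frontier G.Ω, F x = 0 := by
    intro x hx
    have e1 : (P₁.m x : ℂ) = (P₂.m x : ℂ) := by rw [hm x hx]
    have e3 : (P₁.sm x : ℂ) = (P₂.sm x : ℂ) := by unfold Moduli.sm; rw [hm x hx]
    have e2 : ev x (mS P₁) = ev x (mS P₂) := e1
    have e4 : (P₂.sm x : ℂ) * (P₂.sm x : ℂ) = (P₂.m x : ℂ) := by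
      exact_mod_cast CalcA.sm_mul_sm P₂ x
    have e5 : (P₂.m x : ℂ) * (P₂.mu x : ℂ) = 1 := by exact_mod_cast CalcA.m_mul_mu P₂ x
    have e6 : (P₁.mu x : ℂ) = (P₂.mu x : ℂ) := by rw [hb G P₁ P₂ hd x hx]
    have e7 : (P₂.sm x : ℂ) ≠ 0 := by
      have := (CalcA.sm_pos P₂ x).ne'
      exact_mod_cast this
    show ev x T - 2 * YX x = 0
    simp only [hT, TT, map_mul, map_sub, map_add, map_ofNat, e2, sub_self, mul_zero, zero_mul,
      sub_zero, ev_dv]
    show 2 * U none x * (ct (th s) V' x - V' none x * DD (th s) (cf P₂.m) x - DD (nv s) p x)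
      - 2 * V' none x * (ct (th s) U x - U none x * DD (th s) (cf P₁.m) x)
      + ((P₁.mu x : ℂ) + (P₂.mu x : ℂ)) * p x * ct (nv s) U x
      - 2 * U none x * p x * DD (nv s) (cf P₁.m) x * (P₂.mu x : ℂ) - 2 * YX x = 0
    have f1 : ct (th s) V' x = Y none x + V' none x * DD (th s) (cf P₂.m) x + DD (nv s) p x :=
      hV'θ x
    have f2 : ct (th s) U x = (P₁.sm x : ℂ) * (s 0 * X (some 0) x + s 1 * X (some 1) x)
      + X none x * DD (th s) (cf P₁.m) x := hUθ x
    have f3 : ct (nv s) U x = (P₁.sm x : ℂ) * (al s * X (some 0) x + be s * X (some 1) x)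
      + X none x * DD (nv s) (cf P₁.m) x := hUν x
    have f4 : YX x = Y none x * X none x + (Y (some 0) x * X (some 0) x
        + Y (some 1) x * X (some 1) x) := by
      simp only [hYX, Fintype.sum_option, Fin.sum_univ_two]
    have f5 := dot_eq (Y0 := Y (some 0) x) (Y1 := Y (some 1) x) (X0 := X (some 0) x)
      (X1 := X (some 1) x) (W1.al_be hs)
    have f6 : V' none x * (P₂.sm x : ℂ) = -(al s * Y (some 1) x - be s * Y (some 0) x) := by
      rw [hV'0 x, div_mul_cancel₀ _ e7]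
    rw [f1, f2, f3, f4, f5, hU0 x, e6, e3]
    have f7 : p x = (P₂.sm x : ℂ) * (s 1 * Y (some 0) x - s 0 * Y (some 1) x) := rfl
    rw [f7]
    linear_combination (-2 * (s 0 * X (some 0) x + s 1 * X (some 1) x)) * f6
      + 2 * (s 1 * Y (some 0) x - s 0 * Y (some 1) x)
        * (al s * X (some 0) x + be s * X (some 1) x) * ((P₂.mu x : ℂ) * e4 + e5)
  have hI := int_DD_zero hZ G hFs hF0 (th s)
  have hJ := int_DD_zero hZ G C.2 hC0 (nv s)
  have i1 : IntegrableOn (fun x => 2 * DD (th s) YX x) G.Ω :=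
    DB.integrableOn' G (continuous_const.mul (contDiff_DD hYXs _).continuous)
  have i2 : IntegrableOn (fun x => DD (th s) F x) G.Ω :=
    DB.integrableOn' G (contDiff_DD hFs _).continuous
  have i3 : IntegrableOn (fun x => DD (nv s) C.1 x) G.Ω :=
    DB.integrableOn' G (contDiff_DD C.2 _).continuous
  have i12 : IntegrableOn (fun x => 2 * DD (th s) YX x + DD (th s) F x) G.Ω := i1.add i2
  rw [setIntegral_congr_fun (DB.measurableSet G) hid, integral_add i12 i3,
    integral_add i1 i2, hI, hJ, integral_const_mul, add_zero, add_zero] at hW0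
  exact (mul_eq_zero.1 hW0).resolve_left two_ne_zero

end Crest.Agent.R080
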