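import Crest.Agent.R080.W1Defs
import Crest.Agent.R080.CalcA

/-!
Row 80 (S0107), T13a: the pointwise identity
`q2 U V' + q1 U V = D T + N (c p)`.
-/

set_option autoImplicit false

open MeasureTheory Filter
open scoped ContDiff Topology
open Crest.AnalysisR.VecCalc3 Crest.AnalysisR.PDE.Elasticity

noncomputable section
namespace Crest.Agent.R080.W1Alg

open CalcA

/-! ### the scalar identity -/

theorem alg (m1 m2 Dm1 Nm1 Dm2 Nm2 DDm1 DNm1 DDm2 DNm2 k1 k2 Dk1 Dk2 Nk1 g Ng a Na b gp ap p Np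
    Dg Da Db Dp DNp Dgp Dap DDg NDg DDgp : ℂ) (hm1 : m1 ≠ 0) (hm2 : m2 ≠ 0)
    (hDg : Dg = -k1 * a) (hDa : Da = g * DDm1)
    (hDb : Db = Dm1 / (2 * m1) * b - Nm1 / (2 * m1) * a + g * DNm1)
    (hDp : Dp = Dm2 / (2 * m2) * p)
    (hDNp : DNp = (DNm2 / (2 * m2) - Dm2 * Nm2 / (2 * m2 ^ 2)) * p + Dm2 / (2 * m2) * Np)
    (hDgp : Dgp = -k2 * (ap - Np - p * Nm2 / m2) - p * Nm2 / (2 * m2 ^ 2))
    (hDap : Dap = gp * DDm2 + m2 / 2 * (Np * Dm2 / m2 ^ 2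
      + p * (DNm2 / m2 ^ 2 - 2 * Dm2 * Nm2 / m2 ^ 3)))
    (hDDg : DDg = -Dk1 * a - k1 * Da) (hNDg : NDg = -Nk1 * a - k1 * Na)
    (hDDgp : DDgp = -Dk2 * (ap - Np - p * Nm2 / m2)
      - k2 * (Dap - DNp - Dp * Nm2 / m2 - p * DNm2 / m2 + p * Nm2 * Dm2 / m2 ^ 2)
      - Dp * Nm2 / (2 * m2 ^ 2) - p * DNm2 / (2 * m2 ^ 2) + p * Nm2 * Dm2 / m2 ^ 3) :
    -(2 * k1 - 2 * k2 + 4 * k1 * k2 * (m1 - m2)) * a * (ap - p * Nm2 / m2 - Np)
      - (1 / m1 - 1 / m2) * (1 - 2 * k1 * m1) * a * Np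
      + 2 * (1 / m1 - 1 / m2) * (m1 * g * (Dap + m2 * DDgp - gp * DDm2)
        + m2 * gp * (Da + m1 * DDg - g * DDm1))
      + 2 * (1 / m1 - 1 / m2) * (1 / 2 * Dp * (b + 2 * m1 * Ng)
        - p * (1 / 2 * (Db + Na) + m1 * NDg - g * DNm1))
    = (2 * Dg * (ap - gp * Dm2 - Np) + 2 * g * (Dap - Dgp * Dm2 - gp * DDm2 - DNp)
        - 2 * Dgp * (a - g * Dm1) - 2 * gp * (Da - Dg * Dm1 - g * DDm1)
        - 2 * (Dm1 - Dm2) * (g * Dgp + gp * Dg)
        - 2 * (m1 - m2) * (2 * Dg * Dgp + g * DDgp + gp * DDg)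
        + (-Dm1 / m1 ^ 2 - Dm2 / m2 ^ 2) * p * b + (1 / m1 + 1 / m2) * (Dp * b + p * Db)
        - 2 * (Dg * p * Nm1 / m2 + g * Dp * Nm1 / m2 + g * p * DNm1 / m2
          - g * p * Nm1 * Dm2 / m2 ^ 2))
      + (((Nm1 - Nm2) * (a / (m1 * m2) - 2 * k1 * a / m2 - Dm2 * g / m2 ^ 2)
        + (m1 - m2) * (Na / (m1 * m2) - a * Nm1 / (m1 ^ 2 * m2) - a * Nm2 / (m1 * m2 ^ 2)
          - 2 * Nk1 * a / m2 - 2 * k1 * Na / m2 + 2 * k1 * a * Nm2 / m2 ^ 2 - DNm2 * g / m2 ^ 2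
          - Dm2 * Ng / m2 ^ 2 + 2 * Dm2 * Nm2 * g / m2 ^ 3)) * p
        + (m1 - m2) * (a / (m1 * m2) - 2 * k1 * a / m2 - Dm2 * g / m2 ^ 2) * Np) := by
  subst hDDgp hNDg hDDg hDap hDgp hDNp hDp hDb hDa hDg
  field_simp
  ring

/-! ### contractions -/

/-- contraction of the vector part -/
def ct (v : Fin 3 → ℂ) (U : Option (Fin 3) → R3 → ℂ) (x : R3) : ℂ := ∑ i, v i * U (some i) x

theorem contDiff_ct {U : Option (Fin 3) → R3 → ℂ} (hU : ∀ i, ContDiff ℝ ∞ (U i))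
    (v : Fin 3 → ℂ) : ContDiff ℝ ∞ (ct v U) := by
  unfold ct
  exact ContDiff.sum fun j _ => contDiff_const.mul (hU _)

theorem DD_ct {U : Option (Fin 3) → R3 → ℂ} (hU : ∀ i, ContDiff ℝ ∞ (U i))
    (v w : Fin 3 → ℂ) (x : R3) : DD w (ct v U) x = ∑ i, v i * DD w (U (some i)) x := by
  unfold ct
  rw [DD_sum_at (f := fun i y => v i * U (some i) y) _ _
    fun j _ => (differentiableAt_const _).mul (diffAt (hU _) x)]
  exact Finset.sum_congr rfl fun i _ => DD_const_mul_at _ _ (diffAt (hU _) x)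

theorem contr_E2 (P : Moduli) {U : Option (Fin 3) → R3 → ℂ} (hU : ∀ i, ContDiff ℝ ∞ (U i))
    (a b : Fin 3 → ℂ) (x : R3) :
    ∑ i, ∑ j, a i * b j * E2 P U i j x
      = (DD a (ct b U) x + DD b (ct a U) x) / 2 + (P.m x : ℂ) * DD a (DD b (U none)) x
        - U none x * DD a (DD b (cf P.m)) x := by
  rw [DD_ct hU, DD_ct hU, DD_DD (hU none), DD_DD (contDiff_cf (contDiff_m P))]
  simp only [E2, DD, Fin.sum_univ_three]
  ring

theorem q2_eq (P₁ P₂ : Moduli) {θ : Fin 3 → ℂ} (hθ : ∑ j, θ j * θ j = 0)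
    {U V : Option (Fin 3) → R3 → ℂ} (hU : ∀ i, ContDiff ℝ ∞ (U i)) (hV : ∀ i, ContDiff ℝ ∞ (V i))
    (x : R3) :
    q2 P₁ P₂ θ U V x = -(dlam P₁ P₂ x + dmu P₁ P₂ x)
        * (ct θ U x + 2 * (P₁.m x : ℂ) * DD θ (U none) x)
        * (ct θ V x + 2 * (P₂.m x : ℂ) * DD θ (V none) x)
      + 2 * dmu P₁ P₂ x * ((P₁.m x : ℂ) * U none x * (DD θ (ct θ V) x
          + (P₂.m x : ℂ) * DD θ (DD θ (V none)) x - V none x * DD θ (DD θ (cf P₂.m)) x)
        + (P₂.m x : ℂ) * V none x * (DD θ (ct θ U) x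
          + (P₁.m x : ℂ) * DD θ (DD θ (U none)) x - U none x * DD θ (DD θ (cf P₁.m)) x)) := by
  have h1 := contr_E2 P₂ hV θ θ x
  have h2 := contr_E2 P₁ hU θ θ x
  simp only [q2, S1, E0, E1]
  simp only [ct, DD, Fin.sum_univ_three] at h1 h2 hθ ⊢
  linear_combination 2 * dmu P₁ P₂ x * (P₁.m x : ℂ) * U none x * h1
    + 2 * dmu P₁ P₂ x * (P₂.m x : ℂ) * V none x * h2
    - dmu P₁ P₂ x * (
      (U (some 0) x + 2 * (P₁.m x : ℂ) * pd 0 (U none) x)
        * (V (some 0) x + 2 * (P₂.m x : ℂ) * pd 0 (V none) x)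
      + (U (some 1) x + 2 * (P₁.m x : ℂ) * pd 1 (U none) x)
        * (V (some 1) x + 2 * (P₂.m x : ℂ) * pd 1 (V none) x)
      + (U (some 2) x + 2 * (P₁.m x : ℂ) * pd 2 (U none) x)
        * (V (some 2) x + 2 * (P₂.m x : ℂ) * pd 2 (V none) x)) * hθ

/-- the displacement `p ν` -/
theorem q1_eq (P₁ P₂ : Moduli) {θ ν : Fin 3 → ℂ}
    (hθν : ∑ j, θ j * ν j = 0)
    {U V : Option (Fin 3) → R3 → ℂ} (hU : ∀ i, ContDiff ℝ ∞ (U i)) (hV0 : ∀ x, V none x = 0)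
    {p : R3 → ℂ} (hp : ContDiff ℝ ∞ p) (hVp : ∀ i x, V (some i) x = p x * ν i) (x : R3) :
    q1 P₁ P₂ θ U V x = dlam P₁ P₂ x * (ct θ U x + 2 * (P₁.m x : ℂ) * DD θ (U none) x) * DD ν p x
      + 2 * dmu P₁ P₂ x * (1 / 2 * DD θ p x * (ct ν U x + 2 * (P₁.m x : ℂ) * DD ν (U none) x)
        - p x * (1 / 2 * (DD θ (ct ν U) x + DD ν (ct θ U) x)
          + (P₁.m x : ℂ) * DD ν (DD θ (U none)) x
          - U none x * DD θ (DD ν (cf P₁.m)) x)) := by
  have e0 : V none = fun _ => 0 := funext hV0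
  have e1 : ∀ i, V (some i) = fun y => p y * ν i := fun i => funext (hVp i)
  have p0 : ∀ j y, pd j (V none) y = 0 := fun j y => by rw [e0, CalcA.pd_const]
  have p00 : ∀ i j y, pd i (pd j (V none)) y = 0 := fun i j y => by
    rw [show pd j (V none) = fun _ => 0 from funext (p0 j), CalcA.pd_const]
  have p1 : ∀ i j y, pd j (V (some i)) y = pd j p y * ν i := fun i j y => by
    rw [e1, CalcA.pd_mul_at (diffAt hp y) (differentiableAt_const _), CalcA.pd_const]; ring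
  have h1 := contr_E2 P₁ hU θ ν x
  have h2 := contr_E2 P₁ hU ν θ x
  rw [DD_comm (hU none) θ ν] at h1
  rw [DD_comm (contDiff_cf (contDiff_m P₁)) ν θ] at h2
  simp only [q1, S1, S2, E1, Lap, hV0, p0, p00, p1, hVp]
  rw [show (∑ i, ∑ j, ((θ i * (U (some j) x + 2 * (P₁.m x : ℂ) * pd j (U none) x)
        + θ j * (U (some i) x + 2 * (P₁.m x : ℂ) * pd i (U none) x)) / 2 * E2 P₂ V i j x
      - E2 P₁ U i j x * ((θ i * (p x * ν j + 2 * (P₂.m x : ℂ) * 0)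
        + θ j * (p x * ν i + 2 * (P₂.m x : ℂ) * 0)) / 2)))
      = (∑ i, ∑ j, ((θ i * (U (some j) x + 2 * (P₁.m x : ℂ) * pd j (U none) x)
        + θ j * (U (some i) x + 2 * (P₁.m x : ℂ) * pd i (U none) x)) / 2
          * ((pd i p x * ν j + pd j p x * ν i) / 2)))
      - p x / 2 * ((∑ i, ∑ j, θ i * ν j * E2 P₁ U i j x)
        + ∑ i, ∑ j, ν i * θ j * E2 P₁ U i j x) from ?_]
  · rw [h1, h2]
    simp only [ct, DD, Fin.sum_univ_three, p0] at hθν ⊢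
    linear_combination (dmu P₁ P₂ x * (
        (U (some 0) x + 2 * (P₁.m x : ℂ) * pd 0 (U none) x) * pd 0 p x
        + (U (some 1) x + 2 * (P₁.m x : ℂ) * pd 1 (U none) x) * pd 1 p x
        + (U (some 2) x + 2 * (P₁.m x : ℂ) * pd 2 (U none) x) * pd 2 p x)
      - dlam P₁ P₂ x * p x * (pd 0 (U (some 0)) x + pd 1 (U (some 1)) x + pd 2 (U (some 2)) x
        + (P₁.m x : ℂ) * (pd 0 (pd 0 (U none)) x + pd 1 (pd 1 (U none)) x
          + pd 2 (pd 2 (U none)) x)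
        - U none x * (pd 0 (pd 0 (cf P₁.m)) x + pd 1 (pd 1 (cf P₁.m)) x
          + pd 2 (pd 2 (cf P₁.m)) x))) * hθν
  · simp only [Fin.sum_univ_three, E2, hV0, p00, p1]
    ring

/-! ### contractions of the transport operators -/

theorem contr_M0 (P : Moduli) (θ v : Fin 3 → ℂ) {U : Option (Fin 3) → R3 → ℂ}
    (hU : ∀ i, ContDiff ℝ ∞ (U i)) (x : R3) :
    ∑ i, v i * M0 θ (A4 P) U (some i) x
      = 2 * DD θ (ct v U) x + (P.m x : ℂ) * (DD θ (cf P.mu) x * ct v U x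
          - DD v (cf P.mu) x * ct θ U x) - 2 * U none x * DD v (DD θ (cf P.m)) x := by
  rw [DD_ct hU, DD_DD (contDiff_cf (contDiff_m P))]
  simp only [M0, A4, ct, DD, Fin.sum_univ_three, Fintype.sum_option]
  simp
  ring

theorem M0_none (P : Moduli) (θ : Fin 3 → ℂ) (U : Option (Fin 3) → R3 → ℂ) (x : R3) :
    M0 θ (A4 P) U none x
      = 2 * DD θ (U none) x + (P.cc x : ℂ) * ((P.lam x : ℂ) + (P.mu x : ℂ)) * ct θ U x := by
  simp only [M0, A4, ct, DD, Fin.sum_univ_three, Fintype.sum_option]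
  simp
  ring

theorem contr_P0 (P : Moduli) {θ ν : Fin 3 → ℂ} (hθν : ∑ j, θ j * ν j = 0)
    {V : Option (Fin 3) → R3 → ℂ} (hV0 : ∀ x, V none x = 0)
    {p : R3 → ℂ} (hp : ContDiff ℝ ∞ p) (hVp : ∀ i x, V (some i) x = p x * ν i) (x : R3) :
    ∑ i, θ i * P0 (A4 P) (B4 P) V (some i) x
      = -(P.m x : ℂ) * (DD θ (cf P.mu) x * DD ν p x + p x * DD θ (DD ν (cf P.mu)) x) := by
  have e0 : V none = fun _ => 0 := funext hV0
  have e1 : ∀ i, V (some i) = fun y => p y * ν i := fun i => funext (hVp i)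
  have p0 : ∀ j y, pd j (V none) y = 0 := fun j y => by rw [e0, CalcA.pd_const]
  have p1 : ∀ i j y, pd j (V (some i)) y = pd j p y * ν i := fun i j y => by
    rw [e1, CalcA.pd_mul_at (diffAt hp y) (differentiableAt_const _), CalcA.pd_const]; ring
  have p11 : ∀ i j k y, pd k (pd j (V (some i))) y = pd k (pd j p) y * ν i := fun i j k y => by
    rw [show pd j (V (some i)) = fun y => pd j p y * ν i from funext (p1 i j),
      CalcA.pd_mul_at (diffAt (CalcA.contDiff_pd hp j) y) (differentiableAt_const _),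
      CalcA.pd_const]; ring
  rw [DD_DD (contDiff_cf P.smooth_mu)]
  simp only [P0, A4, B4, Lap, DD, Fintype.sum_option, p0, p1, p11, hV0, hVp]
  simp only [Fin.sum_univ_three] at hθν ⊢
  simp
  linear_combination (pd 0 (pd 0 p) x + pd 1 (pd 1 p) x + pd 2 (pd 2 p) x
    + (P.m x : ℂ) * (pd 0 (cf P.mu) x * pd 0 p x + pd 1 (cf P.mu) x * pd 1 p x
      + pd 2 (cf P.mu) x * pd 2 p x)) * hθν

theorem P0_none (P : Moduli) {ν : Fin 3 → ℂ}
    {V : Option (Fin 3) → R3 → ℂ} (hV0 : ∀ x, V none x = 0)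
    {p : R3 → ℂ} (hp : ContDiff ℝ ∞ p) (hVp : ∀ i x, V (some i) x = p x * ν i) (x : R3) :
    P0 (A4 P) (B4 P) V none x
      = (P.cc x : ℂ) * ((P.lam x : ℂ) + (P.mu x : ℂ)) * DD ν p x
        + (P.cc x : ℂ) * p x * DD ν (cf P.mu) x := by
  have e0 : V none = fun _ => 0 := funext hV0
  have e1 : ∀ i, V (some i) = fun y => p y * ν i := fun i => funext (hVp i)
  have p0 : ∀ j y, pd j (V none) y = 0 := fun j y => by rw [e0, CalcA.pd_const]
  have p00 : ∀ i j y, pd i (pd j (V none)) y = 0 := fun i j y => by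
    rw [show pd j (V none) = fun _ => 0 from funext (p0 j), CalcA.pd_const]
  have p1 : ∀ i j y, pd j (V (some i)) y = pd j p y * ν i := fun i j y => by
    rw [e1, CalcA.pd_mul_at (diffAt hp y) (differentiableAt_const _), CalcA.pd_const]; ring
  simp only [P0, A4, B4, Lap, DD, Fintype.sum_option, p0, p00, p1, hV0, hVp]
  simp only [Fin.sum_univ_three]
  simp
  ring

/-! ### the directional derivations on smooth functions -/

open La (Sm)

/-- directional derivation -/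
def dv (v : Fin 3 → ℂ) : Derivation ℂ Sm Sm := ∑ j, v j • La.Sm.d j

/-- evaluation -/
def ev (x : R3) : Sm →+* ℂ where
  toFun f := f.1 x
  map_one' := rfl
  map_mul' _ _ := rfl
  map_zero' := rfl
  map_add' _ _ := rfl

theorem ev_apply (x : R3) (f : Sm) : ev x f = f.1 x := rfl

theorem ev_dv (v : Fin 3 → ℂ) (f : Sm) (x : R3) : ev x (dv v f) = DD v f.1 x := by
  simp only [dv, DD, Fin.sum_univ_three, Derivation.add_apply, Derivation.smul_apply, map_add]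
  rfl

theorem coe_dv (v : Fin 3 → ℂ) (f : Sm) : (dv v f).1 = DD v f.1 :=
  funext fun x => ev_dv v f x

theorem dv_comm (v w : Fin 3 → ℂ) (f : Sm) : dv v (dv w f) = dv w (dv v f) := by
  refine Subtype.ext ?_
  rw [coe_dv, coe_dv, coe_dv, coe_dv]
  exact funext fun x => DD_comm f.2 v w x

theorem dv_mul (v : Fin 3 → ℂ) (f g : Sm) : dv v (f * g) = dv v f * g + f * dv v g := by
  rw [Derivation.leibniz]; simp only [smul_eq_mul]; ring

theorem dv_two (v : Fin 3 → ℂ) : dv v (2 : Sm) = 0 := by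
  have := Derivation.map_natCast (dv v) 2
  exact_mod_cast this

theorem ev_congr {A B : Sm} {x : R3} (h : ∀ᶠ y in 𝓝 x, ev y A = ev y B) (v : Fin 3 → ℂ) :
    ev x (dv v A) = ev x (dv v B) := by
  rw [ev_dv, ev_dv]
  exact DD_congr h v

theorem alg_Sm (θ ν : Fin 3 → ℂ) (m1 m2 u1 u2 k1 k2 g a b gp ap p : Sm)
    (h1 : m1 * u1 = 1) (h2 : m2 * u2 = 1) (x : R3)
    (E1 : ∀ᶠ y in 𝓝 x, ev y (dv θ g) = ev y (-(k1 * a)))
    (E2 : ev x (dv θ a) = ev x (g * dv θ (dv θ m1)))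
    (E3 : ev x (2 * dv θ b) = ev x (dv θ m1 * u1 * b - dv ν m1 * u1 * a
      + 2 * g * dv θ (dv ν m1)))
    (E4 : ∀ᶠ y in 𝓝 x, ev y (2 * dv θ p) = ev y (dv θ m2 * u2 * p))
    (E5 : ∀ᶠ y in 𝓝 x, ev y (2 * dv θ gp) = ev y (-(2 * k2) * (ap - dv ν p - p * dv ν m2 * u2)
      - p * dv ν m2 * u2 * u2))
    (E6 : ev x (2 * dv θ ap) = ev x (2 * gp * dv θ (dv θ m2) + dv ν p * dv θ m2 * u2
      + p * (dv θ (dv ν m2) * u2 - 2 * dv θ m2 * dv ν m2 * u2 * u2))) :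
    ev x (-(2 * k1 - 2 * k2 + 4 * k1 * k2 * (m1 - m2)) * a * (ap - p * dv ν m2 * u2 - dv ν p)
      - (u1 - u2) * (1 - 2 * k1 * m1) * a * dv ν p
      + 2 * (u1 - u2) * (m1 * g * (dv θ ap + m2 * dv θ (dv θ gp) - gp * dv θ (dv θ m2))
        + m2 * gp * (dv θ a + m1 * dv θ (dv θ g) - g * dv θ (dv θ m1)))
      + (u1 - u2) * (dv θ p * (b + 2 * m1 * dv ν g)
        - p * (dv θ b + dv ν a + 2 * m1 * dv ν (dv θ g) - 2 * g * dv θ (dv ν m1))))
    = ev x (dv θ (2 * g * (ap - gp * dv θ m2 - dv ν p) - 2 * gp * (a - g * dv θ m1)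
          - 2 * (m1 - m2) * (g * dv θ gp + gp * dv θ g) + (u1 + u2) * p * b
          - 2 * g * p * dv ν m1 * u2)
        + dv ν ((m1 - m2) * (a * u1 * u2 - 2 * k1 * a * u2 - dv θ m2 * g * u2 * u2) * p)) := by
  have r1 : ev x m1 * ev x u1 = 1 := by rw [← map_mul, h1, map_one]
  have r2 : ev x m2 * ev x u2 = 1 := by rw [← map_mul, h2, map_one]
  have n1 : ev x m1 ≠ 0 := left_ne_zero_of_mul_eq_one r1
  have n2 : ev x m2 ≠ 0 := left_ne_zero_of_mul_eq_one r2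
  have i1 : ev x u1 = 1 / ev x m1 := by field_simp; linear_combination r1
  have i2 : ev x u2 = 1 / ev x m2 := by field_simp; linear_combination r2
  have du1 : ∀ v, ev x (dv v u1) = -ev x (dv v m1) / ev x m1 ^ 2 := by
    intro v
    have := congrArg (fun f => ev x (dv v f)) h1
    simp only [dv_mul, Derivation.map_one_eq_zero, map_add, map_mul, map_zero, i1] at this
    field_simp at this ⊢
    linear_combination this
  have du2 : ∀ v, ev x (dv v u2) = -ev x (dv v m2) / ev x m2 ^ 2 := by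
    intro v
    have := congrArg (fun f => ev x (dv v f)) h2
    simp only [dv_mul, Derivation.map_one_eq_zero, map_add, map_mul, map_zero, i2] at this
    field_simp at this ⊢
    linear_combination this
  have e1 := E1.self_of_nhds
  have e4 := E4.self_of_nhds
  have e5 := E5.self_of_nhds
  have e1D := ev_congr E1 θ
  have e1N := ev_congr E1 ν
  have e4N := ev_congr E4 ν
  have e5D := ev_congr E5 θ
  simp only [dv_mul, dv_two, map_add, map_sub, map_neg, map_mul, map_zero, map_one, map_ofNat, i1, i2,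
    du1, du2, dv_comm ν θ p, dv_comm ν θ m2] at E2 E3 E6 e1 e4 e5 e1D e1N e4N e5D ⊢
  have key := alg (ev x m1) (ev x m2) (ev x (dv θ m1)) (ev x (dv ν m1)) (ev x (dv θ m2))
    (ev x (dv ν m2)) (ev x (dv θ (dv θ m1))) (ev x (dv θ (dv ν m1))) (ev x (dv θ (dv θ m2)))
    (ev x (dv θ (dv ν m2))) (ev x k1) (ev x k2) (ev x (dv θ k1)) (ev x (dv θ k2)) (ev x (dv ν k1))
    (ev x g) (ev x (dv ν g)) (ev x a) (ev x (dv ν a)) (ev x b) (ev x gp) (ev x ap) (ev x p)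
    (ev x (dv ν p)) (ev x (dv θ g)) (ev x (dv θ a)) (ev x (dv θ b)) (ev x (dv θ p))
    (ev x (dv θ (dv ν p))) (ev x (dv θ gp)) (ev x (dv θ ap)) (ev x (dv θ (dv θ g)))
    (ev x (dv ν (dv θ g))) (ev x (dv θ (dv θ gp))) n1 n2
    (by linear_combination e1) (by linear_combination E2)
    (by linear_combination E3 / 2) (by linear_combination e4 / 2)
    (by linear_combination e4N / 2) (by linear_combination e5 / 2) (by
      linear_combination (norm := (field_simp; ring)) E6 / 2)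
    (by linear_combination e1D) (by linear_combination e1N)
    (by linear_combination (norm := (field_simp; ring)) e5D / 2)
  linear_combination (norm := (field_simp; ring)) key

/-! ### the pointwise identity -/

/-- the `D`-primitive -/
def TT (θ ν : Fin 3 → ℂ) (m1 m2 u1 u2 g a b gp ap p : Sm) : Sm :=
  2 * g * (ap - gp * dv θ m2 - dv ν p) - 2 * gp * (a - g * dv θ m1)
    - 2 * (m1 - m2) * (g * dv θ gp + gp * dv θ g) + (u1 + u2) * p * b
    - 2 * g * p * dv ν m1 * u2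

/-- the `N`-primitive -/
def CC (θ : Fin 3 → ℂ) (m1 m2 u1 u2 k1 g a p : Sm) : Sm :=
  (m1 - m2) * (a * u1 * u2 - 2 * k1 * a * u2 - dv θ m2 * g * u2 * u2) * p

/-- `m` -/
def mS (P : Moduli) : Sm := ⟨cf P.m, contDiff_cf (contDiff_m P)⟩
/-- `μ` -/
def uS (P : Moduli) : Sm := ⟨cf P.mu, contDiff_cf P.smooth_mu⟩
/-- `κ` -/
def kS (P : Moduli) : Sm := ⟨cf P.kap, contDiff_cf (contDiff_kap P)⟩

theorem mS_uS (P : Moduli) : mS P * uS P = 1 := by
  refine Subtype.ext (funext fun x => ?_)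
  show (P.m x : ℂ) * (P.mu x : ℂ) = 1
  exact_mod_cast CalcA.m_mul_mu P x

theorem kap_c (P : Moduli) (x : R3) :
    2 * (P.kap x : ℂ) = (P.cc x : ℂ) * ((P.lam x : ℂ) + (P.mu x : ℂ)) := by
  have := CalcA.kap_eq P x
  rw [this]; push_cast; ring

theorem cc_c (P : Moduli) (x : R3) : (P.cc x : ℂ) = 1 - 2 * (P.kap x : ℂ) * (P.m x : ℂ) := by
  have h : P.cc x = 1 - 2 * P.kap x * P.m x := by
    have h3 := CalcA.cc_inv P x
    have h4 := (CalcA.cc_pos P x).ne'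
    have h5 := CalcA.kap_eq P x
    have h6 := CalcA.m_mul_mu P x
    have h7 : P.cc x * (P.lam x * P.m x + 2) = 1 := by rw [← h3, mul_inv_cancel₀ h4]
    rw [h5]
    linear_combination h7 + P.cc x * h6
  exact_mod_cast h

theorem cc_lam_c (P : Moduli) (x : R3) :
    (P.cc x : ℂ) * ((P.lam x : ℂ) + 2 * (P.mu x : ℂ)) = (P.mu x : ℂ) := by
  have h : P.cc x * (P.lam x + 2 * P.mu x) = P.mu x := by
    unfold Moduli.cc
    exact div_mul_cancel₀ _ (CalcA.lam_add_two_mu_pos P x).ne'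
  exact_mod_cast h

theorem alg2 (l1 l2 u1 u2 m1 m2 k1 k2 a ap Dg Dgp p Np Nm2 : ℂ)
    (hm1 : m1 * u1 = 1) (hm2 : m2 * u2 = 1)
    (hc1 : (1 - 2 * k1 * m1) * (l1 + 2 * u1) = u1) (hc2 : (1 - 2 * k2 * m2) * (l2 + 2 * u2) = u2)
    (hDg : Dg = -(k1 * a))
    (hDgp : 2 * Dgp = -(2 * k2) * (ap - Np - p * Nm2 * u2) - p * Nm2 * u2 * u2) :
    -((l1 - l2) + (u1 - u2)) * (a + 2 * m1 * Dg) * (ap + 2 * m2 * Dgp)
      + (l1 - l2) * (a + 2 * m1 * Dg) * Np
    = -(2 * k1 - 2 * k2 + 4 * k1 * k2 * (m1 - m2)) * a * (ap - p * Nm2 * u2 - Np)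
      - (u1 - u2) * (1 - 2 * k1 * m1) * a * Np := by
  have H : ((l1 - l2) + (u1 - u2)) * (1 - 2 * k1 * m1) * (1 - 2 * k2 * m2)
      = 2 * k1 - 2 * k2 + 4 * k1 * k2 * (m1 - m2) := by
    linear_combination (1 - 2 * k2 * m2) * hc1 - (1 - 2 * k1 * m1) * hc2
      + (2 * k1 - 4 * k1 * k2 * m2) * hm1 + (-2 * k2 + 4 * k1 * k2 * m1) * hm2
  have h1 : a + 2 * m1 * Dg = (1 - 2 * k1 * m1) * a := by rw [hDg]; ring
  have h2 : ap + 2 * m2 * Dgp = (1 - 2 * k2 * m2) * (ap - p * Nm2 * u2 - Np) + Np := by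
    linear_combination m2 * hDgp - p * Nm2 * u2 * hm2
  rw [h1, h2, ← H]
  ring

end Crest.Agent.R080.W1Alg
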