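import Crest.Agent.R080.PdCalc

/-!
Row 80 (S0107), T13: the frame `θ = th s`, `ν = nv s`, `η = et s` and the statement of the lift
of reduced solutions to the 4×4 system (`StmtLift`).
-/

set_option autoImplicit false

open MeasureTheory Filter
open scoped ContDiff Topology ComplexConjugate
open Crest.AnalysisR.VecCalc3 Crest.AnalysisR.PDE.Elasticity

noncomputable section
namespace Crest.Agent.R080.W1

/-- `|s₀|² + |s₁|²` -/
def nn (s : Fin 2 → ℂ) : ℂ := s 0 * conj (s 0) + s 1 * conj (s 1)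
def al (s : Fin 2 → ℂ) : ℂ := conj (s 1) / nn s
def be (s : Fin 2 → ℂ) : ℂ := -conj (s 0) / nn s
/-- the unit vector `ν`, `ν·ν = 1`, `θ·ν = 0` -/
def nv (s : Fin 2 → ℂ) : Fin 3 → ℂ := fun j => al s * nu s 0 j + be s * nu s 1 j
/-- the null vector `η`, `θ·η = 1`, `ν·η = 0` -/
def et (s : Fin 2 → ℂ) : Fin 3 → ℂ := fun j => -(1 / 2) * th ![al s, be s] j

theorem nn_ne {s : Fin 2 → ℂ} (hs : s ≠ 0) : nn s ≠ 0 := by
  intro h
  apply hs
  have h1 : nn s = ((‖s 0‖ ^ 2 + ‖s 1‖ ^ 2 : ℝ) : ℂ) := by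
    simp only [nn, Complex.mul_conj, Complex.normSq_eq_norm_sq]
    push_cast
    ring
  rw [h1] at h
  have h2 : ‖s 0‖ ^ 2 + ‖s 1‖ ^ 2 = 0 := by exact_mod_cast h
  have h3 : ‖s 0‖ = 0 := by nlinarith [sq_nonneg ‖s 0‖, sq_nonneg ‖s 1‖]
  have h4 : ‖s 1‖ = 0 := by nlinarith [sq_nonneg ‖s 0‖, sq_nonneg ‖s 1‖]
  funext i
  fin_cases i
  · simpa using h3
  · simpa using h4

theorem al_be {s : Fin 2 → ℂ} (hs : s ≠ 0) : al s * s 1 - be s * s 0 = 1 := by
  have h := nn_ne hs
  have : al s * s 1 - be s * s 0 = nn s / nn s := by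
    simp only [al, be]
    rw [nn]
    ring
  rw [this, div_self h]

theorem th_eq (s : Fin 2 → ℂ) (j : Fin 3) : th s j = s 0 * nu s 0 j + s 1 * nu s 1 j := by
  fin_cases j <;> simp [th, nu] <;> ring

theorem th_th (s : Fin 2 → ℂ) : ∑ j, th s j * th s j = 0 := by
  simp only [th, Fin.sum_univ_three, Matrix.cons_val_zero, Matrix.cons_val_one,
    Matrix.cons_val]
  linear_combination (s 0 ^ 2 + s 1 ^ 2) ^ 2 * Complex.I_sq

theorem th_nv (s : Fin 2 → ℂ) : ∑ j, th s j * nv s j = 0 := by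
  simp only [th, nv, nu, Fin.sum_univ_three, Matrix.cons_val_zero, Matrix.cons_val_one,
    Matrix.cons_val, if_true, one_ne_zero, if_false]
  linear_combination (s 0 ^ 2 + s 1 ^ 2) * (al s * s 0 + be s * s 1) * Complex.I_sq

theorem nv_nv {s : Fin 2 → ℂ} (hs : s ≠ 0) : ∑ j, nv s j * nv s j = 1 := by
  have h := al_be hs
  simp only [nv, nu, Fin.sum_univ_three, Matrix.cons_val_zero, Matrix.cons_val_one,
    Matrix.cons_val, if_true, one_ne_zero, if_false]
  linear_combination (al s * s 0 + be s * s 1) ^ 2 * Complex.I_sq +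
    (al s * s 1 - be s * s 0 + 1) * h

theorem th_et {s : Fin 2 → ℂ} (hs : s ≠ 0) : ∑ j, th s j * et s j = 1 := by
  have h := al_be hs
  simp only [th, et, Fin.sum_univ_three, Matrix.cons_val_zero, Matrix.cons_val_one,
    Matrix.cons_val]
  linear_combination (-(1 / 2) * (s 0 ^ 2 + s 1 ^ 2) * (al s ^ 2 + be s ^ 2)) * Complex.I_sq +
    (al s * s 1 - be s * s 0 + 1) * h

theorem nv_et (s : Fin 2 → ℂ) : ∑ j, nv s j * et s j = 0 := by
  simp only [nv, nu, th, et, Fin.sum_univ_three, Matrix.cons_val_zero, Matrix.cons_val_one,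
    Matrix.cons_val, if_true, one_ne_zero, if_false]
  linear_combination (-(1 / 2) * (al s * s 0 + be s * s 1) * (al s ^ 2 + be s ^ 2)) *
    Complex.I_sq

theorem et_et (s : Fin 2 → ℂ) : ∑ j, et s j * et s j = 0 := by
  have := th_th ![al s, be s]
  have h : ∑ j, et s j * et s j = (1 / 4) * ∑ j, th ![al s, be s] j * th ![al s, be s] j := by
    rw [Finset.mul_sum]
    exact Finset.sum_congr rfl fun j _ => by simp only [et]; ring
  rw [h, this, mul_zero]

theorem frame_id {s : Fin 2 → ℂ} (hs : s ≠ 0) (i j : Fin 3) :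
    th s i * et s j + nv s i * nv s j + et s i * th s j = if i = j then 1 else 0 := by
  have a1 := th_th s
  have a2 := th_nv s
  have a3 := nv_nv hs
  have a4 := th_et hs
  have a5 := nv_et s
  have a6 := et_et s
  simp only [Fin.sum_univ_three] at a1 a2 a3 a4 a5 a6
  have h1 : (Matrix.of ![th s, nv s, et s]) * (Matrix.of ![et s, nv s, th s]).transpose = 1 := by
    ext a b
    rw [Matrix.mul_apply, Fin.sum_univ_three]
    simp only [Matrix.transpose_apply, Matrix.of_apply, Matrix.one_apply]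
    fin_cases a <;> fin_cases b <;> simp <;>
      first
        | linear_combination a1
        | linear_combination a2
        | linear_combination a3
        | linear_combination a4
        | linear_combination a5
        | linear_combination a6
  have h2 := mul_eq_one_comm.1 h1
  have h3 := congrFun (congrFun h2 j) i
  rw [Matrix.mul_apply, Fin.sum_univ_three] at h3
  simp only [Matrix.transpose_apply, Matrix.of_apply, Matrix.one_apply,
    Matrix.cons_val_zero, Matrix.cons_val_one, Matrix.cons_val] at h3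
  rw [show (if i = j then (1 : ℂ) else 0) = if j = i then 1 else 0 by simp only [eq_comm]]
  linear_combination h3

/-- the frame decomposition `w = (η·w) θ + (ν·w) ν + (θ·w) η` -/
theorem decomp {s : Fin 2 → ℂ} (hs : s ≠ 0) (w : Fin 3 → ℂ) (i : Fin 3) :
    w i = (∑ j, et s j * w j) * th s i + (∑ j, nv s j * w j) * nv s i
      + (∑ j, th s j * w j) * et s i := by
  have h : w i = ∑ j, (th s i * et s j + nv s i * nv s j + et s i * th s j) * w j := by
    simp only [frame_id hs]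
    simp
  rw [h]
  simp only [Finset.sum_mul, ← Finset.sum_add_distrib]
  exact Finset.sum_congr rfl fun j _ => by ring

/-- the lift of solutions of the reduced systems to the 4×4 systems (T13b) -/
def StmtLift : Prop :=
  ∀ (G : Dom) (P₁ P₂ : Moduli) (s : Fin 2 → ℂ), s ≠ 0 →
    ∀ X Y : Option (Fin 2) → R3 → ℂ, (∀ i, ContDiff ℝ ∞ (X i)) → (∀ i, ContDiff ℝ ∞ (Y i)) →
    (∀ᶠ x in 𝓝ˢ (closure G.Ω), DSys (th s) (Amat P₁ s) X x) →
    (∀ᶠ x in 𝓝ˢ (closure G.Ω), DAdj (th s) (Amat P₂ s) Y x) →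
    ∃ U V V' : Option (Fin 3) → R3 → ℂ,
      (∀ i, ContDiff ℝ ∞ (U i)) ∧ (∀ i, ContDiff ℝ ∞ (V i)) ∧ (∀ i, ContDiff ℝ ∞ (V' i)) ∧
      (∀ᶠ x in 𝓝ˢ (closure G.Ω), ∀ i, M0 (th s) (A4 P₁) U i x = 0) ∧
      (∀ x, V none x = 0) ∧
      (∀ᶠ x in 𝓝ˢ (closure G.Ω), ∀ i, M0 (th s) (A4 P₂) V i x = 0) ∧
      (∀ᶠ x in 𝓝ˢ (closure G.Ω), ∀ i, M0 (th s) (A4 P₂) V' i x = P0 (A4 P₂) (B4 P₂) V i x) ∧
      -- `U`: g, θ·w, ν·w
      (∀ x, U none x = X none x) ∧
      (∀ x, ∑ i, th s i * U (some i) x =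
        (P₁.sm x : ℂ) * (s 0 * X (some 0) x + s 1 * X (some 1) x)
          + X none x * DD (th s) (cf P₁.m) x) ∧
      (∀ x, ∑ i, nv s i * U (some i) x =
        (P₁.sm x : ℂ) * (al s * X (some 0) x + be s * X (some 1) x)
          + X none x * DD (nv s) (cf P₁.m) x) ∧
      -- `V = (p ν, 0)`, `p = √m₂ h`, `h = s₁ Y₀ - s₀ Y₁`
      (∀ i x, V (some i) x =
        (P₂.sm x : ℂ) * (s 1 * Y (some 0) x - s 0 * Y (some 1) x) * nv s i) ∧
      -- `V'`: ĝ and θ·w'
      (∀ x, V' none x = -(al s * Y (some 1) x - be s * Y (some 0) x) / (P₂.sm x : ℂ)) ∧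
      (∀ x, ∑ i, th s i * V' (some i) x =
        Y none x + V' none x * DD (th s) (cf P₂.m) x
          + DD (nv s) (fun y => (P₂.sm y : ℂ) * (s 1 * Y (some 0) y - s 0 * Y (some 1) y)) x)

end Crest.Agent.R080.W1
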