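import Crest.Agent.R080.W1Alg

/-!
Row 80 (S0107), T13a: the transport equations as relations in the differential algebra and the
pointwise identity `q2 U V' + q1 U V = D T + N (c p)`.
-/

set_option autoImplicit false

open MeasureTheory Filter
open scoped ContDiff Topology
open Crest.AnalysisR.VecCalc3 Crest.AnalysisR.PDE.Elasticity

noncomputable section
namespace Crest.Agent.R080.W1Alg

open CalcA
open La (Sm)
open W1 (nv)

section ident

variable (P₁ P₂ : Moduli) {s : Fin 2 → ℂ} (hs : s ≠ 0)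
  {U V V' : Option (Fin 3) → R3 → ℂ} (hU : ∀ i, ContDiff ℝ ∞ (U i))
  (hV : ∀ i, ContDiff ℝ ∞ (V i)) (hV' : ∀ i, ContDiff ℝ ∞ (V' i))
  {p : R3 → ℂ} (hp : ContDiff ℝ ∞ p) (hV0 : ∀ x, V none x = 0)
  (hVp : ∀ i x, V (some i) x = p x * nv s i)

/-- bundled function -/
abbrev mk {f : R3 → ℂ} (hf : ContDiff ℝ ∞ f) : Sm := ⟨f, hf⟩

theorem DD_mu (P : Moduli) (v : Fin 3 → ℂ) (x : R3) :
    (P.m x : ℂ) * DD v (cf P.mu) x = -(DD v (cf P.m) x * (P.mu x : ℂ)) := by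
  have h := congrArg (fun f => ev x (dv v f)) (mS_uS P)
  simp only [dv_mul, Derivation.map_one_eq_zero, map_add, map_mul, map_zero] at h
  rw [ev_dv, ev_dv] at h
  have h' : DD v (cf P.m) x * (P.mu x : ℂ) + (P.m x : ℂ) * DD v (cf P.mu) x = 0 := h
  linear_combination h'

theorem DD_mu' (P : Moduli) (v : Fin 3 → ℂ) (x : R3) :
    DD v (cf P.mu) x = -(DD v (cf P.m) x * (P.mu x : ℂ) * (P.mu x : ℂ)) := by
  have h := DD_mu P v x
  have h1 : (P.m x : ℂ) * (P.mu x : ℂ) = 1 := by exact_mod_cast CalcA.m_mul_mu P x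
  linear_combination (P.mu x : ℂ) * h - DD v (cf P.mu) x * h1

theorem DD_DD_mu (P : Moduli) (v w : Fin 3 → ℂ) (x : R3) :
    (P.m x : ℂ) * DD v (DD w (cf P.mu)) x = -(DD v (DD w (cf P.m)) x * (P.mu x : ℂ)
      - 2 * DD v (cf P.m) x * DD w (cf P.m) x * (P.mu x : ℂ) * (P.mu x : ℂ)) := by
  have h := congrArg (fun f => ev x (dv v (dv w f))) (mS_uS P)
  simp only [dv_mul, Derivation.map_one_eq_zero, map_add, map_mul, map_zero, ev_dv, coe_dv] at h
  have h' : DD v (DD w (cf P.m)) x * (P.mu x : ℂ) + DD w (cf P.m) x * DD v (cf P.mu) x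
      + (DD v (cf P.m) x * DD w (cf P.mu) x + (P.m x : ℂ) * DD v (DD w (cf P.mu)) x) = 0 := h
  have h1 := DD_mu' P v x
  have h2 := DD_mu' P w x
  rw [h1, h2] at h'
  linear_combination h'

include hU in
theorem ident_E1 {x : R3} (H : M0 (th s) (A4 P₁) U none x = 0) :
    ev x (dv (th s) (mk (hU none))) = ev x (-(kS P₁ * mk (contDiff_ct hU (th s)))) := by
  rw [M0_none] at H
  rw [ev_dv]
  show DD (th s) (U none) x = -((P₁.kap x : ℂ) * ct (th s) U x)
  linear_combination H / 2 + ct (th s) U x / 2 * kap_c P₁ x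

include hU in
theorem ident_E2 {x : R3} (H : ∀ i, M0 (th s) (A4 P₁) U i x = 0) :
    ev x (dv (th s) (mk (contDiff_ct hU (th s))))
      = ev x (mk (hU none) * dv (th s) (dv (th s) (mS P₁))) := by
  have h := contr_M0 P₁ (th s) (th s) hU x
  simp only [H, mul_zero, Finset.sum_const_zero] at h
  rw [map_mul, ev_dv, ev_dv, coe_dv]
  show DD (th s) (ct (th s) U) x = U none x * DD (th s) (DD (th s) (cf P₁.m)) x
  linear_combination -h / 2

include hU in
theorem ident_E3 {x : R3} (H : ∀ i, M0 (th s) (A4 P₁) U i x = 0) :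
    ev x (2 * dv (th s) (mk (contDiff_ct hU (nv s))))
      = ev x (dv (th s) (mS P₁) * uS P₁ * mk (contDiff_ct hU (nv s))
        - dv (nv s) (mS P₁) * uS P₁ * mk (contDiff_ct hU (th s))
        + 2 * mk (hU none) * dv (th s) (dv (nv s) (mS P₁))) := by
  have h := contr_M0 P₁ (th s) (nv s) hU x
  simp only [H, mul_zero, Finset.sum_const_zero] at h
  have h1 := DD_mu P₁ (th s) x
  have h2 := DD_mu P₁ (nv s) x
  rw [DD_comm (contDiff_cf (contDiff_m P₁))] at h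
  simp only [map_mul, map_sub, map_add, map_ofNat, ev_dv, coe_dv]
  show 2 * DD (th s) (ct (nv s) U) x = DD (th s) (cf P₁.m) x * (P₁.mu x : ℂ) * ct (nv s) U x
    - DD (nv s) (cf P₁.m) x * (P₁.mu x : ℂ) * ct (th s) U x
    + 2 * U none x * DD (th s) (DD (nv s) (cf P₁.m)) x
  linear_combination -h - ct (nv s) U x * h1 + ct (th s) U x * h2

include hs hV hV0 hp hVp in
theorem ident_E4 {x : R3} (H : ∀ i, M0 (th s) (A4 P₂) V i x = 0) :
    ev x (2 * dv (th s) (mk hp)) = ev x (dv (th s) (mS P₂) * uS P₂ * mk hp) := by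
  have h := contr_M0 P₂ (th s) (nv s) hV x
  simp only [H, mul_zero, Finset.sum_const_zero] at h
  have c1 : ct (nv s) V = p := by
    funext y
    simp only [ct, hVp]
    have := W1.nv_nv hs
    calc ∑ i, nv s i * (p y * nv s i) = p y * ∑ i, nv s i * nv s i := by
          rw [Finset.mul_sum]; exact Finset.sum_congr rfl fun i _ => by ring
      _ = p y := by rw [this, mul_one]
  have c2 : ct (th s) V x = 0 := by
    simp only [ct, hVp]
    have := W1.th_nv s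
    calc ∑ i, th s i * (p x * nv s i) = p x * ∑ i, th s i * nv s i := by
          rw [Finset.mul_sum]; exact Finset.sum_congr rfl fun i _ => by ring
      _ = 0 := by rw [this, mul_zero]
  rw [c1, c2, hV0] at h
  have h1 := DD_mu P₂ (th s) x
  simp only [map_mul, map_ofNat, ev_dv]
  show 2 * DD (th s) p x = DD (th s) (cf P₂.m) x * (P₂.mu x : ℂ) * p x
  linear_combination -h - p x * h1

include hV0 hp hVp hV' in
theorem ident_E5 {x : R3} (H : ∀ i, M0 (th s) (A4 P₂) V' i x = P0 (A4 P₂) (B4 P₂) V i x) :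
    ev x (2 * dv (th s) (mk (hV' none)))
      = ev x (-(2 * kS P₂) * (mk (contDiff_ct hV' (th s)) - dv (nv s) (mk hp)
          - mk hp * dv (nv s) (mS P₂) * uS P₂)
        - mk hp * dv (nv s) (mS P₂) * uS P₂ * uS P₂) := by
  have h := H none
  rw [M0_none, P0_none P₂ hV0 hp hVp] at h
  have h1 := DD_mu' P₂ (nv s) x
  have h2 := kap_c P₂ x
  have h3 := cc_c P₂ x
  have h4 : (P₂.m x : ℂ) * (P₂.mu x : ℂ) = 1 := by exact_mod_cast CalcA.m_mul_mu P₂ x
  simp only [map_mul, map_sub, map_neg, map_ofNat, ev_dv]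
  show 2 * DD (th s) (V' none) x = -(2 * (P₂.kap x : ℂ)) * (ct (th s) V' x - DD (nv s) p x
      - p x * DD (nv s) (cf P₂.m) x * (P₂.mu x : ℂ))
    - p x * DD (nv s) (cf P₂.m) x * (P₂.mu x : ℂ) * (P₂.mu x : ℂ)
  rw [h1, ← h2, h3] at h
  linear_combination h + 2 * (P₂.kap x : ℂ) * p x * DD (nv s) (cf P₂.m) x * (P₂.mu x : ℂ) * h4

include hV0 hp hVp hV' in
theorem ident_E6 {x : R3} (H : ∀ i, M0 (th s) (A4 P₂) V' i x = P0 (A4 P₂) (B4 P₂) V i x) :
    ev x (2 * dv (th s) (mk (contDiff_ct hV' (th s))))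
      = ev x (2 * mk (hV' none) * dv (th s) (dv (th s) (mS P₂))
        + dv (nv s) (mk hp) * dv (th s) (mS P₂) * uS P₂
        + mk hp * (dv (th s) (dv (nv s) (mS P₂)) * uS P₂
          - 2 * dv (th s) (mS P₂) * dv (nv s) (mS P₂) * uS P₂ * uS P₂)) := by
  have h := contr_M0 P₂ (th s) (th s) hV' x
  simp only [H] at h
  rw [contr_P0 P₂ (W1.th_nv s) hV0 hp hVp] at h
  have h1 := DD_mu P₂ (th s) x
  have h2 := DD_DD_mu P₂ (th s) (nv s) x
  simp only [map_mul, map_sub, map_add, map_ofNat, ev_dv, coe_dv]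
  show 2 * DD (th s) (ct (th s) V') x = 2 * V' none x * DD (th s) (DD (th s) (cf P₂.m)) x
    + DD (nv s) p x * DD (th s) (cf P₂.m) x * (P₂.mu x : ℂ)
    + p x * (DD (th s) (DD (nv s) (cf P₂.m)) x * (P₂.mu x : ℂ)
      - 2 * DD (th s) (cf P₂.m) x * DD (nv s) (cf P₂.m) x * (P₂.mu x : ℂ) * (P₂.mu x : ℂ))
  linear_combination -h - DD (nv s) p x * h1 - p x * h2

include hs hU hV hV' hp hV0 hVp in
theorem ident {x : R3} (HU : ∀ᶠ y in 𝓝 x, ∀ i, M0 (th s) (A4 P₁) U i y = 0)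
    (HV : ∀ᶠ y in 𝓝 x, ∀ i, M0 (th s) (A4 P₂) V i y = 0)
    (HV' : ∀ᶠ y in 𝓝 x, ∀ i, M0 (th s) (A4 P₂) V' i y = P0 (A4 P₂) (B4 P₂) V i y) :
    q2 P₁ P₂ (th s) U V' x + q1 P₁ P₂ (th s) U V x
      = ev x (dv (th s) (TT (th s) (nv s) (mS P₁) (mS P₂) (uS P₁) (uS P₂) (mk (hU none))
            (mk (contDiff_ct hU (th s))) (mk (contDiff_ct hU (nv s))) (mk (hV' none))
            (mk (contDiff_ct hV' (th s))) (mk hp))
          + dv (nv s) (CC (th s) (mS P₁) (mS P₂) (uS P₁) (uS P₂) (kS P₁) (mk (hU none))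
            (mk (contDiff_ct hU (th s))) (mk hp))) := by
  have E1 : ∀ᶠ y in 𝓝 x, ev y (dv (th s) (mk (hU none)))
      = ev y (-(kS P₁ * mk (contDiff_ct hU (th s)))) := by
    filter_upwards [HU] with y hy using ident_E1 P₁ hU (hy none)
  have E4 : ∀ᶠ y in 𝓝 x, ev y (2 * dv (th s) (mk hp))
      = ev y (dv (th s) (mS P₂) * uS P₂ * mk hp) := by
    filter_upwards [HV] with y hy using ident_E4 P₂ hs hV hp hV0 hVp hy
  have E5 : ∀ᶠ y in 𝓝 x, ev y (2 * dv (th s) (mk (hV' none)))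
      = ev y (-(2 * kS P₂) * (mk (contDiff_ct hV' (th s)) - dv (nv s) (mk hp)
          - mk hp * dv (nv s) (mS P₂) * uS P₂)
        - mk hp * dv (nv s) (mS P₂) * uS P₂ * uS P₂) := by
    filter_upwards [HV'] with y hy using ident_E5 P₂ hV' hp hV0 hVp hy
  have hu := HU.self_of_nhds
  have hv := HV.self_of_nhds
  have hv' := HV'.self_of_nhds
  have E2 := ident_E2 P₁ hU hu
  have E3 := ident_E3 P₁ hU hu
  have E6 := ident_E6 P₂ hV' hp hV0 hVp hv'
  have key := alg_Sm (th s) (nv s) (mS P₁) (mS P₂) (uS P₁) (uS P₂) (kS P₁) (kS P₂)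
    (mk (hU none)) (mk (contDiff_ct hU (th s))) (mk (contDiff_ct hU (nv s))) (mk (hV' none))
    (mk (contDiff_ct hV' (th s))) (mk hp) (mS_uS P₁) (mS_uS P₂) x E1 E2 E3 E4 E5 E6
  rw [TT, CC, ← key]
  have e1 := E1.self_of_nhds
  have e5 := E5.self_of_nhds
  rw [q2_eq P₁ P₂ (W1.th_th s) hU hV' x, q1_eq P₁ P₂ (W1.th_nv s) hU hV0 hp hVp x]
  simp only [map_mul, map_sub, map_add, map_neg, map_ofNat, map_one, ev_dv, coe_dv] at e1 e5 ⊢
  have r1 : ev x (mS P₁) = (P₁.m x : ℂ) := rfl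
  have r2 : ev x (mS P₂) = (P₂.m x : ℂ) := rfl
  have r3 : ev x (uS P₁) = (P₁.mu x : ℂ) := rfl
  have r4 : ev x (uS P₂) = (P₂.mu x : ℂ) := rfl
  have r5 : ev x (kS P₁) = (P₁.kap x : ℂ) := rfl
  have r6 : ev x (kS P₂) = (P₂.kap x : ℂ) := rfl
  have r7 : (mS P₁).1 = cf P₁.m := rfl
  have r8 : (mS P₂).1 = cf P₂.m := rfl
  simp only [r1, r2, r3, r4, r5, r6, r7, r8, ev_apply] at e1 e5 ⊢
  have hm1 : (P₁.m x : ℂ) * (P₁.mu x : ℂ) = 1 := by exact_mod_cast CalcA.m_mul_mu P₁ x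
  have hm2 : (P₂.m x : ℂ) * (P₂.mu x : ℂ) = 1 := by exact_mod_cast CalcA.m_mul_mu P₂ x
  have hc1 := cc_lam_c P₁ x
  have hc2 := cc_lam_c P₂ x
  rw [cc_c] at hc1 hc2
  have k2 := alg2 (P₁.lam x) (P₂.lam x) (P₁.mu x) (P₂.mu x) (P₁.m x) (P₂.m x) (P₁.kap x)
    (P₂.kap x) (ct (th s) U x) (ct (th s) V' x) (DD (th s) (U none) x) (DD (th s) (V' none) x)
    (p x) (DD (nv s) p x) (DD (nv s) (cf P₂.m) x) hm1 hm2 hc1 hc2 e1 e5
  simp only [dlam, dmu]
  linear_combination k2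

end ident

end Crest.Agent.R080.W1Alg
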