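import Crest.Agent.R080.W1LiftA

/-!
Row 80 (S0107), T13b: the lifts `Y ↦ V, V'` and `W1.t_Lift`. (helper80)
-/

set_option autoImplicit false

open MeasureTheory Filter
open scoped ContDiff Topology ComplexConjugate
open Crest.AnalysisR.VecCalc3 Crest.AnalysisR.PDE.Elasticity

noncomputable section
namespace Crest.Agent.R080.W1L

open Crest.Agent.R080.W1 (nv et al be)
open Crest.Agent.R080.W1 (th_th th_nv nv_nv th_et nv_et et_et decomp th_eq al_be)

/-! ### the second order operator on fields `(p e, 0)` with constant direction -/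

/-- the field `(p e, 0)` -/
def shear (p : R3 → ℂ) (e : Fin 3 → ℂ) : Option (Fin 3) → R3 → ℂ
  | none => fun _ => 0
  | some k => fun x => p x * e k

lemma contDiff_shear {p : R3 → ℂ} (hp : ContDiff ℝ ∞ p) (e : Fin 3 → ℂ) (i : Option (Fin 3)) :
    ContDiff ℝ ∞ (shear p e i) := by
  cases i with
  | none => exact contDiff_const
  | some k => exact hp.mul contDiff_const

lemma pd_mul_const {p : R3 → ℂ} (hp : ContDiff ℝ ∞ p) (c : ℂ) (j : Fin 3) :
    pd j (fun y => p y * c) = fun y => pd j p y * c := by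
  funext y
  have : (fun y => p y * c) = fun y => c * p y := by funext y; ring
  rw [this, Gg.pd_const_mul (diff_of hp)]
  ring

lemma Lap_mul_const {p : R3 → ℂ} (hp : ContDiff ℝ ∞ p) (c : ℂ) (x : R3) :
    Lap (fun y => p y * c) x = Lap p x * c := by
  unfold Lap
  simp_rw [pd_mul_const hp, pd_mul_const (Gg.contDiff_pd hp _)]
  rw [Finset.sum_mul]

lemma pd_zero (j : Fin 3) (x : R3) : pd j (fun _ => (0 : ℂ)) x = 0 := Gg.pd_const 0 j x

lemma P0_shear_some (P : Moduli) {p : R3 → ℂ} (hp : ContDiff ℝ ∞ p) (e : Fin 3 → ℂ) (k : Fin 3)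
    (x : R3) :
    P0 (A4 P) (B4 P) (shear p e) (some k) x = Lap p x * e k
      + (P.m x : ℂ) * (∑ j, pd j (cf P.mu) x * pd j p x) * e k
      - (P.m x : ℂ) * pd k (cf P.mu) x * DD e p x
      - (P.m x : ℂ) * p x * ∑ l, e l * pd k (pd l (cf P.mu)) x := by
  unfold P0
  have h1 : Lap (shear p e (some k)) x = Lap p x * e k := Lap_mul_const hp _ x
  have h2 : ∀ l j, pd j (shear p e (some l)) x = pd j p x * e l := fun l j =>
    congrFun (pd_mul_const hp (e l) j) x
  have h3 : ∀ j, pd j (shear p e none) x = 0 := fun j => pd_zero j x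
  rw [h1]
  simp only [Fintype.sum_option, h2, h3, mul_zero, zero_add]
  have h4 : shear p e none x = 0 := rfl
  have h5 : ∀ l, shear p e (some l) x = p x * e l := fun _ => rfl
  simp only [h4, h5, A4, B4, DD, Fin.sum_univ_three]
  fin_cases k <;> simp <;> ring

lemma P0_shear_none (P : Moduli) {p : R3 → ℂ} (hp : ContDiff ℝ ∞ p) (e : Fin 3 → ℂ) (x : R3) :
    P0 (A4 P) (B4 P) (shear p e) none x = 2 * (P.kap x : ℂ) * DD e p x
      + (P.cc x : ℂ) * p x * DD e (cf P.mu) x := by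
  rw [← cc_lam_mu]
  unfold P0
  have h1 : Lap (shear p e none) x = 0 := by
    show Lap (fun _ => (0 : ℂ)) x = 0
    unfold Lap
    have : ∀ j : Fin 3, pd j (fun _ : R3 => (0 : ℂ)) = fun _ => 0 := fun j =>
      funext fun y => pd_zero j y
    simp [this]
  have h2 : ∀ l j, pd j (shear p e (some l)) x = pd j p x * e l := fun l j =>
    congrFun (pd_mul_const hp (e l) j) x
  have h3 : ∀ j, pd j (shear p e none) x = 0 := fun j => pd_zero j x
  rw [h1]
  simp only [Fintype.sum_option, h2, h3, mul_zero, zero_add]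
  have h4 : shear p e none x = 0 := rfl
  have h5 : ∀ l, shear p e (some l) x = p x * e l := fun _ => rfl
  simp only [h4, h5, A4, B4, DD, Fin.sum_univ_three]
  simp
  ring

lemma P0_shear_contr (P : Moduli) {p : R3 → ℂ} (hp : ContDiff ℝ ∞ p) (e f : Fin 3 → ℂ) (x : R3) :
    ∑ k, f k * P0 (A4 P) (B4 P) (shear p e) (some k) x
      = (∑ k, f k * e k) * (Lap p x + (P.m x : ℂ) * ∑ j, pd j (cf P.mu) x * pd j p x)
        - (P.m x : ℂ) * DD f (cf P.mu) x * DD e p x
        - (P.m x : ℂ) * p x * DD f (DD e (cf P.mu)) x := by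
  simp_rw [P0_shear_some P hp, DD_DD (smooth_mu P)]
  simp only [DD, Fin.sum_univ_three]
  ring

/-! ### the lift -/

/-- `h = s₁ Y₀ - s₀ Y₁` -/
def hY (s : Fin 2 → ℂ) (Y : Option (Fin 2) → R3 → ℂ) (x : R3) : ℂ :=
  s 1 * Y (some 0) x - s 0 * Y (some 1) x

/-- `p = √m h` -/
def pY (P : Moduli) (s : Fin 2 → ℂ) (Y : Option (Fin 2) → R3 → ℂ) (x : R3) : ℂ :=
  (P.sm x : ℂ) * (s 1 * Y (some 0) x - s 0 * Y (some 1) x)

/-- `Ĝ = - (α Y₁ - β Y₀)/√m` -/
def GY (P : Moduli) (s : Fin 2 → ℂ) (Y : Option (Fin 2) → R3 → ℂ) (x : R3) : ℂ :=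
  -(al s * Y (some 1) x - be s * Y (some 0) x) / (P.sm x : ℂ)

/-- `θ·w'` -/
def AY (P : Moduli) (s : Fin 2 → ℂ) (Y : Option (Fin 2) → R3 → ℂ) (x : R3) : ℂ :=
  Y none x + GY P s Y x * DD (th s) (cf P.m) x + DD (nv s) (pY P s Y) x

section
variable (P : Moduli) (s : Fin 2 → ℂ) {Y : Option (Fin 2) → R3 → ℂ} (hY' : ∀ i, ContDiff ℝ ∞ (Y i))
include hY'

lemma smooth_hY : ContDiff ℝ ∞ (hY s Y) := by
  unfold hY
  exact (contDiff_const.mul (hY' _)).sub (contDiff_const.mul (hY' _))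

lemma smooth_pY : ContDiff ℝ ∞ (pY P s Y) := (smooth_sm P).mul (smooth_hY s hY')

lemma smooth_GY : ContDiff ℝ ∞ (GY P s Y) := by
  unfold GY
  exact Gg.contDiff_cdiv ((contDiff_const.mul (hY' _)).sub (contDiff_const.mul (hY' _))).neg
    (smooth_sm P) (csm_ne P)

lemma smooth_AY : ContDiff ℝ ∞ (AY P s Y) := by
  unfold AY
  exact ((hY' _).add ((smooth_GY P s hY').mul (Gg.contDiff_DD (smooth_m P) _))).add
    (Gg.contDiff_DD (smooth_pY P s hY') _)

lemma DD_hY (θ : Fin 3 → ℂ) (x : R3) :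
    DD θ (hY s Y) x = s 1 * DD θ (Y (some 0)) x - s 0 * DD θ (Y (some 1)) x := by
  have := Gg.DD_sub (f := fun y => s 1 * Y (some 0) y) (g := fun y => s 0 * Y (some 1) y)
    (diff_of (contDiff_const.mul (hY' _))) (diff_of (contDiff_const.mul (hY' _))) θ x
  rw [Gg.DD_const_mul (diff_of (hY' _)), Gg.DD_const_mul (diff_of (hY' _))] at this
  exact this

lemma DD_GY (θ : Fin 3 → ℂ) (x : R3) :
    DD θ (GY P s Y) x = -(al s * DD θ (Y (some 1)) x - be s * DD θ (Y (some 0)) x) / (P.sm x : ℂ)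
      + (al s * Y (some 1) x - be s * Y (some 0) x) * DD θ (cf P.m) x / (2 * (P.sm x : ℂ) ^ 3) := by
  have hne := csm_ne P x
  have h1 : (fun y => (P.sm y : ℂ) * GY P s Y y)
      = fun y => (be s * Y (some 0) y - al s * Y (some 1) y) := by
    funext y
    have := csm_ne P y
    simp only [GY]
    field_simp
    ring
  have h2 := Gg.DD_mul (f := fun y => (P.sm y : ℂ)) (g := GY P s Y) (diff_of (smooth_sm P))
    (diff_of (smooth_GY P s hY')) θ x
  rw [h1, Gg.DD_sub (f := fun y => be s * Y (some 0) y) (g := fun y => al s * Y (some 1) y)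
    (diff_of (contDiff_const.mul (hY' _))) (diff_of (contDiff_const.mul (hY' _))),
    Gg.DD_const_mul (diff_of (hY' _)), Gg.DD_const_mul (diff_of (hY' _))] at h2
  have h3 : DD θ (fun y => (P.sm y : ℂ)) x = DD θ (cf P.m) x / (2 * (P.sm x : ℂ)) := DD_sm P θ x
  rw [h3] at h2
  simp only [GY] at h2 ⊢
  field_simp at h2 ⊢
  linear_combination -h2

lemma DD_pY (θ : Fin 3 → ℂ) (x : R3) :
    DD θ (pY P s Y) x = (P.sm x : ℂ) * DD θ (hY s Y) x
      + hY s Y x * DD θ (cf P.m) x / (2 * (P.sm x : ℂ)) := by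
  have h2 := Gg.DD_mul (f := fun y => (P.sm y : ℂ)) (g := hY s Y) (diff_of (smooth_sm P))
    (diff_of (smooth_hY s hY')) θ x
  have h3 : DD θ (fun y => (P.sm y : ℂ)) x = DD θ (cf P.m) x / (2 * (P.sm x : ℂ)) := DD_sm P θ x
  rw [h3] at h2
  have h4 : DD θ (pY P s Y) x = _ := h2
  rw [h4]
  ring

end

/-- second derivatives of `√m` -/
lemma DD_DD_sm (P : Moduli) (e θ : Fin 3 → ℂ) (x : R3) :
    DD e (DD θ (cf P.sm)) x = DD e (DD θ (cf P.m)) x / (2 * (P.sm x : ℂ))
      - DD e (cf P.m) x * DD θ (cf P.m) x / (4 * (P.sm x : ℂ) ^ 3) := by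
  have hne := csm_ne P x
  have hs := smooth_sm P
  have hsθ := Gg.contDiff_DD hs θ
  have h1 : DD θ (cf P.m) = fun y => 2 * (cf P.sm y * DD θ (cf P.sm) y) := by
    funext y
    rw [DD_m]
    ring
  have h2 : DD e (DD θ (cf P.m)) x = 2 * ((P.sm x : ℂ) * DD e (DD θ (cf P.sm)) x
      + DD θ (cf P.sm) x * DD e (cf P.sm) x) := by
    rw [h1, Gg.DD_const_mul (diff_of (hs.mul hsθ)), Gg.DD_mul (diff_of hs) (diff_of hsθ)]
  rw [DD_sm P θ x, DD_sm P e x] at h2
  rw [h2]
  field_simp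
  ring

lemma DD_DD_pY (P : Moduli) (s : Fin 2 → ℂ) {Y : Option (Fin 2) → R3 → ℂ}
    (hY' : ∀ i, ContDiff ℝ ∞ (Y i)) (θ e : Fin 3 → ℂ) (x : R3) (h1 : DD θ (hY s Y) x = 0)
    (h2 : DD θ (DD e (hY s Y)) x = 0) :
    DD θ (DD e (pY P s Y)) x = DD θ (cf P.m) x / (2 * (P.sm x : ℂ)) * DD e (hY s Y) x
      + hY s Y x * DD θ (DD e (cf P.sm)) x := by
  have hs := smooth_sm P
  have hh := smooth_hY s hY'
  have hse := Gg.contDiff_DD hs e
  have hhe := Gg.contDiff_DD hh e
  have h0 : DD e (pY P s Y) = fun y => cf P.sm y * DD e (hY s Y) y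
      + hY s Y y * DD e (cf P.sm) y := by
    funext y
    exact Gg.DD_mul (f := fun y => (P.sm y : ℂ)) (g := hY s Y) (diff_of hs) (diff_of hh) e y
  rw [h0, Gg.DD_add (diff_of (hs.mul hhe)) (diff_of (hh.mul hse)),
    Gg.DD_mul (diff_of hs) (diff_of hhe), Gg.DD_mul (diff_of hh) (diff_of hse), h1, h2, DD_sm]
  ring

lemma dotc_shear (f e : Fin 3 → ℂ) (p : R3 → ℂ) :
    dotc f (shear p e) = fun x => (∑ k, f k * e k) * p x := by
  funext x
  simp only [dotc, shear, Finset.sum_mul]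
  exact Finset.sum_congr rfl fun k _ => by ring

end Crest.Agent.R080.W1L

namespace Crest.Agent.R080.W1

open Crest.Agent.R080.W1L

/-- T13b: the lift of solutions of the reduced systems to the 4×4 systems -/
theorem t_Lift (hRI : StmtRI) : StmtLift := by
  intro G P₁ P s hs X Y hX hY' hsysX hsysY
  obtain ⟨U, hU, hU0, hUa, hUb, hUM⟩ := lift_U hRI G P₁ hs hX hsysX
  have hm := smooth_m P
  have hsm := smooth_sm P
  have hmu := smooth_mu P
  have hh := smooth_hY s hY'
  have hp := smooth_pY P s hY'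
  have hG := smooth_GY P s hY'
  have hA := smooth_AY P s hY'
  obtain ⟨R, hR, hball⟩ := Gg.dom_exists_ball G
  have hballE : ∀ᶠ x in 𝓝ˢ (closure G.Ω), ‖x‖ < R := by
    have : Metric.ball (0 : R3) R ∈ 𝓝ˢ (closure G.Ω) :=
      Metric.isOpen_ball.mem_nhdsSet.2 hball
    filter_upwards [this] with x hx
    simpa using hx
  -- `D h = 0` near the closure
  have hh0 : ∀ᶠ x in 𝓝ˢ (closure G.Ω), DD (th s) (hY s Y) x = 0 := by
    filter_upwards [hsysY] with x hx
    have h0 := hx (some 0)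
    have h1 := hx (some 1)
    simp only [Fintype.sum_option, Fin.sum_univ_two, Amat] at h0 h1
    rw [DD_hY s hY', h0, h1]
    ring
  have hh1 : ∀ᶠ x in 𝓝ˢ (closure G.Ω), DD (th s) (DD (nv s) (hY s Y)) x = 0 := by
    filter_upwards [hh0.eventually_nhdsSet] with x hx
    rw [DD_comm hh]
    have h1 : DD (th s) (hY s Y) =ᶠ[𝓝 x] fun _ => 0 := hx
    rw [Gg.DD_congr_of_eventuallyEq h1, Gg.DD_const]
  -- the free components of `V'`
  have hsm2 : ∀ y, (2 * ((P.sm y : ℂ) ^ 2)) ≠ 0 := fun y =>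
    mul_ne_zero two_ne_zero (pow_ne_zero _ (csm_ne P y))
  have hden : ContDiff ℝ ∞ (fun y => (2 * ((P.sm y : ℂ) ^ 2))) := contDiff_const.mul (hsm.pow 2)
  have hgmp : ContDiff ℝ ∞ (fun y => ∑ j, pd j (cf P.mu) y * pd j (pY P s Y) y) :=
    ContDiff.sum fun j _ => (Gg.contDiff_pd hmu j).mul (Gg.contDiff_pd hp j)
  have hsol : ∀ e : Fin 3 → ℂ, ∃ b : R3 → ℂ, ContDiff ℝ ∞ b ∧ ∀ x : R3, ‖x‖ < R →
      DD (th s) b x = DD (th s) (cf P.m) x / (2 * ((P.sm x : ℂ) ^ 2)) * b x
        + ((1 / 2) * ((∑ k, e k * nv s k) * (Lap (pY P s Y) x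
              + (P.m x : ℂ) * ∑ j, pd j (cf P.mu) x * pd j (pY P s Y) x)
            - (P.m x : ℂ) * DD e (cf P.mu) x * DD (nv s) (pY P s Y) x
            - (P.m x : ℂ) * pY P s Y x * DD e (DD (nv s) (cf P.mu)) x)
          - DD e (cf P.m) x / (2 * ((P.sm x : ℂ) ^ 2)) * AY P s Y x
          + DD e (DD (th s) (cf P.m)) x * GY P s Y x) := by
    intro e
    refine solveD hRI (Gg.isNull_th hs) (Gg.contDiff_cdiv (Gg.contDiff_DD hm _) hden hsm2)
      (φ := fun x => ((1 / 2) * ((∑ k, e k * nv s k) * (Lap (pY P s Y) x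
              + (P.m x : ℂ) * ∑ j, pd j (cf P.mu) x * pd j (pY P s Y) x)
            - (P.m x : ℂ) * DD e (cf P.mu) x * DD (nv s) (pY P s Y) x
            - (P.m x : ℂ) * pY P s Y x * DD e (DD (nv s) (cf P.mu)) x)
          - DD e (cf P.m) x / (2 * ((P.sm x : ℂ) ^ 2)) * AY P s Y x
          + DD e (DD (th s) (cf P.m)) x * GY P s Y x)) ?_ R hR
    refine ContDiff.add (ContDiff.sub (contDiff_const.mul (ContDiff.sub (ContDiff.sub
      (contDiff_const.mul ((Gg.contDiff_Lap hp).add (hm.mul hgmp))) ?_) ?_)) ?_) ?_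
    · exact (hm.mul (Gg.contDiff_DD hmu _)).mul (Gg.contDiff_DD hp _)
    · exact (hm.mul hp).mul (Gg.contDiff_DD (Gg.contDiff_DD hmu _) _)
    · exact (Gg.contDiff_cdiv (Gg.contDiff_DD hm _) hden hsm2).mul hA
    · exact (Gg.contDiff_DD (Gg.contDiff_DD hm _) _).mul hG
  obtain ⟨b, hb, hbeq⟩ := hsol (nv s)
  obtain ⟨c, hc, hceq⟩ := hsol (et s)
  have hV := contDiff_shear hp (nv s)
  have hV' := contDiff_ampl s hG hA hb hc
  refine ⟨U, shear (pY P s Y) (nv s), ampl s (GY P s Y) (AY P s Y) b c, hU, hV, hV',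
    hUM, fun _ => rfl, ?_, ?_, fun x => by rw [hU0], fun x => congrFun hUa x,
    fun x => congrFun hUb x, fun _ _ => rfl, fun _ => rfl,
    fun x => congrFun (dotc_th_ampl hs _ _ _ _) x⟩
  · -- `M0 V = 0`
    filter_upwards [hh0] with x hx0
    have hne := csm_ne P x
    have hDp := DD_pY P s hY' (th s) x
    rw [hx0] at hDp
    have hpx : pY P s Y x = (P.sm x : ℂ) * hY s Y x := rfl
    refine M0_of_contr hs (fun _ => 0) x ?_ ?_ ?_ ?_
    · rw [M0_none, dotc_shear, th_nv]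
      have : DD (th s) (shear (pY P s Y) (nv s) none) x = 0 := Gg.DD_const 0 _ _
      rw [this]
      ring
    · rw [M0_contr P _ _ hV, dotc_shear, th_nv]
      have h2 : shear (pY P s Y) (nv s) none x = 0 := rfl
      have h3 : DD (th s) (fun x => (0 : ℂ) * pY P s Y x) x = 0 := by
        rw [Gg.DD_const_mul (diff_of hp)]
        ring
      rw [h2, h3]
      simp
    · rw [M0_contr P _ _ hV, dotc_shear, dotc_shear, th_nv, nv_nv hs]
      have h2 : shear (pY P s Y) (nv s) none x = 0 := rfl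
      have h3 : DD (th s) (fun x => (1 : ℂ) * pY P s Y x) x = DD (th s) (pY P s Y) x := by
        rw [Gg.DD_const_mul (diff_of hp)]
        ring
      rw [h2, h3, hDp]
      beta_reduce
      rw [hpx]
      simp only [mul_zero, Finset.sum_const_zero]
      field_simp
      ring
    · rw [M0_contr P _ _ hV, dotc_shear, dotc_shear, th_nv, et_nv]
      have h2 : shear (pY P s Y) (nv s) none x = 0 := rfl
      have h3 : DD (th s) (fun x => (0 : ℂ) * pY P s Y x) x = 0 := by
        rw [Gg.DD_const_mul (diff_of hp)]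
        ring
      rw [h2, h3]
      simp
  · -- `M0 V' = P0 V`
    filter_upwards [hh0, hh1, hsysY, hballE] with x hx0 hx1 hx hxR
    have hne := csm_ne P x
    have hg := hx none
    have h0 := hx (some 0)
    have h1 := hx (some 1)
    simp only [Fintype.sum_option, Fin.sum_univ_two, Amat, cm_eq] at hg h0 h1
    have hth := DD_th_split s (cf P.m) x
    have hnv := DD_nv_split s (cf P.m) x
    have hab := al_be hs
    have hDG := DD_GY P s hY' (th s) x
    have hDp := DD_pY P s hY' (nv s) x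
    have hpx : pY P s Y x = (P.sm x : ℂ) * hY s Y x := rfl
    have hDA : DD (th s) (AY P s Y) x = DD (th s) (Y none) x
        + (GY P s Y x * DD (th s) (DD (th s) (cf P.m)) x
          + DD (th s) (cf P.m) x * DD (th s) (GY P s Y) x)
        + DD (th s) (DD (nv s) (pY P s Y)) x := by
      have e1 := Gg.contDiff_DD hm (th s)
      have e2 := Gg.contDiff_DD hp (nv s)
      have h2 := Gg.DD_add (f := fun y => Y none y + GY P s Y y * DD (th s) (cf P.m) y)
        (g := DD (nv s) (pY P s Y)) (diff_of ((hY' _).add (hG.mul e1))) (diff_of e2) (th s) x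
      rw [Gg.DD_add (diff_of (hY' _)) (diff_of (hG.mul e1)),
        Gg.DD_mul (diff_of hG) (diff_of e1)] at h2
      exact h2
    have hcc : (P.cc x : ℂ) = 1 - 2 * (P.kap x : ℂ) * (P.sm x : ℂ) ^ 2 := by
      have := cc_kap P x
      rw [cm_eq] at this
      linear_combination this
    have hhx : hY s Y x = s 1 * Y (some 0) x - s 0 * Y (some 1) x := rfl
    -- the contraction `Z = ν_Y · ∇m`
    have hZ : DD (nu s 0) (cf P.m) x * Y (some 0) x + DD (nu s 1) (cf P.m) x * Y (some 1) x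
        = (al s * Y (some 1) x - be s * Y (some 0) x) * DD (th s) (cf P.m) x
          + hY s Y x * DD (nv s) (cf P.m) x := by
      rw [hth, hnv, hhx]
      linear_combination (-(DD (nu s 0) (cf P.m) x * Y (some 0) x
        + DD (nu s 1) (cf P.m) x * Y (some 1) x)) * hab
    have hDg : al s * DD (th s) (Y (some 1)) x - be s * DD (th s) (Y (some 0)) x
        = (P.kap x : ℂ) * (P.sm x : ℂ) * Y none x
          - ((P.kap x : ℂ) - 1 / (2 * (P.sm x : ℂ) ^ 2)) *
            ((al s * Y (some 1) x - be s * Y (some 0) x) * DD (th s) (cf P.m) x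
              + hY s Y x * DD (nv s) (cf P.m) x) := by
      rw [← hZ, h0, h1]
      linear_combination ((P.kap x : ℂ) * (P.sm x : ℂ) * Y none x
          - ((P.kap x : ℂ) - 1 / (2 * (P.sm x : ℂ) ^ 2)) *
            (DD (nu s 0) (cf P.m) x * Y (some 0) x
              + DD (nu s 1) (cf P.m) x * Y (some 1) x)) * hab
    have hDYg : DD (th s) (Y none) x = (P.kap x : ℂ) * DD (th s) (cf P.m) x * Y none x
        - (P.kap x : ℂ) / (P.sm x : ℂ) * DD (th s) (cf P.m) x *
            ((al s * Y (some 1) x - be s * Y (some 0) x) * DD (th s) (cf P.m) x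
              + hY s Y x * DD (nv s) (cf P.m) x) := by
      rw [← hZ, hg]
      ring
    rw [hDg] at hDG
    refine M0_of_contr hs (fun i => P0 (A4 P) (B4 P) (shear (pY P s Y) (nv s)) i x) x ?_ ?_ ?_ ?_
    · rw [M0_none, P0_shear_none P hp, dotc_th_ampl hs, DD_mu]
      show 2 * DD (th s) (GY P s Y) x + 2 * (P.kap x : ℂ) * AY P s Y x = _
      rw [hDG, hcc]
      simp only [AY]
      rw [hDp, hpx]
      simp only [GY]
      field_simp
      ring
    · rw [M0_contr P _ _ hV', P0_shear_contr P hp, dotc_th_ampl hs, th_nv, DD_mu,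
        DD_DD_mu, hDA, DD_DD_pY P s hY' _ _ x hx0 hx1, DD_DD_sm, hDG, hDYg, hDp, hpx, cm_eq]
      show 2 * (_ + (GY P s Y x * _ + _) + _) - _ * AY P s Y x + _ * AY P s Y x - _ * GY P s Y x = _
      simp only [AY, GY]
      field_simp
      ring
    · rw [M0_contr P _ _ hV', P0_shear_contr P hp, dotc_th_ampl hs, dotc_nv_ampl hs]
      show 2 * DD (th s) b x - DD (th s) (cf P.m) x / (P.sm x : ℂ) ^ 2 * b x
        + DD (nv s) (cf P.m) x / (P.sm x : ℂ) ^ 2 * AY P s Y x
        - 2 * DD (nv s) (DD (th s) (cf P.m)) x * GY P s Y x = _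
      rw [hbeq x hxR]
      field_simp
      ring
    · rw [M0_contr P _ _ hV', P0_shear_contr P hp, dotc_th_ampl hs, dotc_et_ampl hs]
      show 2 * DD (th s) c x - DD (th s) (cf P.m) x / (P.sm x : ℂ) ^ 2 * c x
        + DD (et s) (cf P.m) x / (P.sm x : ℂ) ^ 2 * AY P s Y x
        - 2 * DD (et s) (DD (th s) (cf P.m)) x * GY P s Y x = _
      rw [hceq x hxR]
      field_simp
      ring

end Crest.Agent.R080.W1
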