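import Crest.Agent.R080.W1Defs
import Crest.Agent.R080.ModBasic

/-!
Row 80 (S0107), T13b: lifts of solutions of the reduced 3×3 systems to amplitudes of the 4×4
system. (helper80)
-/

set_option autoImplicit false

open MeasureTheory Filter
open scoped ContDiff Topology ComplexConjugate
open Crest.AnalysisR.VecCalc3 Crest.AnalysisR.PDE.Elasticity

noncomputable section
namespace Crest.Agent.R080.W1L

open Crest.Agent.R080.W1 (nv et al be)

/-! ### frame -/

open Crest.Agent.R080.W1 (th_th th_nv nv_nv th_et nv_et et_et decomp th_eq al_be)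

lemma nv_th (s : Fin 2 → ℂ) : ∑ k, nv s k * th s k = 0 := by
  simpa only [mul_comm] using th_nv s
lemma et_th {s : Fin 2 → ℂ} (hs : s ≠ 0) : ∑ k, et s k * th s k = 1 := by
  simpa only [mul_comm] using th_et hs
lemma et_nv (s : Fin 2 → ℂ) : ∑ k, et s k * nv s k = 0 := by
  simpa only [mul_comm] using nv_et s

lemma frame_zero {s : Fin 2 → ℂ} (hs : s ≠ 0) (v : Fin 3 → ℂ) (h1 : ∑ k, th s k * v k = 0)
    (h2 : ∑ k, nv s k * v k = 0) (h3 : ∑ k, et s k * v k = 0) (i : Fin 3) : v i = 0 := by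
  rw [decomp hs v i, h1, h2, h3]
  ring

/-- `e · w` for a constant vector `e` -/
def dotc (e : Fin 3 → ℂ) (U : Option (Fin 3) → R3 → ℂ) (x : R3) : ℂ := ∑ k, e k * U (some k) x


lemma diff_of {f : R3 → ℂ} (hf : ContDiff ℝ ∞ f) : Differentiable ℝ f :=
  hf.differentiable (by simp)

lemma contDiff_dotc (e : Fin 3 → ℂ) {U : Option (Fin 3) → R3 → ℂ} (hU : ∀ i, ContDiff ℝ ∞ (U i)) :
    ContDiff ℝ ∞ (dotc e U) := by
  unfold dotc
  exact ContDiff.sum fun k _ => contDiff_const.mul (hU _)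

lemma pd_sum {n : ℕ} (F : Fin n → R3 → ℂ) (hF : ∀ k, ContDiff ℝ ∞ (F k)) (j : Fin 3) (x : R3) :
    pd j (fun y => ∑ k, F k y) x = ∑ k, pd j (F k) x := by
  unfold pd
  rw [fderiv_fun_sum fun i _ => diff_of (hF i) x]
  simp

lemma DD_sum {n : ℕ} (F : Fin n → R3 → ℂ) (hF : ∀ k, ContDiff ℝ ∞ (F k)) (θ : Fin 3 → ℂ) (x : R3) :
    DD θ (fun y => ∑ k, F k y) x = ∑ k, DD θ (F k) x := by
  unfold DD
  simp_rw [pd_sum F hF, Finset.mul_sum]
  exact Finset.sum_comm

lemma DD_dotc (θ e : Fin 3 → ℂ) {U : Option (Fin 3) → R3 → ℂ} (hU : ∀ i, ContDiff ℝ ∞ (U i))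
    (x : R3) : DD θ (dotc e U) x = ∑ k, e k * DD θ (U (some k)) x := by
  unfold dotc
  rw [DD_sum (fun k y => e k * U (some k) y) (fun k => contDiff_const.mul (hU _))]
  exact Finset.sum_congr rfl fun k _ => Gg.DD_const_mul (diff_of (hU _)) _ _ _

lemma pd_dotc (j : Fin 3) (e : Fin 3 → ℂ) {U : Option (Fin 3) → R3 → ℂ}
    (hU : ∀ i, ContDiff ℝ ∞ (U i)) (x : R3) :
    pd j (dotc e U) x = ∑ k, e k * pd j (U (some k)) x := by
  unfold dotc
  rw [pd_sum (fun k y => e k * U (some k) y) (fun k => contDiff_const.mul (hU _))]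
  exact Finset.sum_congr rfl fun k _ => Gg.pd_const_mul (diff_of (hU _)) _ _ _

lemma Lap_dotc (e : Fin 3 → ℂ) {U : Option (Fin 3) → R3 → ℂ}
    (hU : ∀ i, ContDiff ℝ ∞ (U i)) (x : R3) :
    Lap (dotc e U) x = ∑ k, e k * Lap (U (some k)) x := by
  unfold Lap
  have h : ∀ j, pd j (dotc e U) = fun y => ∑ k, e k * pd j (U (some k)) y := fun j =>
    funext fun y => pd_dotc j e hU y
  simp_rw [h]
  have h2 : ∀ j, pd j (fun y => ∑ k, e k * pd j (U (some k)) y) x
      = ∑ k, e k * pd j (pd j (U (some k))) x := by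
    intro j
    rw [pd_sum (fun k y => e k * pd j (U (some k)) y)
      (fun k => contDiff_const.mul (Gg.contDiff_pd (hU _) _))]
    exact Finset.sum_congr rfl fun k _ => Gg.pd_const_mul (diff_of (Gg.contDiff_pd (hU _) _)) _ _ _
  simp_rw [h2, Finset.mul_sum]
  exact Finset.sum_comm

lemma pd_DD {f : R3 → ℂ} (hf : ContDiff ℝ ∞ f) (θ : Fin 3 → ℂ) (i : Fin 3) (x : R3) :
    pd i (DD θ f) x = ∑ j, θ j * pd i (pd j f) x := by
  rw [← Gg.DD_pd_comm hf]
  unfold DD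
  exact Finset.sum_congr rfl fun j _ => by rw [Gg.pd_pd_comm hf]

lemma DD_DD {f : R3 → ℂ} (hf : ContDiff ℝ ∞ f) (e θ : Fin 3 → ℂ) (x : R3) :
    DD e (DD θ f) x = ∑ i, ∑ j, e i * θ j * pd i (pd j f) x := by
  have : DD e (DD θ f) x = ∑ i, e i * pd i (DD θ f) x := rfl
  rw [this]
  refine Finset.sum_congr rfl fun i _ => ?_
  rw [pd_DD hf, Finset.mul_sum]
  exact Finset.sum_congr rfl fun j _ => by ring

lemma DD_comm {f : R3 → ℂ} (hf : ContDiff ℝ ∞ f) (e θ : Fin 3 → ℂ) (x : R3) :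
    DD e (DD θ f) x = DD θ (DD e f) x := by
  rw [DD_DD hf, DD_DD hf, Finset.sum_comm]
  refine Finset.sum_congr rfl fun i _ => Finset.sum_congr rfl fun j _ => ?_
  rw [Gg.pd_pd_comm hf]
  ring

/-! ### derivatives of the moduli -/

section mod
variable (P : Moduli)

lemma csm_ne (x : R3) : (P.sm x : ℂ) ≠ 0 := Complex.ofReal_ne_zero.2 (Gg.sm_ne P x)
lemma cm_eq (x : R3) : (P.m x : ℂ) = (P.sm x : ℂ) ^ 2 := by
  rw [← Gg.sm_sq P x]; push_cast; rfl
lemma cmu_eq (x : R3) : (P.mu x : ℂ) = ((P.sm x : ℂ) ^ 2)⁻¹ := by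
  rw [← cm_eq]
  have : P.mu x = (P.m x)⁻¹ := by unfold Moduli.m; rw [inv_inv]
  rw [this]; push_cast; rfl

lemma smooth_m : ContDiff ℝ ∞ (cf P.m) := Gg.contDiff_cm P
lemma smooth_sm : ContDiff ℝ ∞ (cf P.sm) := Gg.contDiff_csm P
lemma smooth_mu : ContDiff ℝ ∞ (cf P.mu) := Gg.contDiff_cmu P

lemma DD_m (e : Fin 3 → ℂ) (x : R3) :
    DD e (cf P.m) x = 2 * (P.sm x : ℂ) * DD e (cf P.sm) x := by
  have h : cf P.m = fun y => cf P.sm y * cf P.sm y := by
    funext y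
    show (P.m y : ℂ) = (P.sm y : ℂ) * (P.sm y : ℂ)
    rw [cm_eq]; ring
  rw [h, Gg.DD_mul (diff_of (smooth_sm P)) (diff_of (smooth_sm P))]
  ring

lemma DD_sm (e : Fin 3 → ℂ) (x : R3) :
    DD e (cf P.sm) x = DD e (cf P.m) x / (2 * (P.sm x : ℂ)) := by
  have h := csm_ne P x
  rw [DD_m]
  field_simp

lemma DD_mu (e : Fin 3 → ℂ) (x : R3) :
    DD e (cf P.mu) x = -DD e (cf P.m) x / (P.sm x : ℂ) ^ 4 := by
  have h := csm_ne P x
  have h1 : (fun y => cf P.mu y * cf P.m y) = fun _ => (1 : ℂ) := by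
    funext y
    show (P.mu y : ℂ) * (P.m y : ℂ) = 1
    exact_mod_cast Gg.mu_mul_m P y
  have h2 := Gg.DD_mul (diff_of (smooth_mu P)) (diff_of (smooth_m P)) e x
  rw [h1, Gg.DD_const] at h2
  have h3 : (P.mu x : ℂ) * DD e (cf P.m) x + (P.m x : ℂ) * DD e (cf P.mu) x = 0 := h2.symm
  rw [cm_eq, cmu_eq] at h3
  field_simp at h3 ⊢
  linear_combination h3

lemma DD_DD_mu (e θ : Fin 3 → ℂ) (x : R3) :
    DD e (DD θ (cf P.mu)) x = -DD e (DD θ (cf P.m)) x / (P.sm x : ℂ) ^ 4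
      + 2 * DD e (cf P.m) x * DD θ (cf P.m) x / (P.sm x : ℂ) ^ 6 := by
  have h := csm_ne P x
  have hs := smooth_sm P
  have hm := smooth_m P
  have hθ := Gg.contDiff_DD hm θ
  have hmu := Gg.contDiff_DD (smooth_mu P) θ
  have h1 : (fun y => (cf P.m y * cf P.m y) * DD θ (cf P.mu) y) = fun y => -DD θ (cf P.m) y := by
    funext y
    have hy := csm_ne P y
    show ((P.m y : ℂ) * (P.m y : ℂ)) * DD θ (cf P.mu) y = -DD θ (cf P.m) y
    rw [DD_mu, cm_eq]
    field_simp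
  have h2 := Gg.DD_mul (f := fun y => cf P.m y * cf P.m y) (g := DD θ (cf P.mu))
    (diff_of (hm.mul hm)) (diff_of hmu) e x
  rw [h1, Gg.DD_neg, Gg.DD_mul (diff_of hm) (diff_of hm)] at h2
  have h3 : -DD e (DD θ (cf P.m)) x = ((P.m x : ℂ) * (P.m x : ℂ)) * DD e (DD θ (cf P.mu)) x
      + DD θ (cf P.mu) x * ((P.m x : ℂ) * DD e (cf P.m) x + (P.m x : ℂ) * DD e (cf P.m) x) := h2
  rw [DD_mu, cm_eq] at h3
  field_simp at h3 ⊢
  linear_combination -h3

lemma cc_lam_mu (x : R3) :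
    (P.cc x : ℂ) * ((P.lam x : ℂ) + (P.mu x : ℂ)) = 2 * (P.kap x : ℂ) := by
  have : P.cc x * (P.lam x + P.mu x) = 2 * P.kap x := by
    unfold Moduli.cc Moduli.kap
    have := (Gg.lam_two_mu_pos P x).ne'
    field_simp
  exact_mod_cast this

lemma cc_kap (x : R3) : (P.cc x : ℂ) + 2 * (P.kap x : ℂ) * (P.m x : ℂ) = 1 := by
  have : P.cc x + 2 * P.kap x * P.m x = 1 := by
    unfold Moduli.cc Moduli.kap Moduli.m
    have h1 := (Gg.lam_two_mu_pos P x).ne'
    have h2 := Gg.mu_ne P x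
    have h3 : P.mu x / (P.lam x + 2 * P.mu x) +
        2 * ((P.lam x + P.mu x) * P.mu x / (2 * (P.lam x + 2 * P.mu x))) * (P.mu x)⁻¹
        = (P.lam x + 2 * P.mu x) / (P.lam x + 2 * P.mu x) := by
      field_simp
      ring
    rw [h3, div_self h1]
  exact_mod_cast this

end mod

/-! ### contractions of the transport operator -/

lemma M0_some (P : Moduli) (θ : Fin 3 → ℂ) (U : Option (Fin 3) → R3 → ℂ) (k : Fin 3) (x : R3) :
    M0 θ (A4 P) U (some k) x = 2 * DD θ (U (some k)) x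
      + (P.m x : ℂ) * DD θ (cf P.mu) x * U (some k) x
      - (P.m x : ℂ) * pd k (cf P.mu) x * dotc θ U x
      - 2 * (∑ j, θ j * pd k (pd j (cf P.m)) x) * U none x := by
  unfold M0 dotc DD
  simp only [Fintype.sum_option, A4, Fin.sum_univ_three]
  fin_cases k <;> simp <;> ring

lemma M0_none (P : Moduli) (θ : Fin 3 → ℂ) (U : Option (Fin 3) → R3 → ℂ) (x : R3) :
    M0 θ (A4 P) U none x = 2 * DD θ (U none) x + 2 * (P.kap x : ℂ) * dotc θ U x := by
  rw [← cc_lam_mu]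
  unfold M0 dotc DD
  simp only [Fintype.sum_option, A4, Fin.sum_univ_three]
  simp
  ring

lemma M0_contr (P : Moduli) (θ e : Fin 3 → ℂ) {U : Option (Fin 3) → R3 → ℂ}
    (hU : ∀ i, ContDiff ℝ ∞ (U i)) (x : R3) :
    ∑ k, e k * M0 θ (A4 P) U (some k) x = 2 * DD θ (dotc e U) x
      - DD θ (cf P.m) x / (P.sm x : ℂ) ^ 2 * dotc e U x
      + DD e (cf P.m) x / (P.sm x : ℂ) ^ 2 * dotc θ U x
      - 2 * DD e (DD θ (cf P.m)) x * U none x := by
  have h := csm_ne P x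
  have h1 : (P.m x : ℂ) * DD θ (cf P.mu) x = -DD θ (cf P.m) x / (P.sm x : ℂ) ^ 2 := by
    rw [DD_mu, cm_eq]; field_simp
  have h2 : (P.m x : ℂ) * DD e (cf P.mu) x = -DD e (cf P.m) x / (P.sm x : ℂ) ^ 2 := by
    rw [DD_mu, cm_eq]; field_simp
  have e1 : ∑ k, e k * M0 θ (A4 P) U (some k) x = 2 * (∑ k, e k * DD θ (U (some k)) x)
      + (P.m x : ℂ) * DD θ (cf P.mu) x * (∑ k, e k * U (some k) x)
      - (P.m x : ℂ) * (∑ k, e k * pd k (cf P.mu) x) * dotc θ U x
      - 2 * (∑ k, ∑ j, e k * θ j * pd k (pd j (cf P.m)) x) * U none x := by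
    simp_rw [M0_some]
    simp only [Fin.sum_univ_three]
    ring
  rw [e1, ← DD_dotc θ e hU, ← DD_DD (smooth_m P)]
  have h3 : ∑ k, e k * pd k (cf P.mu) x = DD e (cf P.mu) x := rfl
  have h4 : ∑ k, e k * U (some k) x = dotc e U x := rfl
  rw [h3, h4, h1, h2]
  ring

/-- scalar transport equations are solvable on balls -/
lemma solveD (hRI : StmtRI) {θ : Fin 3 → ℂ} (hθ : IsNull θ) {a φ : R3 → ℂ} (ha : ContDiff ℝ ∞ a)
    (hφ : ContDiff ℝ ∞ φ) (R : ℝ) (hR : 0 < R) :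
    ∃ ψ : R3 → ℂ, ContDiff ℝ ∞ ψ ∧ ∀ x : R3, ‖x‖ < R → DD θ ψ x = a x * ψ x + φ x := by
  obtain ⟨χ, hχ, hχc, hχ1, -, -⟩ := Gg.exists_cutoff R (R + 1) hR (by linarith)
  obtain ⟨M, hM⟩ := hRI Unit Unit (fun _ => θ) continuous_const (fun _ => hθ)
    (fun _ _ _ => a) (fun _ _ _ => ha) (fun _ _ => ha.continuous.comp continuous_snd) R ()
  have hM' := hM.self_of_nhds
  obtain ⟨b, hb⟩ := (hχ.mul hφ).continuous.bounded_above_of_compact_support hχc.mul_right
  obtain ⟨ψ, hψ, h1, -⟩ := hM' (fun _ => fun y => χ y * φ y) (fun _ => hχ.mul hφ) b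
    (fun _ x => hb x)
  refine ⟨ψ (), hψ (), fun x hx => ?_⟩
  have := h1 x hx ()
  simp only [Finset.univ_unique, Finset.sum_singleton] at this
  rw [hχ1 x hx.le, one_mul] at this
  exact this

/-- the amplitude with prescribed `g` and contractions `a = θ·w`, `b = ν·w`, `c = η·w` -/
def ampl (s : Fin 2 → ℂ) (g a b c : R3 → ℂ) : Option (Fin 3) → R3 → ℂ
  | none => g
  | some k => fun x => a x * et s k + b x * nv s k + c x * th s k

lemma contDiff_ampl (s : Fin 2 → ℂ) {g a b c : R3 → ℂ} (hg : ContDiff ℝ ∞ g)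
    (ha : ContDiff ℝ ∞ a) (hb : ContDiff ℝ ∞ b) (hc : ContDiff ℝ ∞ c) (i : Option (Fin 3)) :
    ContDiff ℝ ∞ (ampl s g a b c i) := by
  cases i with
  | none => exact hg
  | some k =>
    exact ((ha.mul contDiff_const).add (hb.mul contDiff_const)).add (hc.mul contDiff_const)

lemma dotc_th_ampl {s : Fin 2 → ℂ} (hs : s ≠ 0) (g a b c : R3 → ℂ) :
    dotc (th s) (ampl s g a b c) = a := by
  funext x
  have e1 := th_th s
  have e2 := th_nv s
  have e4 : ∑ k, th s k * et s k = 1 := by simpa only [mul_comm] using et_th hs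
  have : dotc (th s) (ampl s g a b c) x = a x * (∑ k, th s k * et s k)
      + b x * (∑ k, th s k * nv s k) + c x * ∑ k, th s k * th s k := by
    simp only [dotc, ampl, Finset.mul_sum, ← Finset.sum_add_distrib]
    exact Finset.sum_congr rfl fun k _ => by ring
  rw [this, e1, e2, e4]
  ring

lemma dotc_nv_ampl {s : Fin 2 → ℂ} (hs : s ≠ 0) (g a b c : R3 → ℂ) :
    dotc (nv s) (ampl s g a b c) = b := by
  funext x
  have e1 : ∑ k, nv s k * th s k = 0 := by simpa only [mul_comm] using th_nv s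
  have e2 := nv_nv hs
  have e4 : ∑ k, nv s k * et s k = 0 := by simpa only [mul_comm] using et_nv (s := s)
  have : dotc (nv s) (ampl s g a b c) x = a x * (∑ k, nv s k * et s k)
      + b x * (∑ k, nv s k * nv s k) + c x * ∑ k, nv s k * th s k := by
    simp only [dotc, ampl, Finset.mul_sum, ← Finset.sum_add_distrib]
    exact Finset.sum_congr rfl fun k _ => by ring
  rw [this, e1, e2, e4]
  ring

lemma dotc_et_ampl {s : Fin 2 → ℂ} (hs : s ≠ 0) (g a b c : R3 → ℂ) :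
    dotc (et s) (ampl s g a b c) = c := by
  funext x
  have e1 := et_th hs
  have e2 := et_nv (s := s)
  have e4 := et_et s
  have : dotc (et s) (ampl s g a b c) x = a x * (∑ k, et s k * et s k)
      + b x * (∑ k, et s k * nv s k) + c x * ∑ k, et s k * th s k := by
    simp only [dotc, ampl, Finset.mul_sum, ← Finset.sum_add_distrib]
    exact Finset.sum_congr rfl fun k _ => by ring
  rw [this, e1, e2, e4]
  ring

lemma DD_th_split (s : Fin 2 → ℂ) (f : R3 → ℂ) (x : R3) :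
    DD (th s) f x = s 0 * DD (nu s 0) f x + s 1 * DD (nu s 1) f x := by
  simp only [DD, Finset.mul_sum, ← Finset.sum_add_distrib]
  exact Finset.sum_congr rfl fun k _ => by rw [th_eq]; ring

lemma DD_nv_split (s : Fin 2 → ℂ) (f : R3 → ℂ) (x : R3) :
    DD (nv s) f x = al s * DD (nu s 0) f x + be s * DD (nu s 1) f x := by
  simp only [DD, Finset.mul_sum, ← Finset.sum_add_distrib]
  exact Finset.sum_congr rfl fun k _ => by simp only [nv]; ring

/-- general principle: `M0 U = F` near a set if all contractions agree -/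
lemma M0_of_contr {P : Moduli} {s : Fin 2 → ℂ} (hs : s ≠ 0) {U : Option (Fin 3) → R3 → ℂ}
    (F : Option (Fin 3) → ℂ) (x : R3)
    (h0 : M0 (th s) (A4 P) U none x = F none)
    (h1 : ∑ k, th s k * M0 (th s) (A4 P) U (some k) x = ∑ k, th s k * F (some k))
    (h2 : ∑ k, nv s k * M0 (th s) (A4 P) U (some k) x = ∑ k, nv s k * F (some k))
    (h3 : ∑ k, et s k * M0 (th s) (A4 P) U (some k) x = ∑ k, et s k * F (some k)) :
    ∀ i, M0 (th s) (A4 P) U i x = F i := by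
  intro i
  cases i with
  | none => exact h0
  | some k =>
    have := frame_zero hs (fun k => M0 (th s) (A4 P) U (some k) x - F (some k))
      (by simp only [mul_sub, Finset.sum_sub_distrib]; rw [h1]; ring)
      (by simp only [mul_sub, Finset.sum_sub_distrib]; rw [h2]; ring)
      (by simp only [mul_sub, Finset.sum_sub_distrib]; rw [h3]; ring) k
    exact sub_eq_zero.1 this


/-- `θ·w` of the lift of `X` -/
def Ua (P : Moduli) (s : Fin 2 → ℂ) (X : Option (Fin 2) → R3 → ℂ) (x : R3) : ℂ :=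
  (P.sm x : ℂ) * (s 0 * X (some 0) x + s 1 * X (some 1) x) + X none x * DD (th s) (cf P.m) x

/-- `ν·w` of the lift of `X` -/
def Ub (P : Moduli) (s : Fin 2 → ℂ) (X : Option (Fin 2) → R3 → ℂ) (x : R3) : ℂ :=
  (P.sm x : ℂ) * (al s * X (some 0) x + be s * X (some 1) x) + X none x * DD (nv s) (cf P.m) x

lemma smooth_Ua (P : Moduli) (s : Fin 2 → ℂ) {X : Option (Fin 2) → R3 → ℂ}
    (hX : ∀ i, ContDiff ℝ ∞ (X i)) : ContDiff ℝ ∞ (Ua P s X) := by
  unfold Ua
  exact ((smooth_sm P).mul ((contDiff_const.mul (hX _)).add (contDiff_const.mul (hX _)))).add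
    ((hX _).mul (Gg.contDiff_DD (smooth_m P) _))

lemma smooth_Ub (P : Moduli) (s : Fin 2 → ℂ) {X : Option (Fin 2) → R3 → ℂ}
    (hX : ∀ i, ContDiff ℝ ∞ (X i)) : ContDiff ℝ ∞ (Ub P s X) := by
  unfold Ub
  exact ((smooth_sm P).mul ((contDiff_const.mul (hX _)).add (contDiff_const.mul (hX _)))).add
    ((hX _).mul (Gg.contDiff_DD (smooth_m P) _))

lemma DD_combo (P : Moduli) {θ e : Fin 3 → ℂ} (p q : ℂ) {X : Option (Fin 2) → R3 → ℂ}
    (hX : ∀ i, ContDiff ℝ ∞ (X i)) (x : R3) :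
    DD θ (fun y => (P.sm y : ℂ) * (p * X (some 0) y + q * X (some 1) y)
        + X none y * DD e (cf P.m) y) x
      = (P.sm x : ℂ) * (p * DD θ (X (some 0)) x + q * DD θ (X (some 1)) x)
        + DD θ (cf P.m) x / (2 * (P.sm x : ℂ)) * (p * X (some 0) x + q * X (some 1) x)
        + X none x * DD e (DD θ (cf P.m)) x + DD e (cf P.m) x * DD θ (X none) x := by
  have hm := smooth_m P
  have hs := smooth_sm P
  have h0 : ContDiff ℝ ∞ (fun y => p * X (some 0) y + q * X (some 1) y) :=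
    (contDiff_const.mul (hX _)).add (contDiff_const.mul (hX _))
  rw [Gg.DD_add (f := fun y => (P.sm y : ℂ) * (p * X (some 0) y + q * X (some 1) y))
    (g := fun y => X none y * DD e (cf P.m) y) (diff_of (hs.mul h0))
    (diff_of ((hX _).mul (Gg.contDiff_DD hm _))),
    Gg.DD_mul (f := fun y => (P.sm y : ℂ)) (g := fun y => p * X (some 0) y + q * X (some 1) y)
      (diff_of hs) (diff_of h0),
    Gg.DD_add (f := fun y => p * X (some 0) y) (g := fun y => q * X (some 1) y)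
      (diff_of (contDiff_const.mul (hX _))) (diff_of (contDiff_const.mul (hX _))),
    Gg.DD_const_mul (diff_of (hX _)), Gg.DD_const_mul (diff_of (hX _)),
    Gg.DD_mul (diff_of (hX _)) (diff_of (Gg.contDiff_DD hm _)), DD_comm hm e θ]
  have h1 : DD θ (fun y => (P.sm y : ℂ)) x = DD θ (cf P.m) x / (2 * (P.sm x : ℂ)) := DD_sm P θ x
  rw [h1]
  ring

/-- the lift of a solution of the reduced system to an amplitude of the 4×4 system -/
theorem lift_U (hRI : StmtRI) (G : Dom) (P : Moduli) {s : Fin 2 → ℂ} (hs : s ≠ 0)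
    {X : Option (Fin 2) → R3 → ℂ} (hX : ∀ i, ContDiff ℝ ∞ (X i))
    (hsys : ∀ᶠ x in 𝓝ˢ (closure G.Ω), DSys (th s) (Amat P s) X x) :
    ∃ U : Option (Fin 3) → R3 → ℂ, (∀ i, ContDiff ℝ ∞ (U i)) ∧ U none = X none ∧
      dotc (th s) U = Ua P s X ∧ dotc (nv s) U = Ub P s X ∧
      ∀ᶠ x in 𝓝ˢ (closure G.Ω), ∀ i, M0 (th s) (A4 P) U i x = 0 := by
  have hm := smooth_m P
  have hsm := smooth_sm P
  have ha := smooth_Ua P s hX
  have hb := smooth_Ub P s hX
  obtain ⟨R, hR, hball⟩ := Gg.dom_exists_ball G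
  -- the `η` component
  have hsm2 : ∀ y, (2 * ((P.sm y : ℂ) ^ 2)) ≠ 0 := fun y =>
    mul_ne_zero two_ne_zero (pow_ne_zero _ (csm_ne P y))
  have hden : ContDiff ℝ ∞ (fun y => (2 * ((P.sm y : ℂ) ^ 2))) := contDiff_const.mul (hsm.pow 2)
  obtain ⟨c, hc, hceq⟩ := solveD hRI (Gg.isNull_th hs)
    (a := fun y => DD (th s) (cf P.m) y / (2 * ((P.sm y : ℂ) ^ 2)))
    (φ := fun y => -(DD (et s) (cf P.m) y / (2 * ((P.sm y : ℂ) ^ 2))) * Ua P s X y
      + DD (et s) (DD (th s) (cf P.m)) y * X none y)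
    (Gg.contDiff_cdiv (Gg.contDiff_DD hm _) hden hsm2)
    (((Gg.contDiff_cdiv (Gg.contDiff_DD hm _) hden hsm2).neg.mul ha).add
      ((Gg.contDiff_DD (Gg.contDiff_DD hm _) _).mul (hX _))) R hR
  refine ⟨ampl s (X none) (Ua P s X) (Ub P s X) c, contDiff_ampl s (hX _) ha hb hc, rfl,
    dotc_th_ampl hs _ _ _ _, dotc_nv_ampl hs _ _ _ _, ?_⟩
  have hballE : ∀ᶠ x in 𝓝ˢ (closure G.Ω), ‖x‖ < R := by
    have : Metric.ball (0 : R3) R ∈ 𝓝ˢ (closure G.Ω) :=
      Metric.isOpen_ball.mem_nhdsSet.2 hball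
    filter_upwards [this] with x hx
    simpa using hx
  filter_upwards [hsys, hballE] with x hx hxR
  have hne := csm_ne P x
  have hg := hx none
  have h0 := hx (some 0)
  have h1 := hx (some 1)
  simp only [Fintype.sum_option, Fin.sum_univ_two, Amat, cm_eq] at hg h0 h1
  have hth := DD_th_split s (cf P.m) x
  have hnv := DD_nv_split s (cf P.m) x
  have hUs := contDiff_ampl s (hX none) ha hb hc
  have hab := al_be hs
  have hDa : DD (th s) (Ua P s X) x = _ := DD_combo P (θ := th s) (e := th s) (s 0) (s 1) hX x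
  have hDb : DD (th s) (Ub P s X) x = _ := DD_combo P (θ := th s) (e := nv s) (al s) (be s) hX x
  refine M0_of_contr hs (fun _ => 0) x ?_ ?_ ?_ ?_
  · rw [M0_none, dotc_th_ampl hs]
    show 2 * DD (th s) (X none) x + 2 * (P.kap x : ℂ) * Ua P s X x = 0
    rw [hg]
    simp only [Ua]
    ring
  · rw [M0_contr P _ _ hUs, dotc_th_ampl hs]
    show 2 * DD (th s) (Ua P s X) x - DD (th s) (cf P.m) x / (P.sm x : ℂ) ^ 2 * Ua P s X x
      + DD (th s) (cf P.m) x / (P.sm x : ℂ) ^ 2 * Ua P s X x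
      - 2 * DD (th s) (DD (th s) (cf P.m)) x * X none x = ∑ k, th s k * 0
    rw [hDa, hg, h0, h1, hth]
    simp only [mul_zero, Finset.sum_const_zero]
    field_simp
    ring
  · rw [M0_contr P _ _ hUs, dotc_th_ampl hs, dotc_nv_ampl hs]
    show 2 * DD (th s) (Ub P s X) x - DD (th s) (cf P.m) x / (P.sm x : ℂ) ^ 2 * Ub P s X x
      + DD (nv s) (cf P.m) x / (P.sm x : ℂ) ^ 2 * Ua P s X x
      - 2 * DD (nv s) (DD (th s) (cf P.m)) x * X none x = ∑ k, nv s k * 0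
    rw [hDb, hg, h0, h1]
    simp only [Ua, Ub, mul_zero, Finset.sum_const_zero]
    rw [hnv, hth]
    field_simp
    ring
  · rw [M0_contr P _ _ hUs, dotc_th_ampl hs, dotc_et_ampl hs]
    show 2 * DD (th s) c x - DD (th s) (cf P.m) x / (P.sm x : ℂ) ^ 2 * c x
      + DD (et s) (cf P.m) x / (P.sm x : ℂ) ^ 2 * Ua P s X x
      - 2 * DD (et s) (DD (th s) (cf P.m)) x * X none x = ∑ k, et s k * 0
    rw [hceq x hxR]
    simp only [mul_zero, Finset.sum_const_zero]
    field_simp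
    ring

end Crest.Agent.R080.W1L
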